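import Vale.Agent.P237.Petty.Cor.Grid.N12.LowCert

/-!
# P237: a cell in dimension 12, subdivisions
-/

namespace Vale.Agent.P237.Petty.Cor.Grid.N12.Low

def covers0 : cell.Covers table row0.1 :=
  ⟨(.cut .d 0 (.cut .v 16777216 (.cut .v 8388608 (.cut .v 4194304 (.pos 4 .mm ⟨0, 0, 28606653, 0, 0, 0, 0, 0, 0, ⟨0, 0⟩, 0⟩ 0 0) (.pos 5 .mm ⟨0, 0, 0, 0, 0, 0, 0, 0, 0, ⟨0, 0⟩, 0⟩ 0 0)) (.cut .d (-8388608) (.cut .v 12582912 (.pos 6 .mm ⟨0, 0, 0, 0, 0, 0, 0, 0, 0, ⟨0, 0⟩, 0⟩ 0 0) (.pos 7 .mm ⟨0, 0, 0, 0, 0, 0, 0, 0, 0, ⟨0, 0⟩, 0⟩ 0 0)) (.cut .v 12582912 (.cut .d (-4194304) (.pos 6 .mm ⟨0, 0, 0, 0, 0, 0, 0, 0, 0, ⟨0, 0⟩, 0⟩ 0 0) (.pos 6 .mm ⟨0, 0, 0, 0, 883314, 0, 0, 0,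 0, ⟨0, 0⟩, 0⟩ 0 0)) (.cut .d (-4194304) (.cut .v 14680064 (.pos 10 .mm ⟨0, 0, 0, 0, 0, 0, 0, 0, 0, ⟨0, 0⟩, 0⟩ 0 0) (.pos 11 .mm ⟨0, 0, 0, 0, 0, 0, 0, 0, 0, ⟨0, 0⟩, 0⟩ 0 0)) (.cut .d (-2097152) (.cut .v 14680064 (.pos 10 .mm ⟨0, 0, 0, 0, 0, 0, 0, 0, 0, ⟨0, 0⟩, 0⟩ 0 0) (.pos 11 .mm ⟨0, 0, 0, 0, 0, 0, 0, 0, 0, ⟨0, 0⟩, 0⟩ 0 0)) (.cut .v 14680064 (.pos 10 .mm ⟨0, 0, 0, 0, 1252285, 341020, 0, 0, 0, ⟨0, 0⟩, 0⟩ 0 0) (.cut .d (-1048576) (.cut .v 15728640 (.pos 12 .mm ⟨0, 0, 0, 0, 0, 95246, 0, 0, 0, ⟨0, 0⟩, 0⟩ 0 0) (.pos 13 .mm ⟨0, 0, 0, 0, 0, 121206, 0, 0, 0, ⟨0, 0⟩, 0⟩ 0 0)) (.cut .v 15728640 (.pos 12 .mm ⟨0, 0, 0, 0, 0, 0, 0, 0, 0, ⟨0, 0⟩, 0⟩ 0 0) (.cut .d (-524288)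 (.pos 13 .mm ⟨0, 0, 0, 0, 0, 0, 0, 0, 0, ⟨0, 0⟩, 0⟩ 0 0) (.cut .d (-262144) (.pos 13 .mm ⟨0, 0, 0, 0, 0, 0, 0, 0, 0, ⟨0, 0⟩, 0⟩ 0 0) (.pos 13 .mm ⟨0, 0, 0, 0, 0, 0, 0, 0, 0, ⟨0, 0⟩, 0⟩ 0 0))))))))))) (.cut .v 25165824 (.cut .v 20971520 (.cut .v 18874368 (.cut .v 17825792 (.pos 23 .mp ⟨0, 0, 0, 0, 0, 0, 146315, 0, 0, ⟨0, 0⟩, 0⟩ 0 0) (.pos 24 .mp ⟨1756807, 0, 0, 0, 0, 0, 0, 0, 0, ⟨0, 0⟩, 0⟩ 0 0)) (.void 22 ⟨100000, 0, 0, 0, 0, 0, 0, 0, 0, ⟨0, 0⟩, 0⟩ 0 0)) (.void 20 ⟨0, 0, 0, 0, 0, 0, 100000, 0, 0, ⟨0, 0⟩, 0⟩ 0 0)) (.void 18 ⟨0, 0, 0, 0, 0, 0, 100000, 0, 0, ⟨0, 0⟩, 0⟩ 0 0))) (.cut .v 16777216 (.cut .v 8388608 (.cut .v 4194304 (.pos 4 .pm ⟨0, 0, 29175486, 0, 0,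 0, 0, 0, 0, ⟨0, 0⟩, 0⟩ 0 0) (.pos 5 .pm ⟨0, 0, 0, 0, 1223559, 0, 0, 0, 0, ⟨0, 0⟩, 0⟩ 0 0)) (.pos 3 .pm ⟨0, 0, 0, 0, 0, 0, 0, 410756, 0, ⟨(-1), 16362470⟩, 0⟩ 0 30)) (.cut .v 25165824 (.cut .v 20971520 (.cut .v 18874368 (.cut .d 1196781 (.cut .v 17825792 (.cut .l 1062557 (.cut .d 598390 (.cut .v 17301504 (.cut .d 299195 (.pos 25 .pp ⟨78211, 0, 0, 0, 0, 0, 0, 0, 0, ⟨0, 0⟩, 0⟩ 0 0) (.pos 25 .pp ⟨407168, 0, 0, 0, 0, 0, 0, 170433, 0, ⟨(-1), 16440073⟩, 0⟩ 0 27)) (.pos 26 .pp ⟨1501938, 0, 0, 0, 0, 0, 0, 0, 0, ⟨0, 0⟩, 0⟩ 0 0)) (.cut .s 851968 (.pos 23 .pp ⟨1669167, 0, 0, 0, 0, 0, 0, 221364, 0, ⟨(-1), 16685494⟩, 0⟩ 0 14) (.pos 23 .pp ⟨667972, 0, 0, 0, 0, 0, 0, 1386722,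 0, ⟨26827, 16169762⟩, 0⟩ 13 28))) (.pos 23 .pp ⟨0, 0, 0, 0, 0, 0, 0, 0, 0, ⟨0, 0⟩, 0⟩ 0 0)) (.pos 24 .pp ⟨1681304, 0, 0, 0, 0, 0, 0, 0, 0, ⟨0, 0⟩, 0⟩ 0 0)) (.cut .v 17825792 (.pos 23 .pp ⟨1470206, 0, 0, 0, 0, 0, 0, 0, 18121, ⟨0, 0⟩, 17033431⟩ 0 0) (.cut .d 1795172 (.pos 24 .pp ⟨1749691, 0, 0, 0, 0, 0, 0, 0, 0, ⟨0, 0⟩, 0⟩ 0 0) (.pos 24 .pp ⟨2142842, 0, 0, 0, 0, 0, 0, 0, 0, ⟨0, 0⟩, 0⟩ 0 0)))) (.cut .d 1196781 (.pos 22 .pp ⟨167772160000, 0, 0, 0, 0, 0, 0, 0, 0, ⟨0, 0⟩, 0⟩ 0 0) (.pos 22 .pp ⟨3562059, 0, 0, 0, 0, 0, 0, 0, 0, ⟨0, 0⟩, 0⟩ 0 0))) (.void 20 ⟨0, 0, 0, 0, 0, 0, 100000, 0, 0, ⟨0, 0⟩, 0⟩ 0 0)) (.void 18 ⟨0, 0, 0, 0, 0, 0, 100000, 0, 0, ⟨0, 0⟩, 0⟩ 0 0)))),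
    by decide +kernel⟩

def covers1 : cell.Covers table row1.1 :=
  ⟨(.cut .d 0 (.cut .v 16777216 (.cut .v 8388608 (.void 2 ⟨0, 0, 0, 0, 50000, 50000, 0, 0, 0, ⟨0, 0⟩, 0⟩ 0 0) (.cut .d (-8388608) (.void 3 ⟨0, 0, 0, 0, 0, 100000, 0, 0, 0, ⟨0, 0⟩, 0⟩ 0 0) (.cut .v 12582912 (.cut .d (-4194304) (.pos 6 .mm ⟨0, 0, 0, 0, 0, 669783, 0, 0, 0, ⟨0, 0⟩, 0⟩ 0 0) (.pos 6 .mm ⟨0, 0, 0, 0, 4397500, 2670924, 0, 0, 0, ⟨0, 0⟩, 0⟩ 0 0)) (.cut .d (-4194304) (.pos 7 .mm ⟨0, 0, 0, 0, 0, 744203, 0, 0, 0, ⟨0, 0⟩, 0⟩ 0 0) (.cut .d (-2097152) (.cut .v 14680064 (.pos 10 .mm ⟨0, 0, 0, 0, 0, 643328, 0, 0, 0, ⟨0, 0⟩, 0⟩ 0 0) (.pos 11 .mm ⟨0, 0, 0, 0, 0, 818624, 0, 0, 0, ⟨0, 0⟩, 0⟩ 0 0))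 (.cut .v 14680064 (.pos 10 .mm ⟨0, 0, 0, 0, 0, 369196, 0, 0, 0, ⟨0, 0⟩, 0⟩ 0 0) (.cut .d (-1048576) (.cut .v 15728640 (.pos 12 .mm ⟨0, 0, 0, 0, 0, 401024, 0, 0, 0, ⟨0, 0⟩, 0⟩ 0 0) (.pos 13 .mm ⟨0, 0, 0, 0, 0, 531663, 0, 0, 0, ⟨0, 0⟩, 0⟩ 0 0)) (.cut .v 15728640 (.cut .d (-524288) (.pos 12 .mm ⟨0, 0, 0, 0, 0, 395568, 0, 0, 0, ⟨0, 0⟩, 0⟩ 0 0) (.pos 12 .mm ⟨0, 0, 0, 0, 0, 395568, 0, 0, 0, ⟨0, 0⟩, 0⟩ 0 0)) (.cut .d (-524288) (.cut .v 16252928 (.pos 14 .mm ⟨0, 0, 0, 0, 0, 404358, 0, 0, 0, ⟨0, 0⟩, 0⟩ 0 0) (.pos 15 .mm ⟨0, 0, 0, 0, 0, 273523, 0, 0, 0, ⟨0, 0⟩, 0⟩ 0 0)) (.cut .v 16252928 (.pos 14 .mm ⟨0, 0, 0, 0, 0, 0, 0, 0, 0, ⟨0, 0⟩, 0⟩ 0 0) (.pos 15 .mm ⟨0, 0, 0, 0,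 0, 0, 0, 0, 0, ⟨0, 0⟩, 0⟩ 0 0))))))))))) (.cut .v 25165824 (.cut .v 20971520 (.cut .v 18874368 (.pos 21 .mp ⟨378674, 0, 0, 0, 0, 0, 0, 0, 0, ⟨0, 0⟩, 0⟩ 0 0) (.void 22 ⟨100000, 0, 0, 0, 0, 0, 0, 0, 0, ⟨0, 0⟩, 0⟩ 0 0)) (.void 20 ⟨100000, 0, 0, 0, 0, 0, 0, 0, 0, ⟨0, 0⟩, 0⟩ 0 0)) (.void 18 ⟨0, 0, 0, 0, 0, 0, 100000, 0, 0, ⟨0, 0⟩, 0⟩ 0 0))) (.cut .v 16777216 (.cut .v 8388608 (.void 2 ⟨0, 0, 0, 0, 100000, 0, 0, 0, 0, ⟨0, 0⟩, 0⟩ 0 0) (.cut .v 12582912 (.void 6 ⟨0, 0, 0, 0, 100000, 0, 0, 0, 0, ⟨0, 0⟩, 0⟩ 0 0) (.cut .v 14680064 (.void 10 ⟨0, 0, 0, 0, 100000, 0, 0, 0, 0, ⟨0, 0⟩, 0⟩ 0 0) (.cut .d 1709055 (.cut .v 15728640 (.pos 12 .pm ⟨0, 0, 0, 0, 0, 0, 0, 0, 0, ⟨0, 0⟩,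 0⟩ 0 0) (.cut .d 854527 (.cut .s 2359296 (.pos 13 .pm ⟨0, 0, 0, 0, 0, 0, 0, 155086, 0, ⟨110969, 15371605⟩, 0⟩ 26 38) (.cut .d 427263 (.cut .v 16252928 (.pos 14 .pm ⟨0, 0, 0, 0, 0, 0, 0, 0, 0, ⟨0, 0⟩, 0⟩ 0 0) (.pos 15 .pm ⟨0, 0, 0, 0, 0, 0, 0, 0, 0, ⟨0, 0⟩, 0⟩ 0 0)) (.pos 13 .pm ⟨0, 0, 0, 0, 0, 0, 0, 551278, 0, ⟨254705, 14373592⟩, 0⟩ 36 49))) (.pos 13 .pm ⟨0, 0, 0, 0, 0, 0, 0, 551278, 0, ⟨183871, 14696693⟩, 0⟩ 27 51))) (.void 11 ⟨0, 0, 0, 0, 0, 0, 0, 0, 100000, ⟨0, 0⟩, 16226390⟩ 0 0))))) (.cut .v 25165824 (.cut .v 20971520 (.cut .d 1709055 (.cut .v 18874368 (.cut .d 854527 (.cut .v 17825792 (.cut .l 1062557 (.cut .l 685069 (.cut .d 427263 (.cut .v 17301504 (.pos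 25 .pp ⟨0, 0, 0, 0, 0, 0, 0, 0, 0, ⟨0, 0⟩, 0⟩ 0 0) (.pos 26 .pp ⟨1182982, 0, 0, 0, 0, 0, 0, 0, 0, ⟨0, 0⟩, 0⟩ 0 0)) (.cut .v 17301504 (.pos 25 .pp ⟨119058, 0, 0, 0, 0, 0, 0, 550543, 0, ⟨164427, 14845250⟩, 0⟩ 26 49) (.pos 26 .pp ⟨444125, 0, 0, 0, 0, 0, 0, 848349, 0, ⟨164427, 14845250⟩, 0⟩ 26 49))) (.pos 23 .pp ⟨0, 0, 0, 0, 0, 0, 0, 0, 0, ⟨0, 0⟩, 0⟩ 0 0)) (.pos 23 .pp ⟨0, 0, 0, 0, 0, 0, 0, 0, 0, ⟨0, 0⟩, 0⟩ 0 0)) (.pos 24 .pp ⟨955703, 0, 0, 0, 0, 0, 0, 0, 0, ⟨0, 0⟩, 0⟩ 0 0)) (.cut .v 17825792 (.cut .s 2359296 (.pos 23 .pp ⟨0, 0, 0, 0, 0, 0, 0, 1556669, 0, ⟨126443, 15241196⟩, 0⟩ 27 40) (.pos 23 .pp ⟨0, 0, 0, 0, 0, 0, 0, 654254, 0, ⟨280495, 14211675⟩, 0⟩ 37 51)) (.cut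 .s 2359296 (.pos 24 .pp ⟨821116, 0, 0, 0, 0, 0, 0, 800605, 0, ⟨126443, 15241196⟩, 0⟩ 27 40) (.pos 24 .pp ⟨0, 0, 0, 0, 0, 0, 0, 1003607, 0, ⟨280495, 14211675⟩, 0⟩ 37 51)))) (.pos 22 .pp ⟨1436526, 0, 0, 0, 0, 0, 0, 0, 0, ⟨0, 0⟩, 0⟩ 0 0)) (.cut .l 1062557 (.void 19 ⟨8710, 0, 0, 0, 0, 0, 0, 81973, 9335, ⟨222773, 14378258⟩, 17739746⟩ 28 56) (.cut .v 18874368 (.cut .s 2359296 (.pos 21 .pp ⟨49766, 0, 0, 0, 0, 0, 0, 2410886, 0, ⟨153760, 15009232⟩, 0⟩ 28 44) (.pos 21 .pp ⟨0, 0, 0, 0, 0, 0, 0, 1150448, 0, ⟨345539, 13817042⟩, 0⟩ 39 56)) (.cut .d 2563583 (.cut .s 2359296 (.pos 22 .pp ⟨2176126, 0, 0, 0, 0, 0, 0, 2279003, 0, ⟨143199, 15105792⟩, 0⟩ 28 42) (.cut .s 2686976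 (.pos 22 .pp ⟨1553852, 0, 0, 0, 0, 0, 0, 1510837, 0, ⟨275917, 14274048⟩, 0⟩ 39 48) (.pos 22 .pp ⟨1009756, 0, 0, 0, 0, 0, 0, 1538374, 0, ⟨398246, 13599772⟩, 0⟩ 45 54))) (.pos 22 .pp ⟨399218479, 0, 0, 0, 0, 0, 0, 3463764445, 392392833, ⟨233197, 14330605⟩, 18269873⟩ 29 56))))) (.void 20 ⟨68536, 0, 0, 0, 0, 0, 0, 31464, 0, ⟨202394, 14471415⟩, 0⟩ 26 56)) (.void 18 ⟨0, 0, 0, 0, 0, 0, 100000, 0, 0, ⟨0, 0⟩, 0⟩ 0 0)))),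
    by decide +kernel⟩

def covers2 : cell.Covers table row2.1 :=
  ⟨(.cut .d 0 (.cut .v 16777216 (.cut .v 8388608 (.void 2 ⟨0, 0, 0, 0, 50000, 50000, 0, 0, 0, ⟨0, 0⟩, 0⟩ 0 0) (.cut .v 12582912 (.pos 6 .mm ⟨0, 0, 0, 0, 0, 7511604, 0, 0, 0, ⟨0, 0⟩, 0⟩ 0 0) (.cut .d (-8388608) (.void 7 ⟨0, 0, 0, 0, 0, 100000, 0, 0, 0, ⟨0, 0⟩, 0⟩ 0 0) (.cut .d (-4194304) (.void 7 ⟨0, 0, 0, 0, 0, 100000, 0, 0, 0, ⟨0, 0⟩, 0⟩ 0 0) (.cut .d (-2097152) (.cut .v 14680064 (.pos 10 .mm ⟨0, 0, 0, 0, 0, 372066, 0, 0, 0, ⟨0, 0⟩, 0⟩ 0 0) (.pos 11 .mm ⟨0, 0, 0, 0, 0, 389783, 0, 0, 0, ⟨0, 0⟩, 0⟩ 0 0)) (.cut .v 14680064 (.pos 10 .mm ⟨0, 0, 0, 0, 0, 308886, 0, 0, 0, ⟨0, 0⟩, 0⟩ 0 0) (.cut .d (-1048576)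 (.cut .v 15728640 (.pos 12 .mm ⟨0, 0, 0, 0, 0, 337371, 0, 0, 0, ⟨0, 0⟩, 0⟩ 0 0) (.pos 13 .mm ⟨0, 0, 0, 0, 0, 389413, 0, 0, 0, ⟨0, 0⟩, 0⟩ 0 0)) (.cut .v 15728640 (.cut .d (-524288) (.pos 12 .mm ⟨0, 0, 0, 0, 0, 327907, 0, 0, 0, ⟨0, 0⟩, 0⟩ 0 0) (.pos 12 .mm ⟨0, 0, 0, 0, 0, 0, 0, 0, 0, ⟨0, 0⟩, 0⟩ 0 0)) (.cut .d (-524288) (.cut .v 16252928 (.pos 14 .mm ⟨0, 0, 0, 0, 0, 355282, 0, 0, 0, ⟨0, 0⟩, 0⟩ 0 0) (.pos 15 .mm ⟨0, 0, 0, 0, 0, 404744, 0, 0, 0, ⟨0, 0⟩, 0⟩ 0 0)) (.cut .v 16252928 (.cut .d (-262144) (.pos 14 .mm ⟨0, 0, 0, 0, 0, 112935, 0, 0, 0, ⟨0, 0⟩, 0⟩ 0 0) (.pos 14 .mm ⟨0, 0, 0, 0, 0, 0, 0, 0, 0, ⟨0, 0⟩, 0⟩ 0 0)) (.pos 15 .mm ⟨0, 0, 0, 0, 0, 0, 0, 0, 0, ⟨0, 0⟩,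 0⟩ 0 0))))))))))) (.cut .v 25165824 (.cut .v 20971520 (.pos 19 .mp ⟨360534, 0, 0, 0, 0, 0, 0, 0, 0, ⟨0, 0⟩, 0⟩ 0 0) (.void 20 ⟨100000, 0, 0, 0, 0, 0, 0, 0, 0, ⟨0, 0⟩, 0⟩ 0 0)) (.void 18 ⟨100000, 0, 0, 0, 0, 0, 0, 0, 0, ⟨0, 0⟩, 0⟩ 0 0))) (.cut .v 16777216 (.cut .v 8388608 (.void 2 ⟨0, 0, 0, 0, 100000, 0, 0, 0, 0, ⟨0, 0⟩, 0⟩ 0 0) (.cut .v 12582912 (.void 6 ⟨0, 0, 0, 0, 100000, 0, 0, 0, 0, ⟨0, 0⟩, 0⟩ 0 0) (.cut .v 14680064 (.pos 10 .pm ⟨0, 0, 0, 0, 0, 0, 0, 0, 304762, ⟨0, 0⟩, 15100357⟩ 0 0) (.cut .d 2169972 (.cut .d 1084986 (.cut .v 15728640 (.pos 12 .pm ⟨0, 0, 0, 0, 0, 0, 0, 0, 0, ⟨0, 0⟩, 0⟩ 0 0) (.cut .d 542493 (.cut .v 16252928 (.pos 14 .pm ⟨0, 0, 0, 0, 0, 0,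 0, 0, 0, ⟨0, 0⟩, 0⟩ 0 0) (.pos 15 .pm ⟨0, 0, 0, 0, 0, 0, 0, 0, 0, ⟨0, 0⟩, 0⟩ 0 0)) (.pos 13 .pm ⟨0, 0, 0, 0, 0, 0, 0, 321746, 0, ⟨513873, 12987255⟩, 0⟩ 47 62))) (.pos 11 .pm ⟨0, 0, 0, 0, 0, 0, 0, 328591, 0, ⟨577026, 12668131⟩, 0⟩ 48 66)) (.void 11 ⟨0, 0, 0, 0, 0, 0, 0, 0, 100000, ⟨0, 0⟩, 16226390⟩ 0 0))))) (.cut .v 25165824 (.cut .v 20971520 (.cut .d 2169972 (.cut .v 18874368 (.cut .d 1084986 (.cut .v 17825792 (.cut .d 542493 (.pos 23 .pp ⟨0, 0, 0, 0, 0, 0, 0, 0, 0, ⟨0, 0⟩, 0⟩ 0 0) (.pos 23 .pp ⟨0, 0, 0, 0, 0, 0, 0, 423980, 0, ⟨513873, 12987255⟩, 0⟩ 47 62)) (.pos 24 .pp ⟨40094, 0, 0, 0, 0, 0, 0, 528138, 0, ⟨499301, 13047424⟩, 0⟩ 46 62)) (.cut .v 17825792 (.pos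 23 .pp ⟨0, 0, 0, 0, 0, 0, 0, 358014, 0, ⟨577026, 12668131⟩, 0⟩ 48 66) (.pos 24 .pp ⟨0, 0, 0, 0, 0, 0, 0, 601879, 0, ⟨577026, 12668131⟩, 0⟩ 48 66))) (.pos 22 .pp ⟨676426, 0, 0, 0, 0, 0, 0, 0, 0, ⟨0, 0⟩, 0⟩ 0 0)) (.cut .v 18874368 (.pos 21 .pp ⟨0, 0, 0, 0, 0, 0, 0, 616192, 0, ⟨732043, 11945082⟩, 0⟩ 51 74) (.cut .d 3254958 (.pos 22 .pp ⟨0, 0, 0, 0, 0, 0, 0, 3668588, 0, ⟨678260, 12215053⟩, 0⟩ 51 70) (.void 22 ⟨0, 0, 0, 0, 0, 0, 0, 100000, 0, ⟨788426, 11750028⟩, 0⟩ 54 74)))) (.void 20 ⟨58818, 0, 0, 0, 0, 0, 0, 41182, 0, ⟨640427, 12262025⟩, 0⟩ 46 74)) (.void 18 ⟨0, 0, 0, 0, 0, 0, 100000, 0, 0, ⟨0, 0⟩, 0⟩ 0 0)))),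
    by decide +kernel⟩

def covers3 : cell.Covers table row3.1 :=
  ⟨(.cut .d 0 (.cut .v 16777216 (.cut .v 8388608 (.void 2 ⟨0, 0, 0, 0, 50000, 50000, 0, 0, 0, ⟨0, 0⟩, 0⟩ 0 0) (.cut .v 12582912 (.pos 6 .mm ⟨0, 0, 0, 0, 0, 4865137, 0, 0, 0, ⟨0, 0⟩, 0⟩ 0 0) (.cut .d (-8388608) (.void 7 ⟨0, 0, 0, 0, 0, 100000, 0, 0, 0, ⟨0, 0⟩, 0⟩ 0 0) (.cut .d (-4194304) (.void 7 ⟨0, 0, 0, 0, 0, 100000, 0, 0, 0, ⟨0, 0⟩, 0⟩ 0 0) (.cut .d (-2097152) (.void 7 ⟨0, 0, 0, 0, 0, 100000, 0, 0, 0, ⟨0, 0⟩, 0⟩ 0 0) (.cut .v 14680064 (.pos 10 .mm ⟨0, 0, 0, 0, 0, 261325, 0, 0, 0, ⟨0, 0⟩, 0⟩ 0 0) (.cut .v 15728640 (.cut .d (-1048576) (.pos 12 .mm ⟨0, 0, 0, 0, 0, 303322, 0, 0, 0, ⟨0, 0⟩, 0⟩ 0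 0) (.cut .s 4161536 (.pos 12 .mm ⟨0, 0, 0, 0, 0, 311418, 0, 0, 0, ⟨0, 0⟩, 0⟩ 0 0) (.pos 12 .mm ⟨0, 0, 0, 0, 0, 311305, 0, 0, 0, ⟨0, 0⟩, 0⟩ 0 0))) (.cut .d (-1048576) (.pos 13 .mm ⟨0, 0, 0, 0, 0, 322480, 0, 0, 0, ⟨0, 0⟩, 0⟩ 0 0) (.cut .v 16252928 (.cut .d (-524288) (.pos 14 .mm ⟨0, 0, 0, 0, 0, 307776, 0, 0, 0, ⟨0, 0⟩, 0⟩ 0 0) (.pos 14 .mm ⟨0, 0, 0, 0, 0, 147219, 0, 0, 0, ⟨0, 0⟩, 0⟩ 0 0)) (.pos 15 .mm ⟨0, 0, 0, 0, 0, 16687, 0, 0, 0, ⟨0, 0⟩, 0⟩ 0 0)))))))))) (.cut .v 25165824 (.cut .v 20971520 (.pos 19 .mp ⟨0, 0, 0, 0, 0, 0, 0, 0, 0, ⟨0, 0⟩, 0⟩ 0 0) (.void 20 ⟨100000, 0, 0, 0, 0, 0, 0, 0, 0, ⟨0, 0⟩, 0⟩ 0 0)) (.void 18 ⟨100000, 0, 0, 0, 0, 0, 0, 0, 0, ⟨0, 0⟩, 0⟩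 0 0))) (.cut .v 16777216 (.cut .v 8388608 (.void 2 ⟨0, 0, 0, 0, 100000, 0, 0, 0, 0, ⟨0, 0⟩, 0⟩ 0 0) (.cut .v 12582912 (.void 6 ⟨0, 0, 0, 0, 0, 0, 0, 0, 100000, ⟨0, 0⟩, 13128881⟩ 0 0) (.cut .d 2749922 (.cut .v 14680064 (.pos 10 .pm ⟨0, 0, 0, 0, 0, 0, 0, 0, 0, ⟨0, 0⟩, 0⟩ 0 0) (.cut .d 1374961 (.cut .v 15728640 (.pos 12 .pm ⟨0, 0, 0, 0, 0, 0, 0, 0, 0, ⟨0, 0⟩, 0⟩ 0 0) (.cut .d 687480 (.cut .v 16252928 (.pos 14 .pm ⟨0, 0, 0, 0, 0, 0, 0, 0, 0, ⟨0, 0⟩, 0⟩ 0 0) (.cut .d 343740 (.pos 15 .pm ⟨0, 0, 0, 0, 0, 0, 0, 0, 0, ⟨0, 0⟩, 0⟩ 0 0) (.pos 15 .pm ⟨0, 0, 0, 0, 0, 0, 0, 30306, 0, ⟨852712, 11555544⟩, 0⟩ 59 72))) (.pos 13 .pm ⟨0, 0, 0, 0, 0, 0, 0, 286522, 0, ⟨920150, 11281237⟩,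 0⟩ 60 75))) (.pos 11 .pm ⟨0, 0, 0, 0, 0, 0, 0, 292618, 0, ⟨1061544, 10725901⟩, 0⟩ 62 81))) (.void 7 ⟨0, 0, 0, 0, 0, 0, 0, 0, 100000, ⟨0, 0⟩, 15612959⟩ 0 0)))) (.cut .v 25165824 (.cut .v 20971520 (.cut .d 2749922 (.cut .v 18874368 (.cut .d 1374961 (.cut .d 687480 (.pos 21 .pp ⟨0, 0, 0, 0, 0, 0, 0, 289903, 0, ⟨833914, 11622381⟩, 0⟩ 58 72) (.cut .v 17825792 (.pos 23 .pp ⟨0, 0, 0, 0, 0, 0, 0, 255701, 0, ⟨920150, 11281237⟩, 0⟩ 60 75) (.pos 24 .pp ⟨0, 0, 0, 0, 0, 0, 0, 281165, 0, ⟨920150, 11281237⟩, 0⟩ 60 75))) (.cut .v 17825792 (.pos 23 .pp ⟨0, 0, 0, 0, 0, 0, 0, 298714, 0, ⟨1061544, 10725901⟩, 0⟩ 62 81) (.pos 24 .pp ⟨0, 0, 0, 0, 0, 0, 0, 299776, 0, ⟨1061544, 10725901⟩,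 0⟩ 62 81))) (.pos 22 .pp ⟨258707, 0, 0, 0, 0, 0, 0, 169027, 0, ⟨975185, 10998839⟩, 0⟩ 58 81)) (.cut .v 18874368 (.pos 21 .pp ⟨0, 0, 0, 0, 0, 0, 0, 928013, 0, ⟨1374445, 9602713⟩, 0⟩ 67 92) (.cut .d 4124883 (.pos 22 .pp ⟨0, 0, 0, 0, 0, 0, 0, 2761689, 0, ⟨1263583, 10026307⟩, 0⟩ 67 86) (.void 22 ⟨0, 0, 0, 0, 0, 0, 0, 100000, 0, ⟨1500945, 9250713⟩, 0⟩ 72 92)))) (.cut .d 2749922 (.pos 20 .pp ⟨251161, 0, 0, 0, 0, 0, 0, 6326544, 0, ⟨975185, 10998839⟩, 0⟩ 58 81) (.pos 20 .pp ⟨0, 0, 0, 0, 0, 0, 0, 13692350, 0, ⟨1374445, 9602713⟩, 0⟩ 67 92))) (.void 18 ⟨0, 0, 0, 0, 0, 0, 100000, 0, 0, ⟨0, 0⟩, 0⟩ 0 0)))),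
    by decide +kernel⟩

def covers4 : cell.Covers table row4.1 :=
  ⟨(.cut .d 0 (.cut .v 16777216 (.cut .v 8388608 (.void 2 ⟨0, 0, 0, 0, 50000, 50000, 0, 0, 0, ⟨0, 0⟩, 0⟩ 0 0) (.cut .v 12582912 (.pos 6 .mm ⟨0, 0, 0, 0, 0, 3245188, 0, 0, 0, ⟨0, 0⟩, 0⟩ 0 0) (.cut .d (-8388608) (.void 7 ⟨0, 0, 0, 0, 0, 100000, 0, 0, 0, ⟨0, 0⟩, 0⟩ 0 0) (.cut .v 14680064 (.pos 10 .mm ⟨0, 0, 0, 0, 0, 1695181, 0, 0, 0, ⟨0, 0⟩, 0⟩ 0 0) (.cut .d (-4194304) (.void 11 ⟨0, 0, 0, 0, 0, 100000, 0, 0, 0, ⟨0, 0⟩, 0⟩ 0 0) (.cut .d (-2097152) (.void 11 ⟨0, 0, 0, 0, 0, 100000, 0, 0, 0, ⟨0, 0⟩, 0⟩ 0 0) (.cut .v 15728640 (.cut .d (-1048576) (.pos 12 .mm ⟨0, 0, 0, 0, 0, 356856, 0, 0, 0, ⟨0, 0⟩, 0⟩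 0 0) (.pos 12 .mm ⟨0, 0, 0, 0, 0, 235462, 0, 0, 0, ⟨0, 0⟩, 0⟩ 0 0)) (.cut .v 16252928 (.pos 14 .mm ⟨0, 0, 0, 0, 0, 192782, 0, 0, 0, ⟨0, 0⟩, 0⟩ 0 0) (.pos 15 .mm ⟨0, 0, 0, 0, 0, 0, 0, 0, 0, ⟨0, 0⟩, 0⟩ 0 0))))))))) (.cut .v 25165824 (.cut .v 20971520 (.pos 19 .mp ⟨0, 0, 0, 0, 0, 0, 0, 0, 0, ⟨0, 0⟩, 0⟩ 0 0) (.void 20 ⟨100000, 0, 0, 0, 0, 0, 0, 0, 0, ⟨0, 0⟩, 0⟩ 0 0)) (.void 18 ⟨100000, 0, 0, 0, 0, 0, 0, 0, 0, ⟨0, 0⟩, 0⟩ 0 0))) (.cut .v 16777216 (.cut .v 8388608 (.void 2 ⟨0, 0, 0, 0, 100000, 0, 0, 0, 0, ⟨0, 0⟩, 0⟩ 0 0) (.cut .v 12582912 (.pos 6 .pm ⟨0, 0, 0, 0, 0, 0, 0, 0, 732924, ⟨0, 0⟩, 13128881⟩ 0 0) (.cut .d 3508583 (.cut .v 14680064 (.pos 10 .pm ⟨0, 0, 0, 0,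 0, 0, 0, 0, 0, ⟨0, 0⟩, 0⟩ 0 0) (.cut .d 1754291 (.cut .v 15728640 (.pos 12 .pm ⟨0, 0, 0, 0, 0, 0, 0, 0, 0, ⟨0, 0⟩, 0⟩ 0 0) (.cut .d 877145 (.cut .l 1062557 (.cut .v 16252928 (.cut .d 438572 (.pos 14 .pm ⟨0, 0, 0, 0, 0, 0, 0, 0, 0, ⟨0, 0⟩, 0⟩ 0 0) (.pos 14 .pm ⟨0, 0, 0, 0, 0, 0, 0, 120567, 0, ⟨1314974, 9886498⟩, 0⟩ 70 85)) (.cut .d 438572 (.pos 15 .pm ⟨0, 0, 0, 0, 0, 0, 0, 0, 0, ⟨0, 0⟩, 0⟩ 0 0) (.cut .s 4882432 (.pos 15 .pm ⟨0, 0, 0, 0, 0, 0, 0, 222404, 0, ⟨1198939, 10310855⟩, 0⟩ 70 79) (.pos 15 .pm ⟨0, 0, 0, 0, 0, 0, 0, 357005, 0, ⟨1455708, 9462641⟩, 0⟩ 76 85)))) (.pos 13 .pm ⟨0, 0, 0, 0, 0, 0, 0, 0, 0, ⟨0, 0⟩, 0⟩ 0 0)) (.pos 13 .pm ⟨0, 0, 0, 0, 0, 0, 0, 427876,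 0, ⟨1441394, 9462452⟩, 0⟩ 72 89))) (.pos 11 .pm ⟨0, 0, 0, 0, 0, 0, 0, 561795, 0, ⟨1706618, 8617472⟩, 0⟩ 76 97))) (.void 7 ⟨0, 0, 0, 0, 0, 0, 0, 0, 100000, ⟨0, 0⟩, 15612959⟩ 0 0)))) (.cut .v 25165824 (.cut .v 20971520 (.cut .d 3508583 (.cut .v 18874368 (.cut .d 1754291 (.cut .d 877145 (.pos 21 .pp ⟨0, 0, 0, 0, 0, 0, 0, 295459, 0, ⟨1291632, 9956800⟩, 0⟩ 69 85) (.cut .v 17825792 (.pos 23 .pp ⟨0, 0, 0, 0, 0, 0, 0, 410392, 0, ⟨1441394, 9462452⟩, 0⟩ 72 89) (.pos 24 .pp ⟨0, 0, 0, 0, 0, 0, 0, 428650, 0, ⟨1441394, 9462452⟩, 0⟩ 72 89))) (.cut .v 17825792 (.pos 23 .pp ⟨0, 0, 0, 0, 0, 0, 0, 554698, 0, ⟨1706618, 8617472⟩, 0⟩ 76 97) (.pos 24 .pp ⟨0, 0, 0, 0, 0, 0, 0, 598379,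 0, ⟨1706618, 8617472⟩, 0⟩ 76 97))) (.cut .d 1754291 (.pos 22 .pp ⟨0, 0, 0, 0, 0, 0, 0, 328649, 0, ⟨1367880, 9673907⟩, 0⟩ 69 89) (.cut .s 4882432 (.pos 22 .pp ⟨0, 0, 0, 0, 0, 0, 0, 1402511, 0, ⟨1581684, 9038301⟩, 0⟩ 76 91) (.pos 22 .pp ⟨0, 0, 0, 0, 0, 0, 0, 1880414, 0, ⟨1866959, 8194304⟩, 0⟩ 82 97)))) (.cut .s 4882432 (.void 19 ⟨0, 0, 0, 0, 0, 0, 0, 100000, 0, ⟨2093007, 7508958⟩, 0⟩ 83 106) (.void 19 ⟨0, 0, 0, 0, 0, 0, 0, 100000, 0, ⟨2476230, 6504789⟩, 0⟩ 90 114))) (.cut .d 3508583 (.pos 20 .pp ⟨0, 0, 0, 0, 0, 0, 0, 5710695, 0, ⟨1519564, 9111140⟩, 0⟩ 69 97) (.pos 20 .pp ⟨0, 0, 0, 0, 0, 0, 0, 15597130, 0, ⟨2264217, 6980888⟩, 0⟩ 83 114))) (.void 18 ⟨0, 0, 0, 0,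 0, 0, 100000, 0, 0, ⟨0, 0⟩, 0⟩ 0 0)))),
    by decide +kernel⟩

def covers5 : cell.Covers table row5.1 :=
  ⟨(.cut .d 0 (.cut .v 16777216 (.cut .v 8388608 (.void 2 ⟨0, 0, 0, 0, 50000, 50000, 0, 0, 0, ⟨0, 0⟩, 0⟩ 0 0) (.cut .v 12582912 (.pos 6 .mm ⟨0, 0, 0, 0, 0, 1975477, 0, 0, 0, ⟨0, 0⟩, 0⟩ 0 0) (.cut .v 14680064 (.pos 10 .mm ⟨0, 0, 0, 0, 0, 1177722, 0, 0, 0, ⟨0, 0⟩, 0⟩ 0 0) (.cut .d (-8388608) (.void 11 ⟨0, 0, 0, 0, 0, 100000, 0, 0, 0, ⟨0, 0⟩, 0⟩ 0 0) (.cut .d (-4194304) (.void 11 ⟨0, 0, 0, 0, 0, 100000, 0, 0, 0, ⟨0, 0⟩, 0⟩ 0 0) (.cut .d (-2097152) (.void 11 ⟨0, 0, 0, 0, 0, 100000, 0, 0, 0, ⟨0, 0⟩, 0⟩ 0 0) (.cut .d (-1048576) (.void 11 ⟨0, 0, 0, 0, 0, 100000,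 0, 0, 0, ⟨0, 0⟩, 0⟩ 0 0) (.cut .v 15728640 (.pos 12 .mm ⟨0, 0, 0, 0, 0, 321708, 0, 0, 0, ⟨0, 0⟩, 0⟩ 0 0) (.cut .v 16252928 (.cut .s 5636096 (.pos 14 .mm ⟨0, 0, 0, 0, 0, 17665, 0, 0, 0, ⟨0, 0⟩, 0⟩ 0 0) (.cut .s 5832704 (.pos 14 .mm ⟨0, 0, 0, 0, 0, 143294, 0, 0, 0, ⟨0, 0⟩, 0⟩ 0 0) (.pos 14 .mm ⟨0, 0, 0, 0, 0, 355677, 0, 0, 0, ⟨0, 0⟩, 0⟩ 0 0))) (.pos 15 .mm ⟨0, 0, 0, 0, 0, 281472, 0, 0, 0, ⟨0, 0⟩, 0⟩ 0 0)))))))))) (.cut .v 25165824 (.cut .v 20971520 (.cut .d (-8388608) (.void 19 ⟨0, 0, 0, 0, 0, 100000, 0, 0, 0, ⟨0, 0⟩, 0⟩ 0 0) (.pos 19 .mp ⟨0, 0, 0, 0, 0, 740992, 0, 0, 0, ⟨0, 0⟩, 0⟩ 0 0)) (.void 20 ⟨100000, 0, 0, 0, 0, 0, 0, 0, 0, ⟨0, 0⟩, 0⟩ 0 0)) (.void 18 ⟨100000,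 0, 0, 0, 0, 0, 0, 0, 0, ⟨0, 0⟩, 0⟩ 0 0))) (.cut .v 16777216 (.cut .v 8388608 (.void 2 ⟨0, 0, 0, 0, 100000, 0, 0, 0, 0, ⟨0, 0⟩, 0⟩ 0 0) (.cut .v 12582912 (.pos 6 .pm ⟨0, 0, 0, 0, 0, 0, 0, 0, 0, ⟨0, 0⟩, 0⟩ 0 0) (.cut .d 4677880 (.cut .v 14680064 (.pos 10 .pm ⟨0, 0, 0, 0, 0, 0, 0, 0, 0, ⟨0, 0⟩, 0⟩ 0 0) (.cut .d 2338940 (.cut .v 15728640 (.pos 12 .pm ⟨0, 0, 0, 0, 0, 0, 0, 116267, 0, ⟨1985305, 7785656⟩, 0⟩ 80 105) (.cut .l 1062557 (.cut .d 1169470 (.cut .l 685069 (.cut .s 5636096 (.cut .l 496325 (.cut .v 16252928 (.cut .d 584735 (.pos 14 .pm ⟨0, 0, 0, 0, 0, 0, 0, 67345, 0, ⟨1638305, 8896056⟩, 0⟩ 80 89) (.pos 14 .pm ⟨0, 0, 0, 0, 0, 0, 0, 871330, 0, ⟨1755160, 8543334⟩,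 0⟩ 82 92)) (.cut .d 584735 (.pos 15 .pm ⟨0, 0, 0, 0, 0, 0, 0, 304634, 0, ⟨1638305, 8896056⟩, 0⟩ 80 89) (.pos 15 .pm ⟨0, 0, 0, 0, 0, 0, 0, 884949, 0, ⟨1755160, 8543334⟩, 0⟩ 82 92))) (.pos 13 .pm ⟨0, 0, 0, 0, 0, 0, 0, 11197, 0, ⟨1704336, 8684757⟩, 0⟩ 80 92)) (.cut .v 16252928 (.pos 14 .pm ⟨0, 0, 0, 0, 0, 0, 0, 114789, 0, ⟨2019618, 7775783⟩, 0⟩ 86 99) (.pos 15 .pm ⟨0, 0, 0, 0, 0, 0, 0, 260428, 0, ⟨2019618, 7775783⟩, 0⟩ 86 99))) (.pos 13 .pm ⟨0, 0, 0, 0, 0, 0, 0, 0, 0, ⟨0, 0⟩, 0⟩ 0 0)) (.cut .s 5636096 (.pos 13 .pm ⟨0, 0, 0, 0, 0, 0, 0, 884949, 0, ⟨1969734, 7914515⟩, 0⟩ 85 98) (.pos 13 .pm ⟨0, 0, 0, 0, 0, 0, 0, 1009998, 0, ⟨2297718, 7023963⟩, 0⟩ 91 105))) (.pos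 13 .pm ⟨0, 0, 0, 0, 0, 0, 0, 216888, 0, ⟨1985305, 7785656⟩, 0⟩ 80 105))) (.pos 11 .pm ⟨0, 0, 0, 0, 0, 0, 0, 951052, 0, ⟨2595526, 6186173⟩, 0⟩ 91 118))) (.void 7 ⟨0, 0, 0, 0, 0, 0, 0, 0, 100000, ⟨0, 0⟩, 15612959⟩ 0 0)))) (.cut .v 25165824 (.cut .d 4677880 (.cut .v 20971520 (.cut .v 18874368 (.cut .d 2338940 (.cut .s 5636096 (.cut .d 1169470 (.pos 21 .pp ⟨0, 0, 0, 0, 0, 0, 0, 903778, 0, ⟨1704336, 8684757⟩, 0⟩ 80 92) (.pos 21 .pp ⟨0, 0, 0, 0, 0, 0, 0, 941435, 0, ⟨1969734, 7914515⟩, 0⟩ 85 98)) (.pos 21 .pp ⟨0, 0, 0, 0, 0, 0, 0, 915142, 0, ⟨2156603, 7368016⟩, 0⟩ 86 105)) (.cut .l 1062557 (.pos 21 .pp ⟨0, 0, 0, 0, 0, 0, 0, 12871286, 0, ⟨2595526, 6186173⟩, 0⟩ 91 118)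 (.cut .s 5636096 (.cut .v 17825792 (.pos 23 .pp ⟨0, 0, 0, 0, 0, 0, 0, 984977, 0, ⟨2414705, 6694858⟩, 0⟩ 91 110) (.cut .d 3508410 (.pos 24 .pp ⟨0, 0, 0, 0, 0, 0, 0, 1754408, 0, ⟨2273993, 7090707⟩, 0⟩ 91 104) (.pos 24 .pp ⟨0, 0, 0, 0, 0, 0, 0, 3664394, 0, ⟨2558852, 6359387⟩, 0⟩ 96 110))) (.cut .d 3508410 (.pos 21 .pp ⟨0, 0, 0, 0, 0, 0, 0, 1182193, 0, ⟨2635664, 6165555⟩, 0⟩ 97 112) (.cut .s 5832704 (.cut .v 17825792 (.pos 23 .pp ⟨0, 0, 0, 0, 0, 0, 0, 2253416, 0, ⟨2856012, 5651944⟩, 0⟩ 103 114) (.pos 24 .pp ⟨0, 0, 0, 0, 0, 0, 0, 3726647, 0, ⟨2856012, 5651944⟩, 0⟩ 103 114)) (.pos 21 .pp ⟨0, 0, 0, 0, 0, 0, 0, 3387390, 0, ⟨3068333, 5160424⟩, 0⟩ 107 118)))))) (.cut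 .d 2338940 (.pos 22 .pp ⟨0, 0, 0, 0, 0, 0, 0, 1069933, 0, ⟨1985305, 7785656⟩, 0⟩ 80 105) (.cut .l 1062557 (.pos 22 .pp ⟨0, 0, 0, 0, 0, 0, 0, 16183904, 0, ⟨2595526, 6186173⟩, 0⟩ 91 118) (.cut .l 1440044 (.pos 22 .pp ⟨0, 0, 0, 0, 0, 0, 0, 4895879, 0, ⟨2595526, 6186173⟩, 0⟩ 91 118) (.cut .s 5636096 (.cut .d 3508410 (.pos 22 .pp ⟨0, 0, 0, 0, 0, 0, 0, 3143440, 0, ⟨2273993, 7090707⟩, 0⟩ 91 104) (.pos 22 .pp ⟨0, 0, 0, 0, 0, 0, 0, 5682099, 0, ⟨2558852, 6359387⟩, 0⟩ 96 110)) (.cut .d 3508410 (.pos 22 .pp ⟨0, 0, 0, 0, 0, 0, 0, 1160423, 0, ⟨2635664, 6165555⟩, 0⟩ 97 112) (.pos 22 .pp ⟨0, 0, 0, 0, 0, 0, 0, 5544607, 0, ⟨2953791, 5408921⟩, 0⟩ 103 118))))))) (.cut .s 5636096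 (.pos 20 .pp ⟨0, 0, 0, 0, 0, 0, 0, 7240650, 0, ⟨2090112, 7450274⟩, 0⟩ 80 110) (.pos 20 .pp ⟨0, 0, 0, 0, 0, 0, 0, 6437148, 0, ⟨2441026, 6521360⟩, 0⟩ 86 118))) (.cut .s 5636096 (.void 17 ⟨0, 0, 0, 0, 0, 0, 0, 100000, 0, ⟨3284804, 4568256⟩, 0⟩ 102 134) (.void 17 ⟨0, 0, 0, 0, 0, 0, 0, 100000, 0, ⟨3705219, 3674689⟩, 0⟩ 109 144))) (.cut .d 4677880 (.pos 18 .pp ⟨0, 0, 0, 0, 0, 0, 1788341, 12268182, 0, ⟨2252758, 6929805⟩, 0⟩ 80 118) (.pos 18 .pp ⟨0, 0, 0, 0, 0, 0, 0, 70039719, 0, ⟨3484473, 4067126⟩, 0⟩ 102 144))))),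
    by decide +kernel⟩

def covers6 : cell.Covers table row6.1 :=
  ⟨(.cut .d 0 (.cut .v 16777216 (.cut .d (-8388608) (.void 1 ⟨0, 0, 0, 0, 0, 100000, 0, 0, 0, ⟨0, 0⟩, 0⟩ 0 0) (.cut .d (-4194304) (.void 1 ⟨0, 0, 0, 0, 0, 100000, 0, 0, 0, ⟨0, 0⟩, 0⟩ 0 0) (.cut .d (-2097152) (.void 1 ⟨0, 0, 0, 0, 0, 100000, 0, 0, 0, ⟨0, 0⟩, 0⟩ 0 0) (.cut .d (-1048576) (.void 1 ⟨0, 0, 0, 0, 0, 100000, 0, 0, 0, ⟨0, 0⟩, 0⟩ 0 0) (.cut .v 8388608 (.cut .v 4194304 (.void 4 ⟨0, 0, 100000, 0, 0, 0, 0, 0, 0, ⟨0, 0⟩, 0⟩ 0 0) (.void 5 ⟨0, 0, 0, 0, 0, 54321, 0, 0, 45679, ⟨0, 0⟩, 9975792⟩ 0 0)) (.cut .v 12582912 (.pos 6 .mm ⟨0, 0, 0, 0, 0, 1250786, 0, 0, 0, ⟨0, 0⟩, 0⟩ 0 0) (.cut .v 14680064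 (.pos 10 .mm ⟨0, 0, 0, 0, 0, 1143883, 0, 0, 0, ⟨0, 0⟩, 0⟩ 0 0) (.cut .d (-524288) (.pos 11 .mm ⟨0, 0, 0, 0, 0, 3375140, 0, 0, 0, ⟨0, 0⟩, 0⟩ 0 0) (.cut .d (-262144) (.pos 11 .mm ⟨0, 0, 0, 0, 0, 2635922, 0, 0, 0, ⟨0, 0⟩, 0⟩ 0 0) (.cut .v 15728640 (.pos 12 .mm ⟨0, 0, 0, 0, 0, 416874, 0, 0, 0, ⟨0, 0⟩, 0⟩ 0 0) (.cut .l 1062557 (.cut .l 685069 (.cut .d (-131072) (.cut .v 16252928 (.pos 14 .mm ⟨0, 0, 0, 0, 0, 2601062, 0, 0, 0, ⟨0, 0⟩, 0⟩ 0 0) (.pos 15 .mm ⟨0, 0, 0, 0, 0, 2648293, 0, 0, 0, ⟨0, 0⟩, 0⟩ 0 0)) (.cut .v 16252928 (.pos 14 .mm ⟨0, 0, 0, 0, 0, 319958, 0, 0, 0, ⟨0, 0⟩, 0⟩ 0 0) (.pos 15 .mm ⟨0, 0, 0, 0, 0, 742870, 0, 0, 0, ⟨0, 0⟩, 0⟩ 0 0))) (.pos 13 .mm ⟨0, 0,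 0, 0, 0, 1068485, 0, 0, 0, ⟨0, 0⟩, 0⟩ 0 0)) (.pos 13 .mm ⟨0, 0, 0, 0, 0, 0, 0, 0, 0, ⟨0, 0⟩, 0⟩ 0 0)))))))))))) (.cut .v 25165824 (.cut .v 20971520 (.cut .d (-8388608) (.void 19 ⟨0, 0, 0, 0, 0, 100000, 0, 0, 0, ⟨0, 0⟩, 0⟩ 0 0) (.cut .d (-4194304) (.void 19 ⟨0, 0, 0, 0, 0, 100000, 0, 0, 0, ⟨0, 0⟩, 0⟩ 0 0) (.cut .d (-2097152) (.void 19 ⟨0, 0, 0, 0, 0, 100000, 0, 0, 0, ⟨0, 0⟩, 0⟩ 0 0) (.cut .d (-1048576) (.void 19 ⟨0, 0, 0, 0, 0, 100000, 0, 0, 0, ⟨0, 0⟩, 0⟩ 0 0) (.cut .v 18874368 (.cut .d (-524288) (.pos 21 .mp ⟨1220204, 0, 0, 0, 0, 2438649, 0, 0, 0, ⟨0, 0⟩, 0⟩ 0 0) (.cut .s 6422528 (.pos 21 .mp ⟨0, 0, 0, 0, 0, 1128007, 0, 0, 0, ⟨0, 0⟩, 0⟩ 0 0) (.cut .d (-262144)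 (.pos 21 .mp ⟨998111, 0, 0, 0, 0, 2266501, 0, 0, 0, ⟨0, 0⟩, 0⟩ 0 0) (.cut .d (-131072) (.pos 21 .mp ⟨1203133, 0, 0, 0, 0, 1680227, 0, 0, 0, ⟨0, 0⟩, 0⟩ 0 0) (.pos 21 .mp ⟨1069966, 0, 0, 0, 0, 1221781, 0, 0, 0, ⟨0, 0⟩, 0⟩ 0 0))))) (.void 22 ⟨100000, 0, 0, 0, 0, 0, 0, 0, 0, ⟨0, 0⟩, 0⟩ 0 0)))))) (.void 20 ⟨100000, 0, 0, 0, 0, 0, 0, 0, 0, ⟨0, 0⟩, 0⟩ 0 0)) (.void 18 ⟨100000, 0, 0, 0, 0, 0, 0, 0, 0, ⟨0, 0⟩, 0⟩ 0 0))) (.cut .v 16777216 (.cut .v 8388608 (.cut .v 4194304 (.void 4 ⟨0, 0, 50000, 0, 50000, 0, 0, 0, 0, ⟨0, 0⟩, 0⟩ 0 0) (.void 5 ⟨0, 0, 0, 0, 0, 0, 0, 0, 100000, ⟨0, 0⟩, 9975792⟩ 0 0)) (.cut .d 6643597 (.cut .v 12582912 (.pos 6 .pm ⟨0, 0, 0, 0, 0, 0, 0, 0, 0,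 ⟨0, 0⟩, 0⟩ 0 0) (.cut .v 14680064 (.pos 10 .pm ⟨0, 0, 0, 0, 0, 0, 0, 0, 0, ⟨0, 0⟩, 0⟩ 0 0) (.cut .d 3321798 (.cut .d 1660899 (.cut .v 15728640 (.pos 12 .pm ⟨0, 0, 0, 0, 0, 0, 0, 0, 0, ⟨0, 0⟩, 0⟩ 0 0) (.pos 13 .pm ⟨0, 0, 0, 0, 0, 0, 0, 0, 0, ⟨0, 0⟩, 0⟩ 0 0)) (.pos 11 .pm ⟨0, 0, 0, 0, 0, 0, 0, 1291520, 0, ⟨3057850, 5123893⟩, 0⟩ 101 125)) (.cut .s 6422528 (.pos 11 .pm ⟨0, 0, 0, 0, 0, 0, 0, 593190, 464011, ⟨3593136, 3952327⟩, 16226390⟩ 110 137) (.pos 11 .pm ⟨0, 0, 0, 0, 0, 0, 0, 419803, 579705, ⟨3981884, 3166614⟩, 16226390⟩ 117 146))))) (.void 3 ⟨0, 0, 0, 0, 0, 0, 0, 0, 100000, ⟨0, 0⟩, 14107901⟩ 0 0))) (.cut .d 6643597 (.cut .v 25165824 (.cut .v 20971520 (.cut .d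 3321798 (.cut .v 18874368 (.cut .d 1660899 (.pos 21 .pp ⟨50076, 0, 0, 0, 0, 0, 0, 0, 0, ⟨0, 0⟩, 0⟩ 0 0) (.pos 21 .pp ⟨0, 0, 0, 0, 0, 0, 0, 1403826, 0, ⟨3057850, 5123893⟩, 0⟩ 101 125)) (.pos 22 .pp ⟨0, 0, 0, 0, 0, 0, 289613, 669485, 0, ⟨2778198, 5696620⟩, 0⟩ 92 125)) (.cut .l 1062557 (.pos 19 .pp ⟨0, 0, 0, 0, 0, 0, 0, 37341508, 0, ⟨3774495, 3530254⟩, 0⟩ 110 146) (.cut .s 6422528 (.cut .d 4982697 (.cut .v 18874368 (.cut .s 6225920 (.cut .d 4152247 (.pos 21 .pp ⟨0, 0, 0, 0, 0, 0, 0, 1369998, 0, ⟨3177434, 4919779⟩, 0⟩ 110 119) (.pos 21 .pp ⟨0, 0, 0, 0, 0, 0, 0, 5070060, 0, ⟨3412071, 4403251⟩, 0⟩ 114 124)) (.pos 21 .pp ⟨0, 0, 0, 0, 0, 0, 0, 4279241, 0, ⟨3479771,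 4244292⟩, 0⟩ 113 128)) (.pos 22 .pp ⟨0, 0, 0, 0, 0, 0, 0, 6788365, 0, ⟨3393804, 4416227⟩, 0⟩ 110 128)) (.void 19 ⟨0, 0, 0, 0, 0, 0, 0, 100000, 0, ⟨3852005, 3468600⟩, 0⟩ 119 137)) (.cut .v 18874368 (.cut .d 4982697 (.pos 21 .pp ⟨0, 0, 0, 0, 0, 0, 0, 4997366, 0, ⟨3752353, 3668835⟩, 0⟩ 117 135) (.pos 21 .pp ⟨0, 0, 0, 0, 0, 0, 0, 11296899, 161197, ⟨4254168, 2689185⟩, 17278579⟩ 127 146)) (.pos 22 .pp ⟨0, 0, 0, 0, 0, 0, 0, 11017533, 0, ⟨3981884, 3166614⟩, 0⟩ 117 146))))) (.cut .d 3321798 (.pos 20 .pp ⟨75797, 0, 0, 0, 0, 0, 549908, 0, 0, ⟨0, 0⟩, 0⟩ 0 0) (.cut .d 4982697 (.pos 20 .pp ⟨0, 0, 0, 0, 0, 0, 0, 9412711, 0, ⟨3550370, 4051855⟩, 0⟩ 110 135) (.pos 20 .pp ⟨0,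 0, 0, 0, 0, 0, 0, 21068269, 0, ⟨4038650, 3067079⟩, 0⟩ 119 146)))) (.cut .d 3321798 (.pos 18 .pp ⟨5263043, 0, 0, 0, 0, 0, 0, 0, 0, ⟨0, 0⟩, 0⟩ 0 0) (.pos 18 .pp ⟨0, 0, 0, 0, 0, 0, 1599346, 21766109, 0, ⟨3774495, 3530254⟩, 0⟩ 110 146))) (.cut .v 25165824 (.cut .s 6422528 (.void 17 ⟨0, 0, 0, 0, 0, 0, 0, 100000, 0, ⟨4760521, 1682794⟩, 0⟩ 128 176) (.cut .s 6619136 (.void 17 ⟨0, 0, 0, 0, 0, 0, 0, 100000, 0, ⟨5008665, 1297265⟩, 0⟩ 136 181) (.void 17 ⟨0, 0, 0, 0, 0, 0, 0, 100000, 0, ⟨5154907, 1065357⟩, 0⟩ 140 187))) (.pos 18 .pp ⟨0, 0, 0, 0, 0, 0, 0, 131055058, 0, ⟨4883382, 1437071⟩, 0⟩ 128 187))))),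
    by decide +kernel⟩

def covers7 : cell.Covers table row7.1 :=
  ⟨(.cut .d 0 (.cut .v 16777216 (.cut .d (-8388608) (.void 1 ⟨0, 0, 0, 0, 0, 100000, 0, 0, 0, ⟨0, 0⟩, 0⟩ 0 0) (.cut .d (-4194304) (.void 1 ⟨0, 0, 0, 0, 0, 100000, 0, 0, 0, ⟨0, 0⟩, 0⟩ 0 0) (.cut .d (-2097152) (.void 1 ⟨0, 0, 0, 0, 0, 100000, 0, 0, 0, ⟨0, 0⟩, 0⟩ 0 0) (.cut .d (-1048576) (.void 1 ⟨0, 0, 0, 0, 0, 100000, 0, 0, 0, ⟨0, 0⟩, 0⟩ 0 0) (.cut .v 8388608 (.cut .v 4194304 (.void 4 ⟨0, 0, 100000, 0, 0, 0, 0, 0, 0, ⟨0, 0⟩, 0⟩ 0 0) (.pos 5 .mm ⟨0, 0, 0, 0, 0, 2703104, 0, 0, 1011052, ⟨0, 0⟩, 9975792⟩ 0 0)) (.cut .v 12582912 (.pos 6 .mm ⟨0, 0, 0, 0, 0, 1634376, 0, 0, 0, ⟨0, 0⟩, 0⟩ 0 0) (.cut .d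 (-524288) (.pos 7 .mm ⟨0, 0, 0, 0, 0, 7825361, 0, 0, 0, ⟨0, 0⟩, 0⟩ 0 0) (.cut .v 14680064 (.pos 10 .mm ⟨0, 0, 0, 0, 0, 1980597, 0, 0, 0, ⟨0, 0⟩, 0⟩ 0 0) (.cut .v 15728640 (.pos 12 .mm ⟨0, 0, 0, 0, 0, 3346586, 0, 0, 0, ⟨0, 0⟩, 0⟩ 0 0) (.cut .s 7176192 (.cut .l 1062557 (.cut .d (-262144) (.pos 13 .mm ⟨0, 0, 0, 0, 0, 4663842, 0, 0, 0, ⟨0, 0⟩, 0⟩ 0 0) (.cut .s 6995968 (.pos 13 .mm ⟨0, 0, 0, 0, 0, 3054370, 0, 0, 0, ⟨0, 0⟩, 0⟩ 0 0) (.pos 13 .mm ⟨0, 0, 0, 0, 0, 4100538, 0, 0, 0, ⟨0, 0⟩, 0⟩ 0 0))) (.pos 13 .mm ⟨0, 0, 0, 0, 0, 3112404, 0, 0, 0, ⟨0, 0⟩, 0⟩ 0 0)) (.cut .s 7356416 (.cut .s 7266304 (.pos 13 .mm ⟨0, 0, 0, 0, 0, 5216448, 0, 0, 0, ⟨0, 0⟩, 0⟩ 0 0) (.pos 13 .mm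 ⟨0, 0, 0, 0, 0, 5900132, 0, 0, 0, ⟨0, 0⟩, 0⟩ 0 0)) (.pos 13 .mm ⟨0, 0, 0, 0, 0, 7269523, 0, 0, 0, ⟨0, 0⟩, 0⟩ 0 0)))))))))))) (.cut .v 33554432 (.cut .v 25165824 (.cut .v 20971520 (.cut .d (-8388608) (.void 19 ⟨0, 0, 0, 0, 0, 100000, 0, 0, 0, ⟨0, 0⟩, 0⟩ 0 0) (.cut .v 18874368 (.cut .d (-4194304) (.void 21 ⟨0, 0, 0, 0, 0, 100000, 0, 0, 0, ⟨0, 0⟩, 0⟩ 0 0) (.cut .d (-2097152) (.void 21 ⟨0, 0, 0, 0, 0, 100000, 0, 0, 0, ⟨0, 0⟩, 0⟩ 0 0) (.cut .d (-1048576) (.void 21 ⟨0, 0, 0, 0, 0, 100000, 0, 0, 0, ⟨0, 0⟩, 0⟩ 0 0) (.cut .d (-524288) (.cut .v 17825792 (.cut .s 7176192 (.cut .s 6995968 (.pos 23 .mp ⟨63050, 0, 0, 0, 0, 4831814, 0, 0, 0, ⟨0, 0⟩, 0⟩ 0 0) (.pos 23 .mp ⟨1391730,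 0, 0, 0, 0, 5074380, 0, 0, 0, ⟨0, 0⟩, 0⟩ 0 0)) (.pos 23 .mp ⟨2766826, 0, 0, 0, 0, 11731942, 0, 0, 0, ⟨0, 0⟩, 0⟩ 0 0)) (.void 24 ⟨100000, 0, 0, 0, 0, 0, 0, 0, 0, ⟨0, 0⟩, 0⟩ 0 0)) (.cut .s 7176192 (.cut .v 17825792 (.cut .s 6995968 (.cut .v 17301504 (.cut .s 6905856 (.cut .d (-262144) (.pos 25 .mp ⟨404055, 0, 0, 0, 0, 3157869, 0, 0, 0, ⟨0, 0⟩, 0⟩ 0 0) (.pos 25 .mp ⟨736896, 0, 0, 0, 0, 2291001, 0, 0, 0, ⟨0, 0⟩, 0⟩ 0 0)) (.cut .d (-262144) (.pos 25 .mp ⟨762717, 0, 0, 0, 0, 3400701, 0, 0, 0, ⟨0, 0⟩, 0⟩ 0 0) (.cut .s 6950912 (.pos 25 .mp ⟨959736, 0, 0, 0, 0, 2420512, 0, 0, 0, ⟨0, 0⟩, 0⟩ 0 0) (.pos 25 .mp ⟨1192404, 0, 0, 0, 0, 2457192, 0, 0, 0, ⟨0, 0⟩, 0⟩ 0 0)))) (.pos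 26 .mp ⟨3852551, 0, 0, 0, 0, 0, 0, 0, 0, ⟨0, 0⟩, 0⟩ 0 0)) (.cut .v 17301504 (.cut .d (-262144) (.cut .s 7086080 (.pos 25 .mp ⟨1136441, 0, 0, 0, 0, 3682796, 0, 0, 0, ⟨0, 0⟩, 0⟩ 0 0) (.pos 25 .mp ⟨1533212, 0, 0, 0, 0, 3994779, 0, 0, 0, ⟨0, 0⟩, 0⟩ 0 0)) (.cut .v 17039360 (.cut .l 1062557 (.cut .l 685069 (.cut .d (-131072) (.pos 27 .mp ⟨1372595, 0, 0, 0, 0, 3680005, 0, 0, 0, ⟨0, 0⟩, 0⟩ 0 0) (.cut .s 7086080 (.pos 27 .mp ⟨1583133, 0, 0, 0, 0, 2183761, 0, 0, 0, ⟨0, 0⟩, 0⟩ 0 0) (.pos 27 .mp ⟨2055394, 0, 0, 0, 0, 2306490, 0, 0, 0, ⟨0, 0⟩, 0⟩ 0 0))) (.pos 27 .mp ⟨2123268, 0, 0, 0, 0, 1737894, 0, 0, 0, ⟨0, 0⟩, 0⟩ 0 0)) (.pos 27 .mp ⟨0, 0, 0, 0, 0, 0, 0, 0, 0, ⟨0, 0⟩,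 0⟩ 0 0)) (.pos 28 .mp ⟨4479001, 0, 0, 0, 0, 0, 0, 0, 0, ⟨0, 0⟩, 0⟩ 0 0))) (.pos 26 .mp ⟨5075239, 0, 0, 0, 0, 0, 0, 0, 0, ⟨0, 0⟩, 0⟩ 0 0))) (.pos 24 .mp ⟨5182918, 0, 0, 0, 0, 0, 0, 0, 0, ⟨0, 0⟩, 0⟩ 0 0)) (.cut .v 17825792 (.cut .s 7356416 (.cut .v 17301504 (.cut .d (-262144) (.cut .s 7266304 (.pos 25 .mp ⟨1960908, 0, 0, 0, 0, 4327140, 0, 0, 0, ⟨0, 0⟩, 0⟩ 0 0) (.pos 25 .mp ⟨2427313, 0, 0, 0, 0, 4670225, 0, 0, 0, ⟨0, 0⟩, 0⟩ 0 0)) (.cut .l 1062557 (.cut .v 17039360 (.cut .l 685069 (.cut .d (-131072) (.pos 27 .mp ⟨2313135, 0, 0, 0, 0, 4213452, 0, 0, 0, ⟨0, 0⟩, 0⟩ 0 0) (.cut .s 7266304 (.pos 27 .mp ⟨2564348, 0, 0, 0, 0, 2438818, 0, 0, 0, ⟨0, 0⟩, 0⟩ 0 0) (.pos 27 .mp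 ⟨3110733, 0, 0, 0, 0, 2577059, 0, 0, 0, ⟨0, 0⟩, 0⟩ 0 0))) (.pos 27 .mp ⟨1789359, 0, 0, 0, 0, 3640886, 0, 0, 0, ⟨0, 0⟩, 0⟩ 0 0)) (.pos 28 .mp ⟨6027816, 0, 0, 0, 0, 0, 0, 0, 0, ⟨0, 0⟩, 0⟩ 0 0)) (.pos 25 .mp ⟨2445367, 0, 0, 0, 0, 0, 0, 0, 0, ⟨0, 0⟩, 0⟩ 0 0))) (.pos 26 .mp ⟨6483499, 0, 0, 0, 0, 0, 0, 0, 0, ⟨0, 0⟩, 0⟩ 0 0)) (.cut .v 17301504 (.cut .d (-262144) (.cut .s 7446528 (.pos 25 .mp ⟨2940134, 0, 0, 0, 0, 5014215, 0, 0, 0, ⟨0, 0⟩, 0⟩ 0 0) (.pos 25 .mp ⟨3507015, 0, 0, 0, 0, 5349115, 0, 0, 0, ⟨0, 0⟩, 0⟩ 0 0)) (.cut .l 1062557 (.cut .v 17039360 (.cut .l 685069 (.cut .d (-131072) (.pos 27 .mp ⟨3063945, 0, 0, 0, 0, 5442383, 0, 0, 0, ⟨0, 0⟩, 0⟩ 0 0) (.cut .s 7446528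 (.pos 27 .mp ⟨3695322, 0, 0, 0, 0, 2717556, 0, 0, 0, ⟨0, 0⟩, 0⟩ 0 0) (.pos 27 .mp ⟨4318923, 0, 0, 0, 0, 2856668, 0, 0, 0, ⟨0, 0⟩, 0⟩ 0 0))) (.pos 27 .mp ⟨2682491, 0, 0, 0, 0, 4296880, 0, 0, 0, ⟨0, 0⟩, 0⟩ 0 0)) (.pos 28 .mp ⟨7526601, 0, 0, 0, 0, 0, 0, 0, 0, ⟨0, 0⟩, 0⟩ 0 0)) (.pos 25 .mp ⟨3703505, 0, 0, 0, 0, 0, 0, 0, 0, ⟨0, 0⟩, 0⟩ 0 0))) (.pos 26 .mp ⟨8066463, 0, 0, 0, 0, 0, 0, 0, 0, ⟨0, 0⟩, 0⟩ 0 0))) (.pos 24 .mp ⟨8310275, 0, 0, 0, 0, 0, 0, 0, 0, ⟨0, 0⟩, 0⟩ 0 0))))))) (.void 22 ⟨100000, 0, 0, 0, 0, 0, 0, 0, 0, ⟨0, 0⟩, 0⟩ 0 0))) (.void 20 ⟨100000, 0, 0, 0, 0, 0, 0, 0, 0, ⟨0, 0⟩, 0⟩ 0 0)) (.void 18 ⟨100000, 0, 0, 0, 0, 0, 0, 0, 0, ⟨0, 0⟩, 0⟩ 0 0)) (.void 45 ⟨100000,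 0, 0, 0, 0, 0, 0, 0, 0, ⟨0, 0⟩, 0⟩ 0 0))) (.cut .v 16777216 (.cut .v 8388608 (.cut .v 4194304 (.void 4 ⟨0, 0, 50000, 0, 50000, 0, 0, 0, 0, ⟨0, 0⟩, 0⟩ 0 0) (.pos 5 .pm ⟨0, 0, 0, 0, 0, 0, 0, 0, 2257476, ⟨0, 0⟩, 9975792⟩ 0 0)) (.cut .d 12260274 (.cut .d 6130137 (.cut .v 12582912 (.pos 6 .pm ⟨0, 0, 0, 0, 0, 0, 0, 0, 0, ⟨0, 0⟩, 0⟩ 0 0) (.pos 7 .pm ⟨0, 0, 0, 0, 0, 0, 0, 0, 0, ⟨0, 0⟩, 0⟩ 0 0)) (.pos 3 .pm ⟨0, 0, 0, 0, 0, 0, 0, 0, 4876998, ⟨0, 0⟩, 14107901⟩ 0 0)) (.void 3 ⟨0, 0, 0, 0, 0, 0, 0, 0, 100000, ⟨0, 0⟩, 14107901⟩ 0 0))) (.cut .v 33554432 (.cut .d 12260274 (.cut .d 6130137 (.cut .v 25165824 (.cut .d 3065068 (.cut .v 20971520 (.cut .d 1532534 (.cut .v 18874368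 (.cut .s 7176192 (.pos 21 .pp ⟨1568627, 0, 0, 0, 0, 0, 0, 0, 0, ⟨0, 0⟩, 0⟩ 0 0) (.pos 21 .pp ⟨3414306, 0, 0, 0, 0, 0, 0, 0, 0, ⟨0, 0⟩, 0⟩ 0 0)) (.pos 22 .pp ⟨4769367, 0, 0, 0, 0, 0, 0, 0, 0, ⟨0, 0⟩, 0⟩ 0 0)) (.pos 19 .pp ⟨0, 0, 0, 0, 0, 0, 0, 1512312, 0, ⟨3681676, 3786880⟩, 0⟩ 113 137)) (.cut .d 1532534 (.pos 20 .pp ⟨9290948, 0, 0, 0, 0, 0, 0, 0, 0, ⟨0, 0⟩, 0⟩ 0 0) (.pos 20 .pp ⟨0, 0, 0, 0, 0, 0, 0, 1744976, 0, ⟨3681676, 3786880⟩, 0⟩ 113 137))) (.cut .v 20971520 (.pos 19 .pp ⟨0, 0, 0, 0, 0, 0, 0, 529959, 561043, ⟨4340294, 2462755⟩, 17739746⟩ 122 158) (.pos 20 .pp ⟨0, 0, 0, 0, 0, 0, 0, 1744976, 0, ⟨4340294, 2462755⟩, 0⟩ 122 158))) (.cut .d 3065068 (.pos 18 .pp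 ⟨22034120, 0, 0, 0, 0, 0, 0, 0, 0, ⟨0, 0⟩, 0⟩ 0 0) (.pos 18 .pp ⟨0, 0, 0, 0, 0, 0, 0, 2093971, 0, ⟨4340294, 2462755⟩, 0⟩ 122 158))) (.cut .v 25165824 (.cut .d 9195205 (.cut .v 20971520 (.pos 19 .pp ⟨0, 0, 0, 0, 0, 0, 0, 16732879, 1571441, ⟨5113340, 1157652⟩, 17739746⟩ 142 179) (.pos 20 .pp ⟨0, 0, 0, 0, 0, 0, 0, 37674301, 852789, ⟨5113340, 1157652⟩, 19632256⟩ 142 179)) (.pos 17 .pp ⟨0, 0, 0, 0, 0, 0, 0, 42139564, 4901050, ⟨5590031, 450673⟩, 18567042⟩ 161 207)) (.pos 18 .pp ⟨0, 0, 0, 0, 0, 0, 0, 72228682, 1277040, ⟨5296720, 827053⟩, 22080058⟩ 142 207))) (.cut .d 18390411 (.cut .v 25165824 (.void 17 ⟨0, 0, 0, 0, 0, 0, 0, 0, 100000, ⟨0, 0⟩, 18567042⟩ 0 0) (.pos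 18 .pp ⟨0, 678565, 0, 0, 0, 0, 0, 169055767, 7937223, ⟨5864207, 85577⟩, 22080058⟩ 180 293)) (.void 16 ⟨0, 0, 0, 9880, 0, 0, 0, 0, 90120, ⟨0, 0⟩, 19951585⟩ 0 0))) (.cut .d 12260274 (.cut .d 6130137 (.cut .d 3065068 (.void 45 ⟨100000, 0, 0, 0, 0, 0, 0, 0, 0, ⟨0, 0⟩, 0⟩ 0 0) (.pos 45 .pp ⟨23330979, 0, 0, 0, 0, 0, 52978556, 0, 0, ⟨0, 0⟩, 0⟩ 0 0)) (.pos 45 .pp ⟨0, 0, 0, 0, 0, 0, 81956265, 0, 0, ⟨0, 0⟩, 0⟩ 0 0)) (.pos 45 .pp ⟨0, 32093097, 0, 0, 0, 0, 125470502, 0, 0, ⟨0, 0⟩, 0⟩ 0 0))))),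
    by decide +kernel⟩

def covers8 : cell.Covers table row8.1 :=
  ⟨(.cut .d 0 (.cut .v 16777216 (.cut .d (-8388608) (.void 1 ⟨0, 0, 0, 0, 0, 100000, 0, 0, 0, ⟨0, 0⟩, 0⟩ 0 0) (.cut .d (-4194304) (.void 1 ⟨0, 0, 0, 0, 0, 100000, 0, 0, 0, ⟨0, 0⟩, 0⟩ 0 0) (.cut .d (-2097152) (.void 1 ⟨0, 0, 0, 0, 0, 100000, 0, 0, 0, ⟨0, 0⟩, 0⟩ 0 0) (.cut .d (-1048576) (.void 1 ⟨0, 0, 0, 0, 0, 100000, 0, 0, 0, ⟨0, 0⟩, 0⟩ 0 0) (.cut .d (-524288) (.void 1 ⟨0, 0, 0, 0, 0, 100000, 0, 0, 0, ⟨0, 0⟩, 0⟩ 0 0) (.cut .v 8388608 (.cut .v 4194304 (.void 4 ⟨0, 0, 100000, 0, 0, 0, 0, 0, 0, ⟨0, 0⟩, 0⟩ 0 0) (.pos 5 .mm ⟨0, 0, 0, 0, 0, 3441733, 0, 0, 863049, ⟨0, 0⟩, 9975792⟩ 0 0)) (.cut .v 12582912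 (.pos 6 .mm ⟨0, 0, 0, 0, 0, 3524585, 0, 0, 0, ⟨0, 0⟩, 0⟩ 0 0) (.cut .v 14680064 (.pos 10 .mm ⟨0, 0, 0, 0, 0, 5403802, 0, 0, 0, ⟨0, 0⟩, 0⟩ 0 0) (.cut .v 15728640 (.pos 12 .mm ⟨0, 0, 0, 0, 0, 8699637, 0, 0, 0, ⟨0, 0⟩, 0⟩ 0 0) (.cut .v 16252928 (.pos 14 .mm ⟨0, 0, 0, 0, 0, 10151561, 0, 0, 0, ⟨0, 0⟩, 0⟩ 0 0) (.cut .s 7798784 (.cut .s 7667712 (.pos 15 .mm ⟨0, 0, 0, 0, 0, 8601631, 0, 0, 0, ⟨0, 0⟩, 0⟩ 0 0) (.pos 15 .mm ⟨0, 0, 0, 0, 0, 10052580, 0, 0, 0, ⟨0, 0⟩, 0⟩ 0 0)) (.cut .s 7929856 (.pos 15 .mm ⟨0, 0, 0, 0, 0, 11681635, 0, 0, 0, ⟨0, 0⟩, 0⟩ 0 0) (.pos 15 .mm ⟨0, 0, 0, 0, 0, 13480151, 0, 0, 0, ⟨0, 0⟩, 0⟩ 0 0))))))))))))) (.cut .v 33554432 (.cut .v 25165824 (.cut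 .v 20971520 (.cut .d (-8388608) (.void 19 ⟨0, 0, 0, 0, 0, 100000, 0, 0, 0, ⟨0, 0⟩, 0⟩ 0 0) (.cut .v 18874368 (.cut .d (-4194304) (.void 21 ⟨0, 0, 0, 0, 0, 100000, 0, 0, 0, ⟨0, 0⟩, 0⟩ 0 0) (.cut .d (-2097152) (.void 21 ⟨0, 0, 0, 0, 0, 100000, 0, 0, 0, ⟨0, 0⟩, 0⟩ 0 0) (.cut .d (-1048576) (.void 21 ⟨0, 0, 0, 0, 0, 100000, 0, 0, 0, ⟨0, 0⟩, 0⟩ 0 0) (.cut .d (-524288) (.void 21 ⟨0, 0, 0, 0, 0, 100000, 0, 0, 0, ⟨0, 0⟩, 0⟩ 0 0) (.cut .v 17825792 (.cut .s 7798784 (.cut .s 7667712 (.cut .v 17301504 (.cut .d (-262144) (.cut .s 7602176 (.pos 25 .mp ⟨4255067, 0, 0, 0, 0, 5326195, 0, 0, 0, ⟨0, 0⟩, 0⟩ 0 0) (.pos 25 .mp ⟨4710137, 0, 0, 0, 0, 5615531, 0, 0, 0, ⟨0, 0⟩, 0⟩ 0 0))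 (.cut .v 17039360 (.cut .l 1062557 (.cut .d (-131072) (.pos 27 .mp ⟨4241473, 0, 0, 0, 0, 5272165, 0, 0, 0, ⟨0, 0⟩, 0⟩ 0 0) (.cut .s 7602176 (.pos 27 .mp ⟨4798072, 0, 0, 0, 0, 3118404, 0, 0, 0, ⟨0, 0⟩, 0⟩ 0 0) (.pos 27 .mp ⟨5307218, 0, 0, 0, 0, 3246140, 0, 0, 0, ⟨0, 0⟩, 0⟩ 0 0))) (.pos 27 .mp ⟨0, 0, 0, 0, 0, 0, 0, 0, 0, ⟨0, 0⟩, 0⟩ 0 0)) (.pos 28 .mp ⟨8748366, 0, 0, 0, 0, 0, 0, 0, 0, ⟨0, 0⟩, 0⟩ 0 0))) (.pos 26 .mp ⟨9569169, 0, 0, 0, 0, 0, 0, 0, 0, ⟨0, 0⟩, 0⟩ 0 0)) (.cut .v 17301504 (.cut .d (-262144) (.cut .s 7733248 (.pos 25 .mp ⟨5085179, 0, 0, 0, 0, 6088971, 0, 0, 0, ⟨0, 0⟩, 0⟩ 0 0) (.pos 25 .mp ⟨5592057, 0, 0, 0, 0, 6402139, 0, 0, 0, ⟨0, 0⟩, 0⟩ 0 0)) (.cut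 .v 17039360 (.cut .l 1062557 (.cut .d (-131072) (.pos 27 .mp ⟨5155549, 0, 0, 0, 0, 5879395, 0, 0, 0, ⟨0, 0⟩, 0⟩ 0 0) (.cut .s 7733248 (.pos 27 .mp ⟨5843511, 0, 0, 0, 0, 3386734, 0, 0, 0, ⟨0, 0⟩, 0⟩ 0 0) (.pos 27 .mp ⟨6413861, 0, 0, 0, 0, 3530717, 0, 0, 0, ⟨0, 0⟩, 0⟩ 0 0))) (.pos 27 .mp ⟨0, 0, 0, 0, 0, 0, 0, 0, 0, ⟨0, 0⟩, 0⟩ 0 0)) (.pos 28 .mp ⟨10091390, 0, 0, 0, 0, 0, 0, 0, 0, ⟨0, 0⟩, 0⟩ 0 0))) (.pos 26 .mp ⟨11016563, 0, 0, 0, 0, 0, 0, 0, 0, ⟨0, 0⟩, 0⟩ 0 0))) (.cut .d (-262144) (.cut .v 17301504 (.cut .l 1062557 (.pos 25 .mp ⟨6649636, 0, 0, 0, 0, 18223560, 0, 0, 0, ⟨0, 0⟩, 0⟩ 0 0) (.cut .d (-393216) (.pos 25 .mp ⟨6836658, 0, 0, 0, 0, 8773982, 0, 0, 0, ⟨0, 0⟩,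 0⟩ 0 0) (.cut .s 7929856 (.pos 25 .mp ⟨6125270, 0, 0, 0, 0, 6945639, 0, 0, 0, ⟨0, 0⟩, 0⟩ 0 0) (.pos 25 .mp ⟨7326333, 0, 0, 0, 0, 7636647, 0, 0, 0, ⟨0, 0⟩, 0⟩ 0 0)))) (.pos 26 .mp ⟨14236770, 0, 0, 0, 0, 0, 0, 0, 0, ⟨0, 0⟩, 0⟩ 0 0)) (.cut .v 17301504 (.cut .l 1062557 (.cut .s 7929856 (.cut .v 17039360 (.cut .d (-131072) (.cut .s 7864320 (.pos 27 .mp ⟨6706950, 0, 0, 0, 0, 5226865, 0, 0, 0, ⟨0, 0⟩, 0⟩ 0 0) (.pos 27 .mp ⟨7256414, 0, 0, 0, 0, 5530504, 0, 0, 0, ⟨0, 0⟩, 0⟩ 0 0)) (.cut .d (-65536) (.cut .s 7864320 (.pos 27 .mp ⟨6378527, 0, 0, 0, 0, 5308947, 0, 0, 0, ⟨0, 0⟩, 0⟩ 0 0) (.pos 27 .mp ⟨6965277, 0, 0, 0, 0, 5566683, 0, 0, 0, ⟨0, 0⟩, 0⟩ 0 0)) (.pos 27 .mp ⟨6881584,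 0, 0, 0, 0, 0, 0, 0, 0, ⟨0, 0⟩, 0⟩ 0 0))) (.pos 28 .mp ⟨11891897, 0, 0, 0, 0, 0, 0, 0, 0, ⟨0, 0⟩, 0⟩ 0 0)) (.cut .v 17039360 (.cut .d (-131072) (.cut .s 7995392 (.pos 27 .mp ⟨7835474, 0, 0, 0, 0, 5840780, 0, 0, 0, ⟨0, 0⟩, 0⟩ 0 0) (.pos 27 .mp ⟨8447792, 0, 0, 0, 0, 6152477, 0, 0, 0, ⟨0, 0⟩, 0⟩ 0 0)) (.cut .d (-65536) (.cut .s 7995392 (.pos 27 .mp ⟨7618603, 0, 0, 0, 0, 5747885, 0, 0, 0, ⟨0, 0⟩, 0⟩ 0 0) (.pos 27 .mp ⟨8303805, 0, 0, 0, 0, 5924968, 0, 0, 0, ⟨0, 0⟩, 0⟩ 0 0)) (.pos 27 .mp ⟨8145904, 0, 0, 0, 0, 0, 0, 0, 0, ⟨0, 0⟩, 0⟩ 0 0))) (.pos 28 .mp ⟨13541786, 0, 0, 0, 0, 0, 0, 0, 0, ⟨0, 0⟩, 0⟩ 0 0))) (.pos 25 .mp ⟨8374280, 0, 0, 0, 0, 2344719, 0, 0, 0, ⟨0, 0⟩,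 0⟩ 0 0)) (.pos 26 .mp ⟨12754675, 0, 0, 0, 0, 0, 0, 0, 0, ⟨0, 0⟩, 0⟩ 0 0)))) (.pos 24 .mp ⟨14197287, 0, 0, 0, 0, 0, 0, 0, 0, ⟨0, 0⟩, 0⟩ 0 0)))))) (.void 22 ⟨100000, 0, 0, 0, 0, 0, 0, 0, 0, ⟨0, 0⟩, 0⟩ 0 0))) (.void 20 ⟨100000, 0, 0, 0, 0, 0, 0, 0, 0, ⟨0, 0⟩, 0⟩ 0 0)) (.void 18 ⟨100000, 0, 0, 0, 0, 0, 0, 0, 0, ⟨0, 0⟩, 0⟩ 0 0)) (.void 45 ⟨100000, 0, 0, 0, 0, 0, 0, 0, 0, ⟨0, 0⟩, 0⟩ 0 0))) (.cut .v 16777216 (.cut .v 8388608 (.cut .v 4194304 (.void 4 ⟨0, 0, 50000, 0, 50000, 0, 0, 0, 0, ⟨0, 0⟩, 0⟩ 0 0) (.pos 5 .pm ⟨0, 0, 0, 0, 0, 0, 0, 0, 1315725, ⟨0, 0⟩, 9975792⟩ 0 0)) (.cut .d 10285164 (.cut .v 12582912 (.pos 6 .pm ⟨0, 0, 0, 0, 0, 0, 0, 2412838, 155223, ⟨4636337,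 1682382⟩, 13128881⟩ 115 205) (.cut .d 5142582 (.pos 7 .pm ⟨0, 0, 0, 0, 0, 0, 0, 0, 0, ⟨0, 0⟩, 0⟩ 0 0) (.pos 7 .pm ⟨0, 0, 0, 0, 0, 0, 0, 0, 2071960, ⟨0, 0⟩, 15612959⟩ 0 0))) (.void 3 ⟨0, 0, 0, 0, 0, 0, 0, 0, 100000, ⟨0, 0⟩, 14107901⟩ 0 0))) (.cut .v 33554432 (.cut .d 10285164 (.cut .d 5142582 (.cut .d 2571291 (.cut .v 25165824 (.cut .d 1285645 (.cut .v 20971520 (.cut .v 18874368 (.cut .s 7798784 (.pos 21 .pp ⟨5866088, 0, 0, 0, 0, 0, 0, 0, 0, ⟨0, 0⟩, 0⟩ 0 0) (.pos 21 .pp ⟨8679878, 0, 0, 0, 0, 0, 0, 0, 0, ⟨0, 0⟩, 0⟩ 0 0)) (.pos 22 .pp ⟨11654702, 0, 0, 0, 0, 0, 0, 0, 0, ⟨0, 0⟩, 0⟩ 0 0)) (.pos 20 .pp ⟨19766918, 0, 0, 0, 0, 0, 0, 0, 0, ⟨0, 0⟩, 0⟩ 0 0)) (.pos 17 .pp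 ⟨0, 0, 0, 0, 0, 0, 0, 4049417, 0, ⟨4067581, 3042964⟩, 0⟩ 123 142)) (.pos 18 .pp ⟨40996061, 0, 0, 0, 0, 0, 0, 0, 0, ⟨0, 0⟩, 0⟩ 0 0)) (.pos 16 .pp ⟨0, 0, 0, 0, 0, 0, 0, 4627905, 0, ⟨4648225, 1948204⟩, 0⟩ 132 161)) (.cut .v 25165824 (.pos 17 .pp ⟨0, 0, 0, 0, 0, 0, 0, 82221, 1842923, ⟨5429231, 659809⟩, 18567042⟩ 150 205) (.pos 18 .pp ⟨0, 0, 0, 0, 0, 0, 0, 5206394, 0, ⟨5429231, 659809⟩, 0⟩ 150 205))) (.cut .v 25165824 (.pos 17 .pp ⟨0, 0, 0, 0, 0, 0, 0, 0, 10095464, ⟨0, 0⟩, 18567042⟩ 0 0) (.pos 18 .pp ⟨0, 964296, 0, 0, 0, 0, 0, 0, 8021257, ⟨0, 0⟩, 22080058⟩ 0 0))) (.cut .v 50331648 (.cut .d 10285164 (.cut .d 5142582 (.cut .d 2571291 (.void 48 ⟨100000, 0, 0, 0, 0,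 0, 0, 0, 0, ⟨0, 0⟩, 0⟩ 0 0) (.pos 48 .pp ⟨38609451, 0, 0, 0, 0, 0, 26649506, 0, 0, ⟨0, 0⟩, 0⟩ 0 0)) (.pos 48 .pp ⟨0, 0, 0, 0, 0, 0, 1822235, 0, 0, ⟨0, 0⟩, 0⟩ 0 0)) (.pos 48 .pp ⟨0, 18615850, 0, 0, 0, 0, 1822235, 0, 0, ⟨0, 0⟩, 0⟩ 0 0)) (.void 49 ⟨0, 0, 0, 0, 0, 0, 100000, 0, 0, ⟨0, 0⟩, 0⟩ 0 0))))),
    by decide +kernel⟩

def covers9 : cell.Covers table row9.1 :=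
  ⟨(.cut .d 0 (.cut .v 16777216 (.cut .d (-8388608) (.void 1 ⟨0, 0, 0, 0, 0, 100000, 0, 0, 0, ⟨0, 0⟩, 0⟩ 0 0) (.cut .d (-4194304) (.void 1 ⟨0, 0, 0, 0, 0, 100000, 0, 0, 0, ⟨0, 0⟩, 0⟩ 0 0) (.cut .d (-2097152) (.void 1 ⟨0, 0, 0, 0, 0, 100000, 0, 0, 0, ⟨0, 0⟩, 0⟩ 0 0) (.cut .d (-1048576) (.void 1 ⟨0, 0, 0, 0, 0, 100000, 0, 0, 0, ⟨0, 0⟩, 0⟩ 0 0) (.cut .d (-524288) (.void 1 ⟨0, 0, 0, 0, 0, 100000, 0, 0, 0, ⟨0, 0⟩, 0⟩ 0 0) (.cut .v 8388608 (.cut .v 4194304 (.void 4 ⟨0, 0, 100000, 0, 0, 0, 0, 0, 0, ⟨0, 0⟩, 0⟩ 0 0) (.pos 5 .mm ⟨0, 0, 0, 0, 0, 3016924, 0, 0, 0, ⟨0, 0⟩, 0⟩ 0 0)) (.cut .v 12582912 (.pos 6 .mm ⟨0, 0, 0, 0, 0, 6680048, 0, 0, 0, ⟨0, 0⟩, 0⟩ 0 0) (.cut .d (-262144)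 (.pos 7 .mm ⟨0, 0, 0, 0, 0, 23118528, 0, 0, 0, ⟨0, 0⟩, 0⟩ 0 0) (.cut .s 8323072 (.pos 7 .mm ⟨0, 0, 0, 0, 0, 16500581, 0, 0, 0, ⟨0, 0⟩, 0⟩ 0 0) (.pos 7 .mm ⟨0, 0, 0, 0, 0, 21609365, 0, 0, 0, ⟨0, 0⟩, 0⟩ 0 0)))))))))) (.cut .v 33554432 (.cut .v 25165824 (.cut .v 20971520 (.cut .d (-8388608) (.void 19 ⟨0, 0, 0, 0, 0, 100000, 0, 0, 0, ⟨0, 0⟩, 0⟩ 0 0) (.cut .v 18874368 (.cut .d (-4194304) (.void 21 ⟨0, 0, 0, 0, 0, 100000, 0, 0, 0, ⟨0, 0⟩, 0⟩ 0 0) (.cut .d (-2097152) (.void 21 ⟨0, 0, 0, 0, 0, 100000, 0, 0, 0, ⟨0, 0⟩, 0⟩ 0 0) (.cut .d (-1048576) (.void 21 ⟨0, 0, 0, 0, 0, 100000, 0, 0, 0, ⟨0, 0⟩, 0⟩ 0 0) (.cut .d (-524288) (.void 21 ⟨0, 0, 0, 0, 0, 100000, 0, 0, 0, ⟨0,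 0⟩, 0⟩ 0 0) (.cut .v 17825792 (.cut .s 8323072 (.cut .d (-262144) (.cut .v 17301504 (.cut .d (-393216) (.pos 25 .mp ⟨9628374, 0, 0, 0, 0, 10941648, 0, 0, 0, ⟨0, 0⟩, 0⟩ 0 0) (.cut .l 1062557 (.void 25 ⟨0, 0, 0, 0, 0, 100000, 0, 0, 0, ⟨0, 0⟩, 0⟩ 0 0) (.cut .v 17039360 (.pos 27 .mp ⟨0, 0, 0, 0, 0, 18613822, 0, 0, 0, ⟨0, 0⟩, 0⟩ 0 0) (.cut .s 8192000 (.pos 28 .mp ⟨12281088, 0, 0, 0, 0, 3483469, 0, 0, 0, ⟨0, 0⟩, 0⟩ 0 0) (.cut .s 8257536 (.pos 28 .mp ⟨13223440, 0, 0, 0, 0, 4215390, 0, 0, 0, ⟨0, 0⟩, 0⟩ 0 0) (.pos 28 .mp ⟨14210745, 0, 0, 0, 0, 4330169, 0, 0, 0, ⟨0, 0⟩, 0⟩ 0 0)))))) (.pos 26 .mp ⟨18409839, 0, 0, 0, 0, 0, 0, 0, 0, ⟨0, 0⟩, 0⟩ 0 0)) (.cut .s 8192000 (.cut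 .v 17301504 (.cut .l 1062557 (.cut .v 17039360 (.cut .d (-131072) (.cut .s 8126464 (.pos 27 .mp ⟨9081119, 0, 0, 0, 0, 6493182, 0, 0, 0, ⟨0, 0⟩, 0⟩ 0 0) (.pos 27 .mp ⟨9758399, 0, 0, 0, 0, 6844791, 0, 0, 0, ⟨0, 0⟩, 0⟩ 0 0)) (.cut .d (-65536) (.cut .s 8126464 (.pos 27 .mp ⟨9042535, 0, 0, 0, 0, 6078120, 0, 0, 0, ⟨0, 0⟩, 0⟩ 0 0) (.pos 27 .mp ⟨9834604, 0, 0, 0, 0, 6220063, 0, 0, 0, ⟨0, 0⟩, 0⟩ 0 0)) (.pos 27 .mp ⟨9552930, 0, 0, 0, 0, 0, 0, 0, 0, ⟨0, 0⟩, 0⟩ 0 0))) (.pos 28 .mp ⟨15350654, 0, 0, 0, 0, 0, 0, 0, 0, ⟨0, 0⟩, 0⟩ 0 0)) (.pos 25 .mp ⟨10467443, 0, 0, 0, 0, 3507196, 0, 0, 0, ⟨0, 0⟩, 0⟩ 0 0)) (.pos 26 .mp ⟨15514901, 0, 0, 0, 0, 0, 0, 0, 0, ⟨0, 0⟩, 0⟩ 0 0)) (.cut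 .v 17301504 (.cut .l 1062557 (.cut .v 17039360 (.cut .d (-131072) (.cut .s 8257536 (.pos 27 .mp ⟨10454037, 0, 0, 0, 0, 7237523, 0, 0, 0, ⟨0, 0⟩, 0⟩ 0 0) (.pos 27 .mp ⟨10328918, 0, 0, 0, 0, 9116890, 0, 0, 0, ⟨0, 0⟩, 0⟩ 0 0)) (.cut .d (-65536) (.cut .s 8257536 (.pos 27 .mp ⟨10673340, 0, 0, 0, 0, 6357907, 0, 0, 0, ⟨0, 0⟩, 0⟩ 0 0) (.pos 27 .mp ⟨11555756, 0, 0, 0, 0, 6496371, 0, 0, 0, ⟨0, 0⟩, 0⟩ 0 0)) (.pos 27 .mp ⟨10980554, 0, 0, 0, 0, 4543528, 0, 0, 0, ⟨0, 0⟩, 0⟩ 0 0))) (.pos 28 .mp ⟨17352882, 0, 0, 0, 0, 0, 0, 0, 0, ⟨0, 0⟩, 0⟩ 0 0)) (.pos 25 .mp ⟨12337099, 0, 0, 0, 0, 3529180, 0, 0, 0, ⟨0, 0⟩, 0⟩ 0 0)) (.pos 26 .mp ⟨17531212, 0, 0, 0, 0, 0, 0, 0, 0, ⟨0, 0⟩, 0⟩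 0 0)))) (.cut .d (-262144) (.cut .v 17301504 (.cut .d (-393216) (.void 25 ⟨0, 0, 0, 0, 0, 100000, 0, 0, 0, ⟨0, 0⟩, 0⟩ 0 0) (.cut .l 1062557 (.void 25 ⟨0, 0, 0, 0, 0, 100000, 0, 0, 0, ⟨0, 0⟩, 0⟩ 0 0) (.cut .v 17039360 (.pos 27 .mp ⟨0, 0, 0, 0, 0, 24503937, 0, 0, 0, ⟨0, 0⟩, 0⟩ 0 0) (.cut .s 8454144 (.cut .s 8388608 (.pos 28 .mp ⟨15243818, 0, 0, 0, 0, 4448048, 0, 0, 0, ⟨0, 0⟩, 0⟩ 0 0) (.pos 28 .mp ⟨12858556, 0, 0, 0, 0, 9396985, 0, 0, 0, ⟨0, 0⟩, 0⟩ 0 0)) (.cut .s 8519680 (.pos 28 .mp ⟨13782216, 0, 0, 0, 0, 9819654, 0, 0, 0, ⟨0, 0⟩, 0⟩ 0 0) (.pos 28 .mp ⟨14745724, 0, 0, 0, 0, 10254843, 0, 0, 0, ⟨0, 0⟩, 0⟩ 0 0)))))) (.pos 26 .mp ⟨23715278, 0, 0, 0, 0, 0, 0, 0, 0,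 ⟨0, 0⟩, 0⟩ 0 0)) (.cut .s 8454144 (.cut .v 17301504 (.cut .l 1062557 (.cut .v 17039360 (.cut .d (-131072) (.cut .s 8388608 (.pos 27 .mp ⟨11088285, 0, 0, 0, 0, 9558598, 0, 0, 0, ⟨0, 0⟩, 0⟩ 0 0) (.pos 27 .mp ⟨11881523, 0, 0, 0, 0, 10019646, 0, 0, 0, ⟨0, 0⟩, 0⟩ 0 0)) (.cut .d (-65536) (.cut .s 8388608 (.pos 27 .mp ⟨12478625, 0, 0, 0, 0, 6640618, 0, 0, 0, ⟨0, 0⟩, 0⟩ 0 0) (.pos 27 .mp ⟨13438465, 0, 0, 0, 0, 6796293, 0, 0, 0, ⟨0, 0⟩, 0⟩ 0 0)) (.pos 27 .mp ⟨12668486, 0, 0, 0, 0, 4937819, 0, 0, 0, ⟨0, 0⟩, 0⟩ 0 0))) (.pos 28 .mp ⟨19548575, 0, 0, 0, 0, 0, 0, 0, 0, ⟨0, 0⟩, 0⟩ 0 0)) (.pos 25 .mp ⟨14348753, 0, 0, 0, 0, 3622253, 0, 0, 0, ⟨0, 0⟩, 0⟩ 0 0)) (.pos 26 .mp ⟨19741739,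 0, 0, 0, 0, 0, 0, 0, 0, ⟨0, 0⟩, 0⟩ 0 0)) (.cut .v 17301504 (.cut .l 1062557 (.cut .v 17039360 (.cut .d (-131072) (.cut .s 8519680 (.pos 27 .mp ⟨12709258, 0, 0, 0, 0, 10500538, 0, 0, 0, ⟨0, 0⟩, 0⟩ 0 0) (.pos 27 .mp ⟨13572140, 0, 0, 0, 0, 11001792, 0, 0, 0, ⟨0, 0⟩, 0⟩ 0 0)) (.cut .l 685069 (.cut .d (-65536) (.cut .s 8519680 (.pos 27 .mp ⟨14431513, 0, 0, 0, 0, 6969563, 0, 0, 0, ⟨0, 0⟩, 0⟩ 0 0) (.pos 27 .mp ⟨15453710, 0, 0, 0, 0, 7167149, 0, 0, 0, ⟨0, 0⟩, 0⟩ 0 0)) (.cut .s 8519680 (.pos 27 .mp ⟨13713935, 0, 0, 0, 0, 6178317, 0, 0, 0, ⟨0, 0⟩, 0⟩ 0 0) (.pos 27 .mp ⟨14630764, 0, 0, 0, 0, 6477943, 0, 0, 0, ⟨0, 0⟩, 0⟩ 0 0))) (.pos 27 .mp ⟨14123343, 0, 0, 0, 0, 0, 0,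 0, 0, ⟨0, 0⟩, 0⟩ 0 0))) (.pos 28 .mp ⟨21929184, 0, 0, 0, 0, 0, 0, 0, 0, ⟨0, 0⟩, 0⟩ 0 0)) (.pos 25 .mp ⟨16502302, 0, 0, 0, 0, 3770670, 0, 0, 0, ⟨0, 0⟩, 0⟩ 0 0)) (.pos 26 .mp ⟨22142606, 0, 0, 0, 0, 0, 0, 0, 0, ⟨0, 0⟩, 0⟩ 0 0))))) (.cut .s 8323072 (.pos 24 .mp ⟨19337635, 0, 0, 0, 0, 0, 0, 0, 0, ⟨0, 0⟩, 0⟩ 0 0) (.pos 24 .mp ⟨24634540, 0, 0, 0, 0, 0, 0, 0, 0, ⟨0, 0⟩, 0⟩ 0 0))))))) (.void 22 ⟨100000, 0, 0, 0, 0, 0, 0, 0, 0, ⟨0, 0⟩, 0⟩ 0 0))) (.void 20 ⟨100000, 0, 0, 0, 0, 0, 0, 0, 0, ⟨0, 0⟩, 0⟩ 0 0)) (.void 18 ⟨100000, 0, 0, 0, 0, 0, 0, 0, 0, ⟨0, 0⟩, 0⟩ 0 0)) (.void 45 ⟨100000, 0, 0, 0, 0, 0, 0, 0, 0, ⟨0, 0⟩, 0⟩ 0 0))) (.cut .v 16777216 (.cut .v 8388608 (.cut .v 4194304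 (.void 4 ⟨0, 0, 50000, 0, 50000, 0, 0, 0, 0, ⟨0, 0⟩, 0⟩ 0 0) (.pos 5 .pm ⟨0, 0, 0, 0, 0, 0, 0, 0, 2673159, ⟨0, 0⟩, 9975792⟩ 0 0)) (.cut .d 9070610 (.cut .v 12582912 (.pos 6 .pm ⟨0, 0, 0, 0, 0, 0, 0, 0, 0, ⟨0, 0⟩, 0⟩ 0 0) (.pos 7 .pm ⟨0, 0, 0, 0, 0, 0, 0, 0, 0, ⟨0, 0⟩, 0⟩ 0 0)) (.pos 3 .pm ⟨0, 0, 0, 0, 0, 0, 0, 0, 13857540, ⟨0, 0⟩, 14107901⟩ 0 0))) (.cut .v 33554432 (.cut .d 9070610 (.cut .d 4535305 (.cut .d 2267652 (.cut .v 25165824 (.cut .d 1133826 (.cut .v 20971520 (.cut .d 566913 (.cut .v 18874368 (.cut .s 8323072 (.pos 21 .pp ⟨12021891, 0, 0, 0, 0, 0, 0, 0, 0, ⟨0, 0⟩, 0⟩ 0 0) (.pos 21 .pp ⟨15959725, 0, 0, 0, 0, 0, 0, 0, 0, ⟨0, 0⟩, 0⟩ 0 0)) (.pos 22 .pp ⟨21996604,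 0, 0, 0, 0, 0, 0, 0, 0, ⟨0, 0⟩, 0⟩ 0 0)) (.pos 19 .pp ⟨6021512, 0, 0, 0, 0, 0, 0, 0, 0, ⟨0, 0⟩, 0⟩ 0 0)) (.pos 20 .pp ⟨33158508, 0, 0, 0, 0, 0, 0, 0, 0, ⟨0, 0⟩, 0⟩ 0 0)) (.pos 17 .pp ⟨710659, 0, 0, 0, 0, 0, 1366743, 0, 0, ⟨0, 0⟩, 0⟩ 0 0)) (.cut .d 1133826 (.void 18 ⟨100000, 0, 0, 0, 0, 0, 0, 0, 0, ⟨0, 0⟩, 0⟩ 0 0) (.pos 18 .pp ⟨43353990, 0, 0, 0, 0, 0, 0, 0, 0, ⟨0, 0⟩, 0⟩ 0 0))) (.pos 16 .pp ⟨0, 0, 0, 0, 0, 0, 0, 7434746, 0, ⟨4899373, 1526262⟩, 0⟩ 139 167)) (.pos 16 .pp ⟨0, 0, 0, 0, 0, 0, 0, 4056605, 631398, ⟨5539811, 509829⟩, 19951585⟩ 156 212)) (.cut .v 25165824 (.pos 17 .pp ⟨0, 0, 0, 0, 0, 0, 0, 0, 10945279, ⟨0, 0⟩, 18567042⟩ 0 0) (.pos 18 .pp ⟨0, 16932814,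 0, 0, 0, 0, 1836070, 0, 0, ⟨0, 0⟩, 0⟩ 0 0))) (.cut .d 9070610 (.cut .d 4535305 (.cut .d 2267652 (.pos 45 .pp ⟨379275879, 0, 0, 0, 0, 0, 0, 0, 0, ⟨0, 0⟩, 0⟩ 0 0) (.cut .v 50331648 (.cut .v 41943040 (.pos 50 .pp ⟨54253972, 0, 0, 0, 0, 0, 0, 0, 0, ⟨0, 0⟩, 0⟩ 0 0) (.pos 51 .pp ⟨124422424, 0, 0, 0, 0, 0, 0, 0, 0, ⟨0, 0⟩, 0⟩ 0 0)) (.pos 49 .pp ⟨191823410, 0, 0, 0, 0, 0, 115956675, 0, 0, ⟨0, 0⟩, 0⟩ 0 0))) (.pos 45 .pp ⟨0, 0, 0, 0, 0, 0, 17686263, 0, 0, ⟨0, 0⟩, 0⟩ 0 0)) (.pos 45 .pp ⟨0, 3751592, 0, 0, 0, 0, 2448093, 0, 0, ⟨0, 0⟩, 0⟩ 0 0))))),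
    by decide +kernel⟩

def covers10 : cell.Covers table row10.1 :=
  ⟨(.cut .d 0 (.cut .v 16777216 (.cut .d (-8388608) (.void 1 ⟨0, 0, 0, 0, 0, 100000, 0, 0, 0, ⟨0, 0⟩, 0⟩ 0 0) (.cut .d (-4194304) (.void 1 ⟨0, 0, 0, 0, 0, 100000, 0, 0, 0, ⟨0, 0⟩, 0⟩ 0 0) (.cut .d (-2097152) (.void 1 ⟨0, 0, 0, 0, 0, 100000, 0, 0, 0, ⟨0, 0⟩, 0⟩ 0 0) (.cut .d (-1048576) (.void 1 ⟨0, 0, 0, 0, 0, 100000, 0, 0, 0, ⟨0, 0⟩, 0⟩ 0 0) (.cut .d (-524288) (.void 1 ⟨0, 0, 0, 0, 0, 100000, 0, 0, 0, ⟨0, 0⟩, 0⟩ 0 0) (.cut .v 8388608 (.cut .v 4194304 (.void 4 ⟨0, 0, 100000, 0, 0, 0, 0, 0, 0, ⟨0, 0⟩, 0⟩ 0 0) (.pos 5 .mm ⟨0, 0, 0, 0, 0, 5470016, 0, 0, 0, ⟨0, 0⟩, 0⟩ 0 0)) (.cut .s 8814592 (.pos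 3 .mm ⟨0, 0, 0, 0, 0, 28499803, 0, 0, 0, ⟨0, 0⟩, 0⟩ 0 0) (.pos 3 .mm ⟨0, 0, 0, 0, 0, 35272727, 0, 0, 0, ⟨0, 0⟩, 0⟩ 0 0)))))))) (.cut .v 67108864 (.cut .v 33554432 (.cut .v 25165824 (.cut .v 20971520 (.cut .d (-8388608) (.void 19 ⟨0, 0, 0, 0, 0, 100000, 0, 0, 0, ⟨0, 0⟩, 0⟩ 0 0) (.cut .v 18874368 (.cut .d (-4194304) (.void 21 ⟨0, 0, 0, 0, 0, 100000, 0, 0, 0, ⟨0, 0⟩, 0⟩ 0 0) (.cut .d (-2097152) (.void 21 ⟨0, 0, 0, 0, 0, 100000, 0, 0, 0, ⟨0, 0⟩, 0⟩ 0 0) (.cut .d (-1048576) (.void 21 ⟨0, 0, 0, 0, 0, 100000, 0, 0, 0, ⟨0, 0⟩, 0⟩ 0 0) (.cut .d (-524288) (.void 21 ⟨0, 0, 0, 0, 0, 100000, 0, 0, 0, ⟨0, 0⟩, 0⟩ 0 0) (.cut .v 17825792 (.cut .d (-262144) (.cut .d (-393216)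 (.void 23 ⟨0, 0, 0, 0, 0, 100000, 0, 0, 0, ⟨0, 0⟩, 0⟩ 0 0) (.cut .l 1062557 (.void 23 ⟨0, 0, 0, 0, 0, 100000, 0, 0, 0, ⟨0, 0⟩, 0⟩ 0 0) (.cut .v 17301504 (.cut .s 8814592 (.cut .l 1440044 (.pos 25 .mp ⟨16124205, 0, 0, 0, 0, 15498839, 0, 0, 0, ⟨0, 0⟩, 0⟩ 0 0) (.cut .s 8699904 (.pos 25 .mp ⟨15362706, 0, 0, 0, 0, 11831351, 0, 0, 0, ⟨0, 0⟩, 0⟩ 0 0) (.cut .s 8757248 (.pos 25 .mp ⟨17170533, 0, 0, 0, 0, 11876760, 0, 0, 0, ⟨0, 0⟩, 0⟩ 0 0) (.pos 25 .mp ⟨18128120, 0, 0, 0, 0, 12412894, 0, 0, 0, ⟨0, 0⟩, 0⟩ 0 0)))) (.cut .d (-327680) (.pos 25 .mp ⟨20169179, 0, 0, 0, 0, 19301004, 0, 0, 0, ⟨0, 0⟩, 0⟩ 0 0) (.cut .v 17039360 (.pos 27 .mp ⟨0, 0, 0, 0, 0, 39706636, 0, 0, 0, ⟨0,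 0⟩, 0⟩ 0 0) (.cut .s 8929280 (.cut .s 8871936 (.pos 28 .mp ⟨19630666, 0, 0, 0, 0, 12234931, 0, 0, 0, ⟨0, 0⟩, 0⟩ 0 0) (.pos 28 .mp ⟨20695266, 0, 0, 0, 0, 12735066, 0, 0, 0, ⟨0, 0⟩, 0⟩ 0 0)) (.pos 28 .mp ⟨21798825, 0, 0, 0, 0, 14790959, 0, 0, 0, ⟨0, 0⟩, 0⟩ 0 0))))) (.cut .s 8814592 (.pos 26 .mp ⟨27774453, 0, 0, 0, 0, 0, 0, 0, 0, ⟨0, 0⟩, 0⟩ 0 0) (.pos 26 .mp ⟨34290691, 0, 0, 0, 0, 0, 0, 0, 0, ⟨0, 0⟩, 0⟩ 0 0))))) (.cut .s 8814592 (.cut .v 17301504 (.cut .s 8699904 (.cut .l 1062557 (.cut .v 17039360 (.cut .d (-131072) (.cut .s 8642560 (.pos 27 .mp ⟨14469714, 0, 0, 0, 0, 11425124, 0, 0, 0, ⟨0, 0⟩, 0⟩ 0 0) (.pos 27 .mp ⟨15288302, 0, 0, 0, 0, 11920261, 0, 0, 0, ⟨0,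 0⟩, 0⟩ 0 0)) (.cut .l 685069 (.cut .d (-65536) (.cut .s 8642560 (.pos 27 .mp ⟨15047297, 0, 0, 0, 0, 9698565, 0, 0, 0, ⟨0, 0⟩, 0⟩ 0 0) (.pos 27 .mp ⟨15863331, 0, 0, 0, 0, 10162163, 0, 0, 0, ⟨0, 0⟩, 0⟩ 0 0)) (.cut .s 8642560 (.pos 27 .mp ⟨15503109, 0, 0, 0, 0, 6866344, 0, 0, 0, ⟨0, 0⟩, 0⟩ 0 0) (.pos 27 .mp ⟨16386444, 0, 0, 0, 0, 7134622, 0, 0, 0, ⟨0, 0⟩, 0⟩ 0 0))) (.pos 27 .mp ⟨16089150, 0, 0, 0, 0, 0, 0, 0, 0, ⟨0, 0⟩, 0⟩ 0 0))) (.pos 28 .mp ⟨24341188, 0, 0, 0, 0, 0, 0, 0, 0, ⟨0, 0⟩, 0⟩ 0 0)) (.cut .v 17039360 (.pos 27 .mp ⟨12848523, 0, 0, 0, 0, 11429463, 0, 0, 0, ⟨0, 0⟩, 0⟩ 0 0) (.pos 28 .mp ⟨18884246, 0, 0, 0, 0, 5087538, 0, 0, 0, ⟨0, 0⟩, 0⟩ 0 0))) (.cut .l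 1062557 (.cut .v 17039360 (.cut .d (-131072) (.cut .s 8757248 (.pos 27 .mp ⟨16138351, 0, 0, 0, 0, 12437305, 0, 0, 0, ⟨0, 0⟩, 0⟩ 0 0) (.pos 27 .mp ⟨17020400, 0, 0, 0, 0, 12976789, 0, 0, 0, ⟨0, 0⟩, 0⟩ 0 0)) (.cut .l 685069 (.cut .d (-65536) (.cut .s 8757248 (.pos 27 .mp ⟨16703343, 0, 0, 0, 0, 10662589, 0, 0, 0, ⟨0, 0⟩, 0⟩ 0 0) (.pos 27 .mp ⟨17570548, 0, 0, 0, 0, 11194577, 0, 0, 0, ⟨0, 0⟩, 0⟩ 0 0)) (.cut .s 8757248 (.pos 27 .mp ⟨17300477, 0, 0, 0, 0, 7430828, 0, 0, 0, ⟨0, 0⟩, 0⟩ 0 0) (.pos 27 .mp ⟨18245768, 0, 0, 0, 0, 7752340, 0, 0, 0, ⟨0, 0⟩, 0⟩ 0 0))) (.pos 27 .mp ⟨17696185, 0, 0, 0, 0, 7179054, 0, 0, 0, ⟨0, 0⟩, 0⟩ 0 0))) (.pos 28 .mp ⟨26809657, 0, 0, 0, 0,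 0, 0, 0, 0, ⟨0, 0⟩, 0⟩ 0 0)) (.cut .s 8757248 (.pos 25 .mp ⟨19444554, 0, 0, 0, 0, 5786102, 0, 0, 0, ⟨0, 0⟩, 0⟩ 0 0) (.pos 25 .mp ⟨20502829, 0, 0, 0, 0, 6031078, 0, 0, 0, ⟨0, 0⟩, 0⟩ 0 0)))) (.cut .s 8699904 (.pos 26 .mp ⟨24597965, 0, 0, 0, 0, 0, 0, 0, 0, ⟨0, 0⟩, 0⟩ 0 0) (.pos 26 .mp ⟨27082172, 0, 0, 0, 0, 0, 0, 0, 0, ⟨0, 0⟩, 0⟩ 0 0))) (.cut .v 17301504 (.cut .s 8929280 (.cut .s 8871936 (.cut .v 17039360 (.cut .d (-131072) (.pos 27 .mp ⟨17596870, 0, 0, 0, 0, 13214244, 0, 0, 0, ⟨0, 0⟩, 0⟩ 0 0) (.cut .d (-65536) (.cut .s 8843264 (.pos 27 .mp ⟨18726843, 0, 0, 0, 0, 10749650, 0, 0, 0, ⟨0, 0⟩, 0⟩ 0 0) (.pos 27 .mp ⟨19220138, 0, 0, 0, 0, 10955850, 0, 0, 0, ⟨0, 0⟩, 0⟩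 0 0)) (.pos 27 .mp ⟨19222894, 0, 0, 0, 0, 8096543, 0, 0, 0, ⟨0, 0⟩, 0⟩ 0 0))) (.pos 28 .mp ⟨26875838, 0, 0, 0, 0, 1667300, 0, 0, 0, ⟨0, 0⟩, 0⟩ 0 0)) (.cut .v 17039360 (.cut .d (-131072) (.pos 27 .mp ⟨18434511, 0, 0, 0, 0, 13927451, 0, 0, 0, ⟨0, 0⟩, 0⟩ 0 0) (.cut .d (-65536) (.cut .s 8900608 (.pos 27 .mp ⟨19757200, 0, 0, 0, 0, 11119517, 0, 0, 0, ⟨0, 0⟩, 0⟩ 0 0) (.pos 27 .mp ⟨20302022, 0, 0, 0, 0, 11289303, 0, 0, 0, ⟨0, 0⟩, 0⟩ 0 0)) (.pos 27 .mp ⟨20223163, 0, 0, 0, 0, 8479630, 0, 0, 0, ⟨0, 0⟩, 0⟩ 0 0))) (.pos 28 .mp ⟨28109081, 0, 0, 0, 0, 1819644, 0, 0, 0, ⟨0, 0⟩, 0⟩ 0 0))) (.cut .v 17039360 (.cut .d (-131072) (.cut .s 8986624 (.pos 27 .mp ⟨19312148, 0, 0, 0,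 0, 14655517, 0, 0, 0, ⟨0, 0⟩, 0⟩ 0 0) (.pos 27 .mp ⟨20236432, 0, 0, 0, 0, 15389241, 0, 0, 0, ⟨0, 0⟩, 0⟩ 0 0)) (.cut .l 1062557 (.cut .l 685069 (.cut .d (-65536) (.cut .s 8986624 (.pos 27 .mp ⟨20367347, 0, 0, 0, 0, 12926582, 0, 0, 0, ⟨0, 0⟩, 0⟩ 0 0) (.pos 27 .mp ⟨21375339, 0, 0, 0, 0, 13531242, 0, 0, 0, ⟨0, 0⟩, 0⟩ 0 0)) (.cut .d (-32768) (.cut .s 8986624 (.pos 27 .mp ⟨21245633, 0, 0, 0, 0, 9023856, 0, 0, 0, ⟨0, 0⟩, 0⟩ 0 0) (.cut .s 9015296 (.pos 27 .mp ⟨21769802, 0, 0, 0, 0, 9998647, 0, 0, 0, ⟨0, 0⟩, 0⟩ 0 0) (.pos 27 .mp ⟨22302702, 0, 0, 0, 0, 10234264, 0, 0, 0, ⟨0, 0⟩, 0⟩ 0 0))) (.pos 27 .mp ⟨20334357, 0, 0, 0, 0, 0, 0, 0, 0, ⟨0, 0⟩, 0⟩ 0 0))) (.pos 27 .mp ⟨22067461,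 0, 0, 0, 0, 8196600, 0, 0, 0, ⟨0, 0⟩, 0⟩ 0 0)) (.pos 27 .mp ⟨0, 0, 0, 0, 0, 0, 0, 0, 0, ⟨0, 0⟩, 0⟩ 0 0))) (.cut .s 8986624 (.pos 28 .mp ⟨29389255, 0, 0, 0, 0, 1974747, 0, 0, 0, ⟨0, 0⟩, 0⟩ 0 0) (.pos 28 .mp ⟨30727858, 0, 0, 0, 0, 2118111, 0, 0, 0, ⟨0, 0⟩, 0⟩ 0 0)))) (.cut .s 8929280 (.pos 26 .mp ⟨29766612, 0, 0, 0, 0, 0, 0, 0, 0, ⟨0, 0⟩, 0⟩ 0 0) (.pos 26 .mp ⟨32647683, 0, 0, 0, 0, 0, 0, 0, 0, ⟨0, 0⟩, 0⟩ 0 0))))) (.cut .s 8814592 (.pos 24 .mp ⟨30226752, 0, 0, 0, 0, 0, 0, 0, 0, ⟨0, 0⟩, 0⟩ 0 0) (.pos 24 .mp ⟨36559956, 0, 0, 0, 0, 0, 0, 0, 0, ⟨0, 0⟩, 0⟩ 0 0))))))) (.void 22 ⟨100000, 0, 0, 0, 0, 0, 0, 0, 0, ⟨0, 0⟩, 0⟩ 0 0))) (.void 20 ⟨100000, 0, 0, 0, 0, 0, 0, 0,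 0, ⟨0, 0⟩, 0⟩ 0 0)) (.void 18 ⟨100000, 0, 0, 0, 0, 0, 0, 0, 0, ⟨0, 0⟩, 0⟩ 0 0)) (.void 45 ⟨100000, 0, 0, 0, 0, 0, 0, 0, 0, ⟨0, 0⟩, 0⟩ 0 0)) (.void 56 ⟨100000, 0, 0, 0, 0, 0, 0, 0, 0, ⟨0, 0⟩, 0⟩ 0 0))) (.cut .v 16777216 (.cut .v 8388608 (.cut .v 4194304 (.void 4 ⟨0, 0, 50000, 0, 50000, 0, 0, 0, 0, ⟨0, 0⟩, 0⟩ 0 0) (.pos 5 .pm ⟨0, 0, 0, 0, 0, 0, 0, 0, 4366103, ⟨0, 0⟩, 9975792⟩ 0 0)) (.cut .d 8004398 (.pos 3 .pm ⟨0, 0, 0, 0, 0, 0, 0, 0, 0, ⟨0, 0⟩, 0⟩ 0 0) (.pos 3 .pm ⟨0, 1810274, 0, 0, 0, 0, 0, 0, 14559839, ⟨0, 0⟩, 14107901⟩ 0 0))) (.cut .v 67108864 (.cut .d 8004398 (.cut .d 4002199 (.cut .v 33554432 (.cut .d 2001099 (.cut .v 25165824 (.cut .d 1000549 (.cut .v 20971520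 (.cut .d 500274 (.cut .v 18874368 (.cut .s 8814592 (.pos 21 .pp ⟨20052486, 0, 0, 0, 0, 0, 0, 0, 0, ⟨0, 0⟩, 0⟩ 0 0) (.pos 21 .pp ⟨24631365, 0, 0, 0, 0, 0, 0, 0, 0, ⟨0, 0⟩, 0⟩ 0 0)) (.pos 22 .pp ⟨33439601, 0, 0, 0, 0, 0, 0, 0, 0, ⟨0, 0⟩, 0⟩ 0 0)) (.pos 19 .pp ⟨12829797, 0, 0, 0, 0, 0, 0, 0, 0, ⟨0, 0⟩, 0⟩ 0 0)) (.pos 20 .pp ⟨49121616, 0, 0, 0, 0, 0, 0, 0, 0, ⟨0, 0⟩, 0⟩ 0 0)) (.pos 17 .pp ⟨10883302, 0, 0, 0, 0, 0, 0, 0, 0, ⟨0, 0⟩, 0⟩ 0 0)) (.cut .d 1000549 (.void 18 ⟨100000, 0, 0, 0, 0, 0, 0, 0, 0, ⟨0, 0⟩, 0⟩ 0 0) (.pos 18 .pp ⟨65630175, 0, 0, 0, 0, 0, 0, 0, 0, ⟨0, 0⟩, 0⟩ 0 0))) (.pos 16 .pp ⟨0, 0, 0, 0, 0, 0, 1195204, 4470819, 0, ⟨5096125, 1212876⟩, 0⟩ 146 171))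 (.cut .d 2001099 (.pos 45 .pp ⟨493892984, 0, 0, 0, 0, 0, 0, 0, 0, ⟨0, 0⟩, 0⟩ 0 0) (.cut .v 50331648 (.cut .v 41943040 (.pos 50 .pp ⟨83105105, 0, 0, 0, 0, 0, 59788, 0, 0, ⟨0, 0⟩, 0⟩ 0 0) (.pos 51 .pp ⟨175960394, 0, 0, 0, 0, 0, 0, 0, 0, ⟨0, 0⟩, 0⟩ 0 0)) (.pos 49 .pp ⟨378334108, 0, 0, 0, 0, 0, 0, 0, 0, ⟨0, 0⟩, 0⟩ 0 0)))) (.pos 44 .pp ⟨0, 0, 0, 0, 0, 0, 2990414, 0, 0, ⟨0, 0⟩, 0⟩ 0 0)) (.cut .d 12006597 (.pos 44 .pp ⟨0, 0, 0, 0, 0, 0, 0, 2009382, 1900271, ⟨5909010, 38717⟩, 23726566⟩ 195 282) (.pos 44 .pp ⟨0, 20356586, 0, 0, 0, 0, 0, 0, 2500332, ⟨0, 0⟩, 23726566⟩ 0 0))) (.cut .d 8004398 (.void 56 ⟨42821, 57179, 0, 0, 0, 0, 0, 0, 0, ⟨0, 0⟩, 0⟩ 0 0) (.void 56 ⟨0, 100000,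 0, 0, 0, 0, 0, 0, 0, ⟨0, 0⟩, 0⟩ 0 0))))),
    by decide +kernel⟩

def covers11 : cell.Covers table row11.1 :=
  ⟨(.cut .d 0 (.cut .v 16777216 (.cut .d (-8388608) (.void 1 ⟨0, 0, 0, 0, 0, 100000, 0, 0, 0, ⟨0, 0⟩, 0⟩ 0 0) (.cut .d (-4194304) (.void 1 ⟨0, 0, 0, 0, 0, 100000, 0, 0, 0, ⟨0, 0⟩, 0⟩ 0 0) (.cut .d (-2097152) (.void 1 ⟨0, 0, 0, 0, 0, 100000, 0, 0, 0, ⟨0, 0⟩, 0⟩ 0 0) (.cut .d (-1048576) (.void 1 ⟨0, 0, 0, 0, 0, 100000, 0, 0, 0, ⟨0, 0⟩, 0⟩ 0 0) (.cut .d (-524288) (.void 1 ⟨0, 0, 0, 0, 0, 100000, 0, 0, 0, ⟨0, 0⟩, 0⟩ 0 0) (.cut .v 8388608 (.cut .v 4194304 (.void 4 ⟨0, 0, 100000, 0, 0, 0, 0, 0, 0, ⟨0, 0⟩, 0⟩ 0 0) (.pos 5 .mm ⟨0, 0, 0, 0, 0, 9207767, 0, 0,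 0, ⟨0, 0⟩, 0⟩ 0 0)) (.cut .d (-262144) (.pos 3 .mm ⟨0, 0, 0, 0, 0, 59450930, 0, 0, 0, ⟨0, 0⟩, 0⟩ 0 0) (.cut .s 9306112 (.pos 3 .mm ⟨0, 0, 0, 0, 0, 42712684, 0, 0, 0, ⟨0, 0⟩, 0⟩ 0 0) (.pos 3 .mm ⟨0, 0, 0, 0, 0, 53721785, 0, 0, 0, ⟨0, 0⟩, 0⟩ 0 0))))))))) (.cut .v 67108864 (.cut .v 33554432 (.cut .v 25165824 (.cut .v 20971520 (.cut .d (-8388608) (.void 19 ⟨0, 0, 0, 0, 0, 100000, 0, 0, 0, ⟨0, 0⟩, 0⟩ 0 0) (.cut .v 18874368 (.cut .d (-4194304) (.void 21 ⟨0, 0, 0, 0, 0, 100000, 0, 0, 0, ⟨0, 0⟩, 0⟩ 0 0) (.cut .d (-2097152) (.void 21 ⟨0, 0, 0, 0, 0, 100000, 0, 0, 0, ⟨0, 0⟩, 0⟩ 0 0) (.cut .d (-1048576) (.void 21 ⟨0, 0, 0, 0, 0, 100000, 0, 0, 0, ⟨0, 0⟩, 0⟩ 0 0) (.cut .d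 (-524288) (.void 21 ⟨0, 0, 0, 0, 0, 100000, 0, 0, 0, ⟨0, 0⟩, 0⟩ 0 0) (.cut .v 17825792 (.cut .d (-262144) (.cut .d (-393216) (.void 23 ⟨0, 0, 0, 0, 0, 100000, 0, 0, 0, ⟨0, 0⟩, 0⟩ 0 0) (.cut .v 17301504 (.cut .l 1062557 (.void 25 ⟨0, 0, 0, 0, 0, 100000, 0, 0, 0, ⟨0, 0⟩, 0⟩ 0 0) (.cut .d (-327680) (.void 25 ⟨0, 0, 0, 0, 0, 100000, 0, 0, 0, ⟨0, 0⟩, 0⟩ 0 0) (.cut .l 1440044 (.void 25 ⟨0, 0, 0, 0, 0, 100000, 0, 0, 0, ⟨0, 0⟩, 0⟩ 0 0) (.cut .v 17039360 (.pos 27 .mp ⟨0, 0, 0, 0, 0, 54543310, 0, 0, 0, ⟨0, 0⟩, 0⟩ 0 0) (.cut .s 9306112 (.cut .s 9175040 (.cut .s 9109504 (.pos 28 .mp ⟨24127827, 0, 0, 0, 0, 14488604, 0, 0, 0, ⟨0, 0⟩, 0⟩ 0 0) (.pos 28 .mp ⟨25534743, 0, 0,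 0, 0, 15255150, 0, 0, 0, ⟨0, 0⟩, 0⟩ 0 0)) (.pos 28 .mp ⟨27002263, 0, 0, 0, 0, 18288768, 0, 0, 0, ⟨0, 0⟩, 0⟩ 0 0)) (.cut .s 9437184 (.pos 28 .mp ⟨30124378, 0, 0, 0, 0, 20384771, 0, 0, 0, ⟨0, 0⟩, 0⟩ 0 0) (.pos 28 .mp ⟨33505201, 0, 0, 0, 0, 22647509, 0, 0, 0, ⟨0, 0⟩, 0⟩ 0 0))))))) (.pos 26 .mp ⟨50641456, 0, 0, 0, 0, 0, 0, 0, 0, ⟨0, 0⟩, 0⟩ 0 0))) (.cut .s 9306112 (.cut .s 9175040 (.cut .v 17301504 (.cut .s 9109504 (.cut .v 17039360 (.cut .l 1062557 (.cut .d (-131072) (.pos 27 .mp ⟨21931810, 0, 0, 0, 0, 16242583, 0, 0, 0, ⟨0, 0⟩, 0⟩ 0 0) (.cut .l 685069 (.cut .v 16908288 (.cut .d (-65536) (.pos 46 .mp ⟨22261389, 0, 0, 0, 0, 13962628, 0, 0, 0, ⟨0, 0⟩, 0⟩ 0 0) (.cut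 .s 9076736 (.pos 46 .mp ⟨22620329, 0, 0, 0, 0, 10618359, 0, 0, 0, ⟨0, 0⟩, 0⟩ 0 0) (.pos 46 .mp ⟨23243056, 0, 0, 0, 0, 10902304, 0, 0, 0, ⟨0, 0⟩, 0⟩ 0 0))) (.pos 47 .mp ⟨33606032, 0, 0, 0, 0, 0, 0, 0, 0, ⟨0, 0⟩, 0⟩ 0 0)) (.pos 27 .mp ⟨23733931, 0, 0, 0, 0, 9593194, 0, 0, 0, ⟨0, 0⟩, 0⟩ 0 0))) (.pos 27 .mp ⟨19404439, 0, 0, 0, 0, 16525257, 0, 0, 0, ⟨0, 0⟩, 0⟩ 0 0)) (.cut .s 9076736 (.pos 28 .mp ⟨29846369, 0, 0, 0, 0, 4707122, 0, 0, 0, ⟨0, 0⟩, 0⟩ 0 0) (.pos 28 .mp ⟨30634846, 0, 0, 0, 0, 4819148, 0, 0, 0, ⟨0, 0⟩, 0⟩ 0 0))) (.cut .v 17039360 (.cut .l 1062557 (.cut .d (-131072) (.pos 27 .mp ⟨23178997, 0, 0, 0, 0, 17063962, 0, 0, 0, ⟨0, 0⟩, 0⟩ 0 0) (.cut .l 685069 (.cut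 .v 16908288 (.cut .d (-65536) (.pos 46 .mp ⟨23468026, 0, 0, 0, 0, 14753494, 0, 0, 0, ⟨0, 0⟩, 0⟩ 0 0) (.cut .s 9142272 (.pos 46 .mp ⟨23878138, 0, 0, 0, 0, 11200449, 0, 0, 0, ⟨0, 0⟩, 0⟩ 0 0) (.pos 46 .mp ⟨24525710, 0, 0, 0, 0, 11512158, 0, 0, 0, ⟨0, 0⟩, 0⟩ 0 0))) (.pos 47 .mp ⟨35375160, 0, 0, 0, 0, 0, 0, 0, 0, ⟨0, 0⟩, 0⟩ 0 0)) (.pos 27 .mp ⟨25182513, 0, 0, 0, 0, 9944343, 0, 0, 0, ⟨0, 0⟩, 0⟩ 0 0))) (.pos 27 .mp ⟨20492589, 0, 0, 0, 0, 17463549, 0, 0, 0, ⟨0, 0⟩, 0⟩ 0 0)) (.cut .s 9142272 (.pos 28 .mp ⟨31420454, 0, 0, 0, 0, 4962431, 0, 0, 0, ⟨0, 0⟩, 0⟩ 0 0) (.pos 28 .mp ⟨32206054, 0, 0, 0, 0, 5133542, 0, 0, 0, ⟨0, 0⟩, 0⟩ 0 0)))) (.pos 26 .mp ⟨35991579, 0, 0, 0, 0,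 0, 0, 0, 0, ⟨0, 0⟩, 0⟩ 0 0)) (.cut .v 17301504 (.cut .s 9240576 (.cut .v 17039360 (.cut .l 1062557 (.cut .d (-131072) (.pos 27 .mp ⟨24477431, 0, 0, 0, 0, 17930893, 0, 0, 0, ⟨0, 0⟩, 0⟩ 0 0) (.cut .l 685069 (.cut .v 16908288 (.cut .d (-65536) (.pos 46 .mp ⟨23620148, 0, 0, 0, 0, 17632566, 0, 0, 0, ⟨0, 0⟩, 0⟩ 0 0) (.cut .s 9207808 (.pos 46 .mp ⟨25185907, 0, 0, 0, 0, 11836797, 0, 0, 0, ⟨0, 0⟩, 0⟩ 0 0) (.pos 46 .mp ⟨25858867, 0, 0, 0, 0, 12173729, 0, 0, 0, ⟨0, 0⟩, 0⟩ 0 0))) (.pos 47 .mp ⟨37232454, 0, 0, 0, 0, 0, 0, 0, 0, ⟨0, 0⟩, 0⟩ 0 0)) (.pos 27 .mp ⟨26681332, 0, 0, 0, 0, 10349108, 0, 0, 0, ⟨0, 0⟩, 0⟩ 0 0))) (.pos 27 .mp ⟨21621965, 0, 0, 0, 0, 18472661, 0, 0, 0,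 ⟨0, 0⟩, 0⟩ 0 0)) (.cut .s 9207808 (.pos 28 .mp ⟨32994532, 0, 0, 0, 0, 5328988, 0, 0, 0, ⟨0, 0⟩, 0⟩ 0 0) (.pos 28 .mp ⟨33788792, 0, 0, 0, 0, 5545212, 0, 0, 0, ⟨0, 0⟩, 0⟩ 0 0))) (.cut .v 17039360 (.cut .l 1062557 (.cut .d (-131072) (.pos 27 .mp ⟨25828222, 0, 0, 0, 0, 18844710, 0, 0, 0, ⟨0, 0⟩, 0⟩ 0 0) (.cut .l 685069 (.cut .v 16908288 (.cut .d (-65536) (.pos 46 .mp ⟨24906597, 0, 0, 0, 0, 18562776, 0, 0, 0, ⟨0, 0⟩, 0⟩ 0 0) (.cut .s 9273344 (.pos 46 .mp ⟨26544730, 0, 0, 0, 0, 12522318, 0, 0, 0, ⟨0, 0⟩, 0⟩ 0 0) (.cut .s 9289728 (.pos 46 .mp ⟨26892545, 0, 0, 0, 0, 13197944, 0, 0, 0, ⟨0, 0⟩, 0⟩ 0 0) (.pos 46 .mp ⟨27243639, 0, 0, 0, 0, 13383000, 0, 0, 0, ⟨0, 0⟩, 0⟩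 0 0)))) (.pos 47 .mp ⟨39175965, 0, 0, 0, 0, 0, 0, 0, 0, ⟨0, 0⟩, 0⟩ 0 0)) (.pos 27 .mp ⟨28231620, 0, 0, 0, 0, 10802183, 0, 0, 0, ⟨0, 0⟩, 0⟩ 0 0))) (.pos 27 .mp ⟨22793473, 0, 0, 0, 0, 19547871, 0, 0, 0, ⟨0, 0⟩, 0⟩ 0 0)) (.cut .s 9273344 (.pos 28 .mp ⟨34591765, 0, 0, 0, 0, 5778591, 0, 0, 0, ⟨0, 0⟩, 0⟩ 0 0) (.pos 28 .mp ⟨35406404, 0, 0, 0, 0, 6025437, 0, 0, 0, ⟨0, 0⟩, 0⟩ 0 0)))) (.pos 26 .mp ⟨39856330, 0, 0, 0, 0, 0, 0, 0, 0, ⟨0, 0⟩, 0⟩ 0 0))) (.cut .s 9437184 (.cut .v 17301504 (.cut .d (-131072) (.cut .l 1062557 (.cut .v 17039360 (.pos 27 .mp ⟨27232521, 0, 0, 0, 0, 22033464, 0, 0, 0, ⟨0, 0⟩, 0⟩ 0 0) (.pos 28 .mp ⟨45663559, 0, 0, 0, 0, 0, 0, 0, 0, ⟨0, 0⟩, 0⟩ 0 0))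 (.cut .v 17039360 (.pos 27 .mp ⟨17277178, 0, 0, 0, 0, 31573926, 0, 0, 0, ⟨0, 0⟩, 0⟩ 0 0) (.cut .s 9371648 (.pos 28 .mp ⟨33945011, 0, 0, 0, 0, 9790325, 0, 0, 0, ⟨0, 0⟩, 0⟩ 0 0) (.pos 28 .mp ⟨35778024, 0, 0, 0, 0, 10247216, 0, 0, 0, ⟨0, 0⟩, 0⟩ 0 0)))) (.cut .v 17039360 (.cut .l 1062557 (.cut .l 685069 (.cut .d (-65536) (.cut .d (-98304) (.pos 27 .mp ⟨27424693, 0, 0, 0, 0, 23361998, 0, 0, 0, ⟨0, 0⟩, 0⟩ 0 0) (.cut .v 16908288 (.cut .s 9371648 (.pos 46 .mp ⟨26242622, 0, 0, 0, 0, 19544897, 0, 0, 0, ⟨0, 0⟩, 0⟩ 0 0) (.pos 46 .mp ⟨27629335, 0, 0, 0, 0, 20580462, 0, 0, 0, ⟨0, 0⟩, 0⟩ 0 0)) (.pos 47 .mp ⟨42227475, 0, 0, 0, 0, 0, 0, 0, 0, ⟨0, 0⟩, 0⟩ 0 0))) (.cut .d (-32768)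 (.cut .v 16908288 (.cut .v 16842752 (.pos 61 .mp ⟨0, 0, 0, 0, 0, 47568773, 0, 0, 0, ⟨0, 0⟩, 0⟩ 0 0) (.cut .s 9371648 (.pos 62 .mp ⟨28880086, 0, 0, 0, 0, 13817861, 0, 0, 0, ⟨0, 0⟩, 0⟩ 0 0) (.pos 62 .mp ⟨30383383, 0, 0, 0, 0, 14643041, 0, 0, 0, ⟨0, 0⟩, 0⟩ 0 0))) (.pos 47 .mp ⟨40888695, 0, 0, 0, 0, 0, 0, 0, 0, ⟨0, 0⟩, 0⟩ 0 0)) (.pos 27 .mp ⟨28075725, 0, 0, 0, 0, 0, 0, 0, 0, ⟨0, 0⟩, 0⟩ 0 0))) (.pos 27 .mp ⟨31315919, 0, 0, 0, 0, 9806973, 0, 0, 0, ⟨0, 0⟩, 0⟩ 0 0)) (.pos 27 .mp ⟨0, 0, 0, 0, 0, 0, 0, 0, 0, ⟨0, 0⟩, 0⟩ 0 0)) (.pos 28 .mp ⟨41445868, 0, 0, 0, 0, 0, 0, 0, 0, ⟨0, 0⟩, 0⟩ 0 0))) (.pos 26 .mp ⟨44072057, 0, 0, 0, 0, 0, 0, 0, 0, ⟨0, 0⟩, 0⟩ 0 0)) (.cut .v 17301504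 (.cut .d (-131072) (.cut .l 1062557 (.cut .s 9502720 (.pos 25 .mp ⟨31077992, 0, 0, 0, 0, 22536958, 0, 0, 0, ⟨0, 0⟩, 0⟩ 0 0) (.pos 25 .mp ⟨32699933, 0, 0, 0, 0, 23668824, 0, 0, 0, ⟨0, 0⟩, 0⟩ 0 0)) (.cut .v 17039360 (.cut .s 9502720 (.pos 27 .mp ⟨26025823, 0, 0, 0, 0, 25366828, 0, 0, 0, ⟨0, 0⟩, 0⟩ 0 0) (.pos 27 .mp ⟨27116006, 0, 0, 0, 0, 27052794, 0, 0, 0, ⟨0, 0⟩, 0⟩ 0 0)) (.cut .s 9502720 (.pos 28 .mp ⟨37683201, 0, 0, 0, 0, 10723116, 0, 0, 0, ⟨0, 0⟩, 0⟩ 0 0) (.pos 28 .mp ⟨39662216, 0, 0, 0, 0, 11214993, 0, 0, 0, ⟨0, 0⟩, 0⟩ 0 0)))) (.cut .v 17039360 (.cut .l 1062557 (.cut .s 9502720 (.cut .l 685069 (.cut .v 16908288 (.cut .d (-65536) (.pos 46 .mp ⟨29067888, 0,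 0, 0, 0, 21671048, 0, 0, 0, ⟨0, 0⟩, 0⟩ 0 0) (.cut .d (-32768) (.cut .s 9469952 (.pos 46 .mp ⟨29265797, 0, 0, 0, 0, 18503755, 0, 0, 0, ⟨0, 0⟩, 0⟩ 0 0) (.pos 46 .mp ⟨30004774, 0, 0, 0, 0, 19010369, 0, 0, 0, ⟨0, 0⟩, 0⟩ 0 0)) (.pos 46 .mp ⟨0, 0, 0, 0, 0, 0, 0, 0, 0, ⟨0, 0⟩, 0⟩ 0 0))) (.pos 47 .mp ⟨45504712, 0, 0, 0, 0, 0, 0, 0, 0, ⟨0, 0⟩, 0⟩ 0 0)) (.pos 27 .mp ⟨32943566, 0, 0, 0, 0, 12803857, 0, 0, 0, ⟨0, 0⟩, 0⟩ 0 0)) (.cut .l 685069 (.cut .v 16908288 (.cut .d (-65536) (.pos 46 .mp ⟨30559478, 0, 0, 0, 0, 22818284, 0, 0, 0, ⟨0, 0⟩, 0⟩ 0 0) (.cut .d (-32768) (.cut .s 9535488 (.pos 46 .mp ⟨30757013, 0, 0, 0, 0, 19524946, 0, 0, 0, ⟨0, 0⟩, 0⟩ 0 0) (.pos 46 .mp ⟨31522668,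 0, 0, 0, 0, 20046864, 0, 0, 0, ⟨0, 0⟩, 0⟩ 0 0)) (.pos 46 .mp ⟨0, 0, 0, 0, 0, 0, 0, 0, 0, ⟨0, 0⟩, 0⟩ 0 0))) (.pos 47 .mp ⟨47774136, 0, 0, 0, 0, 0, 0, 0, 0, ⟨0, 0⟩, 0⟩ 0 0)) (.pos 27 .mp ⟨34632025, 0, 0, 0, 0, 13523472, 0, 0, 0, ⟨0, 0⟩, 0⟩ 0 0))) (.pos 27 .mp ⟨0, 0, 0, 0, 0, 0, 0, 0, 0, ⟨0, 0⟩, 0⟩ 0 0)) (.pos 28 .mp ⟨45751129, 0, 0, 0, 0, 0, 0, 0, 0, ⟨0, 0⟩, 0⟩ 0 0))) (.pos 26 .mp ⟨48631353, 0, 0, 0, 0, 0, 0, 0, 0, ⟨0, 0⟩, 0⟩ 0 0))))) (.cut .s 9306112 (.pos 24 .mp ⟨44850675, 0, 0, 0, 0, 0, 0, 0, 0, ⟨0, 0⟩, 0⟩ 0 0) (.pos 24 .mp ⟨54807486, 0, 0, 0, 0, 0, 0, 0, 0, ⟨0, 0⟩, 0⟩ 0 0))))))) (.void 22 ⟨100000, 0, 0, 0, 0, 0, 0, 0, 0, ⟨0, 0⟩, 0⟩ 0 0))) (.void 20 ⟨100000,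 0, 0, 0, 0, 0, 0, 0, 0, ⟨0, 0⟩, 0⟩ 0 0)) (.void 18 ⟨100000, 0, 0, 0, 0, 0, 0, 0, 0, ⟨0, 0⟩, 0⟩ 0 0)) (.void 45 ⟨100000, 0, 0, 0, 0, 0, 0, 0, 0, ⟨0, 0⟩, 0⟩ 0 0)) (.void 56 ⟨100000, 0, 0, 0, 0, 0, 0, 0, 0, ⟨0, 0⟩, 0⟩ 0 0))) (.cut .v 16777216 (.cut .v 8388608 (.cut .v 4194304 (.void 4 ⟨0, 0, 32105, 0, 0, 0, 0, 0, 67895, ⟨0, 0⟩, 3966728⟩ 0 0) (.cut .d 7172869 (.pos 5 .pm ⟨0, 0, 0, 0, 0, 0, 0, 0, 0, ⟨0, 0⟩, 0⟩ 0 0) (.void 5 ⟨0, 0, 0, 0, 0, 0, 0, 0, 100000, ⟨0, 0⟩, 9975792⟩ 0 0))) (.cut .d 7172869 (.pos 3 .pm ⟨0, 0, 0, 0, 0, 0, 0, 0, 0, ⟨0, 0⟩, 0⟩ 0 0) (.cut .d 10759303 (.pos 3 .pm ⟨0, 0, 0, 0, 0, 0, 0, 0, 9943670, ⟨0, 0⟩, 14107901⟩ 0 0) (.pos 3 .pm ⟨0, 26882235,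 0, 0, 0, 0, 0, 0, 11981894, ⟨0, 0⟩, 14107901⟩ 0 0)))) (.cut .v 67108864 (.cut .d 7172869 (.cut .d 3586434 (.cut .v 33554432 (.cut .d 1793217 (.cut .v 25165824 (.cut .d 896608 (.cut .v 20971520 (.cut .d 448304 (.cut .v 18874368 (.cut .v 17825792 (.pos 23 .pp ⟨30046054, 0, 0, 0, 0, 0, 0, 0, 0, ⟨0, 0⟩, 0⟩ 0 0) (.pos 24 .pp ⟨38218002, 0, 0, 0, 0, 0, 0, 0, 0, ⟨0, 0⟩, 0⟩ 0 0)) (.pos 22 .pp ⟨49278474, 0, 0, 0, 0, 0, 0, 0, 0, ⟨0, 0⟩, 0⟩ 0 0)) (.pos 19 .pp ⟨20679479, 0, 0, 0, 0, 0, 0, 0, 0, ⟨0, 0⟩, 0⟩ 0 0)) (.cut .d 448304 (.pos 20 .pp ⟨81118824, 0, 0, 0, 0, 0, 0, 0, 0, ⟨0, 0⟩, 0⟩ 0 0) (.pos 20 .pp ⟨57958782, 0, 0, 0, 0, 0, 0, 0, 0, ⟨0, 0⟩, 0⟩ 0 0))) (.pos 17 .pp ⟨19421204,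 0, 0, 0, 0, 0, 0, 0, 0, ⟨0, 0⟩, 0⟩ 0 0)) (.cut .d 896608 (.pos 18 .pp ⟨157983575, 0, 0, 0, 0, 0, 0, 0, 0, ⟨0, 0⟩, 0⟩ 0 0) (.pos 18 .pp ⟨94557957, 0, 0, 0, 0, 0, 0, 0, 0, ⟨0, 0⟩, 0⟩ 0 0))) (.pos 16 .pp ⟨9966074, 0, 0, 0, 0, 0, 1154700, 0, 0, ⟨0, 0⟩, 0⟩ 0 0)) (.cut .d 1793217 (.pos 45 .pp ⟨650525319, 0, 0, 0, 0, 0, 0, 0, 0, ⟨0, 0⟩, 0⟩ 0 0) (.cut .v 50331648 (.cut .v 41943040 (.pos 50 .pp ⟨116044173, 0, 0, 0, 0, 0, 0, 0, 0, ⟨0, 0⟩, 0⟩ 0 0) (.pos 51 .pp ⟨236792572, 0, 0, 0, 0, 0, 0, 0, 0, ⟨0, 0⟩, 0⟩ 0 0)) (.cut .d 2689825 (.pos 49 .pp ⟨597046581, 0, 0, 0, 0, 0, 0, 0, 0, ⟨0, 0⟩, 0⟩ 0 0) (.pos 49 .pp ⟨376242456, 0, 0, 0, 0, 0, 0, 0, 0, ⟨0, 0⟩, 0⟩ 0 0))))) (.pos 44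 .pp ⟨0, 0, 0, 0, 0, 0, 3351012, 0, 0, ⟨0, 0⟩, 0⟩ 0 0)) (.pos 44 .pp ⟨0, 21641778, 0, 0, 0, 0, 0, 0, 0, ⟨0, 0⟩, 0⟩ 0 0)) (.cut .d 7172869 (.cut .d 3586434 (.void 56 ⟨44198, 55802, 0, 0, 0, 0, 0, 0, 0, ⟨0, 0⟩, 0⟩ 0 0) (.void 56 ⟨0, 100000, 0, 0, 0, 0, 0, 0, 0, ⟨0, 0⟩, 0⟩ 0 0)) (.void 56 ⟨0, 100000, 0, 0, 0, 0, 0, 0, 0, ⟨0, 0⟩, 0⟩ 0 0))))),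
    by decide +kernel⟩

def covers12 : cell.Covers table row12.1 :=
  ⟨(.cut .d 0 (.cut .v 16777216 (.cut .d (-8388608) (.void 1 ⟨0, 0, 0, 0, 0, 100000, 0, 0, 0, ⟨0, 0⟩, 0⟩ 0 0) (.cut .d (-4194304) (.void 1 ⟨0, 0, 0, 0, 0, 100000, 0, 0, 0, ⟨0, 0⟩, 0⟩ 0 0) (.cut .d (-2097152) (.void 1 ⟨0, 0, 0, 0, 0, 100000, 0, 0, 0, ⟨0, 0⟩, 0⟩ 0 0) (.cut .d (-1048576) (.void 1 ⟨0, 0, 0, 0, 0, 100000, 0, 0, 0, ⟨0, 0⟩, 0⟩ 0 0) (.cut .d (-524288) (.void 1 ⟨0, 0, 0, 0, 0, 100000, 0, 0, 0, ⟨0, 0⟩, 0⟩ 0 0) (.cut .v 8388608 (.cut .v 4194304 (.void 4 ⟨0, 0, 100000, 0, 0, 0, 0, 0, 0, ⟨0, 0⟩, 0⟩ 0 0) (.pos 5 .mm ⟨0, 0, 0, 0, 0, 16098035, 0, 0, 0, ⟨0, 0⟩, 0⟩ 0 0)) (.cut .d (-262144) (.pos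 3 .mm ⟨0, 0, 0, 0, 0, 95110984, 0, 0, 0, ⟨0, 0⟩, 0⟩ 0 0) (.cut .s 9830400 (.pos 3 .mm ⟨0, 0, 0, 0, 0, 67164814, 0, 0, 0, ⟨0, 0⟩, 0⟩ 0 0) (.cut .s 9961472 (.pos 3 .mm ⟨0, 0, 0, 0, 0, 76135821, 0, 0, 0, ⟨0, 0⟩, 0⟩ 0 0) (.pos 3 .mm ⟨0, 0, 0, 0, 0, 84593339, 0, 0, 0, ⟨0, 0⟩, 0⟩ 0 0)))))))))) (.cut .v 67108864 (.cut .v 33554432 (.cut .v 25165824 (.cut .v 20971520 (.cut .d (-8388608) (.void 19 ⟨0, 0, 0, 0, 0, 100000, 0, 0, 0, ⟨0, 0⟩, 0⟩ 0 0) (.cut .d (-4194304) (.void 19 ⟨0, 0, 0, 0, 0, 100000, 0, 0, 0, ⟨0, 0⟩, 0⟩ 0 0) (.cut .v 18874368 (.cut .d (-2097152) (.void 21 ⟨100000, 0, 0, 0, 0, 0, 0, 0, 0, ⟨0, 0⟩, 0⟩ 0 0) (.cut .d (-1048576) (.void 21 ⟨0, 0, 0, 0, 0, 100000,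 0, 0, 0, ⟨0, 0⟩, 0⟩ 0 0) (.cut .d (-524288) (.void 21 ⟨0, 0, 0, 0, 0, 100000, 0, 0, 0, ⟨0, 0⟩, 0⟩ 0 0) (.cut .d (-262144) (.cut .v 17825792 (.cut .v 17301504 (.cut .s 9830400 (.cut .s 9699328 (.pos 25 .mp ⟨36381994, 0, 0, 0, 0, 27824126, 0, 0, 0, ⟨0, 0⟩, 0⟩ 0 0) (.pos 25 .mp ⟨39966652, 0, 0, 0, 0, 40985954, 0, 0, 0, ⟨0, 0⟩, 0⟩ 0 0)) (.void 25 ⟨0, 0, 0, 0, 0, 100000, 0, 0, 0, ⟨0, 0⟩, 0⟩ 0 0)) (.void 26 ⟨100000, 0, 0, 0, 0, 0, 0, 0, 0, ⟨0, 0⟩, 0⟩ 0 0)) (.void 24 ⟨100000, 0, 0, 0, 0, 0, 0, 0, 0, ⟨0, 0⟩, 0⟩ 0 0)) (.cut .v 17825792 (.cut .s 9830400 (.cut .s 9699328 (.cut .v 17301504 (.cut .d (-131072) (.cut .l 1062557 (.cut .s 9633792 (.pos 25 .mp ⟨34572748, 0, 0,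 0, 0, 24477142, 0, 0, 0, ⟨0, 0⟩, 0⟩ 0 0) (.pos 25 .mp ⟨36404145, 0, 0, 0, 0, 25510445, 0, 0, 0, ⟨0, 0⟩, 0⟩ 0 0)) (.cut .v 17039360 (.cut .s 9633792 (.pos 27 .mp ⟨27729981, 0, 0, 0, 0, 29556360, 0, 0, 0, ⟨0, 0⟩, 0⟩ 0 0) (.pos 27 .mp ⟨28371010, 0, 0, 0, 0, 32098128, 0, 0, 0, ⟨0, 0⟩, 0⟩ 0 0)) (.cut .s 9633792 (.pos 28 .mp ⟨41725877, 0, 0, 0, 0, 11801949, 0, 0, 0, ⟨0, 0⟩, 0⟩ 0 0) (.pos 28 .mp ⟨43872964, 0, 0, 0, 0, 12337210, 0, 0, 0, ⟨0, 0⟩, 0⟩ 0 0)))) (.cut .l 1062557 (.cut .v 17039360 (.cut .s 9633792 (.cut .l 685069 (.cut .v 16908288 (.cut .d (-65536) (.pos 46 .mp ⟨32105108, 0, 0, 0, 0, 24144819, 0, 0, 0, ⟨0, 0⟩, 0⟩ 0 0) (.cut .d (-32768) (.cut .s 9601024 (.pos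 46 .mp ⟨32301425, 0, 0, 0, 0, 20687353, 0, 0, 0, ⟨0, 0⟩, 0⟩ 0 0) (.pos 46 .mp ⟨33095894, 0, 0, 0, 0, 21250619, 0, 0, 0, ⟨0, 0⟩, 0⟩ 0 0)) (.pos 46 .mp ⟨0, 0, 0, 0, 0, 0, 0, 0, 0, ⟨0, 0⟩, 0⟩ 0 0))) (.pos 47 .mp ⟨50166529, 0, 0, 0, 0, 0, 0, 0, 0, ⟨0, 0⟩, 0⟩ 0 0)) (.pos 27 .mp ⟨36388345, 0, 0, 0, 0, 14368390, 0, 0, 0, ⟨0, 0⟩, 0⟩ 0 0)) (.cut .l 685069 (.cut .v 16908288 (.cut .d (-65536) (.pos 46 .mp ⟨33711427, 0, 0, 0, 0, 25388660, 0, 0, 0, ⟨0, 0⟩, 0⟩ 0 0) (.cut .d (-32768) (.cut .s 9666560 (.pos 46 .mp ⟨33904575, 0, 0, 0, 0, 21836514, 0, 0, 0, ⟨0, 0⟩, 0⟩ 0 0) (.pos 46 .mp ⟨34727637, 0, 0, 0, 0, 22444228, 0, 0, 0, ⟨0, 0⟩, 0⟩ 0 0)) (.pos 46 .mp ⟨34146994, 0, 0, 0,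 0, 0, 0, 0, 0, ⟨0, 0⟩, 0⟩ 0 0))) (.pos 47 .mp ⟨52617644, 0, 0, 0, 0, 0, 0, 0, 0, ⟨0, 0⟩, 0⟩ 0 0)) (.pos 27 .mp ⟨38211833, 0, 0, 0, 0, 15179474, 0, 0, 0, ⟨0, 0⟩, 0⟩ 0 0))) (.pos 28 .mp ⟨51467438, 0, 0, 0, 0, 0, 0, 0, 0, ⟨0, 0⟩, 0⟩ 0 0)) (.pos 25 .mp ⟨36035961, 0, 0, 0, 0, 0, 0, 0, 0, ⟨0, 0⟩, 0⟩ 0 0))) (.pos 26 .mp ⟨53602552, 0, 0, 0, 0, 0, 0, 0, 0, ⟨0, 0⟩, 0⟩ 0 0)) (.cut .v 17301504 (.cut .d (-131072) (.cut .l 1062557 (.cut .v 17039360 (.pos 27 .mp ⟨36869020, 0, 0, 0, 0, 30107423, 0, 0, 0, ⟨0, 0⟩, 0⟩ 0 0) (.pos 28 .mp ⟨61736831, 0, 0, 0, 0, 0, 0, 0, 0, ⟨0, 0⟩, 0⟩ 0 0)) (.cut .v 17039360 (.cut .s 9764864 (.pos 27 .mp ⟨29037123, 0, 0, 0, 0, 34784743, 0, 0, 0, ⟨0,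 0⟩, 0⟩ 0 0) (.pos 27 .mp ⟨29762069, 0, 0, 0, 0, 37572937, 0, 0, 0, ⟨0, 0⟩, 0⟩ 0 0)) (.cut .v 17170432 (.cut .s 9764864 (.cut .s 9732096 (.pos 52 .mp ⟨44366695, 0, 0, 0, 0, 14349315, 0, 0, 0, ⟨0, 0⟩, 0⟩ 0 0) (.pos 52 .mp ⟨45478553, 0, 0, 0, 0, 14680000, 0, 0, 0, ⟨0, 0⟩, 0⟩ 0 0)) (.cut .s 9797632 (.pos 52 .mp ⟨46612243, 0, 0, 0, 0, 15022456, 0, 0, 0, ⟨0, 0⟩, 0⟩ 0 0) (.pos 52 .mp ⟨47764727, 0, 0, 0, 0, 15380833, 0, 0, 0, ⟨0, 0⟩, 0⟩ 0 0))) (.pos 53 .mp ⟨58532914, 0, 0, 0, 0, 0, 0, 0, 0, ⟨0, 0⟩, 0⟩ 0 0)))) (.cut .l 1062557 (.cut .v 17039360 (.cut .s 9764864 (.cut .l 685069 (.cut .v 16908288 (.cut .d (-65536) (.pos 46 .mp ⟨35376421, 0, 0, 0, 0, 26713841, 0, 0, 0,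 ⟨0, 0⟩, 0⟩ 0 0) (.cut .d (-32768) (.cut .s 9732096 (.pos 46 .mp ⟨35565254, 0, 0, 0, 0, 23072944, 0, 0, 0, ⟨0, 0⟩, 0⟩ 0 0) (.pos 46 .mp ⟨36417603, 0, 0, 0, 0, 23721849, 0, 0, 0, ⟨0, 0⟩, 0⟩ 0 0)) (.pos 46 .mp ⟨35876580, 0, 0, 0, 0, 0, 0, 0, 0, ⟨0, 0⟩, 0⟩ 0 0))) (.pos 47 .mp ⟨55187499, 0, 0, 0, 0, 0, 0, 0, 0, ⟨0, 0⟩, 0⟩ 0 0)) (.pos 27 .mp ⟨40104215, 0, 0, 0, 0, 16060095, 0, 0, 0, ⟨0, 0⟩, 0⟩ 0 0)) (.cut .d (-65536) (.cut .v 16908288 (.pos 46 .mp ⟨35712416, 0, 0, 0, 0, 29213141, 0, 0, 0, ⟨0, 0⟩, 0⟩ 0 0) (.cut .s 9797632 (.pos 47 .mp ⟨43124577, 0, 0, 0, 0, 18143005, 0, 0, 0, ⟨0, 0⟩, 0⟩ 0 0) (.pos 47 .mp ⟨44164369, 0, 0, 0, 0, 18601911, 0, 0, 0, ⟨0, 0⟩, 0⟩ 0 0))) (.cut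 .d (-32768) (.cut .v 16908288 (.cut .s 9797632 (.pos 46 .mp ⟨37284865, 0, 0, 0, 0, 24390126, 0, 0, 0, ⟨0, 0⟩, 0⟩ 0 0) (.pos 46 .mp ⟨38167225, 0, 0, 0, 0, 25076959, 0, 0, 0, ⟨0, 0⟩, 0⟩ 0 0)) (.pos 47 .mp ⟨55901714, 0, 0, 0, 0, 0, 0, 0, 0, ⟨0, 0⟩, 0⟩ 0 0)) (.pos 27 .mp ⟨38909985, 0, 0, 0, 0, 0, 0, 0, 0, ⟨0, 0⟩, 0⟩ 0 0)))) (.pos 28 .mp ⟨56606198, 0, 0, 0, 0, 0, 0, 0, 0, ⟨0, 0⟩, 0⟩ 0 0)) (.pos 25 .mp ⟨40019404, 0, 0, 0, 0, 0, 0, 0, 0, ⟨0, 0⟩, 0⟩ 0 0))) (.pos 26 .mp ⟨58947412, 0, 0, 0, 0, 0, 0, 0, 0, ⟨0, 0⟩, 0⟩ 0 0))) (.cut .v 17301504 (.cut .s 9961472 (.cut .d (-131072) (.cut .l 1062557 (.cut .v 17039360 (.pos 27 .mp ⟨40593052, 0, 0, 0, 0, 33362165, 0, 0, 0, ⟨0,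 0⟩, 0⟩ 0 0) (.pos 28 .mp ⟨67975447, 0, 0, 0, 0, 0, 0, 0, 0, ⟨0, 0⟩, 0⟩ 0 0)) (.cut .v 17039360 (.cut .s 9895936 (.pos 27 .mp ⟨30580343, 0, 0, 0, 0, 40417612, 0, 0, 0, ⟨0, 0⟩, 0⟩ 0 0) (.pos 27 .mp ⟨31527228, 0, 0, 0, 0, 43271755, 0, 0, 0, ⟨0, 0⟩, 0⟩ 0 0)) (.cut .v 17170432 (.cut .s 9895936 (.cut .s 9863168 (.pos 52 .mp ⟨48876968, 0, 0, 0, 0, 15837807, 0, 0, 0, ⟨0, 0⟩, 0⟩ 0 0) (.pos 52 .mp ⟨50014085, 0, 0, 0, 0, 16302337, 0, 0, 0, ⟨0, 0⟩, 0⟩ 0 0)) (.cut .s 9928704 (.pos 52 .mp ⟨51127218, 0, 0, 0, 0, 16843050, 0, 0, 0, ⟨0, 0⟩, 0⟩ 0 0) (.pos 52 .mp ⟨52230688, 0, 0, 0, 0, 17440030, 0, 0, 0, ⟨0, 0⟩, 0⟩ 0 0))) (.pos 53 .mp ⟨64423264, 0, 0, 0, 0, 0, 0, 0, 0, ⟨0, 0⟩,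 0⟩ 0 0)))) (.cut .l 1062557 (.cut .v 17039360 (.cut .d (-65536) (.cut .s 9895936 (.cut .v 16908288 (.pos 46 .mp ⟨37433015, 0, 0, 0, 0, 30742072, 0, 0, 0, ⟨0, 0⟩, 0⟩ 0 0) (.cut .s 9863168 (.pos 47 .mp ⟨45223228, 0, 0, 0, 0, 19075864, 0, 0, 0, ⟨0, 0⟩, 0⟩ 0 0) (.pos 47 .mp ⟨46301395, 0, 0, 0, 0, 19564646, 0, 0, 0, ⟨0, 0⟩, 0⟩ 0 0))) (.cut .v 16908288 (.pos 46 .mp ⟨39213889, 0, 0, 0, 0, 32365476, 0, 0, 0, ⟨0, 0⟩, 0⟩ 0 0) (.cut .s 9928704 (.pos 47 .mp ⟨47399110, 0, 0, 0, 0, 20068035, 0, 0, 0, ⟨0, 0⟩, 0⟩ 0 0) (.pos 47 .mp ⟨48516623, 0, 0, 0, 0, 20585795, 0, 0, 0, ⟨0, 0⟩, 0⟩ 0 0)))) (.cut .d (-32768) (.cut .v 16908288 (.cut .v 16842752 (.pos 61 .mp ⟨0, 0, 0, 0, 0, 75226304,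 0, 0, 0, ⟨0, 0⟩, 0⟩ 0 0) (.cut .l 685069 (.cut .l 496325 (.cut .s 9895936 (.cut .s 9863168 (.pos 62 .mp ⟨41604160, 0, 0, 0, 0, 21904196, 0, 0, 0, ⟨0, 0⟩, 0⟩ 0 0) (.pos 62 .mp ⟨42579644, 0, 0, 0, 0, 22526578, 0, 0, 0, ⟨0, 0⟩, 0⟩ 0 0)) (.cut .s 9928704 (.pos 62 .mp ⟨43572170, 0, 0, 0, 0, 23162722, 0, 0, 0, ⟨0, 0⟩, 0⟩ 0 0) (.pos 62 .mp ⟨44581953, 0, 0, 0, 0, 23811768, 0, 0, 0, ⟨0, 0⟩, 0⟩ 0 0))) (.pos 62 .mp ⟨43773415, 0, 0, 0, 0, 3264750, 0, 0, 0, ⟨0, 0⟩, 0⟩ 0 0)) (.pos 62 .mp ⟨0, 0, 0, 0, 0, 0, 0, 0, 0, ⟨0, 0⟩, 0⟩ 0 0))) (.pos 47 .mp ⟨59328685, 0, 0, 0, 0, 0, 0, 0, 0, ⟨0, 0⟩, 0⟩ 0 0)) (.pos 27 .mp ⟨41979345, 0, 0, 0, 0, 0, 0, 0, 0, ⟨0, 0⟩, 0⟩ 0 0))) (.pos 28 .mp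 ⟨62206547, 0, 0, 0, 0, 0, 0, 0, 0, ⟨0, 0⟩, 0⟩ 0 0)) (.pos 25 .mp ⟨44266854, 0, 0, 0, 0, 0, 0, 0, 0, ⟨0, 0⟩, 0⟩ 0 0))) (.cut .d (-131072) (.cut .l 1062557 (.cut .s 10027008 (.pos 25 .mp ⟨46528803, 0, 0, 0, 0, 32468900, 0, 0, 0, ⟨0, 0⟩, 0⟩ 0 0) (.pos 25 .mp ⟨48762031, 0, 0, 0, 0, 34077319, 0, 0, 0, ⟨0, 0⟩, 0⟩ 0 0)) (.cut .v 17039360 (.cut .s 10027008 (.pos 27 .mp ⟨32638842, 0, 0, 0, 0, 46086349, 0, 0, 0, ⟨0, 0⟩, 0⟩ 0 0) (.pos 27 .mp ⟨33952194, 0, 0, 0, 0, 48810272, 0, 0, 0, ⟨0, 0⟩, 0⟩ 0 0)) (.cut .v 17170432 (.cut .s 10027008 (.cut .s 9994240 (.pos 52 .mp ⟨53369965, 0, 0, 0, 0, 18029191, 0, 0, 0, ⟨0, 0⟩, 0⟩ 0 0) (.pos 52 .mp ⟨54547611, 0, 0, 0, 0, 18606676, 0,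 0, 0, ⟨0, 0⟩, 0⟩ 0 0)) (.cut .s 10059776 (.pos 52 .mp ⟨55766210, 0, 0, 0, 0, 19168573, 0, 0, 0, ⟨0, 0⟩, 0⟩ 0 0) (.pos 52 .mp ⟨57028364, 0, 0, 0, 0, 19710909, 0, 0, 0, ⟨0, 0⟩, 0⟩ 0 0))) (.pos 53 .mp ⟨70769994, 0, 0, 0, 0, 0, 0, 0, 0, ⟨0, 0⟩, 0⟩ 0 0)))) (.cut .l 1062557 (.cut .v 17039360 (.cut .d (-65536) (.cut .s 10027008 (.cut .v 16908288 (.pos 46 .mp ⟨41056573, 0, 0, 0, 0, 34086411, 0, 0, 0, ⟨0, 0⟩, 0⟩ 0 0) (.cut .s 9994240 (.pos 47 .mp ⟨49654185, 0, 0, 0, 0, 21117684, 0, 0, 0, ⟨0, 0⟩, 0⟩ 0 0) (.pos 47 .mp ⟨50812056, 0, 0, 0, 0, 21663449, 0, 0, 0, ⟨0, 0⟩, 0⟩ 0 0))) (.cut .s 10059776 (.cut .v 16908288 (.pos 46 .mp ⟨42962663, 0, 0, 0, 0, 35282839, 0, 0, 0, ⟨0,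 0⟩, 0⟩ 0 0) (.pos 47 .mp ⟨51990498, 0, 0, 0, 0, 22222826, 0, 0, 0, ⟨0, 0⟩, 0⟩ 0 0)) (.pos 27 .mp ⟨46675322, 0, 0, 0, 0, 32265914, 0, 0, 0, ⟨0, 0⟩, 0⟩ 0 0))) (.cut .d (-32768) (.cut .v 16908288 (.cut .v 16842752 (.pos 61 .mp ⟨0, 0, 0, 0, 0, 83716782, 0, 0, 0, ⟨0, 0⟩, 0⟩ 0 0) (.cut .l 685069 (.cut .l 496325 (.cut .s 10027008 (.cut .s 9994240 (.pos 62 .mp ⟨45609217, 0, 0, 0, 0, 24472851, 0, 0, 0, ⟨0, 0⟩, 0⟩ 0 0) (.pos 62 .mp ⟨46654186, 0, 0, 0, 0, 25145105, 0, 0, 0, ⟨0, 0⟩, 0⟩ 0 0)) (.pos 62 .mp ⟨48798171, 0, 0, 0, 0, 25870906, 0, 0, 0, ⟨0, 0⟩, 0⟩ 0 0)) (.pos 62 .mp ⟨45731902, 0, 0, 0, 0, 22910530, 0, 0, 0, ⟨0, 0⟩, 0⟩ 0 0)) (.pos 62 .mp ⟨0, 0, 0, 0, 0, 0, 0, 0,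 0, ⟨0, 0⟩, 0⟩ 0 0))) (.pos 47 .mp ⟨65113723, 0, 0, 0, 0, 0, 0, 0, 0, ⟨0, 0⟩, 0⟩ 0 0)) (.pos 27 .mp ⟨46039462, 0, 0, 0, 0, 0, 0, 0, 0, ⟨0, 0⟩, 0⟩ 0 0))) (.pos 28 .mp ⟨68258488, 0, 0, 0, 0, 0, 0, 0, 0, ⟨0, 0⟩, 0⟩ 0 0)) (.pos 25 .mp ⟨48790591, 0, 0, 0, 0, 0, 0, 0, 0, ⟨0, 0⟩, 0⟩ 0 0)))) (.cut .s 9961472 (.pos 26 .mp ⟨64770464, 0, 0, 0, 0, 0, 0, 0, 0, ⟨0, 0⟩, 0⟩ 0 0) (.pos 26 .mp ⟨71061376, 0, 0, 0, 0, 0, 0, 0, 0, ⟨0, 0⟩, 0⟩ 0 0)))) (.cut .s 9830400 (.pos 24 .mp ⟨61739802, 0, 0, 0, 0, 0, 0, 0, 0, ⟨0, 0⟩, 0⟩ 0 0) (.pos 24 .mp ⟨74400723, 0, 0, 0, 0, 0, 0, 0, 0, ⟨0, 0⟩, 0⟩ 0 0))))))) (.void 22 ⟨100000, 0, 0, 0, 0, 0, 0, 0, 0, ⟨0, 0⟩, 0⟩ 0 0)))) (.void 20 ⟨100000, 0,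 0, 0, 0, 0, 0, 0, 0, ⟨0, 0⟩, 0⟩ 0 0)) (.void 18 ⟨100000, 0, 0, 0, 0, 0, 0, 0, 0, ⟨0, 0⟩, 0⟩ 0 0)) (.void 45 ⟨100000, 0, 0, 0, 0, 0, 0, 0, 0, ⟨0, 0⟩, 0⟩ 0 0)) (.void 56 ⟨100000, 0, 0, 0, 0, 0, 0, 0, 0, ⟨0, 0⟩, 0⟩ 0 0))) (.cut .v 16777216 (.cut .v 8388608 (.cut .v 4194304 (.pos 4 .pm ⟨0, 0, 46357420, 0, 0, 0, 0, 0, 101614649, ⟨0, 0⟩, 3966728⟩ 0 0) (.cut .d 6320185 (.pos 5 .pm ⟨0, 0, 0, 0, 0, 0, 0, 0, 0, ⟨0, 0⟩, 0⟩ 0 0) (.pos 5 .pm ⟨0, 0, 0, 0, 0, 0, 0, 0, 26205302, ⟨0, 0⟩, 9975792⟩ 0 0))) (.cut .d 6320185 (.pos 3 .pm ⟨0, 0, 0, 0, 0, 0, 0, 0, 0, ⟨0, 0⟩, 0⟩ 0 0) (.cut .d 9480278 (.pos 3 .pm ⟨0, 0, 0, 0, 0, 0, 0, 0, 0, ⟨0, 0⟩, 0⟩ 0 0) (.cut .d 11060324 (.cut .v 12582912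 (.cut .d 10270301 (.pos 6 .pm ⟨0, 29804476, 0, 0, 0, 0, 0, 0, 6471708, ⟨0, 0⟩, 13128881⟩ 0 0) (.pos 6 .pm ⟨0, 42054765, 0, 0, 0, 0, 0, 0, 7465066, ⟨0, 0⟩, 13128881⟩ 0 0)) (.pos 7 .pm ⟨0, 28308896, 0, 0, 0, 0, 0, 11601635, 194469, ⟨5944552, 302⟩, 15612959⟩ 265 351)) (.void 3 ⟨0, 92953, 0, 0, 0, 0, 0, 0, 7047, ⟨0, 0⟩, 14107901⟩ 0 0))))) (.cut .d 6320185 (.cut .v 67108864 (.cut .d 3160092 (.cut .v 33554432 (.cut .d 1580046 (.cut .v 25165824 (.cut .d 790023 (.cut .v 20971520 (.cut .d 395011 (.cut .v 18874368 (.cut .v 17825792 (.pos 23 .pp ⟨43914820, 0, 0, 0, 0, 0, 0, 0, 0, ⟨0, 0⟩, 0⟩ 0 0) (.pos 24 .pp ⟨56087401, 0, 0, 0, 0, 0, 0, 0, 0, ⟨0, 0⟩, 0⟩ 0 0)) (.pos 22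 .pp ⟨71359871, 0, 0, 0, 0, 0, 0, 0, 0, ⟨0, 0⟩, 0⟩ 0 0)) (.pos 19 .pp ⟨32418805, 0, 0, 0, 0, 0, 0, 0, 0, ⟨0, 0⟩, 0⟩ 0 0)) (.cut .d 395011 (.pos 20 .pp ⟨114621887, 0, 0, 0, 0, 0, 0, 0, 0, ⟨0, 0⟩, 0⟩ 0 0) (.pos 20 .pp ⟨83711187, 0, 0, 0, 0, 0, 0, 0, 0, ⟨0, 0⟩, 0⟩ 0 0))) (.pos 17 .pp ⟨32245065, 0, 0, 0, 0, 0, 0, 0, 0, ⟨0, 0⟩, 0⟩ 0 0)) (.cut .d 790023 (.pos 18 .pp ⟨218005455, 0, 0, 0, 0, 0, 0, 0, 0, ⟨0, 0⟩, 0⟩ 0 0) (.cut .v 29360128 (.pos 41 .pp ⟨104025761, 0, 0, 0, 0, 0, 0, 0, 0, ⟨0, 0⟩, 0⟩ 0 0) (.pos 42 .pp ⟨173700731, 0, 0, 0, 0, 0, 0, 0, 0, ⟨0, 0⟩, 0⟩ 0 0)))) (.pos 16 .pp ⟨21746102, 0, 0, 0, 0, 0, 975444, 0, 0, ⟨0, 0⟩, 0⟩ 0 0)) (.cut .d 1580046 (.cut .v 50331648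 (.pos 48 .pp ⟨483769524, 0, 0, 0, 0, 0, 0, 0, 0, ⟨0, 0⟩, 0⟩ 0 0) (.void 49 ⟨100000, 0, 0, 0, 0, 0, 0, 0, 0, ⟨0, 0⟩, 0⟩ 0 0)) (.cut .v 50331648 (.cut .v 41943040 (.pos 50 .pp ⟨163317763, 0, 0, 0, 0, 0, 0, 0, 0, ⟨0, 0⟩, 0⟩ 0 0) (.pos 51 .pp ⟨318515584, 0, 0, 0, 0, 0, 0, 0, 0, ⟨0, 0⟩, 0⟩ 0 0)) (.cut .d 2370069 (.pos 49 .pp ⟨782160591, 0, 0, 0, 0, 0, 0, 0, 0, ⟨0, 0⟩, 0⟩ 0 0) (.pos 49 .pp ⟨499396230, 0, 0, 0, 0, 0, 0, 0, 0, ⟨0, 0⟩, 0⟩ 0 0))))) (.pos 44 .pp ⟨0, 0, 0, 0, 0, 0, 2270359, 0, 0, ⟨0, 0⟩, 0⟩ 0 0)) (.cut .d 3160092 (.pos 56 .pp ⟨3365381590, 3221293205, 0, 0, 0, 0, 0, 0, 0, ⟨0, 0⟩, 0⟩ 0 0) (.void 56 ⟨23722, 76278, 0, 0, 0, 0, 0, 0, 0, ⟨0, 0⟩, 0⟩ 0 0))) (.pos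 55 .pp ⟨0, 27675696, 0, 0, 0, 0, 0, 0, 0, ⟨0, 0⟩, 0⟩ 0 0)))),
    by decide +kernel⟩

def covers13 : cell.Covers table row13.1 :=
  ⟨(.cut .d 0 (.cut .v 16777216 (.cut .d (-8388608) (.void 1 ⟨0, 0, 0, 0, 0, 100000, 0, 0, 0, ⟨0, 0⟩, 0⟩ 0 0) (.cut .d (-4194304) (.void 1 ⟨0, 0, 0, 0, 0, 100000, 0, 0, 0, ⟨0, 0⟩, 0⟩ 0 0) (.cut .d (-2097152) (.void 1 ⟨0, 0, 0, 0, 0, 100000, 0, 0, 0, ⟨0, 0⟩, 0⟩ 0 0) (.cut .d (-1048576) (.void 1 ⟨0, 0, 0, 0, 0, 100000, 0, 0, 0, ⟨0, 0⟩, 0⟩ 0 0) (.cut .d (-524288) (.void 1 ⟨0, 0, 0, 0, 0, 100000, 0, 0, 0, ⟨0, 0⟩, 0⟩ 0 0) (.cut .d (-262144) (.void 1 ⟨0, 0, 0, 0, 0, 100000, 0, 0, 0, ⟨0, 0⟩, 0⟩ 0 0) (.cut .v 8388608 (.cut .v 4194304 (.void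 4 ⟨0, 0, 100000, 0, 0, 0, 0, 0, 0, ⟨0, 0⟩, 0⟩ 0 0) (.pos 5 .mm ⟨0, 0, 0, 0, 0, 26193733, 0, 0, 0, ⟨0, 0⟩, 0⟩ 0 0)) (.cut .s 10289152 (.pos 3 .mm ⟨0, 0, 0, 0, 0, 95293269, 0, 0, 0, ⟨0, 0⟩, 0⟩ 0 0) (.pos 3 .mm ⟨0, 0, 0, 0, 0, 111616600, 0, 0, 0, ⟨0, 0⟩, 0⟩ 0 0))))))))) (.cut .v 67108864 (.cut .v 33554432 (.cut .v 25165824 (.cut .d (-8388608) (.void 17 ⟨0, 0, 0, 0, 0, 100000, 0, 0, 0, ⟨0, 0⟩, 0⟩ 0 0) (.cut .v 20971520 (.cut .d (-4194304) (.void 19 ⟨100000, 0, 0, 0, 0, 0, 0, 0, 0, ⟨0, 0⟩, 0⟩ 0 0) (.cut .v 18874368 (.cut .d (-2097152) (.void 21 ⟨100000, 0, 0, 0, 0, 0, 0, 0, 0, ⟨0, 0⟩, 0⟩ 0 0) (.cut .d (-1048576) (.void 21 ⟨100000, 0, 0, 0, 0, 0, 0, 0, 0, ⟨0, 0⟩,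 0⟩ 0 0) (.cut .d (-524288) (.void 21 ⟨0, 0, 0, 0, 0, 100000, 0, 0, 0, ⟨0, 0⟩, 0⟩ 0 0) (.cut .d (-262144) (.void 21 ⟨0, 0, 0, 0, 0, 100000, 0, 0, 0, ⟨0, 0⟩, 0⟩ 0 0) (.cut .v 17825792 (.cut .s 10289152 (.cut .v 17301504 (.cut .d (-131072) (.cut .l 1062557 (.pos 25 .mp ⟨50339806, 0, 0, 0, 0, 44434481, 0, 0, 0, ⟨0, 0⟩, 0⟩ 0 0) (.cut .s 10190848 (.cut .v 17039360 (.pos 27 .mp ⟨35985141, 0, 0, 0, 0, 50688256, 0, 0, 0, ⟨0, 0⟩, 0⟩ 0 0) (.cut .s 10141696 (.pos 28 .mp ⟨59662462, 0, 0, 0, 0, 18500514, 0, 0, 0, ⟨0, 0⟩, 0⟩ 0 0) (.pos 28 .mp ⟨61604778, 0, 0, 0, 0, 19366540, 0, 0, 0, ⟨0, 0⟩, 0⟩ 0 0))) (.cut .d (-196608) (.pos 25 .mp ⟨53607482, 0, 0, 0, 0, 39261545, 0, 0, 0,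 ⟨0, 0⟩, 0⟩ 0 0) (.pos 25 .mp ⟨59806845, 0, 0, 0, 0, 21483542, 0, 0, 0, ⟨0, 0⟩, 0⟩ 0 0)))) (.cut .s 10190848 (.cut .s 10141696 (.cut .v 17039360 (.cut .d (-65536) (.pos 27 .mp ⟨44874823, 0, 0, 0, 0, 36815567, 0, 0, 0, ⟨0, 0⟩, 0⟩ 0 0) (.cut .d (-32768) (.pos 27 .mp ⟨47513243, 0, 0, 0, 0, 30386662, 0, 0, 0, ⟨0, 0⟩, 0⟩ 0 0) (.pos 27 .mp ⟨47513243, 0, 0, 0, 0, 0, 0, 0, 0, ⟨0, 0⟩, 0⟩ 0 0))) (.pos 28 .mp ⟨70725171, 0, 0, 0, 0, 0, 0, 0, 0, ⟨0, 0⟩, 0⟩ 0 0)) (.pos 25 .mp ⟨57603830, 0, 0, 0, 0, 19724931, 0, 0, 0, ⟨0, 0⟩, 0⟩ 0 0)) (.pos 25 .mp ⟨61470205, 0, 0, 0, 0, 18406869, 0, 0, 0, ⟨0, 0⟩, 0⟩ 0 0))) (.pos 26 .mp ⟨78732051, 0, 0, 0, 0, 0, 0, 0, 0, ⟨0, 0⟩, 0⟩ 0 0)) (.cut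 .v 17301504 (.cut .d (-131072) (.cut .s 10387456 (.pos 25 .mp ⟨53357598, 0, 0, 0, 0, 47310702, 0, 0, 0, ⟨0, 0⟩, 0⟩ 0 0) (.pos 25 .mp ⟨56897707, 0, 0, 0, 0, 51063597, 0, 0, 0, ⟨0, 0⟩, 0⟩ 0 0)) (.pos 25 .mp ⟨69843789, 0, 0, 0, 0, 15037591, 0, 0, 0, ⟨0, 0⟩, 0⟩ 0 0)) (.pos 26 .mp ⟨90060587, 0, 0, 0, 0, 0, 0, 0, 0, ⟨0, 0⟩, 0⟩ 0 0))) (.pos 24 .mp ⟨93555669, 0, 0, 0, 0, 0, 0, 0, 0, ⟨0, 0⟩, 0⟩ 0 0)))))) (.void 22 ⟨100000, 0, 0, 0, 0, 0, 0, 0, 0, ⟨0, 0⟩, 0⟩ 0 0))) (.void 20 ⟨100000, 0, 0, 0, 0, 0, 0, 0, 0, ⟨0, 0⟩, 0⟩ 0 0))) (.void 18 ⟨100000, 0, 0, 0, 0, 0, 0, 0, 0, ⟨0, 0⟩, 0⟩ 0 0)) (.void 45 ⟨100000, 0, 0, 0, 0, 0, 0, 0, 0, ⟨0, 0⟩, 0⟩ 0 0)) (.void 56 ⟨100000, 0, 0,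 0, 0, 0, 0, 0, 0, ⟨0, 0⟩, 0⟩ 0 0))) (.cut .v 16777216 (.cut .v 8388608 (.cut .v 4194304 (.cut .v 2097152 (.void 73 ⟨0, 0, 50000, 0, 50000, 0, 0, 0, 0, ⟨0, 0⟩, 0⟩ 0 0) (.void 74 ⟨0, 0, 45679, 0, 0, 0, 0, 0, 54321, ⟨0, 0⟩, 7053950⟩ 0 0)) (.cut .d 5556092 (.pos 5 .pm ⟨0, 0, 0, 0, 0, 0, 0, 0, 0, ⟨0, 0⟩, 0⟩ 0 0) (.cut .d 8334138 (.pos 5 .pm ⟨0, 0, 0, 0, 0, 0, 0, 0, 2285350, ⟨0, 0⟩, 9975792⟩ 0 0) (.cut .d 9723161 (.cut .d 9028649 (.pos 5 .pm ⟨0, 0, 0, 0, 0, 0, 0, 0, 714069, ⟨0, 0⟩, 9975792⟩ 0 0) (.cut .v 6291456 (.void 65 ⟨0, 0, 0, 0, 0, 0, 0, 0, 100000, ⟨0, 0⟩, 9283521⟩ 0 0) (.cut .s 10289152 (.pos 66 .pm ⟨0, 0, 0, 0, 0, 0, 0, 0, 29330646, ⟨0, 0⟩, 11040029⟩ 0 0)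 (.cut .s 10387456 (.pos 66 .pm ⟨0, 33582344, 0, 0, 0, 0, 0, 0, 7440436, ⟨0, 0⟩, 11040029⟩ 0 0) (.pos 66 .pm ⟨0, 44201029, 0, 0, 0, 0, 0, 0, 3350868, ⟨0, 0⟩, 11040029⟩ 0 0))))) (.void 5 ⟨0, 75861, 0, 0, 0, 0, 0, 0, 24139, ⟨0, 0⟩, 9975792⟩ 0 0))))) (.cut .d 5556092 (.pos 3 .pm ⟨0, 0, 0, 0, 0, 0, 0, 0, 0, ⟨0, 0⟩, 0⟩ 0 0) (.cut .d 8334138 (.pos 3 .pm ⟨0, 0, 0, 0, 0, 0, 0, 0, 0, ⟨0, 0⟩, 0⟩ 0 0) (.cut .v 12582912 (.cut .d 9723161 (.cut .d 9028649 (.pos 6 .pm ⟨0, 0, 0, 0, 0, 0, 0, 0, 0, ⟨0, 0⟩, 0⟩ 0 0) (.cut .v 10485760 (.cut .s 10289152 (.pos 8 .pm ⟨0, 34814153, 0, 0, 0, 0, 0, 0, 4245660, ⟨0, 0⟩, 12543895⟩ 0 0) (.cut .d 9375905 (.cut .s 10387456 (.pos 8 .pm ⟨0, 36912009,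 0, 0, 0, 0, 0, 0, 1526124, ⟨0, 0⟩, 12543895⟩ 0 0) (.pos 8 .pm ⟨0, 42356823, 0, 0, 0, 0, 0, 0, 1752470, ⟨0, 0⟩, 12543895⟩ 0 0)) (.pos 8 .pm ⟨0, 49793048, 0, 0, 0, 0, 0, 0, 3123528, ⟨0, 0⟩, 12543895⟩ 0 0))) (.pos 9 .pm ⟨0, 35461337, 0, 0, 0, 0, 0, 0, 0, ⟨0, 0⟩, 0⟩ 0 0))) (.cut .v 10485760 (.pos 8 .pm ⟨0, 64579416, 0, 0, 0, 0, 0, 0, 6684199, ⟨0, 0⟩, 12543895⟩ 0 0) (.pos 9 .pm ⟨0, 57416503, 0, 0, 0, 0, 0, 0, 0, ⟨0, 0⟩, 0⟩ 0 0))) (.pos 7 .pm ⟨0, 52914001, 0, 0, 0, 0, 0, 0, 0, ⟨0, 0⟩, 0⟩ 0 0))))) (.cut .d 5556092 (.cut .v 67108864 (.cut .d 2778046 (.cut .v 33554432 (.cut .d 1389023 (.cut .v 25165824 (.cut .d 694511 (.cut .v 20971520 (.cut .v 18874368 (.pos 21 .pp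 ⟨64501315, 0, 0, 0, 0, 0, 0, 0, 0, ⟨0, 0⟩, 0⟩ 0 0) (.pos 22 .pp ⟨89320159, 0, 0, 0, 0, 0, 0, 0, 0, ⟨0, 0⟩, 0⟩ 0 0)) (.pos 20 .pp ⟨132281762, 0, 0, 0, 0, 0, 0, 0, 0, ⟨0, 0⟩, 0⟩ 0 0)) (.pos 17 .pp ⟨48899078, 0, 0, 0, 0, 0, 0, 0, 0, ⟨0, 0⟩, 0⟩ 0 0)) (.cut .d 694511 (.pos 18 .pp ⟨275329146, 0, 0, 0, 0, 0, 0, 0, 0, ⟨0, 0⟩, 0⟩ 0 0) (.cut .v 29360128 (.pos 41 .pp ⟨139897376, 0, 0, 0, 0, 0, 0, 0, 0, ⟨0, 0⟩, 0⟩ 0 0) (.pos 42 .pp ⟨222038419, 0, 0, 0, 0, 0, 0, 0, 0, ⟨0, 0⟩, 0⟩ 0 0)))) (.pos 16 .pp ⟨37851184, 0, 0, 0, 0, 0, 0, 0, 0, ⟨0, 0⟩, 0⟩ 0 0)) (.cut .d 1389023 (.cut .v 50331648 (.pos 48 .pp ⟨601068015, 0, 0, 0, 0, 0, 0, 0, 0, ⟨0, 0⟩, 0⟩ 0 0) (.void 49 ⟨100000, 0,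 0, 0, 0, 0, 0, 0, 0, ⟨0, 0⟩, 0⟩ 0 0)) (.cut .v 50331648 (.cut .v 41943040 (.pos 50 .pp ⟨221289134, 0, 0, 0, 0, 0, 0, 0, 0, ⟨0, 0⟩, 0⟩ 0 0) (.cut .d 2083534 (.pos 51 .pp ⟨485225760, 0, 0, 0, 0, 0, 0, 0, 0, ⟨0, 0⟩, 0⟩ 0 0) (.pos 51 .pp ⟨308038077, 0, 0, 0, 0, 0, 0, 0, 0, ⟨0, 0⟩, 0⟩ 0 0))) (.cut .d 2083534 (.pos 49 .pp ⟨980487370, 0, 0, 0, 0, 0, 0, 0, 0, ⟨0, 0⟩, 0⟩ 0 0) (.pos 49 .pp ⟨650978368, 0, 0, 0, 0, 0, 0, 0, 0, ⟨0, 0⟩, 0⟩ 0 0))))) (.pos 44 .pp ⟨0, 0, 0, 0, 0, 0, 4900493, 0, 0, ⟨0, 0⟩, 0⟩ 0 0)) (.cut .d 2778046 (.cut .v 134217728 (.cut .d 1389023 (.void 59 ⟨100000, 0, 0, 0, 0, 0, 0, 0, 0, ⟨0, 0⟩, 0⟩ 0 0) (.pos 59 .pp ⟨1792513263, 1071710696, 0, 0, 0, 0, 0,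 0, 0, ⟨0, 0⟩, 0⟩ 0 0)) (.void 60 ⟨42490, 57510, 0, 0, 0, 0, 0, 0, 0, ⟨0, 0⟩, 0⟩ 0 0)) (.pos 56 .pp ⟨1225047550, 1346929183, 0, 0, 0, 0, 0, 0, 0, ⟨0, 0⟩, 0⟩ 0 0))) (.pos 55 .pp ⟨0, 33392701, 0, 0, 0, 0, 0, 0, 0, ⟨0, 0⟩, 0⟩ 0 0)))),
    by decide +kernel⟩

def covers14 : cell.Covers table row14.1 :=
  ⟨(.cut .d 0 (.cut .v 16777216 (.cut .d (-8388608) (.void 1 ⟨0, 0, 0, 0, 0, 100000, 0, 0, 0, ⟨0, 0⟩, 0⟩ 0 0) (.cut .d (-4194304) (.void 1 ⟨0, 0, 0, 0, 0, 100000, 0, 0, 0, ⟨0, 0⟩, 0⟩ 0 0) (.cut .d (-2097152) (.void 1 ⟨0, 0, 0, 0, 0, 100000, 0, 0, 0, ⟨0, 0⟩, 0⟩ 0 0) (.cut .d (-1048576) (.void 1 ⟨0, 0, 0, 0, 0, 100000, 0, 0, 0, ⟨0, 0⟩, 0⟩ 0 0) (.cut .d (-524288) (.void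 1 ⟨0, 0, 0, 0, 0, 100000, 0, 0, 0, ⟨0, 0⟩, 0⟩ 0 0) (.cut .d (-262144) (.void 1 ⟨0, 0, 0, 0, 0, 100000, 0, 0, 0, ⟨0, 0⟩, 0⟩ 0 0) (.cut .v 8388608 (.cut .v 4194304 (.void 4 ⟨0, 0, 100000, 0, 0, 0, 0, 0, 0, ⟨0, 0⟩, 0⟩ 0 0) (.pos 5 .mm ⟨0, 0, 0, 0, 0, 37604546, 0, 0, 0, ⟨0, 0⟩, 0⟩ 0 0)) (.cut .s 10682368 (.pos 3 .mm ⟨0, 0, 0, 0, 0, 133443148, 0, 0, 0, ⟨0, 0⟩, 0⟩ 0 0) (.pos 3 .mm ⟨0, 0, 0, 0, 0, 154606147, 0, 0, 0, ⟨0, 0⟩, 0⟩ 0 0))))))))) (.cut .v 67108864 (.cut .v 33554432 (.cut .v 25165824 (.cut .d (-8388608) (.void 17 ⟨0, 0, 0, 0, 0, 100000, 0, 0, 0, ⟨0, 0⟩, 0⟩ 0 0) (.cut .v 20971520 (.cut .d (-4194304) (.void 19 ⟨100000, 0, 0, 0, 0, 0, 0, 0, 0, ⟨0, 0⟩, 0⟩ 0 0)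 (.cut .v 18874368 (.cut .d (-2097152) (.void 21 ⟨100000, 0, 0, 0, 0, 0, 0, 0, 0, ⟨0, 0⟩, 0⟩ 0 0) (.cut .d (-1048576) (.void 21 ⟨100000, 0, 0, 0, 0, 0, 0, 0, 0, ⟨0, 0⟩, 0⟩ 0 0) (.cut .d (-524288) (.void 21 ⟨100000, 0, 0, 0, 0, 0, 0, 0, 0, ⟨0, 0⟩, 0⟩ 0 0) (.cut .d (-262144) (.void 21 ⟨0, 0, 0, 0, 0, 100000, 0, 0, 0, ⟨0, 0⟩, 0⟩ 0 0) (.cut .v 17825792 (.cut .s 10682368 (.cut .v 17301504 (.cut .d (-131072) (.pos 25 .mp ⟨60623005, 0, 0, 0, 0, 64829146, 0, 0, 0, ⟨0, 0⟩, 0⟩ 0 0) (.pos 25 .mp ⟨79436555, 0, 0, 0, 0, 20831374, 0, 0, 0, ⟨0, 0⟩, 0⟩ 0 0)) (.pos 26 .mp ⟨104367884, 0, 0, 0, 0, 0, 0, 0, 0, ⟨0, 0⟩, 0⟩ 0 0)) (.cut .v 17301504 (.cut .d (-131072) (.pos 25 .mp ⟨68930112,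 0, 0, 0, 0, 75357747, 0, 0, 0, ⟨0, 0⟩, 0⟩ 0 0) (.cut .s 10780672 (.pos 25 .mp ⟨84606503, 0, 0, 0, 0, 29425889, 0, 0, 0, ⟨0, 0⟩, 0⟩ 0 0) (.pos 25 .mp ⟨90041348, 0, 0, 0, 0, 32050120, 0, 0, 0, ⟨0, 0⟩, 0⟩ 0 0))) (.pos 26 .mp ⟨118949304, 0, 0, 0, 0, 0, 0, 0, 0, ⟨0, 0⟩, 0⟩ 0 0))) (.pos 24 .mp ⟨124164080, 0, 0, 0, 0, 0, 0, 0, 0, ⟨0, 0⟩, 0⟩ 0 0)))))) (.void 22 ⟨100000, 0, 0, 0, 0, 0, 0, 0, 0, ⟨0, 0⟩, 0⟩ 0 0))) (.void 20 ⟨100000, 0, 0, 0, 0, 0, 0, 0, 0, ⟨0, 0⟩, 0⟩ 0 0))) (.void 18 ⟨100000, 0, 0, 0, 0, 0, 0, 0, 0, ⟨0, 0⟩, 0⟩ 0 0)) (.void 45 ⟨100000, 0, 0, 0, 0, 0, 0, 0, 0, ⟨0, 0⟩, 0⟩ 0 0)) (.void 56 ⟨100000, 0, 0, 0, 0, 0, 0, 0, 0, ⟨0, 0⟩, 0⟩ 0 0))) (.cut .v 16777216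 (.cut .v 8388608 (.cut .v 4194304 (.cut .v 2097152 (.void 73 ⟨0, 0, 25058, 0, 0, 0, 0, 0, 74942, ⟨0, 0⟩, 2804900⟩ 0 0) (.pos 74 .pm ⟨0, 0, 593528, 0, 0, 0, 0, 0, 8884804, ⟨0, 0⟩, 7053950⟩ 0 0)) (.cut .d 5033166 (.pos 5 .pm ⟨0, 0, 0, 0, 0, 0, 0, 0, 0, ⟨0, 0⟩, 0⟩ 0 0) (.cut .d 7549749 (.pos 5 .pm ⟨0, 0, 0, 0, 0, 0, 0, 0, 542622, ⟨0, 0⟩, 9975792⟩ 0 0) (.cut .d 8808040 (.cut .v 6291456 (.pos 65 .pm ⟨0, 37715269, 0, 0, 0, 0, 0, 0, 6027838, ⟨0, 0⟩, 9283521⟩ 0 0) (.cut .d 8178894 (.pos 66 .pm ⟨0, 0, 0, 0, 0, 0, 0, 0, 0, ⟨0, 0⟩, 0⟩ 0 0) (.cut .s 10682368 (.cut .v 7340032 (.pos 75 .pm ⟨0, 0, 0, 0, 0, 0, 0, 0, 0, ⟨0, 0⟩, 0⟩ 0 0) (.pos 76 .pm ⟨0, 36659818, 0, 0, 0, 0,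 0, 0, 0, ⟨0, 0⟩, 0⟩ 0 0)) (.cut .l 1062557 (.cut .v 7340032 (.cut .d 8493467 (.pos 75 .pm ⟨0, 42368137, 0, 0, 0, 0, 0, 0, 0, ⟨0, 0⟩, 0⟩ 0 0) (.cut .l 685069 (.cut .s 10780672 (.cut .d 8650753 (.pos 75 .pm ⟨0, 43994041, 0, 0, 0, 0, 0, 0, 0, ⟨0, 0⟩, 0⟩ 0 0) (.cut .s 10731520 (.pos 75 .pm ⟨0, 45491867, 0, 0, 0, 0, 0, 0, 58181, ⟨0, 0⟩, 10677565⟩ 0 0) (.pos 75 .pm ⟨0, 48515370, 0, 0, 0, 0, 0, 0, 0, ⟨0, 0⟩, 0⟩ 0 0))) (.cut .d 8650753 (.pos 75 .pm ⟨0, 50205944, 0, 0, 0, 0, 0, 0, 0, ⟨0, 0⟩, 0⟩ 0 0) (.pos 75 .pm ⟨0, 245748492, 0, 0, 0, 0, 0, 0, 7374862, ⟨0, 0⟩, 10677565⟩ 0 0))) (.pos 75 .pm ⟨0, 48314914, 0, 0, 0, 0, 0, 0, 0, ⟨0, 0⟩, 0⟩ 0 0))) (.cut .d 8493467 (.pos 76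 .pm ⟨0, 43892128, 0, 0, 0, 0, 0, 0, 0, ⟨0, 0⟩, 0⟩ 0 0) (.cut .s 10780672 (.cut .s 10731520 (.pos 76 .pm ⟨0, 46498024, 0, 0, 0, 0, 0, 0, 0, ⟨0, 0⟩, 0⟩ 0 0) (.pos 76 .pm ⟨0, 49525609, 0, 0, 0, 0, 0, 0, 0, ⟨0, 0⟩, 0⟩ 0 0)) (.pos 76 .pm ⟨0, 53902155, 0, 0, 0, 0, 0, 0, 0, ⟨0, 0⟩, 0⟩ 0 0)))) (.pos 66 .pm ⟨0, 46069143, 0, 0, 0, 0, 0, 0, 0, ⟨0, 0⟩, 0⟩ 0 0))))) (.cut .v 6291456 (.void 65 ⟨0, 76535, 0, 0, 0, 0, 0, 0, 23465, ⟨0, 0⟩, 9283521⟩ 0 0) (.cut .d 9437186 (.cut .s 10682368 (.cut .l 1062557 (.cut .d 9122613 (.cut .v 7340032 (.cut .s 10584064 (.pos 75 .pm ⟨0, 0, 0, 0, 0, 0, 0, 0, 34354282, ⟨0, 0⟩, 10677565⟩ 0 0) (.cut .s 10633216 (.pos 75 .pm ⟨0, 36757534, 0, 0,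 0, 0, 0, 0, 7549633, ⟨0, 0⟩, 10677565⟩ 0 0) (.pos 75 .pm ⟨0, 47795339, 0, 0, 0, 0, 0, 0, 1067318, ⟨0, 0⟩, 10677565⟩ 0 0))) (.cut .l 685069 (.cut .s 10584064 (.cut .d 8965326 (.pos 76 .pm ⟨0, 12422222, 0, 0, 0, 0, 0, 0, 0, ⟨0, 0⟩, 0⟩ 0 0) (.cut .v 7864320 (.pos 85 .pm ⟨0, 45285553, 0, 0, 0, 0, 0, 0, 1910035, ⟨0, 0⟩, 11290150⟩ 0 0) (.cut .s 10534912 (.pos 86 .pm ⟨0, 43089805, 0, 0, 0, 0, 0, 0, 1410314, ⟨0, 0⟩, 11673409⟩ 0 0) (.pos 86 .pm ⟨0, 45484780, 0, 0, 0, 0, 0, 0, 1007219, ⟨0, 0⟩, 11673409⟩ 0 0)))) (.cut .v 7864320 (.cut .l 496325 (.cut .d 8965326 (.cut .l 401953 (.cut .s 10633216 (.cut .v 7602176 (.pos 89 .pm ⟨0, 44426393, 0, 0, 0, 0, 0, 0, 531782, ⟨0, 0⟩,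 11194866⟩ 0 0) (.pos 90 .pm ⟨0, 44550432, 0, 0, 0, 0, 0, 0, 147612, ⟨0, 0⟩, 11389633⟩ 0 0)) (.cut .d 8886683 (.pos 85 .pm ⟨0, 45714777, 0, 0, 0, 0, 0, 0, 0, ⟨0, 0⟩, 0⟩ 0 0) (.pos 85 .pm ⟨0, 47761086, 0, 0, 0, 0, 0, 0, 68686, ⟨0, 0⟩, 11290150⟩ 0 0))) (.pos 85 .pm ⟨0, 44823451, 0, 0, 0, 0, 0, 0, 0, ⟨0, 0⟩, 0⟩ 0 0)) (.cut .s 10633216 (.pos 85 .pm ⟨0, 48158783, 0, 0, 0, 0, 0, 0, 1014086, ⟨0, 0⟩, 11290150⟩ 0 0) (.void 85 ⟨0, 95628, 0, 0, 0, 0, 0, 0, 4372, ⟨0, 0⟩, 11290150⟩ 0 0))) (.pos 85 .pm ⟨0, 46811021, 0, 0, 0, 0, 0, 0, 172510, ⟨0, 0⟩, 11290150⟩ 0 0)) (.pos 86 .pm ⟨0, 48513870, 0, 0, 0, 0, 0, 0, 0, ⟨0, 0⟩, 0⟩ 0 0))) (.pos 76 .pm ⟨0, 43187169, 0, 0, 0, 0, 0, 0,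 0, ⟨0, 0⟩, 0⟩ 0 0))) (.cut .s 10584064 (.pos 66 .pm ⟨0, 54295299, 0, 0, 0, 0, 0, 0, 3179263, ⟨0, 0⟩, 11040029⟩ 0 0) (.void 66 ⟨0, 95585, 0, 0, 0, 0, 0, 0, 4415, ⟨0, 0⟩, 11040029⟩ 0 0))) (.pos 66 .pm ⟨0, 47764914, 0, 0, 0, 0, 0, 0, 1166619, ⟨0, 0⟩, 11040029⟩ 0 0)) (.cut .v 7340032 (.pos 75 .pm ⟨0, 60058005, 0, 0, 0, 0, 0, 0, 796168, ⟨0, 0⟩, 10677565⟩ 0 0) (.pos 76 .pm ⟨0, 61071110, 0, 0, 0, 0, 0, 0, 0, ⟨0, 0⟩, 0⟩ 0 0))) (.void 66 ⟨0, 95451, 0, 0, 0, 0, 0, 0, 4549, ⟨0, 0⟩, 11040029⟩ 0 0))))))) (.cut .d 5033166 (.pos 3 .pm ⟨0, 0, 0, 0, 0, 0, 0, 0, 0, ⟨0, 0⟩, 0⟩ 0 0) (.cut .d 7549749 (.pos 3 .pm ⟨0, 0, 0, 0, 0, 0, 0, 0, 0, ⟨0, 0⟩, 0⟩ 0 0) (.cut .v 12582912 (.cut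 .v 10485760 (.cut .d 8808040 (.cut .s 10682368 (.pos 8 .pm ⟨0, 37885076, 0, 0, 0, 0, 0, 0, 0, ⟨0, 0⟩, 0⟩ 0 0) (.pos 8 .pm ⟨0, 49520109, 0, 0, 0, 0, 0, 0, 0, ⟨0, 0⟩, 0⟩ 0 0)) (.cut .s 10682368 (.cut .d 9437186 (.cut .d 9122613 (.pos 8 .pm ⟨0, 45805653, 0, 0, 0, 0, 0, 0, 0, ⟨0, 0⟩, 0⟩ 0 0) (.pos 8 .pm ⟨0, 52026340, 0, 0, 0, 0, 0, 0, 0, ⟨0, 0⟩, 0⟩ 0 0)) (.void 8 ⟨0, 100000, 0, 0, 0, 0, 0, 0, 0, ⟨0, 0⟩, 0⟩ 0 0)) (.void 8 ⟨0, 100000, 0, 0, 0, 0, 0, 0, 0, ⟨0, 0⟩, 0⟩ 0 0))) (.pos 9 .pm ⟨0, 63334024, 0, 0, 0, 0, 0, 0, 0, ⟨0, 0⟩, 0⟩ 0 0)) (.pos 7 .pm ⟨0, 67856236, 0, 0, 0, 0, 0, 0, 0, ⟨0, 0⟩, 0⟩ 0 0))))) (.cut .d 5033166 (.cut .v 67108864 (.cut .d 2516583 (.cut .v 33554432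 (.cut .d 1258291 (.cut .v 25165824 (.cut .d 629145 (.cut .v 20971520 (.cut .v 18874368 (.pos 21 .pp ⟨85708418, 0, 0, 0, 0, 0, 0, 0, 0, ⟨0, 0⟩, 0⟩ 0 0) (.pos 22 .pp ⟨116305673, 0, 0, 0, 0, 0, 0, 0, 0, ⟨0, 0⟩, 0⟩ 0 0)) (.pos 20 .pp ⟨169188634, 0, 0, 0, 0, 0, 0, 0, 0, ⟨0, 0⟩, 0⟩ 0 0)) (.pos 17 .pp ⟨63617634, 0, 0, 0, 0, 0, 0, 0, 0, ⟨0, 0⟩, 0⟩ 0 0)) (.cut .d 629145 (.pos 18 .pp ⟨342580643, 0, 0, 0, 0, 0, 0, 0, 0, ⟨0, 0⟩, 0⟩ 0 0) (.cut .v 29360128 (.pos 41 .pp ⟨178500159, 0, 0, 0, 0, 0, 0, 0, 0, ⟨0, 0⟩, 0⟩ 0 0) (.pos 42 .pp ⟨277092413, 0, 0, 0, 0, 0, 0, 0, 0, ⟨0, 0⟩, 0⟩ 0 0)))) (.pos 16 .pp ⟨50961148, 0, 0, 0, 0, 0, 0, 0, 0, ⟨0, 0⟩, 0⟩ 0 0)) (.cut .d 1258291 (.cut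 .v 50331648 (.pos 48 .pp ⟨733850421, 0, 0, 0, 0, 0, 0, 0, 0, ⟨0, 0⟩, 0⟩ 0 0) (.void 49 ⟨100000, 0, 0, 0, 0, 0, 0, 0, 0, ⟨0, 0⟩, 0⟩ 0 0)) (.cut .v 50331648 (.cut .v 41943040 (.pos 50 .pp ⟨277676519, 0, 0, 0, 0, 0, 0, 0, 0, ⟨0, 0⟩, 0⟩ 0 0) (.cut .d 1887437 (.pos 51 .pp ⟨593942575, 0, 0, 0, 0, 0, 0, 0, 0, ⟨0, 0⟩, 0⟩ 0 0) (.pos 51 .pp ⟨383248734, 0, 0, 0, 0, 0, 0, 0, 0, ⟨0, 0⟩, 0⟩ 0 0))) (.cut .v 58720256 (.cut .d 1887437 (.pos 67 .pp ⟨926057535, 0, 0, 0, 0, 0, 0, 0, 0, ⟨0, 0⟩, 0⟩ 0 0) (.pos 67 .pp ⟨647359394, 0, 0, 0, 0, 0, 0, 0, 0, ⟨0, 0⟩, 0⟩ 0 0)) (.pos 68 .pp ⟨1128051529, 0, 0, 0, 0, 0, 0, 0, 0, ⟨0, 0⟩, 0⟩ 0 0))))) (.pos 44 .pp ⟨0, 0, 0, 0, 0, 0, 6601356, 0,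 0, ⟨0, 0⟩, 0⟩ 0 0)) (.cut .v 134217728 (.cut .d 2516583 (.cut .d 1258291 (.void 59 ⟨100000, 0, 0, 0, 0, 0, 0, 0, 0, ⟨0, 0⟩, 0⟩ 0 0) (.cut .d 1887437 (.void 59 ⟨100000, 0, 0, 0, 0, 0, 0, 0, 0, ⟨0, 0⟩, 0⟩ 0 0) (.cut .v 100663296 (.pos 81 .pp ⟨1531760497, 500353858, 0, 0, 0, 0, 0, 0, 0, ⟨0, 0⟩, 0⟩ 0 0) (.void 82 ⟨0, 100000, 0, 0, 0, 0, 0, 0, 0, ⟨0, 0⟩, 0⟩ 0 0)))) (.pos 59 .pp ⟨1096979099, 509699829, 0, 0, 0, 0, 0, 0, 0, ⟨0, 0⟩, 0⟩ 0 0)) (.void 60 ⟨40138, 59862, 0, 0, 0, 0, 0, 0, 0, ⟨0, 0⟩, 0⟩ 0 0))) (.pos 55 .pp ⟨0, 42099115, 0, 0, 0, 0, 0, 0, 0, ⟨0, 0⟩, 0⟩ 0 0)))),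
    by decide +kernel⟩

def covers15 : cell.Covers table row15.1 :=
  ⟨(.cut .d 0 (.cut .v 16777216 (.cut .d (-8388608) (.void 1 ⟨0, 0, 0, 0, 0, 100000, 0, 0, 0, ⟨0, 0⟩, 0⟩ 0 0) (.cut .d (-4194304) (.void 1 ⟨0, 0, 0, 0, 0, 100000, 0, 0, 0, ⟨0, 0⟩, 0⟩ 0 0) (.cut .d (-2097152) (.void 1 ⟨0, 0, 0, 0, 0, 100000, 0, 0, 0, ⟨0, 0⟩, 0⟩ 0 0) (.cut .d (-1048576) (.void 1 ⟨0, 0, 0, 0, 0, 100000, 0, 0, 0, ⟨0, 0⟩, 0⟩ 0 0) (.cut .d (-524288) (.void 1 ⟨0, 0, 0, 0, 0, 100000, 0, 0, 0, ⟨0, 0⟩, 0⟩ 0 0) (.cut .d (-262144) (.void 1 ⟨0, 0, 0, 0, 0, 100000, 0, 0, 0, ⟨0, 0⟩, 0⟩ 0 0) (.cut .v 8388608 (.cut .v 4194304 (.void 4 ⟨0, 0, 100000, 0, 0, 0, 0, 0, 0, ⟨0, 0⟩, 0⟩ 0 0) (.pos 5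 .mm ⟨0, 0, 344970, 0, 0, 52658061, 0, 0, 0, ⟨0, 0⟩, 0⟩ 0 0)) (.cut .s 11108352 (.pos 3 .mm ⟨0, 0, 0, 0, 0, 183852845, 0, 0, 0, ⟨0, 0⟩, 0⟩ 0 0) (.pos 3 .mm ⟨0, 0, 0, 0, 0, 216005521, 0, 0, 0, ⟨0, 0⟩, 0⟩ 0 0))))))))) (.cut .v 268435456 (.cut .v 67108864 (.cut .v 33554432 (.cut .v 25165824 (.cut .d (-8388608) (.void 17 ⟨0, 0, 0, 0, 0, 100000, 0, 0, 0, ⟨0, 0⟩, 0⟩ 0 0) (.cut .v 20971520 (.cut .d (-4194304) (.void 19 ⟨100000, 0, 0, 0, 0, 0, 0, 0, 0, ⟨0, 0⟩, 0⟩ 0 0) (.cut .v 18874368 (.cut .d (-2097152) (.void 21 ⟨100000, 0, 0, 0, 0, 0, 0, 0, 0, ⟨0, 0⟩, 0⟩ 0 0) (.cut .d (-1048576) (.void 21 ⟨100000, 0, 0, 0, 0, 0, 0, 0, 0, ⟨0, 0⟩, 0⟩ 0 0) (.cut .d (-524288) (.void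 21 ⟨100000, 0, 0, 0, 0, 0, 0, 0, 0, ⟨0, 0⟩, 0⟩ 0 0) (.cut .d (-262144) (.void 21 ⟨0, 0, 0, 0, 0, 100000, 0, 0, 0, ⟨0, 0⟩, 0⟩ 0 0) (.cut .v 17825792 (.cut .d (-131072) (.cut .v 17301504 (.cut .d (-196608) (.void 25 ⟨0, 0, 0, 0, 0, 100000, 0, 0, 0, ⟨0, 0⟩, 0⟩ 0 0) (.cut .l 1062557 (.void 25 ⟨0, 0, 0, 0, 0, 100000, 0, 0, 0, ⟨0, 0⟩, 0⟩ 0 0) (.cut .s 11108352 (.cut .v 17039360 (.pos 27 .mp ⟨43201949, 0, 0, 0, 0, 135350364, 0, 0, 0, ⟨0, 0⟩, 0⟩ 0 0) (.pos 28 .mp ⟨108135943, 0, 0, 0, 0, 41217470, 0, 0, 0, ⟨0, 0⟩, 0⟩ 0 0)) (.cut .l 1440044 (.pos 25 .mp ⟨103223155, 0, 0, 0, 0, 93863262, 0, 0, 0, ⟨0, 0⟩, 0⟩ 0 0) (.cut .v 17039360 (.pos 27 .mp ⟨0, 0, 0, 0, 0, 225801087,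 0, 0, 0, ⟨0, 0⟩, 0⟩ 0 0) (.cut .s 11223040 (.pos 28 .mp ⟨112513037, 0, 0, 0, 0, 53220426, 0, 0, 0, ⟨0, 0⟩, 0⟩ 0 0) (.cut .s 11280384 (.pos 28 .mp ⟨114364835, 0, 0, 0, 0, 61664452, 0, 0, 0, ⟨0, 0⟩, 0⟩ 0 0) (.pos 28 .mp ⟨118664722, 0, 0, 0, 0, 63979050, 0, 0, 0, ⟨0, 0⟩, 0⟩ 0 0)))))))) (.pos 26 .mp ⟨169187253, 0, 0, 0, 0, 0, 0, 0, 0, ⟨0, 0⟩, 0⟩ 0 0)) (.cut .s 11108352 (.cut .v 17301504 (.cut .s 10993664 (.pos 25 .mp ⟨96865404, 0, 0, 0, 0, 35129259, 0, 0, 0, ⟨0, 0⟩, 0⟩ 0 0) (.cut .s 11051008 (.pos 25 .mp ⟨100419649, 0, 0, 0, 0, 40375994, 0, 0, 0, ⟨0, 0⟩, 0⟩ 0 0) (.cut .s 11079680 (.pos 25 .mp ⟨102234384, 0, 0, 0, 0, 43258438, 0, 0, 0, ⟨0, 0⟩, 0⟩ 0 0) (.pos 25 .mp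 ⟨104074673, 0, 0, 0, 0, 44168898, 0, 0, 0, ⟨0, 0⟩, 0⟩ 0 0)))) (.pos 26 .mp ⟨133080500, 0, 0, 0, 0, 0, 0, 0, 0, ⟨0, 0⟩, 0⟩ 0 0)) (.cut .v 17301504 (.cut .s 11223040 (.cut .v 17039360 (.cut .l 1062557 (.cut .d (-65536) (.pos 27 .mp ⟨86478769, 0, 0, 0, 0, 92402592, 0, 0, 0, ⟨0, 0⟩, 0⟩ 0 0) (.cut .s 11165696 (.pos 27 .mp ⟨96547636, 0, 0, 0, 0, 59533524, 0, 0, 0, ⟨0, 0⟩, 0⟩ 0 0) (.pos 27 .mp ⟨99894547, 0, 0, 0, 0, 62243429, 0, 0, 0, ⟨0, 0⟩, 0⟩ 0 0))) (.pos 27 .mp ⟨101224058, 0, 0, 0, 0, 53211793, 0, 0, 0, ⟨0, 0⟩, 0⟩ 0 0)) (.pos 28 .mp ⟨143573600, 0, 0, 0, 0, 0, 0, 0, 0, ⟨0, 0⟩, 0⟩ 0 0)) (.cut .v 17039360 (.cut .d (-65536) (.cut .l 1062557 (.cut .s 11280384 (.pos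 27 .mp ⟨92581733, 0, 0, 0, 0, 92844125, 0, 0, 0, ⟨0, 0⟩, 0⟩ 0 0) (.pos 27 .mp ⟨95747511, 0, 0, 0, 0, 97039967, 0, 0, 0, ⟨0, 0⟩, 0⟩ 0 0)) (.cut .s 11280384 (.pos 27 .mp ⟨85387610, 0, 0, 0, 0, 97801176, 0, 0, 0, ⟨0, 0⟩, 0⟩ 0 0) (.pos 27 .mp ⟨88289047, 0, 0, 0, 0, 102134360, 0, 0, 0, ⟨0, 0⟩, 0⟩ 0 0))) (.cut .l 1062557 (.cut .l 685069 (.cut .s 11280384 (.pos 27 .mp ⟨103329028, 0, 0, 0, 0, 65529631, 0, 0, 0, ⟨0, 0⟩, 0⟩ 0 0) (.cut .v 16908288 (.cut .d (-32768) (.pos 46 .mp ⟨99453245, 0, 0, 0, 0, 84283195, 0, 0, 0, ⟨0, 0⟩, 0⟩ 0 0) (.cut .s 11309056 (.pos 46 .mp ⟨98926433, 0, 0, 0, 0, 75246707, 0, 0, 0, ⟨0, 0⟩, 0⟩ 0 0) (.pos 46 .mp ⟨100561522, 0, 0, 0, 0, 76906932,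 0, 0, 0, ⟨0, 0⟩, 0⟩ 0 0))) (.pos 47 .mp ⟨157538424, 0, 0, 0, 0, 0, 0, 0, 0, ⟨0, 0⟩, 0⟩ 0 0))) (.pos 27 .mp ⟨102907027, 0, 0, 0, 0, 63987459, 0, 0, 0, ⟨0, 0⟩, 0⟩ 0 0)) (.pos 27 .mp ⟨0, 0, 0, 0, 0, 0, 0, 0, 0, ⟨0, 0⟩, 0⟩ 0 0))) (.cut .s 11280384 (.pos 28 .mp ⟨150248944, 0, 0, 0, 0, 0, 0, 0, 0, ⟨0, 0⟩, 0⟩ 0 0) (.pos 28 .mp ⟨155816041, 0, 0, 0, 0, 0, 0, 0, 0, ⟨0, 0⟩, 0⟩ 0 0)))) (.pos 26 .mp ⟨153413301, 0, 0, 0, 0, 0, 0, 0, 0, ⟨0, 0⟩, 0⟩ 0 0)))) (.pos 24 .mp ⟨167421232, 0, 0, 0, 0, 0, 0, 0, 0, ⟨0, 0⟩, 0⟩ 0 0)))))) (.void 22 ⟨100000, 0, 0, 0, 0, 0, 0, 0, 0, ⟨0, 0⟩, 0⟩ 0 0))) (.void 20 ⟨100000, 0, 0, 0, 0, 0, 0, 0, 0, ⟨0, 0⟩, 0⟩ 0 0))) (.void 18 ⟨100000, 0, 0, 0, 0,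 0, 0, 0, 0, ⟨0, 0⟩, 0⟩ 0 0)) (.void 45 ⟨100000, 0, 0, 0, 0, 0, 0, 0, 0, ⟨0, 0⟩, 0⟩ 0 0)) (.void 56 ⟨100000, 0, 0, 0, 0, 0, 0, 0, 0, ⟨0, 0⟩, 0⟩ 0 0)) (.void 95 ⟨95059, 0, 0, 4941, 0, 0, 0, 0, 0, ⟨0, 0⟩, 0⟩ 0 0))) (.cut .v 16777216 (.cut .v 8388608 (.cut .v 4194304 (.cut .v 2097152 (.void 73 ⟨0, 0, 25058, 0, 0, 0, 0, 0, 74942, ⟨0, 0⟩, 2804900⟩ 0 0) (.cut .d 4548041 (.pos 74 .pm ⟨0, 0, 9785578, 0, 0, 0, 0, 0, 0, ⟨0, 0⟩, 0⟩ 0 0) (.pos 74 .pm ⟨0, 24453650, 0, 0, 0, 0, 0, 0, 10763112, ⟨0, 0⟩, 7053950⟩ 0 0))) (.cut .d 4548041 (.pos 5 .pm ⟨0, 0, 344970, 0, 0, 0, 0, 0, 0, ⟨0, 0⟩, 0⟩ 0 0) (.cut .d 6822062 (.pos 5 .pm ⟨0, 0, 0, 0, 0, 0, 0, 0, 0, ⟨0, 0⟩, 0⟩ 0 0) (.cut .d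 7959072 (.cut .d 7390567 (.pos 5 .pm ⟨0, 0, 0, 0, 0, 0, 0, 0, 0, ⟨0, 0⟩, 0⟩ 0 0) (.cut .v 6291456 (.cut .s 11108352 (.pos 65 .pm ⟨0, 0, 0, 0, 0, 0, 0, 0, 0, ⟨0, 0⟩, 0⟩ 0 0) (.cut .s 11223040 (.pos 65 .pm ⟨0, 52134917, 0, 0, 0, 0, 0, 0, 0, ⟨0, 0⟩, 0⟩ 0 0) (.pos 65 .pm ⟨0, 60164041, 0, 0, 0, 0, 0, 0, 0, ⟨0, 0⟩, 0⟩ 0 0))) (.cut .s 11108352 (.pos 66 .pm ⟨0, 44565746, 0, 0, 0, 0, 0, 0, 0, ⟨0, 0⟩, 0⟩ 0 0) (.cut .s 11223040 (.cut .d 7674819 (.pos 66 .pm ⟨0, 0, 0, 0, 0, 0, 0, 0, 0, ⟨0, 0⟩, 0⟩ 0 0) (.pos 66 .pm ⟨0, 61206410, 0, 0, 0, 0, 0, 0, 0, ⟨0, 0⟩, 0⟩ 0 0)) (.pos 66 .pm ⟨0, 66474701, 0, 0, 0, 0, 0, 0, 0, ⟨0, 0⟩, 0⟩ 0 0))))) (.cut .d 8527577 (.cut .v 6291456 (.cut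 .s 11108352 (.cut .s 10993664 (.pos 65 .pm ⟨0, 48035457, 0, 0, 0, 0, 0, 0, 0, ⟨0, 0⟩, 0⟩ 0 0) (.pos 65 .pm ⟨0, 56315544, 0, 0, 0, 0, 0, 0, 0, ⟨0, 0⟩, 0⟩ 0 0)) (.pos 65 .pm ⟨0, 71374960, 0, 0, 0, 0, 0, 0, 0, ⟨0, 0⟩, 0⟩ 0 0)) (.cut .s 11108352 (.cut .l 1062557 (.cut .s 10993664 (.cut .v 7340032 (.cut .d 8243324 (.pos 75 .pm ⟨0, 47465993, 0, 0, 0, 0, 0, 0, 0, ⟨0, 0⟩, 0⟩ 0 0) (.cut .d 8385450 (.pos 75 .pm ⟨0, 51920223, 0, 0, 0, 0, 0, 0, 0, ⟨0, 0⟩, 0⟩ 0 0) (.pos 75 .pm ⟨0, 55878125, 0, 0, 0, 0, 0, 0, 0, ⟨0, 0⟩, 0⟩ 0 0))) (.pos 76 .pm ⟨0, 54949686, 0, 0, 0, 0, 0, 0, 0, ⟨0, 0⟩, 0⟩ 0 0)) (.cut .v 7340032 (.cut .d 8243324 (.pos 75 .pm ⟨0, 56528609, 0, 0, 0, 0, 0, 0,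 0, ⟨0, 0⟩, 0⟩ 0 0) (.void 75 ⟨0, 100000, 0, 0, 0, 0, 0, 0, 0, ⟨0, 0⟩, 0⟩ 0 0)) (.pos 76 .pm ⟨0, 64436447, 0, 0, 0, 0, 0, 0, 0, ⟨0, 0⟩, 0⟩ 0 0))) (.pos 66 .pm ⟨0, 56656648, 0, 0, 0, 0, 0, 0, 0, ⟨0, 0⟩, 0⟩ 0 0)) (.pos 66 .pm ⟨0, 86921334, 0, 0, 0, 0, 0, 0, 0, ⟨0, 0⟩, 0⟩ 0 0))) (.void 5 ⟨0, 96317, 0, 0, 0, 0, 0, 0, 3683, ⟨0, 0⟩, 9975792⟩ 0 0)))))) (.cut .d 4548041 (.pos 3 .pm ⟨0, 0, 0, 0, 0, 0, 0, 0, 0, ⟨0, 0⟩, 0⟩ 0 0) (.cut .d 6822062 (.pos 3 .pm ⟨0, 0, 0, 0, 0, 0, 0, 0, 0, ⟨0, 0⟩, 0⟩ 0 0) (.cut .d 7959072 (.pos 3 .pm ⟨0, 54081600, 0, 0, 0, 0, 0, 0, 0, ⟨0, 0⟩, 0⟩ 0 0) (.pos 3 .pm ⟨0, 87356135, 0, 0, 0, 0, 0, 0, 0, ⟨0, 0⟩, 0⟩ 0 0))))) (.cut .v 268435456 (.cut .d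 4548041 (.cut .v 67108864 (.cut .d 2274020 (.cut .v 33554432 (.cut .d 1137010 (.cut .v 25165824 (.cut .d 568505 (.cut .v 20971520 (.cut .v 18874368 (.cut .v 17825792 (.pos 23 .pp ⟨104135879, 0, 0, 0, 0, 0, 0, 0, 0, ⟨0, 0⟩, 0⟩ 0 0) (.pos 24 .pp ⟨127549662, 0, 0, 0, 0, 0, 0, 0, 0, ⟨0, 0⟩, 0⟩ 0 0)) (.pos 22 .pp ⟨151513803, 0, 0, 0, 0, 0, 0, 0, 0, ⟨0, 0⟩, 0⟩ 0 0)) (.pos 20 .pp ⟨219077320, 0, 0, 0, 0, 0, 0, 0, 0, ⟨0, 0⟩, 0⟩ 0 0)) (.pos 17 .pp ⟨81685649, 0, 0, 0, 0, 0, 0, 0, 0, ⟨0, 0⟩, 0⟩ 0 0)) (.cut .d 568505 (.pos 18 .pp ⟨435986919, 0, 0, 0, 0, 0, 0, 0, 0, ⟨0, 0⟩, 0⟩ 0 0) (.cut .v 29360128 (.pos 41 .pp ⟨225226272, 0, 0, 0, 0, 0, 0, 0, 0, ⟨0, 0⟩, 0⟩ 0 0) (.pos 42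 .pp ⟨346824290, 0, 0, 0, 0, 0, 0, 0, 0, ⟨0, 0⟩, 0⟩ 0 0)))) (.pos 16 .pp ⟨67058728, 0, 0, 0, 0, 0, 0, 0, 0, ⟨0, 0⟩, 0⟩ 0 0)) (.cut .d 1137010 (.cut .v 50331648 (.cut .v 41943040 (.pos 50 .pp ⟨662353813, 0, 0, 0, 0, 0, 0, 0, 0, ⟨0, 0⟩, 0⟩ 0 0) (.void 51 ⟨100000, 0, 0, 0, 0, 0, 0, 0, 0, ⟨0, 0⟩, 0⟩ 0 0)) (.void 49 ⟨100000, 0, 0, 0, 0, 0, 0, 0, 0, ⟨0, 0⟩, 0⟩ 0 0)) (.cut .v 50331648 (.cut .v 41943040 (.pos 50 .pp ⟨346542522, 0, 0, 0, 0, 0, 0, 0, 0, ⟨0, 0⟩, 0⟩ 0 0) (.cut .d 1705515 (.pos 51 .pp ⟨728610088, 0, 0, 0, 0, 0, 0, 0, 0, ⟨0, 0⟩, 0⟩ 0 0) (.pos 51 .pp ⟨473748992, 0, 0, 0, 0, 0, 0, 0, 0, ⟨0, 0⟩, 0⟩ 0 0))) (.cut .d 1705515 (.pos 49 .pp ⟨1456222662, 0, 0, 0, 0,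 0, 0, 0, 0, ⟨0, 0⟩, 0⟩ 0 0) (.cut .v 58720256 (.pos 67 .pp ⟨794493905, 0, 0, 0, 0, 0, 0, 0, 0, ⟨0, 0⟩, 0⟩ 0 0) (.pos 68 .pp ⟨1194238424, 0, 0, 0, 0, 0, 0, 0, 0, ⟨0, 0⟩, 0⟩ 0 0)))))) (.pos 44 .pp ⟨10696014, 0, 0, 0, 0, 0, 6372216, 0, 0, ⟨0, 0⟩, 0⟩ 0 0)) (.cut .v 134217728 (.cut .d 2274020 (.cut .d 1137010 (.void 59 ⟨100000, 0, 0, 0, 0, 0, 0, 0, 0, ⟨0, 0⟩, 0⟩ 0 0) (.cut .d 1705515 (.void 59 ⟨100000, 0, 0, 0, 0, 0, 0, 0, 0, ⟨0, 0⟩, 0⟩ 0 0) (.cut .v 100663296 (.cut .d 1989767 (.pos 81 .pp ⟨3237265386, 0, 0, 0, 0, 0, 0, 0, 0, ⟨0, 0⟩, 0⟩ 0 0) (.cut .v 83886080 (.pos 100 .pp ⟨1469716775, 245774679, 0, 0, 0, 0, 0, 0, 0, ⟨0, 0⟩, 0⟩ 0 0) (.void 101 ⟨0, 100000, 0, 0, 0,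 0, 0, 0, 0, ⟨0, 0⟩, 0⟩ 0 0))) (.void 82 ⟨0, 100000, 0, 0, 0, 0, 0, 0, 0, ⟨0, 0⟩, 0⟩ 0 0)))) (.pos 59 .pp ⟨1348437024, 630979065, 0, 0, 0, 0, 0, 0, 0, ⟨0, 0⟩, 0⟩ 0 0)) (.void 60 ⟨89441, 0, 0, 10559, 0, 0, 0, 0, 0, ⟨0, 0⟩, 0⟩ 0 0))) (.pos 55 .pp ⟨0, 55909588, 0, 0, 0, 0, 0, 0, 0, ⟨0, 0⟩, 0⟩ 0 0)) (.void 95 ⟨0, 0, 0, 100000, 0, 0, 0, 0, 0, ⟨0, 0⟩, 0⟩ 0 0)))),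
    by decide +kernel⟩

def covers16 : cell.Covers table row16.1 :=
  ⟨(.cut .d 0 (.cut .v 16777216 (.cut .d (-8388608) (.void 1 ⟨0, 0, 0, 0, 0, 100000, 0, 0, 0, ⟨0, 0⟩, 0⟩ 0 0) (.cut .d (-4194304) (.void 1 ⟨0, 0, 0, 0, 0, 100000, 0, 0, 0, ⟨0, 0⟩, 0⟩ 0 0) (.cut .d (-2097152) (.void 1 ⟨0, 0, 0, 0, 0, 100000, 0, 0, 0, ⟨0, 0⟩, 0⟩ 0 0) (.cut .d (-1048576) (.void 1 ⟨0, 0, 0, 0, 0, 100000, 0, 0, 0, ⟨0, 0⟩, 0⟩ 0 0) (.cut .d (-524288) (.void 1 ⟨0, 0, 0, 0, 0, 100000, 0, 0, 0, ⟨0, 0⟩, 0⟩ 0 0) (.cut .d (-262144) (.void 1 ⟨0, 0, 0, 0, 0, 100000, 0, 0, 0, ⟨0, 0⟩, 0⟩ 0 0) (.cut .v 8388608 (.cut .v 4194304 (.void 4 ⟨0, 0, 100000, 0, 0, 0, 0, 0, 0, ⟨0, 0⟩, 0⟩ 0 0) (.pos 5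 .mm ⟨0, 0, 1696322, 0, 0, 79011050, 0, 0, 0, ⟨0, 0⟩, 0⟩ 0 0)) (.cut .s 11534336 (.pos 3 .mm ⟨0, 0, 0, 0, 0, 248487442, 0, 0, 0, ⟨0, 0⟩, 0⟩ 0 0) (.cut .s 11632640 (.pos 3 .mm ⟨0, 0, 0, 0, 0, 267935311, 0, 0, 0, ⟨0, 0⟩, 0⟩ 0 0) (.pos 3 .mm ⟨0, 0, 0, 0, 0, 286790743, 0, 0, 0, ⟨0, 0⟩, 0⟩ 0 0)))))))))) (.cut .v 268435456 (.cut .v 67108864 (.cut .v 33554432 (.cut .v 25165824 (.cut .d (-8388608) (.void 17 ⟨100000, 0, 0, 0, 0, 0, 0, 0, 0, ⟨0, 0⟩, 0⟩ 0 0) (.cut .v 20971520 (.cut .d (-4194304) (.void 19 ⟨100000, 0, 0, 0, 0, 0, 0, 0, 0, ⟨0, 0⟩, 0⟩ 0 0) (.cut .d (-2097152) (.void 19 ⟨100000, 0, 0, 0, 0, 0, 0, 0, 0, ⟨0, 0⟩, 0⟩ 0 0) (.cut .v 18874368 (.cut .d (-1048576) (.void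 21 ⟨100000, 0, 0, 0, 0, 0, 0, 0, 0, ⟨0, 0⟩, 0⟩ 0 0) (.cut .d (-524288) (.void 21 ⟨100000, 0, 0, 0, 0, 0, 0, 0, 0, ⟨0, 0⟩, 0⟩ 0 0) (.cut .d (-262144) (.void 21 ⟨0, 0, 0, 0, 0, 100000, 0, 0, 0, ⟨0, 0⟩, 0⟩ 0 0) (.cut .v 17825792 (.cut .d (-131072) (.cut .v 17301504 (.cut .d (-196608) (.void 25 ⟨0, 0, 0, 0, 0, 100000, 0, 0, 0, ⟨0, 0⟩, 0⟩ 0 0) (.cut .l 1062557 (.void 25 ⟨0, 0, 0, 0, 0, 100000, 0, 0, 0, ⟨0, 0⟩, 0⟩ 0 0) (.cut .d (-163840) (.pos 25 .mp ⟨108658417, 0, 0, 0, 0, 177810189, 0, 0, 0, ⟨0, 0⟩, 0⟩ 0 0) (.cut .l 1440044 (.void 25 ⟨0, 0, 0, 0, 0, 100000, 0, 0, 0, ⟨0, 0⟩, 0⟩ 0 0) (.cut .s 11534336 (.cut .v 17039360 (.pos 27 .mp ⟨0, 0, 0, 0, 0, 258480229, 0, 0,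 0, ⟨0, 0⟩, 0⟩ 0 0) (.cut .s 11436032 (.pos 28 .mp ⟨122988725, 0, 0, 0, 0, 66163906, 0, 0, 0, ⟨0, 0⟩, 0⟩ 0 0) (.cut .s 11485184 (.pos 28 .mp ⟨126646330, 0, 0, 0, 0, 72015767, 0, 0, 0, ⟨0, 0⟩, 0⟩ 0 0) (.pos 28 .mp ⟨130387719, 0, 0, 0, 0, 74710732, 0, 0, 0, ⟨0, 0⟩, 0⟩ 0 0)))) (.cut .v 17039360 (.pos 27 .mp ⟨0, 0, 0, 0, 0, 295973313, 0, 0, 0, ⟨0, 0⟩, 0⟩ 0 0) (.cut .s 11632640 (.cut .s 11583488 (.pos 28 .mp ⟨134215190, 0, 0, 0, 0, 77561685, 0, 0, 0, ⟨0, 0⟩, 0⟩ 0 0) (.pos 28 .mp ⟨138131132, 0, 0, 0, 0, 80566475, 0, 0, 0, ⟨0, 0⟩, 0⟩ 0 0)) (.pos 28 .mp ⟨146238442, 0, 0, 0, 0, 82990514, 0, 0, 0, ⟨0, 0⟩, 0⟩ 0 0)))))))) (.pos 26 .mp ⟨214632626, 0, 0, 0, 0, 0, 0, 0, 0,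 ⟨0, 0⟩, 0⟩ 0 0)) (.cut .s 11534336 (.cut .v 17301504 (.cut .s 11436032 (.cut .v 17039360 (.cut .d (-65536) (.cut .l 1062557 (.cut .s 11386880 (.pos 27 .mp ⟨98991798, 0, 0, 0, 0, 98659987, 0, 0, 0, ⟨0, 0⟩, 0⟩ 0 0) (.pos 27 .mp ⟨101805640, 0, 0, 0, 0, 102092062, 0, 0, 0, ⟨0, 0⟩, 0⟩ 0 0)) (.cut .s 11386880 (.pos 27 .mp ⟨91808781, 0, 0, 0, 0, 104727581, 0, 0, 0, ⟨0, 0⟩, 0⟩ 0 0) (.pos 27 .mp ⟨93914336, 0, 0, 0, 0, 109381895, 0, 0, 0, ⟨0, 0⟩, 0⟩ 0 0))) (.cut .l 1062557 (.cut .l 685069 (.cut .v 16908288 (.cut .d (-32768) (.cut .d (-49152) (.pos 46 .mp ⟨99010569, 0, 0, 0, 0, 102368125, 0, 0, 0, ⟨0, 0⟩, 0⟩ 0 0) (.cut .l 496325 (.cut .s 11386880 (.pos 46 .mp ⟨101678314,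 0, 0, 0, 0, 87881546, 0, 0, 0, ⟨0, 0⟩, 0⟩ 0 0) (.pos 46 .mp ⟨104283217, 0, 0, 0, 0, 91655076, 0, 0, 0, ⟨0, 0⟩, 0⟩ 0 0)) (.pos 46 .mp ⟨102451431, 0, 0, 0, 0, 83439875, 0, 0, 0, ⟨0, 0⟩, 0⟩ 0 0))) (.cut .d (-16384) (.cut .d (-24576) (.cut .l 496325 (.cut .l 401953 (.cut .v 16842752 (.cut .s 11386880 (.pos 61 .mp ⟨98629643, 0, 0, 0, 0, 89119581, 0, 0, 0, ⟨0, 0⟩, 0⟩ 0 0) (.pos 61 .mp ⟨101356758, 0, 0, 0, 0, 92649297, 0, 0, 0, ⟨0, 0⟩, 0⟩ 0 0)) (.cut .s 11386880 (.pos 62 .mp ⟨104726252, 0, 0, 0, 0, 80843241, 0, 0, 0, ⟨0, 0⟩, 0⟩ 0 0) (.pos 62 .mp ⟨107012329, 0, 0, 0, 0, 84848334, 0, 0, 0, ⟨0, 0⟩, 0⟩ 0 0))) (.pos 46 .mp ⟨105172348, 0, 0, 0, 0, 0, 0, 0, 0, ⟨0, 0⟩, 0⟩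 0 0)) (.pos 46 .mp ⟨0, 0, 0, 0, 0, 0, 0, 0, 0, ⟨0, 0⟩, 0⟩ 0 0)) (.pos 46 .mp ⟨104881698, 0, 0, 0, 0, 0, 0, 0, 0, ⟨0, 0⟩, 0⟩ 0 0)) (.pos 46 .mp ⟨0, 0, 0, 0, 0, 0, 0, 0, 0, ⟨0, 0⟩, 0⟩ 0 0))) (.pos 47 .mp ⟨163211067, 0, 0, 0, 0, 0, 0, 0, 0, ⟨0, 0⟩, 0⟩ 0 0)) (.pos 27 .mp ⟨108819809, 0, 0, 0, 0, 68103885, 0, 0, 0, ⟨0, 0⟩, 0⟩ 0 0)) (.pos 27 .mp ⟨0, 0, 0, 0, 0, 0, 0, 0, 0, ⟨0, 0⟩, 0⟩ 0 0))) (.cut .s 11386880 (.pos 28 .mp ⟨160398784, 0, 0, 0, 0, 0, 0, 0, 0, ⟨0, 0⟩, 0⟩ 0 0) (.pos 28 .mp ⟨142150141, 0, 0, 0, 0, 37395245, 0, 0, 0, ⟨0, 0⟩, 0⟩ 0 0))) (.cut .v 17039360 (.cut .d (-65536) (.cut .l 1062557 (.cut .s 11485184 (.pos 27 .mp ⟨104672278, 0, 0, 0, 0, 105777276, 0,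 0, 0, ⟨0, 0⟩, 0⟩ 0 0) (.pos 27 .mp ⟨107593179, 0, 0, 0, 0, 109723435, 0, 0, 0, ⟨0, 0⟩, 0⟩ 0 0)) (.cut .s 11485184 (.pos 27 .mp ⟨96478201, 0, 0, 0, 0, 113530085, 0, 0, 0, ⟨0, 0⟩, 0⟩ 0 0) (.pos 27 .mp ⟨99155114, 0, 0, 0, 0, 117784908, 0, 0, 0, ⟨0, 0⟩, 0⟩ 0 0))) (.cut .l 1062557 (.cut .l 685069 (.cut .v 16908288 (.cut .d (-32768) (.cut .d (-49152) (.pos 46 .mp ⟨104631326, 0, 0, 0, 0, 110012338, 0, 0, 0, ⟨0, 0⟩, 0⟩ 0 0) (.cut .l 496325 (.cut .s 11485184 (.pos 46 .mp ⟨104137063, 0, 0, 0, 0, 103301055, 0, 0, 0, ⟨0, 0⟩, 0⟩ 0 0) (.pos 46 .mp ⟨106979496, 0, 0, 0, 0, 107238258, 0, 0, 0, ⟨0, 0⟩, 0⟩ 0 0)) (.pos 46 .mp ⟨102072873, 0, 0, 0, 0, 102505048, 0, 0, 0, ⟨0, 0⟩,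 0⟩ 0 0))) (.cut .d (-16384) (.cut .d (-24576) (.cut .l 496325 (.cut .l 401953 (.cut .v 16842752 (.cut .s 11485184 (.pos 61 .mp ⟨104099531, 0, 0, 0, 0, 96376953, 0, 0, 0, ⟨0, 0⟩, 0⟩ 0 0) (.pos 61 .mp ⟨106839395, 0, 0, 0, 0, 100324812, 0, 0, 0, ⟨0, 0⟩, 0⟩ 0 0)) (.cut .s 11485184 (.pos 62 .mp ⟨109938585, 0, 0, 0, 0, 88175732, 0, 0, 0, ⟨0, 0⟩, 0⟩ 0 0) (.pos 62 .mp ⟨112920394, 0, 0, 0, 0, 91698119, 0, 0, 0, ⟨0, 0⟩, 0⟩ 0 0))) (.pos 46 .mp ⟨110972653, 0, 0, 0, 0, 0, 0, 0, 0, ⟨0, 0⟩, 0⟩ 0 0)) (.pos 46 .mp ⟨0, 0, 0, 0, 0, 0, 0, 0, 0, ⟨0, 0⟩, 0⟩ 0 0)) (.pos 46 .mp ⟨110679218, 0, 0, 0, 0, 0, 0, 0, 0, ⟨0, 0⟩, 0⟩ 0 0)) (.pos 46 .mp ⟨0, 0, 0, 0, 0, 0, 0, 0, 0, ⟨0, 0⟩, 0⟩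 0 0))) (.pos 47 .mp ⟨173281467, 0, 0, 0, 0, 0, 0, 0, 0, ⟨0, 0⟩, 0⟩ 0 0)) (.pos 27 .mp ⟨114969202, 0, 0, 0, 0, 73927861, 0, 0, 0, ⟨0, 0⟩, 0⟩ 0 0)) (.pos 27 .mp ⟨0, 0, 0, 0, 0, 0, 0, 0, 0, ⟨0, 0⟩, 0⟩ 0 0))) (.cut .s 11485184 (.pos 28 .mp ⟨145729758, 0, 0, 0, 0, 39756545, 0, 0, 0, ⟨0, 0⟩, 0⟩ 0 0) (.pos 28 .mp ⟨149731721, 0, 0, 0, 0, 41770118, 0, 0, 0, ⟨0, 0⟩, 0⟩ 0 0)))) (.pos 26 .mp ⟨173862451, 0, 0, 0, 0, 0, 0, 0, 0, ⟨0, 0⟩, 0⟩ 0 0)) (.cut .v 17301504 (.cut .s 11632640 (.cut .v 17039360 (.cut .d (-65536) (.cut .l 1062557 (.cut .s 11583488 (.pos 27 .mp ⟨110569863, 0, 0, 0, 0, 113938627, 0, 0, 0, ⟨0, 0⟩, 0⟩ 0 0) (.pos 27 .mp ⟨113603909, 0, 0, 0, 0, 118431230, 0,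 0, 0, ⟨0, 0⟩, 0⟩ 0 0)) (.cut .s 11583488 (.pos 27 .mp ⟨101878302, 0, 0, 0, 0, 122267197, 0, 0, 0, ⟨0, 0⟩, 0⟩ 0 0) (.pos 27 .mp ⟨104649098, 0, 0, 0, 0, 126976997, 0, 0, 0, ⟨0, 0⟩, 0⟩ 0 0))) (.cut .l 1062557 (.cut .l 685069 (.cut .v 16908288 (.cut .d (-32768) (.cut .s 11583488 (.cut .s 11558912 (.pos 46 .mp ⟨112909953, 0, 0, 0, 0, 99730602, 0, 0, 0, ⟨0, 0⟩, 0⟩ 0 0) (.pos 46 .mp ⟨114460240, 0, 0, 0, 0, 101656112, 0, 0, 0, ⟨0, 0⟩, 0⟩ 0 0)) (.pos 46 .mp ⟨112641696, 0, 0, 0, 0, 112472710, 0, 0, 0, ⟨0, 0⟩, 0⟩ 0 0)) (.cut .d (-16384) (.cut .l 496325 (.cut .l 401953 (.cut .d (-24576) (.cut .s 11583488 (.cut .s 11558912 (.pos 46 .mp ⟨111200226, 0, 0, 0, 0, 100755572,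 0, 0, 0, ⟨0, 0⟩, 0⟩ 0 0) (.pos 46 .mp ⟨112670277, 0, 0, 0, 0, 102767290, 0, 0, 0, ⟨0, 0⟩, 0⟩ 0 0)) (.pos 46 .mp ⟨113369676, 0, 0, 0, 0, 110056478, 0, 0, 0, ⟨0, 0⟩, 0⟩ 0 0)) (.cut .s 11583488 (.pos 46 .mp ⟨113635798, 0, 0, 0, 0, 0, 0, 0, 0, ⟨0, 0⟩, 0⟩ 0 0) (.pos 46 .mp ⟨114872893, 0, 0, 0, 0, 95992377, 0, 0, 0, ⟨0, 0⟩, 0⟩ 0 0))) (.pos 46 .mp ⟨112943307, 0, 0, 0, 0, 91024179, 0, 0, 0, ⟨0, 0⟩, 0⟩ 0 0)) (.pos 46 .mp ⟨0, 0, 0, 0, 0, 0, 0, 0, 0, ⟨0, 0⟩, 0⟩ 0 0)) (.pos 46 .mp ⟨0, 0, 0, 0, 0, 0, 0, 0, 0, ⟨0, 0⟩, 0⟩ 0 0))) (.pos 47 .mp ⟨184018751, 0, 0, 0, 0, 0, 0, 0, 0, ⟨0, 0⟩, 0⟩ 0 0)) (.pos 27 .mp ⟨121367854, 0, 0, 0, 0, 80279638, 0, 0, 0, ⟨0, 0⟩, 0⟩ 0 0)) (.pos 27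 .mp ⟨0, 0, 0, 0, 0, 0, 0, 0, 0, ⟨0, 0⟩, 0⟩ 0 0))) (.cut .s 11583488 (.pos 28 .mp ⟨154212601, 0, 0, 0, 0, 43347636, 0, 0, 0, ⟨0, 0⟩, 0⟩ 0 0) (.pos 28 .mp ⟨159230561, 0, 0, 0, 0, 44397319, 0, 0, 0, ⟨0, 0⟩, 0⟩ 0 0))) (.cut .v 17039360 (.cut .d (-65536) (.cut .v 16908288 (.pos 46 .mp ⟨0, 0, 0, 0, 0, 312866209, 0, 0, 0, ⟨0, 0⟩, 0⟩ 0 0) (.cut .l 1062557 (.cut .s 11681792 (.pos 47 .mp ⟨119119843, 0, 0, 0, 0, 119036976, 0, 0, 0, ⟨0, 0⟩, 0⟩ 0 0) (.pos 47 .mp ⟨123069376, 0, 0, 0, 0, 122568674, 0, 0, 0, ⟨0, 0⟩, 0⟩ 0 0)) (.cut .s 11681792 (.pos 47 .mp ⟨109217418, 0, 0, 0, 0, 129268959, 0, 0, 0, ⟨0, 0⟩, 0⟩ 0 0) (.pos 47 .mp ⟨112134853, 0, 0, 0, 0, 134353693, 0, 0, 0, ⟨0,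 0⟩, 0⟩ 0 0)))) (.cut .l 1062557 (.cut .l 685069 (.cut .v 16908288 (.cut .d (-32768) (.cut .s 11681792 (.pos 46 .mp ⟨115939722, 0, 0, 0, 0, 116458586, 0, 0, 0, ⟨0, 0⟩, 0⟩ 0 0) (.pos 46 .mp ⟨119484387, 0, 0, 0, 0, 120311234, 0, 0, 0, ⟨0, 0⟩, 0⟩ 0 0)) (.cut .d (-16384) (.cut .d (-24576) (.cut .s 11681792 (.pos 46 .mp ⟨119277022, 0, 0, 0, 0, 106923413, 0, 0, 0, ⟨0, 0⟩, 0⟩ 0 0) (.pos 46 .mp ⟨122158012, 0, 0, 0, 0, 112005096, 0, 0, 0, ⟨0, 0⟩, 0⟩ 0 0)) (.pos 46 .mp ⟨119266062, 0, 0, 0, 0, 98034273, 0, 0, 0, ⟨0, 0⟩, 0⟩ 0 0)) (.pos 46 .mp ⟨0, 0, 0, 0, 0, 0, 0, 0, 0, ⟨0, 0⟩, 0⟩ 0 0))) (.pos 47 .mp ⟨195411490, 0, 0, 0, 0, 0, 0, 0, 0, ⟨0, 0⟩, 0⟩ 0 0)) (.pos 27 .mp ⟨128030181,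 0, 0, 0, 0, 87105544, 0, 0, 0, ⟨0, 0⟩, 0⟩ 0 0)) (.pos 27 .mp ⟨0, 0, 0, 0, 0, 0, 0, 0, 0, ⟨0, 0⟩, 0⟩ 0 0))) (.cut .s 11681792 (.pos 28 .mp ⟨164845441, 0, 0, 0, 0, 44823769, 0, 0, 0, ⟨0, 0⟩, 0⟩ 0 0) (.pos 28 .mp ⟨171118854, 0, 0, 0, 0, 44527789, 0, 0, 0, ⟨0, 0⟩, 0⟩ 0 0)))) (.pos 26 .mp ⟨195966494, 0, 0, 0, 0, 0, 0, 0, 0, ⟨0, 0⟩, 0⟩ 0 0)))) (.pos 24 .mp ⟨212781867, 0, 0, 0, 0, 0, 0, 0, 0, ⟨0, 0⟩, 0⟩ 0 0))))) (.void 22 ⟨100000, 0, 0, 0, 0, 0, 0, 0, 0, ⟨0, 0⟩, 0⟩ 0 0)))) (.void 20 ⟨100000, 0, 0, 0, 0, 0, 0, 0, 0, ⟨0, 0⟩, 0⟩ 0 0))) (.void 18 ⟨100000, 0, 0, 0, 0, 0, 0, 0, 0, ⟨0, 0⟩, 0⟩ 0 0)) (.void 45 ⟨100000, 0, 0, 0, 0, 0, 0, 0, 0, ⟨0, 0⟩, 0⟩ 0 0)) (.void 56 ⟨100000,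 0, 0, 0, 0, 0, 0, 0, 0, ⟨0, 0⟩, 0⟩ 0 0)) (.void 95 ⟨94896, 0, 0, 5104, 0, 0, 0, 0, 0, ⟨0, 0⟩, 0⟩ 0 0))) (.cut .v 16777216 (.cut .v 8388608 (.cut .v 4194304 (.cut .v 2097152 (.cut .v 1048576 (.void 104 ⟨0, 0, 19122, 0, 0, 0, 0, 0, 80878, ⟨0, 0⟩, 1983364⟩ 0 0) (.void 105 ⟨0, 0, 37288, 0, 0, 0, 0, 0, 62712, ⟨0, 0⟩, 4987896⟩ 0 0)) (.cut .d 4024593 (.pos 74 .pm ⟨0, 0, 13929628, 0, 0, 0, 0, 0, 0, ⟨0, 0⟩, 0⟩ 0 0) (.cut .d 6036890 (.pos 74 .pm ⟨0, 0, 0, 0, 0, 0, 0, 0, 0, ⟨0, 0⟩, 0⟩ 0 0) (.pos 74 .pm ⟨0, 48768843, 0, 0, 0, 0, 0, 0, 0, ⟨0, 0⟩, 0⟩ 0 0)))) (.cut .d 4024593 (.pos 5 .pm ⟨0, 0, 1696322, 0, 0, 0, 0, 0, 0, ⟨0, 0⟩, 0⟩ 0 0) (.cut .d 6036890 (.pos 5 .pm ⟨0, 0,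 0, 0, 0, 0, 0, 0, 0, ⟨0, 0⟩, 0⟩ 0 0) (.cut .d 7043038 (.cut .v 6291456 (.cut .s 11534336 (.pos 65 .pm ⟨0, 0, 0, 0, 0, 0, 0, 0, 0, ⟨0, 0⟩, 0⟩ 0 0) (.pos 65 .pm ⟨0, 55787011, 0, 0, 0, 0, 0, 0, 0, ⟨0, 0⟩, 0⟩ 0 0)) (.pos 66 .pm ⟨0, 55363725, 0, 0, 0, 0, 0, 0, 0, ⟨0, 0⟩, 0⟩ 0 0)) (.cut .v 6291456 (.cut .s 11534336 (.cut .d 7546112 (.pos 65 .pm ⟨0, 61720411, 0, 0, 0, 0, 0, 0, 0, ⟨0, 0⟩, 0⟩ 0 0) (.pos 65 .pm ⟨0, 78750281, 0, 0, 0, 0, 0, 0, 0, ⟨0, 0⟩, 0⟩ 0 0)) (.pos 65 .pm ⟨0, 90900375, 0, 0, 0, 0, 0, 0, 0, ⟨0, 0⟩, 0⟩ 0 0)) (.cut .s 11534336 (.cut .d 7546112 (.pos 66 .pm ⟨0, 67657154, 0, 0, 0, 0, 0, 0, 0, ⟨0, 0⟩, 0⟩ 0 0) (.void 66 ⟨0, 100000, 0, 0, 0, 0, 0, 0, 0, ⟨0,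 0⟩, 0⟩ 0 0)) (.pos 66 .pm ⟨0, 100286957, 0, 0, 0, 0, 0, 0, 0, ⟨0, 0⟩, 0⟩ 0 0))))))) (.cut .d 4024593 (.pos 3 .pm ⟨0, 0, 0, 0, 0, 0, 0, 0, 0, ⟨0, 0⟩, 0⟩ 0 0) (.cut .d 6036890 (.pos 3 .pm ⟨0, 0, 0, 0, 0, 0, 0, 0, 0, ⟨0, 0⟩, 0⟩ 0 0) (.cut .d 7043038 (.pos 3 .pm ⟨0, 65949089, 0, 0, 0, 0, 0, 0, 0, ⟨0, 0⟩, 0⟩ 0 0) (.pos 3 .pm ⟨0, 105705433, 0, 0, 0, 0, 0, 0, 0, ⟨0, 0⟩, 0⟩ 0 0))))) (.cut .v 268435456 (.cut .d 4024593 (.cut .v 67108864 (.cut .d 2012296 (.cut .v 33554432 (.cut .d 1006148 (.cut .v 25165824 (.cut .d 503074 (.cut .v 20971520 (.cut .v 18874368 (.pos 21 .pp ⟨140874842, 0, 0, 0, 0, 0, 0, 0, 0, ⟨0, 0⟩, 0⟩ 0 0) (.pos 22 .pp ⟨193895043, 0, 0, 0, 0, 0, 0, 0, 0,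 ⟨0, 0⟩, 0⟩ 0 0)) (.pos 20 .pp ⟨274160276, 0, 0, 0, 0, 0, 0, 0, 0, ⟨0, 0⟩, 0⟩ 0 0)) (.pos 17 .pp ⟨106793479, 0, 0, 0, 0, 0, 0, 0, 0, ⟨0, 0⟩, 0⟩ 0 0)) (.cut .d 503074 (.pos 18 .pp ⟨533227109, 0, 0, 0, 0, 0, 0, 0, 0, ⟨0, 0⟩, 0⟩ 0 0) (.pos 18 .pp ⟨351521587, 0, 0, 0, 0, 0, 0, 0, 0, ⟨0, 0⟩, 0⟩ 0 0))) (.pos 16 .pp ⟨88878862, 0, 0, 0, 0, 0, 0, 0, 0, ⟨0, 0⟩, 0⟩ 0 0)) (.cut .d 1006148 (.cut .v 50331648 (.pos 48 .pp ⟨1109265928, 0, 0, 0, 0, 0, 0, 0, 0, ⟨0, 0⟩, 0⟩ 0 0) (.void 49 ⟨100000, 0, 0, 0, 0, 0, 0, 0, 0, ⟨0, 0⟩, 0⟩ 0 0)) (.cut .v 50331648 (.cut .v 41943040 (.pos 50 .pp ⟨439339281, 0, 0, 0, 0, 0, 0, 0, 0, ⟨0, 0⟩, 0⟩ 0 0) (.cut .d 1509222 (.pos 51 .pp ⟨892345132,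 0, 0, 0, 0, 0, 0, 0, 0, ⟨0, 0⟩, 0⟩ 0 0) (.pos 51 .pp ⟨601798705, 0, 0, 0, 0, 0, 0, 0, 0, ⟨0, 0⟩, 0⟩ 0 0))) (.cut .d 1509222 (.pos 49 .pp ⟨1772160788, 0, 0, 0, 0, 0, 0, 0, 0, ⟨0, 0⟩, 0⟩ 0 0) (.cut .v 58720256 (.pos 67 .pp ⟨980135528, 0, 0, 0, 0, 0, 0, 0, 0, ⟨0, 0⟩, 0⟩ 0 0) (.cut .d 1760759 (.pos 68 .pp ⟨1634517578, 0, 0, 0, 0, 0, 0, 0, 0, ⟨0, 0⟩, 0⟩ 0 0) (.pos 68 .pp ⟨1328921004, 0, 0, 0, 0, 0, 0, 0, 0, ⟨0, 0⟩, 0⟩ 0 0))))))) (.pos 44 .pp ⟨59692068, 0, 0, 0, 0, 0, 0, 0, 0, ⟨0, 0⟩, 0⟩ 0 0)) (.cut .v 134217728 (.cut .v 100663296 (.cut .d 2012296 (.cut .v 83886080 (.cut .v 75497472 (.cut .d 1006148 (.void 108 ⟨100000, 0, 0, 0, 0, 0, 0, 0, 0, ⟨0, 0⟩, 0⟩ 0 0) (.cut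 .v 71303168 (.cut .d 1509222 (.void 110 ⟨100000, 0, 0, 0, 0, 0, 0, 0, 0, ⟨0, 0⟩, 0⟩ 0 0) (.pos 110 .pp ⟨1862798894, 0, 0, 0, 0, 0, 0, 0, 0, ⟨0, 0⟩, 0⟩ 0 0)) (.pos 111 .pp ⟨2624633524, 873984143, 0, 0, 0, 0, 0, 0, 0, ⟨0, 0⟩, 0⟩ 0 0))) (.void 109 ⟨40285, 59715, 0, 0, 0, 0, 0, 0, 0, ⟨0, 0⟩, 0⟩ 0 0)) (.void 101 ⟨40285, 59715, 0, 0, 0, 0, 0, 0, 0, ⟨0, 0⟩, 0⟩ 0 0)) (.pos 81 .pp ⟨1278617049, 473004497, 0, 0, 0, 0, 0, 0, 0, ⟨0, 0⟩, 0⟩ 0 0)) (.void 82 ⟨38969, 61031, 0, 0, 0, 0, 0, 0, 0, ⟨0, 0⟩, 0⟩ 0 0)) (.void 60 ⟨82845, 0, 0, 17155, 0, 0, 0, 0, 0, ⟨0, 0⟩, 0⟩ 0 0))) (.pos 55 .pp ⟨0, 68301981, 0, 0, 0, 0, 0, 0, 0, ⟨0, 0⟩, 0⟩ 0 0)) (.void 95 ⟨0, 0, 0, 100000, 0, 0, 0,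 0, 0, ⟨0, 0⟩, 0⟩ 0 0)))),
    by decide +kernel⟩

def covers17 : cell.Covers table row17.1 :=
  ⟨(.cut .d 0 (.cut .v 16777216 (.cut .d (-8388608) (.void 1 ⟨0, 0, 0, 0, 0, 100000, 0, 0, 0, ⟨0, 0⟩, 0⟩ 0 0) (.cut .d (-4194304) (.void 1 ⟨0, 0, 0, 0, 0, 100000, 0, 0, 0, ⟨0, 0⟩, 0⟩ 0 0) (.cut .d (-2097152) (.void 1 ⟨0, 0, 0, 0, 0, 100000, 0, 0, 0, ⟨0, 0⟩, 0⟩ 0 0) (.cut .d (-1048576) (.void 1 ⟨0, 0, 0, 0, 0, 100000, 0, 0, 0, ⟨0, 0⟩, 0⟩ 0 0) (.cut .d (-524288) (.void 1 ⟨0, 0, 0, 0, 0, 100000, 0, 0, 0, ⟨0, 0⟩, 0⟩ 0 0) (.cut .d (-262144) (.void 1 ⟨0, 0, 0, 0, 0, 100000, 0, 0, 0, ⟨0, 0⟩, 0⟩ 0 0) (.cut .v 8388608 (.cut .v 4194304 (.void 4 ⟨0, 0, 100000, 0, 0, 0, 0, 0, 0,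 ⟨0, 0⟩, 0⟩ 0 0) (.pos 5 .mm ⟨0, 0, 3868932, 0, 0, 121689540, 0, 0, 0, ⟨0, 0⟩, 0⟩ 0 0)) (.cut .d (-131072) (.pos 3 .mm ⟨0, 0, 0, 0, 0, 429255984, 0, 0, 0, ⟨0, 0⟩, 0⟩ 0 0) (.cut .v 12582912 (.pos 6 .mm ⟨0, 0, 0, 0, 0, 196460244, 0, 0, 0, ⟨0, 0⟩, 0⟩ 0 0) (.cut .v 14680064 (.pos 10 .mm ⟨0, 0, 0, 0, 0, 278914058, 0, 0, 0, ⟨0, 0⟩, 0⟩ 0 0) (.cut .v 15728640 (.pos 12 .mm ⟨0, 0, 0, 0, 0, 317771081, 0, 0, 0, ⟨0, 0⟩, 0⟩ 0 0) (.cut .v 16252928 (.pos 14 .mm ⟨0, 0, 0, 0, 0, 336873893, 0, 0, 0, ⟨0, 0⟩, 0⟩ 0 0) (.cut .v 16515072 (.pos 37 .mm ⟨0, 0, 0, 0, 0, 346707747, 0, 0, 0, ⟨0, 0⟩, 0⟩ 0 0) (.cut .s 11993088 (.cut .s 11862016 (.pos 38 .mm ⟨0, 0, 0, 0, 0, 306516556, 0, 0,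 0, ⟨0, 0⟩, 0⟩ 0 0) (.pos 38 .mm ⟨0, 0, 0, 0, 0, 335019648, 0, 0, 0, ⟨0, 0⟩, 0⟩ 0 0)) (.cut .s 12124160 (.pos 38 .mm ⟨0, 0, 0, 0, 0, 365871018, 0, 0, 0, ⟨0, 0⟩, 0⟩ 0 0) (.pos 38 .mm ⟨0, 0, 0, 0, 0, 398996016, 0, 0, 0, ⟨0, 0⟩, 0⟩ 0 0)))))))))))))))) (.cut .v 268435456 (.cut .v 67108864 (.cut .v 33554432 (.cut .v 25165824 (.cut .d (-8388608) (.void 17 ⟨100000, 0, 0, 0, 0, 0, 0, 0, 0, ⟨0, 0⟩, 0⟩ 0 0) (.cut .d (-4194304) (.void 17 ⟨100000, 0, 0, 0, 0, 0, 0, 0, 0, ⟨0, 0⟩, 0⟩ 0 0) (.cut .v 20971520 (.cut .d (-2097152) (.void 19 ⟨100000, 0, 0, 0, 0, 0, 0, 0, 0, ⟨0, 0⟩, 0⟩ 0 0) (.cut .v 18874368 (.cut .d (-1048576) (.void 21 ⟨100000, 0, 0, 0, 0, 0, 0, 0, 0, ⟨0, 0⟩, 0⟩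 0 0) (.cut .d (-524288) (.void 21 ⟨100000, 0, 0, 0, 0, 0, 0, 0, 0, ⟨0, 0⟩, 0⟩ 0 0) (.cut .d (-262144) (.void 21 ⟨100000, 0, 0, 0, 0, 0, 0, 0, 0, ⟨0, 0⟩, 0⟩ 0 0) (.cut .v 17825792 (.cut .d (-131072) (.cut .v 17301504 (.cut .d (-196608) (.void 25 ⟨0, 0, 0, 0, 0, 100000, 0, 0, 0, ⟨0, 0⟩, 0⟩ 0 0) (.cut .d (-163840) (.void 25 ⟨0, 0, 0, 0, 0, 100000, 0, 0, 0, ⟨0, 0⟩, 0⟩ 0 0) (.cut .l 1062557 (.void 25 ⟨0, 0, 0, 0, 0, 100000, 0, 0, 0, ⟨0, 0⟩, 0⟩ 0 0) (.cut .d (-147456) (.void 25 ⟨0, 0, 0, 0, 0, 100000, 0, 0, 0, ⟨0, 0⟩, 0⟩ 0 0) (.cut .l 1440044 (.void 25 ⟨0, 0, 0, 0, 0, 100000, 0, 0, 0, ⟨0, 0⟩, 0⟩ 0 0) (.cut .l 1628788 (.void 25 ⟨0, 0, 0, 0, 0, 100000, 0, 0, 0, ⟨0,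 0⟩, 0⟩ 0 0) (.cut .s 11993088 (.cut .v 17039360 (.pos 27 .mp ⟨0, 0, 0, 0, 0, 360177057, 0, 0, 0, ⟨0, 0⟩, 0⟩ 0 0) (.cut .s 11862016 (.pos 28 .mp ⟨150588409, 0, 0, 0, 0, 107288788, 0, 0, 0, ⟨0, 0⟩, 0⟩ 0 0) (.cut .s 11927552 (.pos 28 .mp ⟨154809475, 0, 0, 0, 0, 117512945, 0, 0, 0, ⟨0, 0⟩, 0⟩ 0 0) (.pos 28 .mp ⟨160569774, 0, 0, 0, 0, 122869449, 0, 0, 0, ⟨0, 0⟩, 0⟩ 0 0)))) (.cut .v 17039360 (.pos 27 .mp ⟨0, 0, 0, 0, 0, 421589233, 0, 0, 0, ⟨0, 0⟩, 0⟩ 0 0) (.cut .s 12124160 (.cut .s 12058624 (.pos 28 .mp ⟨157983026, 0, 0, 0, 0, 154048359, 0, 0, 0, ⟨0, 0⟩, 0⟩ 0 0) (.void 28 ⟨0, 0, 0, 0, 0, 100000, 0, 0, 0, ⟨0, 0⟩, 0⟩ 0 0)) (.void 28 ⟨0, 0, 0, 0, 0, 100000, 0, 0, 0,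 ⟨0, 0⟩, 0⟩ 0 0)))))))))) (.void 26 ⟨100000, 0, 0, 0, 0, 0, 0, 0, 0, ⟨0, 0⟩, 0⟩ 0 0)) (.cut .s 11993088 (.cut .v 17301504 (.cut .s 11862016 (.cut .v 17039360 (.cut .d (-65536) (.cut .l 1062557 (.cut .s 11796480 (.pos 27 .mp ⟨123093574, 0, 0, 0, 0, 136885168, 0, 0, 0, ⟨0, 0⟩, 0⟩ 0 0) (.pos 27 .mp ⟨127572870, 0, 0, 0, 0, 142257693, 0, 0, 0, ⟨0, 0⟩, 0⟩ 0 0)) (.cut .v 16908288 (.pos 46 .mp ⟨0, 0, 0, 0, 0, 312214522, 0, 0, 0, ⟨0, 0⟩, 0⟩ 0 0) (.cut .s 11796480 (.cut .s 11763712 (.pos 47 .mp ⟨115801624, 0, 0, 0, 0, 138263679, 0, 0, 0, ⟨0, 0⟩, 0⟩ 0 0) (.pos 47 .mp ⟨117225029, 0, 0, 0, 0, 142335467, 0, 0, 0, ⟨0, 0⟩, 0⟩ 0 0)) (.cut .s 11829248 (.pos 47 .mp ⟨119334222,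 0, 0, 0, 0, 145445339, 0, 0, 0, ⟨0, 0⟩, 0⟩ 0 0) (.pos 47 .mp ⟨121461712, 0, 0, 0, 0, 148701896, 0, 0, 0, ⟨0, 0⟩, 0⟩ 0 0))))) (.cut .l 1062557 (.cut .s 11796480 (.cut .v 16908288 (.cut .l 685069 (.cut .d (-32768) (.pos 46 .mp ⟨122728473, 0, 0, 0, 0, 127961335, 0, 0, 0, ⟨0, 0⟩, 0⟩ 0 0) (.cut .d (-16384) (.cut .v 16842752 (.pos 61 .mp ⟨120299351, 0, 0, 0, 0, 124164346, 0, 0, 0, ⟨0, 0⟩, 0⟩ 0 0) (.pos 62 .mp ⟨130081715, 0, 0, 0, 0, 110440779, 0, 0, 0, ⟨0, 0⟩, 0⟩ 0 0)) (.pos 46 .mp ⟨0, 0, 0, 0, 0, 0, 0, 0, 0, ⟨0, 0⟩, 0⟩ 0 0))) (.pos 46 .mp ⟨113022448, 0, 0, 0, 0, 131506697, 0, 0, 0, ⟨0, 0⟩, 0⟩ 0 0)) (.pos 47 .mp ⟨191948131, 0, 0, 0, 0, 18048453, 0, 0, 0, ⟨0, 0⟩, 0⟩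 0 0)) (.cut .v 16908288 (.cut .l 685069 (.cut .d (-32768) (.cut .s 11829248 (.pos 46 .mp ⟨129346895, 0, 0, 0, 0, 124921430, 0, 0, 0, ⟨0, 0⟩, 0⟩ 0 0) (.pos 46 .mp ⟨130841540, 0, 0, 0, 0, 129207212, 0, 0, 0, ⟨0, 0⟩, 0⟩ 0 0)) (.cut .d (-16384) (.cut .l 496325 (.cut .l 401953 (.cut .d (-24576) (.cut .s 11829248 (.pos 46 .mp ⟨128989993, 0, 0, 0, 0, 123741435, 0, 0, 0, ⟨0, 0⟩, 0⟩ 0 0) (.pos 46 .mp ⟨130936915, 0, 0, 0, 0, 127342190, 0, 0, 0, ⟨0, 0⟩, 0⟩ 0 0)) (.cut .v 16842752 (.pos 61 .mp ⟨124465970, 0, 0, 0, 0, 126627695, 0, 0, 0, ⟨0, 0⟩, 0⟩ 0 0) (.pos 62 .mp ⟨206795237, 0, 0, 0, 0, 0, 0, 0, 0, ⟨0, 0⟩, 0⟩ 0 0))) (.pos 46 .mp ⟨132046676, 0, 0, 0, 0, 110289342, 0, 0,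 0, ⟨0, 0⟩, 0⟩ 0 0)) (.pos 46 .mp ⟨0, 0, 0, 0, 0, 0, 0, 0, 0, ⟨0, 0⟩, 0⟩ 0 0)) (.pos 46 .mp ⟨127221153, 0, 0, 0, 0, 0, 0, 0, 0, ⟨0, 0⟩, 0⟩ 0 0))) (.pos 46 .mp ⟨116863904, 0, 0, 0, 0, 138285476, 0, 0, 0, ⟨0, 0⟩, 0⟩ 0 0)) (.pos 47 .mp ⟨194730360, 0, 0, 0, 0, 25604641, 0, 0, 0, ⟨0, 0⟩, 0⟩ 0 0))) (.pos 27 .mp ⟨0, 0, 0, 0, 0, 0, 0, 0, 0, ⟨0, 0⟩, 0⟩ 0 0))) (.cut .s 11796480 (.pos 28 .mp ⟨189439659, 0, 0, 0, 0, 27771169, 0, 0, 0, ⟨0, 0⟩, 0⟩ 0 0) (.pos 28 .mp ⟨192540876, 0, 0, 0, 0, 35149055, 0, 0, 0, ⟨0, 0⟩, 0⟩ 0 0))) (.cut .v 17039360 (.cut .d (-65536) (.cut .l 1062557 (.cut .s 11927552 (.pos 27 .mp ⟨132145200, 0, 0, 0, 0, 148652430, 0, 0, 0, ⟨0, 0⟩, 0⟩ 0 0) (.pos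 27 .mp ⟨136814518, 0, 0, 0, 0, 155844271, 0, 0, 0, ⟨0, 0⟩, 0⟩ 0 0)) (.cut .v 16908288 (.pos 46 .mp ⟨0, 0, 0, 0, 0, 341041125, 0, 0, 0, ⟨0, 0⟩, 0⟩ 0 0) (.cut .s 11927552 (.cut .s 11894784 (.pos 47 .mp ⟨123607896, 0, 0, 0, 0, 152105419, 0, 0, 0, ⟨0, 0⟩, 0⟩ 0 0) (.cut .s 11911168 (.pos 47 .mp ⟨125773185, 0, 0, 0, 0, 154050960, 0, 0, 0, ⟨0, 0⟩, 0⟩ 0 0) (.pos 47 .mp ⟨126863125, 0, 0, 0, 0, 155864832, 0, 0, 0, ⟨0, 0⟩, 0⟩ 0 0))) (.cut .v 16973824 (.pos 71 .mp ⟨95397406, 0, 0, 0, 0, 210770556, 0, 0, 0, ⟨0, 0⟩, 0⟩ 0 0) (.cut .d (-98304) (.cut .s 11960320 (.pos 72 .mp ⟨136845304, 0, 0, 0, 0, 147399500, 0, 0, 0, ⟨0, 0⟩, 0⟩ 0 0) (.pos 72 .mp ⟨139289584, 0, 0, 0, 0, 150838939,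 0, 0, 0, ⟨0, 0⟩, 0⟩ 0 0)) (.pos 72 .mp ⟨153241642, 0, 0, 0, 0, 117532896, 0, 0, 0, ⟨0, 0⟩, 0⟩ 0 0)))))) (.cut .l 1062557 (.cut .s 11927552 (.cut .v 16908288 (.cut .l 685069 (.cut .d (-32768) (.cut .s 11894784 (.pos 46 .mp ⟨132437274, 0, 0, 0, 0, 133490290, 0, 0, 0, ⟨0, 0⟩, 0⟩ 0 0) (.pos 46 .mp ⟨130247784, 0, 0, 0, 0, 146541508, 0, 0, 0, ⟨0, 0⟩, 0⟩ 0 0)) (.cut .d (-16384) (.cut .l 496325 (.cut .l 401953 (.cut .d (-24576) (.cut .s 11894784 (.pos 46 .mp ⟨132930649, 0, 0, 0, 0, 131011798, 0, 0, 0, ⟨0, 0⟩, 0⟩ 0 0) (.pos 46 .mp ⟨134973811, 0, 0, 0, 0, 134744761, 0, 0, 0, ⟨0, 0⟩, 0⟩ 0 0)) (.cut .v 16842752 (.cut .s 11894784 (.pos 61 .mp ⟨128710450, 0, 0, 0, 0, 130465694,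 0, 0, 0, ⟨0, 0⟩, 0⟩ 0 0) (.pos 61 .mp ⟨130862940, 0, 0, 0, 0, 133843083, 0, 0, 0, ⟨0, 0⟩, 0⟩ 0 0)) (.pos 62 .mp ⟨186363575, 0, 0, 0, 0, 46479472, 0, 0, 0, ⟨0, 0⟩, 0⟩ 0 0))) (.pos 46 .mp ⟨136567279, 0, 0, 0, 0, 116243983, 0, 0, 0, ⟨0, 0⟩, 0⟩ 0 0)) (.pos 46 .mp ⟨0, 0, 0, 0, 0, 0, 0, 0, 0, ⟨0, 0⟩, 0⟩ 0 0)) (.pos 46 .mp ⟨131373521, 0, 0, 0, 0, 0, 0, 0, 0, ⟨0, 0⟩, 0⟩ 0 0))) (.pos 46 .mp ⟨120761941, 0, 0, 0, 0, 145525866, 0, 0, 0, ⟨0, 0⟩, 0⟩ 0 0)) (.cut .s 11894784 (.pos 47 .mp ⟨179057679, 0, 0, 0, 0, 59775435, 0, 0, 0, ⟨0, 0⟩, 0⟩ 0 0) (.pos 47 .mp ⟨180811176, 0, 0, 0, 0, 63607501, 0, 0, 0, ⟨0, 0⟩, 0⟩ 0 0))) (.cut .v 16908288 (.cut .d (-32768) (.cut .l 685069 (.cut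 .s 11960320 (.pos 46 .mp ⟨132445410, 0, 0, 0, 0, 149945569, 0, 0, 0, ⟨0, 0⟩, 0⟩ 0 0) (.pos 46 .mp ⟨134664620, 0, 0, 0, 0, 153534488, 0, 0, 0, ⟨0, 0⟩, 0⟩ 0 0)) (.pos 46 .mp ⟨128314334, 0, 0, 0, 0, 152928088, 0, 0, 0, ⟨0, 0⟩, 0⟩ 0 0)) (.cut .d (-16384) (.cut .l 685069 (.cut .l 496325 (.cut .s 11960320 (.cut .l 401953 (.cut .d (-24576) (.pos 46 .mp ⟨137069054, 0, 0, 0, 0, 138535498, 0, 0, 0, ⟨0, 0⟩, 0⟩ 0 0) (.cut .d (-20480) (.cut .v 16842752 (.pos 61 .mp ⟨134002613, 0, 0, 0, 0, 138492446, 0, 0, 0, ⟨0, 0⟩, 0⟩ 0 0) (.pos 62 .mp ⟨177711367, 0, 0, 0, 0, 71544161, 0, 0, 0, ⟨0, 0⟩, 0⟩ 0 0)) (.pos 46 .mp ⟨137272036, 0, 0, 0, 0, 0, 0, 0, 0, ⟨0, 0⟩, 0⟩ 0 0))) (.pos 46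 .mp ⟨138862947, 0, 0, 0, 0, 125354408, 0, 0, 0, ⟨0, 0⟩, 0⟩ 0 0)) (.cut .l 401953 (.cut .d (-24576) (.pos 46 .mp ⟨139219072, 0, 0, 0, 0, 142378341, 0, 0, 0, ⟨0, 0⟩, 0⟩ 0 0) (.cut .d (-20480) (.cut .v 16842752 (.pos 61 .mp ⟨136224277, 0, 0, 0, 0, 142000792, 0, 0, 0, ⟨0, 0⟩, 0⟩ 0 0) (.pos 62 .mp ⟨179648440, 0, 0, 0, 0, 75338818, 0, 0, 0, ⟨0, 0⟩, 0⟩ 0 0)) (.pos 46 .mp ⟨139533843, 0, 0, 0, 0, 0, 0, 0, 0, ⟨0, 0⟩, 0⟩ 0 0))) (.pos 46 .mp ⟨141182872, 0, 0, 0, 0, 128707220, 0, 0, 0, ⟨0, 0⟩, 0⟩ 0 0))) (.pos 46 .mp ⟨139754276, 0, 0, 0, 0, 0, 0, 0, 0, ⟨0, 0⟩, 0⟩ 0 0)) (.pos 46 .mp ⟨0, 0, 0, 0, 0, 0, 0, 0, 0, ⟨0, 0⟩, 0⟩ 0 0)) (.pos 46 .mp ⟨135601458, 0, 0, 0, 0, 0, 0, 0,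 0, ⟨0, 0⟩, 0⟩ 0 0))) (.cut .s 11960320 (.pos 47 .mp ⟨182883706, 0, 0, 0, 0, 67122529, 0, 0, 0, ⟨0, 0⟩, 0⟩ 0 0) (.pos 47 .mp ⟨185299659, 0, 0, 0, 0, 70280853, 0, 0, 0, ⟨0, 0⟩, 0⟩ 0 0)))) (.pos 27 .mp ⟨0, 0, 0, 0, 0, 0, 0, 0, 0, ⟨0, 0⟩, 0⟩ 0 0))) (.cut .d (-65536) (.cut .l 1062557 (.pos 28 .mp ⟨244292932, 0, 0, 0, 0, 0, 0, 0, 0, ⟨0, 0⟩, 0⟩ 0 0) (.cut .d (-98304) (.cut .s 11927552 (.pos 28 .mp ⟨179522005, 0, 0, 0, 0, 70228557, 0, 0, 0, ⟨0, 0⟩, 0⟩ 0 0) (.cut .s 11960320 (.pos 28 .mp ⟨162236706, 0, 0, 0, 0, 107948108, 0, 0, 0, ⟨0, 0⟩, 0⟩ 0 0) (.pos 28 .mp ⟨164809012, 0, 0, 0, 0, 111261954, 0, 0, 0, ⟨0, 0⟩, 0⟩ 0 0))) (.pos 28 .mp ⟨220921387, 0, 0, 0, 0, 0, 0, 0, 0,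 ⟨0, 0⟩, 0⟩ 0 0))) (.pos 28 .mp ⟨220841768, 0, 0, 0, 0, 0, 0, 0, 0, ⟨0, 0⟩, 0⟩ 0 0)))) (.pos 26 .mp ⟨226427420, 0, 0, 0, 0, 0, 0, 0, 0, ⟨0, 0⟩, 0⟩ 0 0)) (.cut .v 17301504 (.cut .s 12124160 (.cut .v 17039360 (.cut .d (-65536) (.cut .l 1062557 (.cut .s 12058624 (.pos 27 .mp ⟨141584993, 0, 0, 0, 0, 163592619, 0, 0, 0, ⟨0, 0⟩, 0⟩ 0 0) (.pos 27 .mp ⟨146461026, 0, 0, 0, 0, 171897246, 0, 0, 0, ⟨0, 0⟩, 0⟩ 0 0)) (.cut .v 16908288 (.pos 46 .mp ⟨0, 0, 0, 0, 0, 372201109, 0, 0, 0, ⟨0, 0⟩, 0⟩ 0 0) (.cut .s 12058624 (.cut .v 16973824 (.pos 71 .mp ⟨96575222, 0, 0, 0, 0, 223898702, 0, 0, 0, ⟨0, 0⟩, 0⟩ 0 0) (.cut .d (-98304) (.cut .s 12025856 (.pos 72 .mp ⟨141760836, 0, 0, 0,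 0, 154429601, 0, 0, 0, ⟨0, 0⟩, 0⟩ 0 0) (.pos 72 .mp ⟨144259639, 0, 0, 0, 0, 158172553, 0, 0, 0, ⟨0, 0⟩, 0⟩ 0 0)) (.pos 72 .mp ⟨158710280, 0, 0, 0, 0, 123330468, 0, 0, 0, ⟨0, 0⟩, 0⟩ 0 0))) (.cut .v 16973824 (.pos 71 .mp ⟨99334696, 0, 0, 0, 0, 235321299, 0, 0, 0, ⟨0, 0⟩, 0⟩ 0 0) (.cut .d (-98304) (.cut .s 12091392 (.pos 72 .mp ⟨146786590, 0, 0, 0, 0, 162068853, 0, 0, 0, ⟨0, 0⟩, 0⟩ 0 0) (.pos 72 .mp ⟨149342301, 0, 0, 0, 0, 166119546, 0, 0, 0, ⟨0, 0⟩, 0⟩ 0 0)) (.pos 72 .mp ⟨164319087, 0, 0, 0, 0, 129664615, 0, 0, 0, ⟨0, 0⟩, 0⟩ 0 0)))))) (.cut .l 1062557 (.cut .s 12058624 (.cut .v 16908288 (.cut .d (-32768) (.cut .l 685069 (.cut .s 12025856 (.pos 46 .mp ⟨136905887,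 0, 0, 0, 0, 157312415, 0, 0, 0, ⟨0, 0⟩, 0⟩ 0 0) (.pos 46 .mp ⟨139169696, 0, 0, 0, 0, 161283610, 0, 0, 0, ⟨0, 0⟩, 0⟩ 0 0)) (.pos 46 .mp ⟨132227522, 0, 0, 0, 0, 161315385, 0, 0, 0, ⟨0, 0⟩, 0⟩ 0 0)) (.cut .d (-16384) (.cut .l 685069 (.cut .l 496325 (.cut .s 12025856 (.cut .l 401953 (.cut .d (-24576) (.pos 46 .mp ⟨141426603, 0, 0, 0, 0, 146267536, 0, 0, 0, ⟨0, 0⟩, 0⟩ 0 0) (.cut .d (-20480) (.cut .v 16842752 (.pos 61 .mp ⟨138468384, 0, 0, 0, 0, 145597958, 0, 0, 0, ⟨0, 0⟩, 0⟩ 0 0) (.pos 62 .mp ⟨181930235, 0, 0, 0, 0, 78771656, 0, 0, 0, ⟨0, 0⟩, 0⟩ 0 0)) (.pos 46 .mp ⟨141818791, 0, 0, 0, 0, 0, 0, 0, 0, ⟨0, 0⟩, 0⟩ 0 0))) (.pos 46 .mp ⟨143527581, 0, 0, 0, 0, 132148834,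 0, 0, 0, ⟨0, 0⟩, 0⟩ 0 0)) (.cut .d (-24576) (.pos 46 .mp ⟨142502515, 0, 0, 0, 0, 151907678, 0, 0, 0, ⟨0, 0⟩, 0⟩ 0 0) (.cut .v 16842752 (.pos 61 .mp ⟨139684977, 0, 0, 0, 0, 148308338, 0, 0, 0, ⟨0, 0⟩, 0⟩ 0 0) (.pos 62 .mp ⟨180207385, 0, 0, 0, 0, 87858315, 0, 0, 0, ⟨0, 0⟩, 0⟩ 0 0)))) (.pos 46 .mp ⟨144414211, 0, 0, 0, 0, 0, 0, 0, 0, ⟨0, 0⟩, 0⟩ 0 0)) (.pos 46 .mp ⟨0, 0, 0, 0, 0, 0, 0, 0, 0, ⟨0, 0⟩, 0⟩ 0 0)) (.pos 46 .mp ⟨139908184, 0, 0, 0, 0, 0, 0, 0, 0, ⟨0, 0⟩, 0⟩ 0 0))) (.cut .s 12025856 (.pos 47 .mp ⟨188083949, 0, 0, 0, 0, 73041692, 0, 0, 0, ⟨0, 0⟩, 0⟩ 0 0) (.pos 47 .mp ⟨191262034, 0, 0, 0, 0, 75363111, 0, 0, 0, ⟨0, 0⟩, 0⟩ 0 0))) (.cut .v 16908288 (.cut .d (-32768)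 (.cut .s 12091392 (.cut .s 12075008 (.pos 46 .mp ⟨145001029, 0, 0, 0, 0, 154048749, 0, 0, 0, ⟨0, 0⟩, 0⟩ 0 0) (.pos 46 .mp ⟨146266955, 0, 0, 0, 0, 155932056, 0, 0, 0, ⟨0, 0⟩, 0⟩ 0 0)) (.pos 46 .mp ⟨142438348, 0, 0, 0, 0, 168957187, 0, 0, 0, ⟨0, 0⟩, 0⟩ 0 0)) (.cut .d (-16384) (.cut .l 685069 (.cut .l 496325 (.cut .l 401953 (.cut .d (-24576) (.pos 46 .mp ⟨143728005, 0, 0, 0, 0, 168234358, 0, 0, 0, ⟨0, 0⟩, 0⟩ 0 0) (.cut .d (-20480) (.cut .s 12091392 (.pos 46 .mp ⟨145251310, 0, 0, 0, 0, 152049980, 0, 0, 0, ⟨0, 0⟩, 0⟩ 0 0) (.pos 46 .mp ⟨147500966, 0, 0, 0, 0, 156373755, 0, 0, 0, ⟨0, 0⟩, 0⟩ 0 0)) (.pos 46 .mp ⟨148817659, 0, 0, 0, 0, 0, 0, 0, 0, ⟨0, 0⟩, 0⟩ 0 0))) (.pos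 46 .mp ⟨150715895, 0, 0, 0, 0, 136240149, 0, 0, 0, ⟨0, 0⟩, 0⟩ 0 0)) (.pos 46 .mp ⟨149174573, 0, 0, 0, 0, 0, 0, 0, 0, ⟨0, 0⟩, 0⟩ 0 0)) (.pos 46 .mp ⟨0, 0, 0, 0, 0, 0, 0, 0, 0, ⟨0, 0⟩, 0⟩ 0 0)) (.pos 46 .mp ⟨144297089, 0, 0, 0, 0, 0, 0, 0, 0, ⟨0, 0⟩, 0⟩ 0 0))) (.cut .s 12091392 (.pos 47 .mp ⟨194859936, 0, 0, 0, 0, 77201981, 0, 0, 0, ⟨0, 0⟩, 0⟩ 0 0) (.pos 47 .mp ⟨198904267, 0, 0, 0, 0, 78513937, 0, 0, 0, ⟨0, 0⟩, 0⟩ 0 0)))) (.pos 27 .mp ⟨0, 0, 0, 0, 0, 0, 0, 0, 0, ⟨0, 0⟩, 0⟩ 0 0))) (.cut .d (-65536) (.cut .l 1062557 (.pos 28 .mp ⟨263495228, 0, 0, 0, 0, 0, 0, 0, 0, ⟨0, 0⟩, 0⟩ 0 0) (.cut .d (-98304) (.cut .l 1440044 (.pos 28 .mp ⟨262336651, 0, 0, 0, 0, 0, 0, 0, 0,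 ⟨0, 0⟩, 0⟩ 0 0) (.cut .v 17170432 (.cut .v 17104896 (.cut .v 17072128 (.cut .s 12058624 (.cut .s 12025856 (.pos 118 .mp ⟨159921731, 0, 0, 0, 0, 125302271, 0, 0, 0, ⟨0, 0⟩, 0⟩ 0 0) (.pos 118 .mp ⟨162290341, 0, 0, 0, 0, 129202810, 0, 0, 0, ⟨0, 0⟩, 0⟩ 0 0)) (.cut .s 12091392 (.pos 118 .mp ⟨164912566, 0, 0, 0, 0, 132874839, 0, 0, 0, ⟨0, 0⟩, 0⟩ 0 0) (.pos 118 .mp ⟨167804730, 0, 0, 0, 0, 136290801, 0, 0, 0, ⟨0, 0⟩, 0⟩ 0 0))) (.pos 119 .mp ⟨241553085, 0, 0, 0, 0, 10437293, 0, 0, 0, ⟨0, 0⟩, 0⟩ 0 0)) (.pos 70 .mp ⟨249259653, 0, 0, 0, 0, 0, 0, 0, 0, ⟨0, 0⟩, 0⟩ 0 0)) (.pos 53 .mp ⟨252662256, 0, 0, 0, 0, 0, 0, 0, 0, ⟨0, 0⟩, 0⟩ 0 0))) (.pos 28 .mp ⟨237760441, 0, 0, 0, 0,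 0, 0, 0, 0, ⟨0, 0⟩, 0⟩ 0 0))) (.pos 28 .mp ⟨237923121, 0, 0, 0, 0, 0, 0, 0, 0, ⟨0, 0⟩, 0⟩ 0 0))) (.cut .v 17039360 (.cut .d (-65536) (.cut .v 16908288 (.pos 46 .mp ⟨0, 0, 0, 0, 0, 434046998, 0, 0, 0, ⟨0, 0⟩, 0⟩ 0 0) (.cut .l 1062557 (.pos 47 .mp ⟨153782897, 0, 0, 0, 0, 192781546, 0, 0, 0, ⟨0, 0⟩, 0⟩ 0 0) (.cut .s 12189696 (.cut .s 12156928 (.cut .s 12140544 (.pos 47 .mp ⟨141501950, 0, 0, 0, 0, 182825213, 0, 0, 0, ⟨0, 0⟩, 0⟩ 0 0) (.pos 47 .mp ⟨142666202, 0, 0, 0, 0, 185159733, 0, 0, 0, ⟨0, 0⟩, 0⟩ 0 0)) (.pos 47 .mp ⟨143836221, 0, 0, 0, 0, 189386413, 0, 0, 0, ⟨0, 0⟩, 0⟩ 0 0)) (.cut .s 12222464 (.pos 47 .mp ⟨146193825, 0, 0, 0, 0, 194270204, 0, 0, 0, ⟨0, 0⟩, 0⟩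 0 0) (.pos 47 .mp ⟨148575298, 0, 0, 0, 0, 199302524, 0, 0, 0, ⟨0, 0⟩, 0⟩ 0 0))))) (.cut .l 1062557 (.cut .s 12189696 (.cut .v 16908288 (.cut .l 685069 (.cut .d (-32768) (.pos 46 .mp ⟨146101426, 0, 0, 0, 0, 178630957, 0, 0, 0, ⟨0, 0⟩, 0⟩ 0 0) (.cut .d (-16384) (.cut .s 12156928 (.cut .s 12140544 (.pos 46 .mp ⟨147671669, 0, 0, 0, 0, 161805394, 0, 0, 0, ⟨0, 0⟩, 0⟩ 0 0) (.pos 46 .mp ⟨148843848, 0, 0, 0, 0, 163891537, 0, 0, 0, ⟨0, 0⟩, 0⟩ 0 0)) (.pos 46 .mp ⟨150022198, 0, 0, 0, 0, 169021577, 0, 0, 0, ⟨0, 0⟩, 0⟩ 0 0)) (.pos 46 .mp ⟨148771745, 0, 0, 0, 0, 0, 0, 0, 0, ⟨0, 0⟩, 0⟩ 0 0))) (.pos 46 .mp ⟨136974319, 0, 0, 0, 0, 178808050, 0, 0, 0, ⟨0, 0⟩, 0⟩ 0 0)) (.cut .s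 12156928 (.pos 47 .mp ⟨203422246, 0, 0, 0, 0, 79253328, 0, 0, 0, ⟨0, 0⟩, 0⟩ 0 0) (.pos 47 .mp ⟨208441732, 0, 0, 0, 0, 79373174, 0, 0, 0, ⟨0, 0⟩, 0⟩ 0 0))) (.cut .v 16908288 (.cut .l 685069 (.cut .d (-32768) (.pos 46 .mp ⟨150844802, 0, 0, 0, 0, 188096302, 0, 0, 0, ⟨0, 0⟩, 0⟩ 0 0) (.cut .d (-16384) (.cut .s 12222464 (.pos 46 .mp ⟨152397688, 0, 0, 0, 0, 173318610, 0, 0, 0, ⟨0, 0⟩, 0⟩ 0 0) (.pos 46 .mp ⟨154798708, 0, 0, 0, 0, 177696040, 0, 0, 0, ⟨0, 0⟩, 0⟩ 0 0)) (.pos 46 .mp ⟨153335919, 0, 0, 0, 0, 0, 0, 0, 0, ⟨0, 0⟩, 0⟩ 0 0))) (.pos 46 .mp ⟨141197405, 0, 0, 0, 0, 188133932, 0, 0, 0, ⟨0, 0⟩, 0⟩ 0 0)) (.pos 47 .mp ⟨239333145, 0, 0, 0, 0, 42072081, 0, 0, 0, ⟨0, 0⟩,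 0⟩ 0 0))) (.pos 27 .mp ⟨157005509, 0, 0, 0, 0, 0, 0, 0, 0, ⟨0, 0⟩, 0⟩ 0 0))) (.cut .s 12189696 (.cut .s 12156928 (.pos 28 .mp ⟨195379617, 0, 0, 0, 0, 98937106, 0, 0, 0, ⟨0, 0⟩, 0⟩ 0 0) (.pos 28 .mp ⟨199543107, 0, 0, 0, 0, 100519333, 0, 0, 0, ⟨0, 0⟩, 0⟩ 0 0)) (.pos 28 .mp ⟨237466874, 0, 0, 0, 0, 53346471, 0, 0, 0, ⟨0, 0⟩, 0⟩ 0 0)))) (.pos 26 .mp ⟨263338345, 0, 0, 0, 0, 0, 0, 0, 0, ⟨0, 0⟩, 0⟩ 0 0)))) (.pos 24 .mp ⟨287794759, 0, 0, 0, 0, 0, 0, 0, 0, ⟨0, 0⟩, 0⟩ 0 0))))) (.void 22 ⟨100000, 0, 0, 0, 0, 0, 0, 0, 0, ⟨0, 0⟩, 0⟩ 0 0))) (.void 20 ⟨100000, 0, 0, 0, 0, 0, 0, 0, 0, ⟨0, 0⟩, 0⟩ 0 0)))) (.void 18 ⟨100000, 0, 0, 0, 0, 0, 0, 0, 0, ⟨0, 0⟩, 0⟩ 0 0)) (.void 45 ⟨100000,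 0, 0, 0, 0, 0, 0, 0, 0, ⟨0, 0⟩, 0⟩ 0 0)) (.void 56 ⟨100000, 0, 0, 0, 0, 0, 0, 0, 0, ⟨0, 0⟩, 0⟩ 0 0)) (.void 95 ⟨94680, 0, 0, 5320, 0, 0, 0, 0, 0, ⟨0, 0⟩, 0⟩ 0 0))) (.cut .v 16777216 (.cut .v 8388608 (.cut .v 4194304 (.cut .v 2097152 (.cut .v 1048576 (.pos 104 .pm ⟨0, 0, 17194589, 0, 0, 0, 0, 0, 51515303, ⟨0, 0⟩, 1983364⟩ 0 0) (.pos 105 .pm ⟨0, 5785806, 0, 0, 0, 0, 0, 0, 0, ⟨0, 0⟩, 0⟩ 0 0)) (.cut .d 3608508 (.pos 74 .pm ⟨0, 0, 20103279, 0, 0, 0, 0, 0, 0, ⟨0, 0⟩, 0⟩ 0 0) (.cut .d 5412762 (.pos 74 .pm ⟨0, 0, 0, 0, 0, 0, 0, 0, 0, ⟨0, 0⟩, 0⟩ 0 0) (.cut .d 6314889 (.pos 74 .pm ⟨0, 52721015, 0, 0, 0, 0, 0, 0, 0, ⟨0, 0⟩, 0⟩ 0 0) (.pos 74 .pm ⟨0, 82148990, 0, 0, 0, 0,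 0, 0, 0, ⟨0, 0⟩, 0⟩ 0 0))))) (.cut .d 3608508 (.pos 5 .pm ⟨0, 0, 3242375, 0, 0, 0, 0, 0, 0, ⟨0, 0⟩, 0⟩ 0 0) (.cut .d 5412762 (.pos 5 .pm ⟨0, 0, 0, 0, 0, 0, 0, 0, 0, ⟨0, 0⟩, 0⟩ 0 0) (.cut .d 6314889 (.cut .v 6291456 (.cut .s 11993088 (.pos 65 .pm ⟨0, 34741122, 0, 0, 0, 0, 0, 0, 0, ⟨0, 0⟩, 0⟩ 0 0) (.pos 65 .pm ⟨0, 74644569, 0, 0, 0, 0, 0, 0, 0, ⟨0, 0⟩, 0⟩ 0 0)) (.pos 66 .pm ⟨0, 74022151, 0, 0, 0, 0, 0, 0, 0, ⟨0, 0⟩, 0⟩ 0 0)) (.cut .s 11993088 (.cut .v 6291456 (.cut .d 6765953 (.pos 65 .pm ⟨0, 73816663, 0, 0, 0, 0, 0, 0, 0, ⟨0, 0⟩, 0⟩ 0 0) (.pos 65 .pm ⟨0, 97007462, 0, 0, 0, 0, 0, 0, 0, ⟨0, 0⟩, 0⟩ 0 0)) (.pos 66 .pm ⟨0, 98497491, 0, 0, 0, 0, 0, 0, 0, ⟨0, 0⟩, 0⟩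 0 0)) (.pos 5 .pm ⟨0, 257116430, 0, 0, 0, 0, 0, 0, 0, ⟨0, 0⟩, 0⟩ 0 0)))))) (.cut .d 3608508 (.pos 3 .pm ⟨0, 0, 0, 0, 0, 0, 0, 0, 0, ⟨0, 0⟩, 0⟩ 0 0) (.cut .d 5412762 (.pos 3 .pm ⟨0, 0, 0, 0, 0, 0, 0, 0, 0, ⟨0, 0⟩, 0⟩ 0 0) (.pos 3 .pm ⟨0, 124110532, 0, 0, 0, 0, 0, 0, 0, ⟨0, 0⟩, 0⟩ 0 0)))) (.cut .v 268435456 (.cut .d 3608508 (.cut .v 67108864 (.cut .d 1804254 (.cut .v 33554432 (.cut .d 902127 (.cut .v 25165824 (.cut .d 451063 (.cut .v 20971520 (.cut .v 18874368 (.pos 21 .pp ⟨179656729, 0, 0, 0, 0, 0, 0, 0, 0, ⟨0, 0⟩, 0⟩ 0 0) (.pos 22 .pp ⟨247893589, 0, 0, 0, 0, 0, 0, 0, 0, ⟨0, 0⟩, 0⟩ 0 0)) (.pos 20 .pp ⟨351855877, 0, 0, 0, 0, 0, 0, 0, 0, ⟨0, 0⟩, 0⟩ 0 0)) (.pos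 17 .pp ⟨130673302, 0, 0, 0, 0, 0, 0, 0, 0, ⟨0, 0⟩, 0⟩ 0 0)) (.cut .d 451063 (.pos 18 .pp ⟨679450122, 0, 0, 0, 0, 0, 0, 0, 0, ⟨0, 0⟩, 0⟩ 0 0) (.pos 18 .pp ⟨430323954, 0, 0, 0, 0, 0, 0, 0, 0, ⟨0, 0⟩, 0⟩ 0 0))) (.pos 16 .pp ⟨108513608, 0, 0, 0, 0, 0, 0, 0, 0, ⟨0, 0⟩, 0⟩ 0 0)) (.cut .d 902127 (.cut .v 50331648 (.cut .v 41943040 (.pos 50 .pp ⟨1020284533, 0, 0, 0, 0, 0, 0, 0, 0, ⟨0, 0⟩, 0⟩ 0 0) (.void 51 ⟨100000, 0, 0, 0, 0, 0, 0, 0, 0, ⟨0, 0⟩, 0⟩ 0 0)) (.void 49 ⟨100000, 0, 0, 0, 0, 0, 0, 0, 0, ⟨0, 0⟩, 0⟩ 0 0)) (.cut .v 50331648 (.cut .v 41943040 (.pos 50 .pp ⟨537475355, 0, 0, 0, 0, 0, 0, 0, 0, ⟨0, 0⟩, 0⟩ 0 0) (.cut .d 1353190 (.pos 51 .pp ⟨1065210966, 0, 0, 0, 0,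 0, 0, 0, 0, ⟨0, 0⟩, 0⟩ 0 0) (.pos 51 .pp ⟨732480071, 0, 0, 0, 0, 0, 0, 0, 0, ⟨0, 0⟩, 0⟩ 0 0))) (.cut .d 1353190 (.cut .v 58720256 (.pos 67 .pp ⟨1708280083, 0, 0, 0, 0, 0, 0, 0, 0, ⟨0, 0⟩, 0⟩ 0 0) (.pos 68 .pp ⟨2426753797, 0, 0, 0, 0, 0, 0, 0, 0, ⟨0, 0⟩, 0⟩ 0 0)) (.cut .v 58720256 (.pos 67 .pp ⟨1183305924, 0, 0, 0, 0, 0, 0, 0, 0, ⟨0, 0⟩, 0⟩ 0 0) (.cut .d 1578722 (.pos 68 .pp ⟨1930941920, 0, 0, 0, 0, 0, 0, 0, 0, ⟨0, 0⟩, 0⟩ 0 0) (.pos 68 .pp ⟨1609437603, 0, 0, 0, 0, 0, 0, 0, 0, ⟨0, 0⟩, 0⟩ 0 0))))))) (.pos 44 .pp ⟨79185292, 0, 0, 0, 0, 0, 0, 0, 0, ⟨0, 0⟩, 0⟩ 0 0)) (.cut .v 134217728 (.cut .v 100663296 (.cut .v 83886080 (.cut .d 1804254 (.cut .v 75497472 (.cut .d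 902127 (.void 108 ⟨100000, 0, 0, 0, 0, 0, 0, 0, 0, ⟨0, 0⟩, 0⟩ 0 0) (.cut .d 1353190 (.void 108 ⟨100000, 0, 0, 0, 0, 0, 0, 0, 0, ⟨0, 0⟩, 0⟩ 0 0) (.cut .d 1578722 (.cut .v 71303168 (.pos 110 .pp ⟨2463935285, 0, 0, 0, 0, 0, 0, 0, 0, ⟨0, 0⟩, 0⟩ 0 0) (.cut .v 73400320 (.pos 122 .pp ⟨2667868070, 24143313, 0, 0, 0, 0, 0, 0, 0, ⟨0, 0⟩, 0⟩ 0 0) (.void 123 ⟨38631, 61369, 0, 0, 0, 0, 0, 0, 0, ⟨0, 0⟩, 0⟩ 0 0))) (.cut .v 71303168 (.cut .s 11993088 (.pos 110 .pp ⟨2034164581, 0, 0, 0, 0, 0, 0, 0, 0, ⟨0, 0⟩, 0⟩ 0 0) (.pos 110 .pp ⟨2099589042, 0, 0, 0, 0, 0, 0, 0, 0, ⟨0, 0⟩, 0⟩ 0 0)) (.cut .s 11993088 (.pos 111 .pp ⟨2324407250, 255969111, 0, 0, 0, 0, 0, 0, 0, ⟨0, 0⟩, 0⟩ 0 0)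 (.pos 111 .pp ⟨2424879506, 199783633, 0, 0, 0, 0, 0, 0, 0, ⟨0, 0⟩, 0⟩ 0 0)))))) (.void 109 ⟨39378, 60622, 0, 0, 0, 0, 0, 0, 0, ⟨0, 0⟩, 0⟩ 0 0)) (.pos 100 .pp ⟨1309608443, 397192221, 0, 0, 0, 0, 0, 0, 0, ⟨0, 0⟩, 0⟩ 0 0)) (.void 101 ⟨38196, 61804, 0, 0, 0, 0, 0, 0, 0, ⟨0, 0⟩, 0⟩ 0 0)) (.void 82 ⟨38196, 61804, 0, 0, 0, 0, 0, 0, 0, ⟨0, 0⟩, 0⟩ 0 0)) (.void 60 ⟨0, 0, 0, 100000, 0, 0, 0, 0, 0, ⟨0, 0⟩, 0⟩ 0 0))) (.pos 55 .pp ⟨0, 96107760, 0, 0, 0, 0, 0, 0, 0, ⟨0, 0⟩, 0⟩ 0 0)) (.void 95 ⟨0, 0, 0, 100000, 0, 0, 0, 0, 0, ⟨0, 0⟩, 0⟩ 0 0)))),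
    by decide +kernel⟩

def covers18 : cell.Covers table row18.1 :=
  ⟨(.cut .d 0 (.cut .v 16777216 (.cut .d (-8388608) (.void 1 ⟨0, 0, 0, 0, 0, 100000, 0, 0, 0, ⟨0, 0⟩, 0⟩ 0 0) (.cut .d (-4194304) (.void 1 ⟨0, 0, 0, 0, 0, 100000, 0, 0, 0, ⟨0, 0⟩, 0⟩ 0 0) (.cut .d (-2097152) (.void 1 ⟨0, 0, 0, 0, 0, 100000, 0, 0, 0, ⟨0, 0⟩, 0⟩ 0 0) (.cut .d (-1048576) (.void 1 ⟨0, 0, 0, 0, 0, 100000, 0, 0, 0, ⟨0, 0⟩, 0⟩ 0 0) (.cut .d (-524288) (.void 1 ⟨0, 0, 0, 0, 0, 100000, 0, 0, 0, ⟨0, 0⟩, 0⟩ 0 0) (.cut .d (-262144) (.void 1 ⟨0, 0, 0, 0, 0, 100000, 0, 0, 0, ⟨0, 0⟩, 0⟩ 0 0) (.cut .d (-131072) (.void 1 ⟨0, 0, 0, 0, 0, 100000, 0, 0, 0, ⟨0, 0⟩, 0⟩ 0 0) (.cut .v 8388608 (.cut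 .v 4194304 (.void 4 ⟨0, 0, 100000, 0, 0, 0, 0, 0, 0, ⟨0, 0⟩, 0⟩ 0 0) (.pos 5 .mm ⟨0, 0, 6093728, 0, 0, 155785424, 0, 0, 0, ⟨0, 0⟩, 0⟩ 0 0)) (.cut .s 12484608 (.pos 3 .mm ⟨0, 0, 0, 0, 0, 452163833, 0, 0, 0, ⟨0, 0⟩, 0⟩ 0 0) (.pos 3 .mm ⟨0, 0, 0, 0, 0, 525363297, 0, 0, 0, ⟨0, 0⟩, 0⟩ 0 0)))))))))) (.cut .v 268435456 (.cut .v 67108864 (.cut .v 33554432 (.cut .v 25165824 (.cut .d (-8388608) (.void 17 ⟨100000, 0, 0, 0, 0, 0, 0, 0, 0, ⟨0, 0⟩, 0⟩ 0 0) (.cut .d (-4194304) (.void 17 ⟨100000, 0, 0, 0, 0, 0, 0, 0, 0, ⟨0, 0⟩, 0⟩ 0 0) (.cut .v 20971520 (.cut .d (-2097152) (.void 19 ⟨100000, 0, 0, 0, 0, 0, 0, 0, 0, ⟨0, 0⟩, 0⟩ 0 0) (.cut .v 18874368 (.cut .d (-1048576) (.void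 21 ⟨100000, 0, 0, 0, 0, 0, 0, 0, 0, ⟨0, 0⟩, 0⟩ 0 0) (.cut .d (-524288) (.void 21 ⟨100000, 0, 0, 0, 0, 0, 0, 0, 0, ⟨0, 0⟩, 0⟩ 0 0) (.cut .d (-262144) (.void 21 ⟨100000, 0, 0, 0, 0, 0, 0, 0, 0, ⟨0, 0⟩, 0⟩ 0 0) (.cut .d (-131072) (.void 21 ⟨0, 0, 0, 0, 0, 100000, 0, 0, 0, ⟨0, 0⟩, 0⟩ 0 0) (.cut .v 17825792 (.cut .s 12484608 (.cut .v 17301504 (.cut .s 12369920 (.cut .v 17039360 (.cut .d (-65536) (.cut .s 12312576 (.cut .s 12283904 (.pos 27 .mp ⟨148559682, 0, 0, 0, 0, 209628748, 0, 0, 0, ⟨0, 0⟩, 0⟩ 0 0) (.pos 27 .mp ⟨150573583, 0, 0, 0, 0, 215280650, 0, 0, 0, ⟨0, 0⟩, 0⟩ 0 0)) (.pos 27 .mp ⟨152595325, 0, 0, 0, 0, 224992393, 0, 0, 0, ⟨0, 0⟩, 0⟩ 0 0)) (.cut .s 12312576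 (.cut .d (-32768) (.cut .v 16908288 (.pos 46 .mp ⟨140979303, 0, 0, 0, 0, 215660477, 0, 0, 0, ⟨0, 0⟩, 0⟩ 0 0) (.pos 47 .mp ⟨182861273, 0, 0, 0, 0, 146703259, 0, 0, 0, ⟨0, 0⟩, 0⟩ 0 0)) (.pos 27 .mp ⟨165731203, 0, 0, 0, 0, 157829393, 0, 0, 0, ⟨0, 0⟩, 0⟩ 0 0)) (.pos 27 .mp ⟨185317608, 0, 0, 0, 0, 150993549, 0, 0, 0, ⟨0, 0⟩, 0⟩ 0 0))) (.cut .s 12312576 (.pos 28 .mp ⟨235231233, 0, 0, 0, 0, 72147830, 0, 0, 0, ⟨0, 0⟩, 0⟩ 0 0) (.pos 28 .mp ⟨251946874, 0, 0, 0, 0, 61916258, 0, 0, 0, ⟨0, 0⟩, 0⟩ 0 0))) (.cut .d (-65536) (.cut .v 17039360 (.pos 27 .mp ⟨156663163, 0, 0, 0, 0, 246859456, 0, 0, 0, ⟨0, 0⟩, 0⟩ 0 0) (.pos 28 .mp ⟨307930206, 0, 0, 0, 0, 0, 0, 0, 0, ⟨0, 0⟩, 0⟩ 0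 0)) (.pos 25 .mp ⟨201559508, 0, 0, 0, 0, 146094870, 0, 0, 0, ⟨0, 0⟩, 0⟩ 0 0))) (.pos 26 .mp ⟨301883051, 0, 0, 0, 0, 0, 0, 0, 0, ⟨0, 0⟩, 0⟩ 0 0)) (.cut .v 17301504 (.cut .s 12599296 (.cut .d (-65536) (.pos 25 .mp ⟨170325829, 0, 0, 0, 0, 276895221, 0, 0, 0, ⟨0, 0⟩, 0⟩ 0 0) (.pos 25 .mp ⟨212740123, 0, 0, 0, 0, 163929130, 0, 0, 0, ⟨0, 0⟩, 0⟩ 0 0)) (.pos 25 .mp ⟨255776785, 0, 0, 0, 0, 143819830, 0, 0, 0, ⟨0, 0⟩, 0⟩ 0 0)) (.pos 26 .mp ⟨347886371, 0, 0, 0, 0, 0, 0, 0, 0, ⟨0, 0⟩, 0⟩ 0 0))) (.pos 24 .mp ⟨345195304, 0, 0, 0, 0, 0, 0, 0, 0, ⟨0, 0⟩, 0⟩ 0 0)))))) (.void 22 ⟨100000, 0, 0, 0, 0, 0, 0, 0, 0, ⟨0, 0⟩, 0⟩ 0 0))) (.void 20 ⟨100000, 0, 0, 0, 0, 0, 0, 0, 0, ⟨0, 0⟩,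 0⟩ 0 0)))) (.void 18 ⟨100000, 0, 0, 0, 0, 0, 0, 0, 0, ⟨0, 0⟩, 0⟩ 0 0)) (.void 45 ⟨100000, 0, 0, 0, 0, 0, 0, 0, 0, ⟨0, 0⟩, 0⟩ 0 0)) (.void 56 ⟨100000, 0, 0, 0, 0, 0, 0, 0, 0, ⟨0, 0⟩, 0⟩ 0 0)) (.void 95 ⟨94492, 0, 0, 5508, 0, 0, 0, 0, 0, ⟨0, 0⟩, 0⟩ 0 0))) (.cut .v 16777216 (.cut .v 8388608 (.cut .v 4194304 (.cut .v 2097152 (.cut .v 1048576 (.pos 104 .pm ⟨0, 0, 14364282, 0, 0, 0, 0, 0, 28883681, ⟨0, 0⟩, 1983364⟩ 0 0) (.pos 105 .pm ⟨0, 8337544, 0, 0, 0, 0, 0, 0, 0, ⟨0, 0⟩, 0⟩ 0 0)) (.cut .d 3095263 (.pos 74 .pm ⟨0, 0, 38054066, 0, 0, 0, 0, 0, 0, ⟨0, 0⟩, 0⟩ 0 0) (.cut .d 4642894 (.pos 74 .pm ⟨0, 0, 0, 0, 0, 0, 0, 0, 0, ⟨0, 0⟩, 0⟩ 0 0) (.cut .d 5416710 (.pos 74 .pm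 ⟨0, 58141411, 0, 0, 0, 0, 0, 0, 0, ⟨0, 0⟩, 0⟩ 0 0) (.pos 74 .pm ⟨0, 100828062, 0, 0, 0, 0, 0, 0, 0, ⟨0, 0⟩, 0⟩ 0 0))))) (.cut .d 3095263 (.pos 5 .pm ⟨0, 0, 5909033, 0, 0, 0, 0, 0, 0, ⟨0, 0⟩, 0⟩ 0 0) (.cut .d 4642894 (.pos 5 .pm ⟨0, 0, 0, 0, 0, 0, 0, 0, 0, ⟨0, 0⟩, 0⟩ 0 0) (.cut .d 5416710 (.pos 5 .pm ⟨0, 75800454, 0, 0, 0, 0, 0, 0, 0, ⟨0, 0⟩, 0⟩ 0 0) (.cut .s 12484608 (.cut .d 5803618 (.pos 5 .pm ⟨0, 98065890, 0, 0, 0, 0, 0, 0, 0, ⟨0, 0⟩, 0⟩ 0 0) (.pos 5 .pm ⟨0, 122469572, 0, 0, 0, 0, 0, 0, 0, ⟨0, 0⟩, 0⟩ 0 0)) (.pos 5 .pm ⟨0, 152782139, 0, 0, 0, 0, 0, 0, 0, ⟨0, 0⟩, 0⟩ 0 0)))))) (.cut .d 3095263 (.pos 3 .pm ⟨0, 0, 0, 0, 0, 0, 0, 0, 0, ⟨0, 0⟩, 0⟩ 0 0) (.cut .d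 4642894 (.pos 3 .pm ⟨0, 0, 0, 0, 0, 0, 0, 0, 0, ⟨0, 0⟩, 0⟩ 0 0) (.pos 3 .pm ⟨0, 155399966, 0, 0, 0, 0, 0, 0, 0, ⟨0, 0⟩, 0⟩ 0 0)))) (.cut .v 268435456 (.cut .d 3095263 (.cut .v 67108864 (.cut .d 1547631 (.cut .v 33554432 (.cut .d 773815 (.cut .v 25165824 (.cut .d 386907 (.cut .v 20971520 (.cut .v 18874368 (.pos 21 .pp ⟨208786453, 0, 0, 0, 0, 0, 0, 0, 0, ⟨0, 0⟩, 0⟩ 0 0) (.pos 22 .pp ⟨321643459, 0, 0, 0, 0, 0, 0, 0, 0, ⟨0, 0⟩, 0⟩ 0 0)) (.pos 20 .pp ⟨445369272, 0, 0, 0, 0, 0, 0, 0, 0, ⟨0, 0⟩, 0⟩ 0 0)) (.pos 17 .pp ⟨165515673, 0, 0, 0, 0, 0, 0, 0, 0, ⟨0, 0⟩, 0⟩ 0 0)) (.cut .d 386907 (.pos 18 .pp ⟨835926238, 0, 0, 0, 0, 0, 0, 0, 0, ⟨0, 0⟩, 0⟩ 0 0) (.pos 18 .pp ⟨543922728,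 0, 0, 0, 0, 0, 0, 0, 0, ⟨0, 0⟩, 0⟩ 0 0))) (.pos 16 .pp ⟨134270150, 0, 0, 0, 0, 0, 0, 0, 0, ⟨0, 0⟩, 0⟩ 0 0)) (.cut .d 773815 (.cut .v 50331648 (.cut .v 41943040 (.pos 50 .pp ⟨1256879284, 0, 0, 0, 0, 0, 0, 0, 0, ⟨0, 0⟩, 0⟩ 0 0) (.void 51 ⟨100000, 0, 0, 0, 0, 0, 0, 0, 0, ⟨0, 0⟩, 0⟩ 0 0)) (.void 49 ⟨100000, 0, 0, 0, 0, 0, 0, 0, 0, ⟨0, 0⟩, 0⟩ 0 0)) (.cut .v 50331648 (.cut .v 41943040 (.pos 50 .pp ⟨694666378, 0, 0, 0, 0, 0, 0, 0, 0, ⟨0, 0⟩, 0⟩ 0 0) (.cut .d 1160723 (.pos 51 .pp ⟨1333880467, 0, 0, 0, 0, 0, 0, 0, 0, ⟨0, 0⟩, 0⟩ 0 0) (.pos 51 .pp ⟨945468346, 0, 0, 0, 0, 0, 0, 0, 0, ⟨0, 0⟩, 0⟩ 0 0))) (.cut .d 1160723 (.cut .v 58720256 (.pos 67 .pp ⟨2084574451, 0, 0, 0,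 0, 0, 0, 0, 0, ⟨0, 0⟩, 0⟩ 0 0) (.pos 68 .pp ⟨3022352908, 0, 0, 0, 0, 0, 0, 0, 0, ⟨0, 0⟩, 0⟩ 0 0)) (.cut .v 58720256 (.pos 67 .pp ⟨1481104243, 0, 0, 0, 0, 0, 0, 0, 0, ⟨0, 0⟩, 0⟩ 0 0) (.cut .d 1354177 (.pos 68 .pp ⟨2419674550, 0, 0, 0, 0, 0, 0, 0, 0, ⟨0, 0⟩, 0⟩ 0 0) (.pos 68 .pp ⟨1999830784, 0, 0, 0, 0, 0, 0, 0, 0, ⟨0, 0⟩, 0⟩ 0 0))))))) (.pos 44 .pp ⟨0, 0, 0, 0, 0, 0, 0, 0, 0, ⟨0, 0⟩, 0⟩ 0 0)) (.cut .v 134217728 (.cut .v 100663296 (.cut .v 83886080 (.cut .v 75497472 (.cut .d 1547631 (.cut .d 773815 (.void 108 ⟨100000, 0, 0, 0, 0, 0, 0, 0, 0, ⟨0, 0⟩, 0⟩ 0 0) (.cut .d 1160723 (.void 108 ⟨100000, 0, 0, 0, 0, 0, 0, 0, 0, ⟨0, 0⟩, 0⟩ 0 0) (.cut .d 1354177 (.cut .v 71303168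 (.pos 110 .pp ⟨3158184985, 0, 0, 0, 0, 0, 0, 0, 0, ⟨0, 0⟩, 0⟩ 0 0) (.cut .v 73400320 (.pos 122 .pp ⟨3357681486, 0, 0, 0, 0, 0, 0, 0, 0, ⟨0, 0⟩, 0⟩ 0 0) (.pos 123 .pp ⟨3491409967, 121127887, 0, 0, 0, 0, 0, 0, 0, ⟨0, 0⟩, 0⟩ 0 0))) (.cut .v 71303168 (.cut .s 12484608 (.pos 110 .pp ⟨2548943787, 0, 0, 0, 0, 0, 0, 0, 0, ⟨0, 0⟩, 0⟩ 0 0) (.pos 110 .pp ⟨2593961170, 0, 0, 0, 0, 0, 0, 0, 0, ⟨0, 0⟩, 0⟩ 0 0)) (.cut .s 12484608 (.cut .l 1062557 (.pos 111 .pp ⟨2991486955, 82067963, 0, 0, 0, 0, 0, 0, 0, ⟨0, 0⟩, 0⟩ 0 0) (.cut .l 1440044 (.pos 111 .pp ⟨2986244783, 0, 0, 0, 0, 0, 0, 0, 0, ⟨0, 0⟩, 0⟩ 0 0) (.cut .v 73400320 (.cut .s 12369920 (.pos 122 .pp ⟨2771249488, 23498201,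 0, 0, 0, 0, 0, 0, 0, ⟨0, 0⟩, 0⟩ 0 0) (.cut .d 1450904 (.pos 122 .pp ⟨2994583840, 59676831, 0, 0, 0, 0, 0, 0, 0, ⟨0, 0⟩, 0⟩ 0 0) (.pos 122 .pp ⟨2774976563, 0, 0, 0, 0, 0, 0, 0, 0, ⟨0, 0⟩, 0⟩ 0 0))) (.cut .d 1450904 (.pos 123 .pp ⟨3119447391, 340239348, 0, 0, 0, 0, 0, 0, 0, ⟨0, 0⟩, 0⟩ 0 0) (.void 123 ⟨28540, 71460, 0, 0, 0, 0, 0, 0, 0, ⟨0, 0⟩, 0⟩ 0 0))))) (.cut .d 1450904 (.cut .v 73400320 (.pos 122 .pp ⟨3019513638, 0, 0, 0, 0, 0, 0, 0, 0, ⟨0, 0⟩, 0⟩ 0 0) (.cut .s 12599296 (.pos 123 .pp ⟨3157849037, 310226225, 0, 0, 0, 0, 0, 0, 0, ⟨0, 0⟩, 0⟩ 0 0) (.pos 123 .pp ⟨3195947415, 265568316, 0, 0, 0, 0, 0, 0, 0, ⟨0, 0⟩, 0⟩ 0 0))) (.pos 111 .pp ⟨1819459507, 502828133,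 0, 0, 0, 0, 0, 0, 0, ⟨0, 0⟩, 0⟩ 0 0))))))) (.pos 108 .pp ⟨1562292150, 398757191, 0, 0, 0, 0, 0, 0, 0, ⟨0, 0⟩, 0⟩ 0 0)) (.void 109 ⟨37659, 62341, 0, 0, 0, 0, 0, 0, 0, ⟨0, 0⟩, 0⟩ 0 0)) (.void 101 ⟨37659, 62341, 0, 0, 0, 0, 0, 0, 0, ⟨0, 0⟩, 0⟩ 0 0)) (.void 82 ⟨37659, 62341, 0, 0, 0, 0, 0, 0, 0, ⟨0, 0⟩, 0⟩ 0 0)) (.void 60 ⟨0, 0, 0, 100000, 0, 0, 0, 0, 0, ⟨0, 0⟩, 0⟩ 0 0))) (.pos 55 .pp ⟨0, 118129179, 0, 0, 0, 0, 0, 0, 0, ⟨0, 0⟩, 0⟩ 0 0)) (.void 95 ⟨0, 0, 0, 100000, 0, 0, 0, 0, 0, ⟨0, 0⟩, 0⟩ 0 0)))),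
    by decide +kernel⟩

def covers19 : cell.Covers table row19.1 :=
  ⟨(.cut .d 0 (.cut .v 16777216 (.cut .d (-8388608) (.void 1 ⟨0, 0, 0, 0, 0, 100000, 0, 0, 0, ⟨0, 0⟩, 0⟩ 0 0) (.cut .d (-4194304) (.void 1 ⟨0, 0, 0, 0, 0, 100000, 0, 0, 0, ⟨0, 0⟩, 0⟩ 0 0) (.cut .d (-2097152) (.void 1 ⟨0, 0, 0, 0, 0, 100000, 0, 0, 0, ⟨0, 0⟩, 0⟩ 0 0) (.cut .d (-1048576) (.void 1 ⟨0, 0, 0, 0, 0, 100000, 0, 0, 0, ⟨0, 0⟩, 0⟩ 0 0) (.cut .d (-524288) (.void 1 ⟨0, 0, 0, 0, 0, 100000, 0, 0, 0, ⟨0, 0⟩, 0⟩ 0 0) (.cut .d (-262144) (.void 1 ⟨0, 0, 0, 0, 0, 100000, 0, 0, 0, ⟨0, 0⟩, 0⟩ 0 0) (.cut .d (-131072) (.void 1 ⟨0, 0, 0, 0, 0, 100000, 0, 0, 0, ⟨0, 0⟩, 0⟩ 0 0) (.cut .v 8388608 (.cut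 .v 4194304 (.void 4 ⟨0, 0, 100000, 0, 0, 0, 0, 0, 0, ⟨0, 0⟩, 0⟩ 0 0) (.pos 5 .mm ⟨0, 0, 11915861, 0, 0, 268536391, 0, 0, 0, ⟨0, 0⟩, 0⟩ 0 0)) (.cut .s 12976128 (.pos 3 .mm ⟨0, 0, 0, 0, 0, 631658627, 0, 0, 0, ⟨0, 0⟩, 0⟩ 0 0) (.pos 3 .mm ⟨0, 0, 0, 0, 0, 741722068, 0, 0, 0, ⟨0, 0⟩, 0⟩ 0 0)))))))))) (.cut .v 268435456 (.cut .v 67108864 (.cut .v 33554432 (.cut .d (-8388608) (.void 16 ⟨100000, 0, 0, 0, 0, 0, 0, 0, 0, ⟨0, 0⟩, 0⟩ 0 0) (.cut .v 25165824 (.cut .d (-4194304) (.void 17 ⟨100000, 0, 0, 0, 0, 0, 0, 0, 0, ⟨0, 0⟩, 0⟩ 0 0) (.cut .v 20971520 (.cut .d (-2097152) (.void 19 ⟨100000, 0, 0, 0, 0, 0, 0, 0, 0, ⟨0, 0⟩, 0⟩ 0 0) (.cut .d (-1048576) (.void 19 ⟨100000, 0,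 0, 0, 0, 0, 0, 0, 0, ⟨0, 0⟩, 0⟩ 0 0) (.cut .d (-524288) (.void 19 ⟨100000, 0, 0, 0, 0, 0, 0, 0, 0, ⟨0, 0⟩, 0⟩ 0 0) (.cut .d (-262144) (.void 19 ⟨100000, 0, 0, 0, 0, 0, 0, 0, 0, ⟨0, 0⟩, 0⟩ 0 0) (.cut .d (-131072) (.void 19 ⟨0, 0, 0, 0, 0, 100000, 0, 0, 0, ⟨0, 0⟩, 0⟩ 0 0) (.cut .v 18874368 (.cut .v 17825792 (.cut .v 17301504 (.cut .d (-65536) (.cut .s 12976128 (.pos 25 .mp ⟨191546263, 0, 0, 0, 0, 384953411, 0, 0, 0, ⟨0, 0⟩, 0⟩ 0 0) (.pos 25 .mp ⟨211968756, 0, 0, 0, 0, 462726182, 0, 0, 0, ⟨0, 0⟩, 0⟩ 0 0)) (.cut .l 1062557 (.cut .s 12976128 (.pos 25 .mp ⟨253347614, 0, 0, 0, 0, 210467901, 0, 0, 0, ⟨0, 0⟩, 0⟩ 0 0) (.cut .s 13107200 (.pos 25 .mp ⟨268441112, 0, 0, 0,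 0, 257539466, 0, 0, 0, ⟨0, 0⟩, 0⟩ 0 0) (.pos 25 .mp ⟨284020134, 0, 0, 0, 0, 286118845, 0, 0, 0, ⟨0, 0⟩, 0⟩ 0 0))) (.pos 25 .mp ⟨259830066, 0, 0, 0, 0, 170866052, 0, 0, 0, ⟨0, 0⟩, 0⟩ 0 0))) (.pos 26 .mp ⟨448879767, 0, 0, 0, 0, 0, 0, 0, 0, ⟨0, 0⟩, 0⟩ 0 0)) (.pos 24 .mp ⟨477502507, 0, 0, 0, 0, 0, 0, 0, 0, ⟨0, 0⟩, 0⟩ 0 0)) (.void 22 ⟨100000, 0, 0, 0, 0, 0, 0, 0, 0, ⟨0, 0⟩, 0⟩ 0 0))))))) (.void 20 ⟨100000, 0, 0, 0, 0, 0, 0, 0, 0, ⟨0, 0⟩, 0⟩ 0 0))) (.void 18 ⟨100000, 0, 0, 0, 0, 0, 0, 0, 0, ⟨0, 0⟩, 0⟩ 0 0))) (.void 45 ⟨100000, 0, 0, 0, 0, 0, 0, 0, 0, ⟨0, 0⟩, 0⟩ 0 0)) (.void 56 ⟨100000, 0, 0, 0, 0, 0, 0, 0, 0, ⟨0, 0⟩, 0⟩ 0 0)) (.void 95 ⟨94278, 0, 0, 5722, 0, 0, 0,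 0, 0, ⟨0, 0⟩, 0⟩ 0 0))) (.cut .v 16777216 (.cut .v 8388608 (.cut .v 4194304 (.cut .v 2097152 (.cut .d 2680896 (.void 73 ⟨0, 0, 100000, 0, 0, 0, 0, 0, 0, ⟨0, 0⟩, 0⟩ 0 0) (.cut .v 1048576 (.pos 104 .pm ⟨0, 6125817, 0, 0, 0, 0, 0, 0, 0, ⟨0, 0⟩, 0⟩ 0 0) (.pos 105 .pm ⟨0, 40003706, 0, 0, 0, 0, 0, 0, 0, ⟨0, 0⟩, 0⟩ 0 0))) (.cut .d 2680896 (.pos 74 .pm ⟨0, 0, 65547518, 0, 0, 0, 0, 0, 0, ⟨0, 0⟩, 0⟩ 0 0) (.cut .d 4021344 (.pos 74 .pm ⟨0, 0, 0, 0, 0, 0, 0, 0, 0, ⟨0, 0⟩, 0⟩ 0 0) (.cut .d 4691568 (.pos 74 .pm ⟨0, 71535799, 0, 0, 0, 0, 0, 0, 0, ⟨0, 0⟩, 0⟩ 0 0) (.cut .s 12976128 (.pos 74 .pm ⟨0, 101754443, 0, 0, 0, 0, 0, 0, 0, ⟨0, 0⟩, 0⟩ 0 0) (.pos 74 .pm ⟨0, 153265624, 0,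 0, 0, 0, 0, 0, 0, ⟨0, 0⟩, 0⟩ 0 0)))))) (.cut .d 2680896 (.pos 5 .pm ⟨0, 0, 12305472, 0, 0, 0, 0, 0, 0, ⟨0, 0⟩, 0⟩ 0 0) (.cut .d 4021344 (.pos 5 .pm ⟨0, 0, 0, 0, 0, 0, 0, 0, 0, ⟨0, 0⟩, 0⟩ 0 0) (.cut .d 4691568 (.pos 5 .pm ⟨0, 94566077, 0, 0, 0, 0, 0, 0, 0, ⟨0, 0⟩, 0⟩ 0 0) (.cut .s 12976128 (.pos 5 .pm ⟨0, 133021814, 0, 0, 0, 0, 0, 0, 0, ⟨0, 0⟩, 0⟩ 0 0) (.pos 5 .pm ⟨0, 198721715, 0, 0, 0, 0, 0, 0, 0, ⟨0, 0⟩, 0⟩ 0 0)))))) (.cut .d 2680896 (.pos 3 .pm ⟨0, 0, 0, 0, 0, 0, 0, 0, 0, ⟨0, 0⟩, 0⟩ 0 0) (.pos 3 .pm ⟨0, 150120584, 0, 0, 0, 0, 0, 0, 0, ⟨0, 0⟩, 0⟩ 0 0))) (.cut .v 268435456 (.cut .d 2680896 (.cut .v 67108864 (.cut .d 1340448 (.cut .v 33554432 (.cut .d 670224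 (.cut .v 25165824 (.cut .d 335112 (.cut .v 20971520 (.cut .v 18874368 (.pos 21 .pp ⟨266077163, 0, 0, 0, 0, 0, 0, 0, 0, ⟨0, 0⟩, 0⟩ 0 0) (.pos 22 .pp ⟨418477369, 0, 0, 0, 0, 0, 0, 0, 0, ⟨0, 0⟩, 0⟩ 0 0)) (.pos 20 .pp ⟨570469845, 0, 0, 0, 0, 0, 0, 0, 0, ⟨0, 0⟩, 0⟩ 0 0)) (.pos 17 .pp ⟨195161376, 0, 0, 0, 0, 0, 0, 0, 0, ⟨0, 0⟩, 0⟩ 0 0)) (.cut .d 335112 (.pos 18 .pp ⟨1048091888, 0, 0, 0, 0, 0, 0, 0, 0, ⟨0, 0⟩, 0⟩ 0 0) (.pos 18 .pp ⟨679117137, 0, 0, 0, 0, 0, 0, 0, 0, ⟨0, 0⟩, 0⟩ 0 0))) (.pos 16 .pp ⟨150847900, 0, 0, 0, 0, 0, 0, 0, 0, ⟨0, 0⟩, 0⟩ 0 0)) (.cut .d 670224 (.cut .v 50331648 (.cut .v 41943040 (.pos 50 .pp ⟨1564575258, 0, 0, 0, 0, 0, 0, 0, 0, ⟨0, 0⟩, 0⟩ 0 0)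 (.void 51 ⟨100000, 0, 0, 0, 0, 0, 0, 0, 0, ⟨0, 0⟩, 0⟩ 0 0)) (.void 49 ⟨100000, 0, 0, 0, 0, 0, 0, 0, 0, ⟨0, 0⟩, 0⟩ 0 0)) (.cut .v 50331648 (.cut .v 41943040 (.pos 50 .pp ⟨869547764, 0, 0, 0, 0, 0, 0, 0, 0, ⟨0, 0⟩, 0⟩ 0 0) (.pos 51 .pp ⟨1414525290, 0, 0, 0, 0, 0, 0, 0, 0, ⟨0, 0⟩, 0⟩ 0 0)) (.cut .d 1005336 (.cut .v 58720256 (.pos 67 .pp ⟨2475385330, 0, 0, 0, 0, 0, 0, 0, 0, ⟨0, 0⟩, 0⟩ 0 0) (.pos 68 .pp ⟨3583252572, 0, 0, 0, 0, 0, 0, 0, 0, ⟨0, 0⟩, 0⟩ 0 0)) (.cut .v 58720256 (.pos 67 .pp ⟨1814418007, 0, 0, 0, 0, 0, 0, 0, 0, ⟨0, 0⟩, 0⟩ 0 0) (.cut .d 1172892 (.pos 68 .pp ⟨2940550133, 0, 0, 0, 0, 0, 0, 0, 0, ⟨0, 0⟩, 0⟩ 0 0) (.pos 68 .pp ⟨2444320740, 0, 0, 0, 0, 0, 0,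 0, 0, ⟨0, 0⟩, 0⟩ 0 0))))))) (.pos 44 .pp ⟨0, 0, 0, 0, 0, 0, 0, 0, 0, ⟨0, 0⟩, 0⟩ 0 0)) (.cut .v 134217728 (.cut .v 100663296 (.cut .v 83886080 (.cut .d 1340448 (.cut .v 75497472 (.cut .d 670224 (.void 108 ⟨100000, 0, 0, 0, 0, 0, 0, 0, 0, ⟨0, 0⟩, 0⟩ 0 0) (.cut .d 1005336 (.void 108 ⟨100000, 0, 0, 0, 0, 0, 0, 0, 0, ⟨0, 0⟩, 0⟩ 0 0) (.cut .d 1172892 (.cut .s 12976128 (.pos 108 .pp ⟨4263813247, 0, 0, 0, 0, 0, 0, 0, 0, ⟨0, 0⟩, 0⟩ 0 0) (.cut .s 13107200 (.pos 108 .pp ⟨4052060990, 0, 0, 0, 0, 0, 0, 0, 0, ⟨0, 0⟩, 0⟩ 0 0) (.cut .v 71303168 (.pos 110 .pp ⟨3623626568, 0, 0, 0, 0, 0, 0, 0, 0, ⟨0, 0⟩, 0⟩ 0 0) (.pos 111 .pp ⟨4155701672, 71767658, 0, 0, 0, 0, 0, 0, 0, ⟨0, 0⟩,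 0⟩ 0 0)))) (.cut .s 12976128 (.cut .v 71303168 (.pos 110 .pp ⟨3108745709, 0, 0, 0, 0, 0, 0, 0, 0, ⟨0, 0⟩, 0⟩ 0 0) (.cut .l 1062557 (.pos 111 .pp ⟨3588244600, 30813737, 0, 0, 0, 0, 0, 0, 0, ⟨0, 0⟩, 0⟩ 0 0) (.cut .l 1440044 (.cut .s 12845056 (.pos 111 .pp ⟨3571019756, 35119760, 0, 0, 0, 0, 0, 0, 0, ⟨0, 0⟩, 0⟩ 0 0) (.pos 111 .pp ⟨3608762772, 0, 0, 0, 0, 0, 0, 0, 0, ⟨0, 0⟩, 0⟩ 0 0)) (.cut .v 73400320 (.cut .s 12845056 (.pos 122 .pp ⟨3326961539, 0, 0, 0, 0, 0, 0, 0, 0, ⟨0, 0⟩, 0⟩ 0 0) (.pos 122 .pp ⟨3405985782, 0, 0, 0, 0, 0, 0, 0, 0, ⟨0, 0⟩, 0⟩ 0 0)) (.cut .d 1256670 (.cut .s 12845056 (.pos 123 .pp ⟨4441807610, 0, 0, 0, 0, 0, 0, 0, 0, ⟨0, 0⟩, 0⟩ 0 0) (.cut .d 1214781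 (.pos 123 .pp ⟨3963211602, 204034559, 0, 0, 0, 0, 0, 0, 0, ⟨0, 0⟩, 0⟩ 0 0) (.cut .l 1628788 (.pos 123 .pp ⟨3784623330, 191709790, 0, 0, 0, 0, 0, 0, 0, ⟨0, 0⟩, 0⟩ 0 0) (.cut .l 1723160 (.pos 123 .pp ⟨3781826207, 187087881, 0, 0, 0, 0, 0, 0, 0, ⟨0, 0⟩, 0⟩ 0 0) (.cut .s 12910592 (.cut .v 74448896 (.pos 126 .pp ⟨3531868167, 0, 0, 0, 0, 0, 0, 0, 0, ⟨0, 0⟩, 0⟩ 0 0) (.pos 127 .pp ⟨3755635401, 368020782, 0, 0, 0, 0, 0, 0, 0, ⟨0, 0⟩, 0⟩ 0 0)) (.cut .v 74448896 (.pos 126 .pp ⟨3571624239, 0, 0, 0, 0, 0, 0, 0, 0, ⟨0, 0⟩, 0⟩ 0 0) (.pos 127 .pp ⟨3783770079, 322483491, 0, 0, 0, 0, 0, 0, 0, ⟨0, 0⟩, 0⟩ 0 0))))))) (.cut .s 12845056 (.cut .v 74448896 (.cut .s 12779520 (.pos 126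 .pp ⟨3437199469, 125175266, 0, 0, 0, 0, 0, 0, 0, ⟨0, 0⟩, 0⟩ 0 0) (.cut .d 1298559 (.pos 126 .pp ⟨3529024740, 169704182, 0, 0, 0, 0, 0, 0, 0, ⟨0, 0⟩, 0⟩ 0 0) (.pos 126 .pp ⟨2162917360, 642025974, 0, 0, 0, 0, 0, 0, 0, ⟨0, 0⟩, 0⟩ 0 0))) (.void 127 ⟨37739, 62261, 0, 0, 0, 0, 0, 0, 0, ⟨0, 0⟩, 0⟩ 0 0)) (.cut .v 74448896 (.pos 126 .pp ⟨3478449288, 46529816, 0, 0, 0, 0, 0, 0, 0, ⟨0, 0⟩, 0⟩ 0 0) (.pos 127 .pp ⟨3609750919, 310252686, 0, 0, 0, 0, 0, 0, 0, ⟨0, 0⟩, 0⟩ 0 0)))))))) (.cut .d 1256670 (.cut .v 71303168 (.pos 110 .pp ⟨3291775524, 0, 0, 0, 0, 0, 0, 0, 0, ⟨0, 0⟩, 0⟩ 0 0) (.cut .v 73400320 (.pos 122 .pp ⟨3567507269, 0, 0, 0, 0, 0, 0, 0, 0, ⟨0, 0⟩, 0⟩ 0 0) (.cut .v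 74448896 (.pos 126 .pp ⟨3666822065, 0, 0, 0, 0, 0, 0, 0, 0, ⟨0, 0⟩, 0⟩ 0 0) (.pos 127 .pp ⟨3890870858, 325505146, 0, 0, 0, 0, 0, 0, 0, ⟨0, 0⟩, 0⟩ 0 0)))) (.pos 108 .pp ⟨2109795348, 585028373, 0, 0, 0, 0, 0, 0, 0, ⟨0, 0⟩, 0⟩ 0 0)))))) (.void 109 ⟨37862, 62138, 0, 0, 0, 0, 0, 0, 0, ⟨0, 0⟩, 0⟩ 0 0)) (.cut .v 75497472 (.pos 108 .pp ⟨2135773866, 430050846, 0, 0, 0, 0, 0, 0, 0, ⟨0, 0⟩, 0⟩ 0 0) (.void 109 ⟨0, 100000, 0, 0, 0, 0, 0, 0, 0, ⟨0, 0⟩, 0⟩ 0 0))) (.void 101 ⟨36979, 63021, 0, 0, 0, 0, 0, 0, 0, ⟨0, 0⟩, 0⟩ 0 0)) (.void 82 ⟨36979, 63021, 0, 0, 0, 0, 0, 0, 0, ⟨0, 0⟩, 0⟩ 0 0)) (.void 60 ⟨0, 0, 0, 100000, 0, 0, 0, 0, 0, ⟨0, 0⟩, 0⟩ 0 0))) (.pos 55 .pp ⟨0, 164546205,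 0, 0, 0, 0, 0, 0, 0, ⟨0, 0⟩, 0⟩ 0 0)) (.void 95 ⟨0, 0, 0, 100000, 0, 0, 0, 0, 0, ⟨0, 0⟩, 0⟩ 0 0)))),
    by decide +kernel⟩

def covers20 : cell.Covers table row20.1 :=
  ⟨(.cut .d 0 (.cut .v 16777216 (.cut .d (-8388608) (.void 1 ⟨0, 0, 0, 0, 0, 100000, 0, 0, 0, ⟨0, 0⟩, 0⟩ 0 0) (.cut .v 8388608 (.pos 2 .mm ⟨0, 0, 839576835, 0, 0, 438056261, 0, 0, 0, ⟨0, 0⟩, 0⟩ 0 0) (.cut .d (-4194304) (.void 3 ⟨100000, 0, 0, 0, 0, 0, 0, 0, 0, ⟨0, 0⟩, 0⟩ 0 0) (.cut .d (-2097152) (.void 3 ⟨0, 0, 0, 0, 0, 100000, 0, 0, 0, ⟨0, 0⟩, 0⟩ 0 0) (.cut .d (-1048576) (.void 3 ⟨0, 0, 0, 0, 0, 100000, 0, 0, 0, ⟨0, 0⟩, 0⟩ 0 0) (.cut .d (-524288) (.void 3 ⟨0, 0, 0, 0, 0, 100000, 0, 0, 0, ⟨0,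 0⟩, 0⟩ 0 0) (.cut .d (-262144) (.void 3 ⟨0, 0, 0, 0, 0, 100000, 0, 0, 0, ⟨0, 0⟩, 0⟩ 0 0) (.cut .d (-131072) (.void 3 ⟨0, 0, 0, 0, 0, 100000, 0, 0, 0, ⟨0, 0⟩, 0⟩ 0 0) (.cut .s 13500416 (.pos 3 .mm ⟨0, 0, 0, 0, 0, 882148370, 0, 0, 0, ⟨0, 0⟩, 0⟩ 0 0) (.cut .s 13631488 (.pos 3 .mm ⟨0, 0, 0, 0, 0, 958379208, 0, 0, 0, ⟨0, 0⟩, 0⟩ 0 0) (.pos 3 .mm ⟨0, 0, 0, 0, 0, 1033193223, 0, 0, 0, ⟨0, 0⟩, 0⟩ 0 0))))))))))) (.cut .v 268435456 (.cut .v 67108864 (.cut .v 33554432 (.cut .d (-8388608) (.void 16 ⟨100000, 0, 0, 0, 0, 0, 0, 0, 0, ⟨0, 0⟩, 0⟩ 0 0) (.cut .v 25165824 (.cut .d (-4194304) (.void 17 ⟨100000, 0, 0, 0, 0, 0, 0, 0, 0, ⟨0, 0⟩, 0⟩ 0 0) (.cut .v 20971520 (.cut .d (-2097152)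 (.void 19 ⟨100000, 0, 0, 0, 0, 0, 0, 0, 0, ⟨0, 0⟩, 0⟩ 0 0) (.cut .d (-1048576) (.void 19 ⟨100000, 0, 0, 0, 0, 0, 0, 0, 0, ⟨0, 0⟩, 0⟩ 0 0) (.cut .d (-524288) (.void 19 ⟨100000, 0, 0, 0, 0, 0, 0, 0, 0, ⟨0, 0⟩, 0⟩ 0 0) (.cut .d (-262144) (.void 19 ⟨100000, 0, 0, 0, 0, 0, 0, 0, 0, ⟨0, 0⟩, 0⟩ 0 0) (.cut .d (-131072) (.void 19 ⟨100000, 0, 0, 0, 0, 0, 0, 0, 0, ⟨0, 0⟩, 0⟩ 0 0) (.cut .v 18874368 (.cut .v 17825792 (.cut .d (-65536) (.cut .v 17301504 (.cut .s 13500416 (.pos 25 .mp ⟨265242672, 0, 0, 0, 0, 514006718, 0, 0, 0, ⟨0, 0⟩, 0⟩ 0 0) (.cut .v 17039360 (.pos 27 .mp ⟨262772317, 0, 0, 0, 0, 639736690, 0, 0, 0, ⟨0, 0⟩, 0⟩ 0 0) (.pos 28 .mp ⟨654502130, 0, 0, 0, 0, 0,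 0, 0, 0, ⟨0, 0⟩, 0⟩ 0 0))) (.pos 26 .mp ⟨916947173, 0, 0, 0, 0, 0, 0, 0, 0, ⟨0, 0⟩, 0⟩ 0 0)) (.cut .v 17301504 (.cut .s 13500416 (.cut .d (-32768) (.cut .l 1062557 (.pos 25 .mp ⟨266009723, 0, 0, 0, 0, 494944519, 0, 0, 0, ⟨0, 0⟩, 0⟩ 0 0) (.pos 25 .mp ⟨291119842, 0, 0, 0, 0, 387591573, 0, 0, 0, ⟨0, 0⟩, 0⟩ 0 0)) (.pos 25 .mp ⟨286545998, 0, 0, 0, 0, 366302045, 0, 0, 0, ⟨0, 0⟩, 0⟩ 0 0)) (.cut .s 13631488 (.cut .v 17039360 (.cut .d (-32768) (.cut .s 13565952 (.pos 27 .mp ⟨228633504, 0, 0, 0, 0, 569933421, 0, 0, 0, ⟨0, 0⟩, 0⟩ 0 0) (.pos 27 .mp ⟨231696680, 0, 0, 0, 0, 596295014, 0, 0, 0, ⟨0, 0⟩, 0⟩ 0 0)) (.cut .s 13565952 (.pos 27 .mp ⟨284175915, 0, 0, 0, 0, 437746640,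 0, 0, 0, ⟨0, 0⟩, 0⟩ 0 0) (.pos 27 .mp ⟨290388358, 0, 0, 0, 0, 456283365, 0, 0, 0, ⟨0, 0⟩, 0⟩ 0 0))) (.pos 28 .mp ⟨557190015, 0, 0, 0, 0, 0, 0, 0, 0, ⟨0, 0⟩, 0⟩ 0 0)) (.cut .v 17039360 (.cut .d (-32768) (.cut .l 1062557 (.pos 27 .mp ⟨263167877, 0, 0, 0, 0, 620092521, 0, 0, 0, ⟨0, 0⟩, 0⟩ 0 0) (.cut .s 13697024 (.pos 27 .mp ⟨236389198, 0, 0, 0, 0, 614767125, 0, 0, 0, ⟨0, 0⟩, 0⟩ 0 0) (.cut .s 13729792 (.pos 27 .mp ⟨240817558, 0, 0, 0, 0, 634495709, 0, 0, 0, ⟨0, 0⟩, 0⟩ 0 0) (.pos 27 .mp ⟨242928297, 0, 0, 0, 0, 649780896, 0, 0, 0, ⟨0, 0⟩, 0⟩ 0 0)))) (.cut .l 1062557 (.cut .d (-16384) (.cut .l 685069 (.cut .s 13697024 (.pos 27 .mp ⟨261915760, 0, 0, 0, 0, 577902281,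 0, 0, 0, ⟨0, 0⟩, 0⟩ 0 0) (.pos 27 .mp ⟨264441362, 0, 0, 0, 0, 610947366, 0, 0, 0, ⟨0, 0⟩, 0⟩ 0 0)) (.pos 27 .mp ⟨287949782, 0, 0, 0, 0, 505558123, 0, 0, 0, ⟨0, 0⟩, 0⟩ 0 0)) (.pos 27 .mp ⟨283374038, 0, 0, 0, 0, 504314380, 0, 0, 0, ⟨0, 0⟩, 0⟩ 0 0)) (.pos 27 .mp ⟨0, 0, 0, 0, 0, 0, 0, 0, 0, ⟨0, 0⟩, 0⟩ 0 0))) (.pos 28 .mp ⟨594475759, 0, 0, 0, 0, 0, 0, 0, 0, ⟨0, 0⟩, 0⟩ 0 0)))) (.pos 26 .mp ⟨576405341, 0, 0, 0, 0, 0, 0, 0, 0, ⟨0, 0⟩, 0⟩ 0 0))) (.pos 24 .mp ⟨649738262, 0, 0, 0, 0, 0, 0, 0, 0, ⟨0, 0⟩, 0⟩ 0 0)) (.void 22 ⟨100000, 0, 0, 0, 0, 0, 0, 0, 0, ⟨0, 0⟩, 0⟩ 0 0))))))) (.void 20 ⟨100000, 0, 0, 0, 0, 0, 0, 0, 0, ⟨0, 0⟩, 0⟩ 0 0))) (.void 18 ⟨100000, 0, 0, 0, 0, 0,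 0, 0, 0, ⟨0, 0⟩, 0⟩ 0 0))) (.void 45 ⟨100000, 0, 0, 0, 0, 0, 0, 0, 0, ⟨0, 0⟩, 0⟩ 0 0)) (.void 56 ⟨100000, 0, 0, 0, 0, 0, 0, 0, 0, ⟨0, 0⟩, 0⟩ 0 0)) (.void 95 ⟨94064, 0, 0, 5936, 0, 0, 0, 0, 0, ⟨0, 0⟩, 0⟩ 0 0))) (.cut .v 16777216 (.cut .v 8388608 (.cut .v 4194304 (.cut .v 2097152 (.cut .d 2242500 (.void 73 ⟨0, 0, 100000, 0, 0, 0, 0, 0, 0, ⟨0, 0⟩, 0⟩ 0 0) (.cut .v 1048576 (.cut .v 524288 (.pos 130 .pm ⟨0, 0, 2374648, 0, 0, 0, 0, 0, 0, ⟨0, 0⟩, 0⟩ 0 0) (.pos 131 .pm ⟨0, 25165489, 0, 0, 0, 0, 0, 0, 0, ⟨0, 0⟩, 0⟩ 0 0)) (.cut .d 3363750 (.pos 105 .pm ⟨0, 0, 0, 0, 0, 0, 0, 0, 0, ⟨0, 0⟩, 0⟩ 0 0) (.pos 105 .pm ⟨0, 79227845, 0, 0, 0, 0, 0, 0, 0, ⟨0, 0⟩, 0⟩ 0 0)))) (.cut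 .d 2242500 (.pos 74 .pm ⟨0, 0, 103941073, 0, 0, 0, 0, 0, 0, ⟨0, 0⟩, 0⟩ 0 0) (.cut .d 3363750 (.pos 74 .pm ⟨0, 0, 0, 0, 0, 0, 0, 0, 0, ⟨0, 0⟩, 0⟩ 0 0) (.cut .d 3924375 (.pos 74 .pm ⟨0, 86187469, 0, 0, 0, 0, 0, 0, 0, ⟨0, 0⟩, 0⟩ 0 0) (.cut .s 13500416 (.pos 74 .pm ⟨0, 118702116, 0, 0, 0, 0, 0, 0, 0, ⟨0, 0⟩, 0⟩ 0 0) (.pos 74 .pm ⟨0, 192229512, 0, 0, 0, 0, 0, 0, 0, ⟨0, 0⟩, 0⟩ 0 0)))))) (.cut .d 2242500 (.pos 5 .pm ⟨0, 0, 111566428, 0, 0, 0, 0, 0, 0, ⟨0, 0⟩, 0⟩ 0 0) (.cut .d 3363750 (.pos 5 .pm ⟨0, 0, 0, 0, 0, 0, 0, 0, 0, ⟨0, 0⟩, 0⟩ 0 0) (.cut .d 3924375 (.pos 5 .pm ⟨0, 120796385, 0, 0, 0, 0, 0, 0, 0, ⟨0, 0⟩, 0⟩ 0 0) (.pos 5 .pm ⟨0, 211541123, 0, 0, 0, 0, 0, 0, 0,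 ⟨0, 0⟩, 0⟩ 0 0))))) (.cut .d 2242500 (.pos 3 .pm ⟨0, 0, 0, 0, 0, 0, 0, 0, 0, ⟨0, 0⟩, 0⟩ 0 0) (.pos 3 .pm ⟨0, 196641637, 0, 0, 0, 0, 0, 0, 0, ⟨0, 0⟩, 0⟩ 0 0))) (.cut .v 268435456 (.cut .d 2242500 (.cut .v 67108864 (.cut .d 1121250 (.cut .v 33554432 (.cut .d 560625 (.cut .v 25165824 (.cut .v 20971520 (.pos 19 .pp ⟨412156471, 0, 0, 0, 0, 0, 0, 0, 0, ⟨0, 0⟩, 0⟩ 0 0) (.pos 20 .pp ⟨657510229, 0, 0, 0, 0, 0, 0, 0, 0, ⟨0, 0⟩, 0⟩ 0 0)) (.cut .d 280312 (.pos 18 .pp ⟨1294171823, 0, 0, 0, 0, 0, 0, 0, 0, ⟨0, 0⟩, 0⟩ 0 0) (.pos 18 .pp ⟨847246980, 0, 0, 0, 0, 0, 0, 0, 0, ⟨0, 0⟩, 0⟩ 0 0))) (.pos 16 .pp ⟨157234363, 0, 0, 0, 0, 0, 0, 0, 0, ⟨0, 0⟩, 0⟩ 0 0)) (.cut .d 560625 (.cut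 .v 50331648 (.pos 48 .pp ⟨2600544455, 0, 0, 0, 0, 0, 0, 0, 0, ⟨0, 0⟩, 0⟩ 0 0) (.void 49 ⟨100000, 0, 0, 0, 0, 0, 0, 0, 0, ⟨0, 0⟩, 0⟩ 0 0)) (.cut .v 50331648 (.cut .v 41943040 (.pos 50 .pp ⟨1106029508, 0, 0, 0, 0, 0, 0, 0, 0, ⟨0, 0⟩, 0⟩ 0 0) (.pos 51 .pp ⟨1761363405, 0, 0, 0, 0, 0, 0, 0, 0, ⟨0, 0⟩, 0⟩ 0 0)) (.cut .d 840937 (.pos 49 .pp ⟨3850396749, 0, 0, 0, 0, 0, 0, 0, 0, ⟨0, 0⟩, 0⟩ 0 0) (.cut .v 58720256 (.pos 67 .pp ⟨2266663375, 0, 0, 0, 0, 0, 0, 0, 0, ⟨0, 0⟩, 0⟩ 0 0) (.pos 68 .pp ⟨3302434520, 0, 0, 0, 0, 0, 0, 0, 0, ⟨0, 0⟩, 0⟩ 0 0)))))) (.pos 44 .pp ⟨0, 0, 0, 0, 0, 0, 0, 0, 0, ⟨0, 0⟩, 0⟩ 0 0)) (.cut .v 134217728 (.cut .v 100663296 (.cut .v 83886080 (.cut .d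 1121250 (.cut .d 560625 (.void 100 ⟨100000, 0, 0, 0, 0, 0, 0, 0, 0, ⟨0, 0⟩, 0⟩ 0 0) (.cut .d 840937 (.pos 100 .pp ⟨7617731648, 0, 0, 0, 0, 0, 0, 0, 0, ⟨0, 0⟩, 0⟩ 0 0) (.cut .v 75497472 (.cut .v 71303168 (.pos 110 .pp ⟨4072719537, 0, 0, 0, 0, 0, 0, 0, 0, ⟨0, 0⟩, 0⟩ 0 0) (.cut .s 13500416 (.cut .s 13369344 (.pos 111 .pp ⟨4470369261, 0, 0, 0, 0, 0, 0, 0, 0, ⟨0, 0⟩, 0⟩ 0 0) (.pos 111 .pp ⟨4544126620, 0, 0, 0, 0, 0, 0, 0, 0, ⟨0, 0⟩, 0⟩ 0 0)) (.pos 111 .pp ⟨4625268286, 0, 0, 0, 0, 0, 0, 0, 0, ⟨0, 0⟩, 0⟩ 0 0))) (.cut .s 13500416 (.cut .s 13369344 (.pos 109 .pp ⟨5375020140, 1477662731, 0, 0, 0, 0, 0, 0, 0, ⟨0, 0⟩, 0⟩ 0 0) (.pos 109 .pp ⟨5471033893, 1408268020, 0, 0,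 0, 0, 0, 0, 0, ⟨0, 0⟩, 0⟩ 0 0)) (.pos 109 .pp ⟨5572832676, 1314167798, 0, 0, 0, 0, 0, 0, 0, ⟨0, 0⟩, 0⟩ 0 0))))) (.cut .v 75497472 (.pos 108 .pp ⟨2821777314, 488738016, 0, 0, 0, 0, 0, 0, 0, ⟨0, 0⟩, 0⟩ 0 0) (.void 109 ⟨0, 100000, 0, 0, 0, 0, 0, 0, 0, ⟨0, 0⟩, 0⟩ 0 0))) (.void 101 ⟨36360, 63640, 0, 0, 0, 0, 0, 0, 0, ⟨0, 0⟩, 0⟩ 0 0)) (.void 82 ⟨83122, 6160, 0, 10717, 0, 0, 0, 0, 0, ⟨0, 0⟩, 0⟩ 0 0)) (.void 60 ⟨0, 0, 0, 100000, 0, 0, 0, 0, 0, ⟨0, 0⟩, 0⟩ 0 0))) (.pos 55 .pp ⟨0, 223695108, 0, 0, 0, 0, 0, 0, 0, ⟨0, 0⟩, 0⟩ 0 0)) (.void 95 ⟨0, 0, 0, 100000, 0, 0, 0, 0, 0, ⟨0, 0⟩, 0⟩ 0 0)))),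
    by decide +kernel⟩

def covers21 : cell.Covers table row21.1 :=
  ⟨(.cut .d 0 (.cut .v 16777216 (.cut .v 8388608 (.void 2 ⟨0, 0, 100000, 0, 0, 0, 0, 0, 0, ⟨0, 0⟩, 0⟩ 0 0) (.cut .d (-8388608) (.void 3 ⟨100000, 0, 0, 0, 0, 0, 0, 0, 0, ⟨0, 0⟩, 0⟩ 0 0) (.cut .d (-4194304) (.void 3 ⟨100000, 0, 0, 0, 0, 0, 0, 0, 0, ⟨0, 0⟩, 0⟩ 0 0) (.cut .d (-2097152) (.void 3 ⟨100000, 0, 0, 0, 0, 0, 0, 0, 0, ⟨0, 0⟩, 0⟩ 0 0) (.cut .d (-1048576) (.void 3 ⟨0, 0, 0, 0, 0, 100000, 0, 0, 0, ⟨0, 0⟩, 0⟩ 0 0) (.cut .d (-524288) (.void 3 ⟨0, 0, 0, 0, 0, 100000, 0, 0, 0, ⟨0, 0⟩, 0⟩ 0 0) (.cut .d (-262144) (.void 3 ⟨0, 0, 0, 0, 0, 100000, 0, 0, 0, ⟨0, 0⟩, 0⟩ 0 0) (.cut .d (-131072) (.void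 3 ⟨0, 0, 0, 0, 0, 100000, 0, 0, 0, ⟨0, 0⟩, 0⟩ 0 0) (.cut .d (-65536) (.pos 3 .mm ⟨0, 0, 0, 0, 0, 1350997420, 0, 0, 0, ⟨0, 0⟩, 0⟩ 0 0) (.cut .v 12582912 (.pos 6 .mm ⟨0, 0, 0, 0, 0, 737339482, 0, 0, 0, ⟨0, 0⟩, 0⟩ 0 0) (.cut .v 14680064 (.pos 10 .mm ⟨0, 0, 0, 0, 0, 1033470486, 0, 0, 0, ⟨0, 0⟩, 0⟩ 0 0) (.cut .v 15728640 (.pos 12 .mm ⟨0, 0, 0, 0, 0, 1107492880, 0, 0, 0, ⟨0, 0⟩, 0⟩ 0 0) (.cut .v 16252928 (.pos 14 .mm ⟨0, 0, 0, 0, 0, 1145235463, 0, 0, 0, ⟨0, 0⟩, 0⟩ 0 0) (.cut .v 16515072 (.pos 37 .mm ⟨0, 0, 0, 0, 0, 1164293976, 0, 0, 0, ⟨0, 0⟩, 0⟩ 0 0) (.cut .s 13959168 (.cut .s 13860864 (.pos 38 .mm ⟨0, 0, 0, 0, 0, 1078821527, 0, 0, 0, ⟨0, 0⟩, 0⟩ 0 0) (.pos 38 .mm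 ⟨0, 0, 0, 0, 0, 1141167331, 0, 0, 0, ⟨0, 0⟩, 0⟩ 0 0)) (.cut .s 14057472 (.pos 38 .mm ⟨0, 0, 0, 0, 0, 1206762405, 0, 0, 0, ⟨0, 0⟩, 0⟩ 0 0) (.pos 38 .mm ⟨0, 0, 0, 0, 0, 1275539759, 0, 0, 0, ⟨0, 0⟩, 0⟩ 0 0))))))))))))))))) (.cut .v 268435456 (.cut .v 67108864 (.cut .v 33554432 (.cut .d (-8388608) (.void 16 ⟨100000, 0, 0, 0, 0, 0, 0, 0, 0, ⟨0, 0⟩, 0⟩ 0 0) (.cut .v 25165824 (.cut .d (-4194304) (.void 17 ⟨100000, 0, 0, 0, 0, 0, 0, 0, 0, ⟨0, 0⟩, 0⟩ 0 0) (.cut .d (-2097152) (.void 17 ⟨100000, 0, 0, 0, 0, 0, 0, 0, 0, ⟨0, 0⟩, 0⟩ 0 0) (.cut .v 20971520 (.cut .d (-1048576) (.void 19 ⟨100000, 0, 0, 0, 0, 0, 0, 0, 0, ⟨0, 0⟩, 0⟩ 0 0) (.cut .d (-524288) (.void 19 ⟨100000, 0,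 0, 0, 0, 0, 0, 0, 0, ⟨0, 0⟩, 0⟩ 0 0) (.cut .d (-262144) (.void 19 ⟨100000, 0, 0, 0, 0, 0, 0, 0, 0, ⟨0, 0⟩, 0⟩ 0 0) (.cut .d (-131072) (.void 19 ⟨100000, 0, 0, 0, 0, 0, 0, 0, 0, ⟨0, 0⟩, 0⟩ 0 0) (.cut .v 18874368 (.cut .v 17825792 (.cut .d (-65536) (.cut .v 17301504 (.cut .s 13959168 (.cut .d (-98304) (.void 25 ⟨0, 0, 0, 0, 0, 100000, 0, 0, 0, ⟨0, 0⟩, 0⟩ 0 0) (.cut .v 17039360 (.cut .s 13860864 (.pos 27 .mp ⟨288642301, 0, 0, 0, 0, 657630963, 0, 0, 0, ⟨0, 0⟩, 0⟩ 0 0) (.pos 27 .mp ⟨292382618, 0, 0, 0, 0, 707082367, 0, 0, 0, ⟨0, 0⟩, 0⟩ 0 0)) (.pos 28 .mp ⟨715838089, 0, 0, 0, 0, 0, 0, 0, 0, ⟨0, 0⟩, 0⟩ 0 0))) (.void 25 ⟨0, 0, 0, 0, 0, 100000, 0, 0, 0, ⟨0, 0⟩, 0⟩ 0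 0)) (.void 26 ⟨100000, 0, 0, 0, 0, 0, 0, 0, 0, ⟨0, 0⟩, 0⟩ 0 0)) (.cut .v 17301504 (.cut .s 13959168 (.cut .v 17039360 (.cut .d (-32768) (.cut .l 1062557 (.cut .s 13860864 (.pos 27 .mp ⟨273434560, 0, 0, 0, 0, 663313443, 0, 0, 0, ⟨0, 0⟩, 0⟩ 0 0) (.cut .s 13910016 (.pos 27 .mp ⟨280694145, 0, 0, 0, 0, 681139768, 0, 0, 0, ⟨0, 0⟩, 0⟩ 0 0) (.pos 27 .mp ⟨283936685, 0, 0, 0, 0, 707507175, 0, 0, 0, ⟨0, 0⟩, 0⟩ 0 0))) (.cut .s 13860864 (.cut .v 16908288 (.pos 46 .mp ⟨0, 0, 0, 0, 0, 1101078900, 0, 0, 0, ⟨0, 0⟩, 0⟩ 0 0) (.cut .d (-49152) (.cut .s 13811712 (.pos 47 .mp ⟨268386719, 0, 0, 0, 0, 639342953, 0, 0, 0, ⟨0, 0⟩, 0⟩ 0 0) (.cut .s 13836288 (.pos 47 .mp ⟨272491656, 0,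 0, 0, 0, 648487975, 0, 0, 0, ⟨0, 0⟩, 0⟩ 0 0) (.pos 47 .mp ⟨274443077, 0, 0, 0, 0, 659237843, 0, 0, 0, ⟨0, 0⟩, 0⟩ 0 0))) (.cut .s 13811712 (.pos 47 .mp ⟨301952917, 0, 0, 0, 0, 555247581, 0, 0, 0, ⟨0, 0⟩, 0⟩ 0 0) (.pos 47 .mp ⟨306456398, 0, 0, 0, 0, 572725504, 0, 0, 0, ⟨0, 0⟩, 0⟩ 0 0)))) (.cut .v 16908288 (.pos 46 .mp ⟨0, 0, 0, 0, 0, 1158014449, 0, 0, 0, ⟨0, 0⟩, 0⟩ 0 0) (.cut .d (-49152) (.cut .l 1440044 (.pos 47 .mp ⟨291329434, 0, 0, 0, 0, 689998970, 0, 0, 0, ⟨0, 0⟩, 0⟩ 0 0) (.cut .v 16973824 (.pos 71 .mp ⟨0, 0, 0, 0, 0, 1162537731, 0, 0, 0, ⟨0, 0⟩, 0⟩ 0 0) (.cut .d (-57344) (.cut .s 13910016 (.cut .s 13885440 (.pos 72 .mp ⟨289197391, 0, 0, 0, 0, 648230670, 0,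 0, 0, ⟨0, 0⟩, 0⟩ 0 0) (.pos 72 .mp ⟨291267870, 0, 0, 0, 0, 659222745, 0, 0, 0, ⟨0, 0⟩, 0⟩ 0 0)) (.pos 72 .mp ⟨293271886, 0, 0, 0, 0, 678257066, 0, 0, 0, ⟨0, 0⟩, 0⟩ 0 0)) (.pos 72 .mp ⟨312939046, 0, 0, 0, 0, 600981644, 0, 0, 0, ⟨0, 0⟩, 0⟩ 0 0)))) (.cut .s 13910016 (.pos 47 .mp ⟨310744203, 0, 0, 0, 0, 592700205, 0, 0, 0, ⟨0, 0⟩, 0⟩ 0 0) (.pos 47 .mp ⟨314806855, 0, 0, 0, 0, 615254527, 0, 0, 0, ⟨0, 0⟩, 0⟩ 0 0)))))) (.cut .l 1062557 (.cut .s 13860864 (.cut .v 16908288 (.cut .d (-16384) (.cut .l 685069 (.pos 46 .mp ⟨264307814, 0, 0, 0, 0, 654270907, 0, 0, 0, ⟨0, 0⟩, 0⟩ 0 0) (.pos 46 .mp ⟨250018097, 0, 0, 0, 0, 654819550, 0, 0, 0, ⟨0, 0⟩, 0⟩ 0 0)) (.cut .s 13811712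 (.pos 46 .mp ⟨282127839, 0, 0, 0, 0, 566917054, 0, 0, 0, ⟨0, 0⟩, 0⟩ 0 0) (.pos 46 .mp ⟨285310893, 0, 0, 0, 0, 588597178, 0, 0, 0, ⟨0, 0⟩, 0⟩ 0 0))) (.pos 47 .mp ⟨531597576, 0, 0, 0, 0, 158963292, 0, 0, 0, ⟨0, 0⟩, 0⟩ 0 0)) (.cut .v 16908288 (.cut .d (-16384) (.cut .v 16842752 (.pos 61 .mp ⟨0, 0, 0, 0, 0, 1184081792, 0, 0, 0, ⟨0, 0⟩, 0⟩ 0 0) (.cut .s 13910016 (.cut .s 13885440 (.pos 62 .mp ⟨266706117, 0, 0, 0, 0, 668877394, 0, 0, 0, ⟨0, 0⟩, 0⟩ 0 0) (.pos 62 .mp ⟨267752842, 0, 0, 0, 0, 682328791, 0, 0, 0, ⟨0, 0⟩, 0⟩ 0 0)) (.cut .s 13934592 (.pos 62 .mp ⟨270195895, 0, 0, 0, 0, 693662033, 0, 0, 0, ⟨0, 0⟩, 0⟩ 0 0) (.pos 62 .mp ⟨274088053, 0, 0, 0, 0, 702776091, 0,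 0, 0, ⟨0, 0⟩, 0⟩ 0 0)))) (.cut .d (-8192) (.cut .l 685069 (.cut .l 496325 (.cut .s 13910016 (.pos 46 .mp ⟨288254418, 0, 0, 0, 0, 620972768, 0, 0, 0, ⟨0, 0⟩, 0⟩ 0 0) (.cut .s 13934592 (.pos 46 .mp ⟨284245278, 0, 0, 0, 0, 654513344, 0, 0, 0, ⟨0, 0⟩, 0⟩ 0 0) (.pos 46 .mp ⟨282962572, 0, 0, 0, 0, 673949648, 0, 0, 0, ⟨0, 0⟩, 0⟩ 0 0))) (.pos 46 .mp ⟨283030611, 0, 0, 0, 0, 0, 0, 0, 0, ⟨0, 0⟩, 0⟩ 0 0)) (.pos 46 .mp ⟨0, 0, 0, 0, 0, 0, 0, 0, 0, ⟨0, 0⟩, 0⟩ 0 0)) (.pos 46 .mp ⟨279618204, 0, 0, 0, 0, 0, 0, 0, 0, ⟨0, 0⟩, 0⟩ 0 0))) (.pos 47 .mp ⟨533011024, 0, 0, 0, 0, 210308416, 0, 0, 0, ⟨0, 0⟩, 0⟩ 0 0))) (.pos 27 .mp ⟨286905536, 0, 0, 0, 0, 0, 0, 0, 0, ⟨0, 0⟩, 0⟩ 0 0))) (.cut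 .s 13860864 (.pos 28 .mp ⟨622186387, 0, 0, 0, 0, 0, 0, 0, 0, ⟨0, 0⟩, 0⟩ 0 0) (.pos 28 .mp ⟨672972869, 0, 0, 0, 0, 0, 0, 0, 0, ⟨0, 0⟩, 0⟩ 0 0))) (.cut .s 14057472 (.cut .v 17039360 (.cut .d (-32768) (.cut .l 1062557 (.pos 27 .mp ⟨286905536, 0, 0, 0, 0, 766662749, 0, 0, 0, ⟨0, 0⟩, 0⟩ 0 0) (.cut .s 14008320 (.cut .d (-49152) (.pos 27 .mp ⟨278236883, 0, 0, 0, 0, 741023105, 0, 0, 0, ⟨0, 0⟩, 0⟩ 0 0) (.pos 27 .mp ⟨313486937, 0, 0, 0, 0, 638124602, 0, 0, 0, ⟨0, 0⟩, 0⟩ 0 0)) (.pos 27 .mp ⟨257400338, 0, 0, 0, 0, 806232631, 0, 0, 0, ⟨0, 0⟩, 0⟩ 0 0))) (.cut .l 1062557 (.cut .v 16908288 (.cut .d (-16384) (.cut .s 14008320 (.cut .s 13983744 (.pos 46 .mp ⟨273102114, 0, 0,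 0, 0, 720189125, 0, 0, 0, ⟨0, 0⟩, 0⟩ 0 0) (.pos 46 .mp ⟨278295218, 0, 0, 0, 0, 727505369, 0, 0, 0, ⟨0, 0⟩, 0⟩ 0 0)) (.pos 46 .mp ⟨261813990, 0, 0, 0, 0, 787603028, 0, 0, 0, ⟨0, 0⟩, 0⟩ 0 0)) (.cut .d (-8192) (.cut .s 14008320 (.cut .s 13983744 (.pos 46 .mp ⟨280727423, 0, 0, 0, 0, 696057971, 0, 0, 0, ⟨0, 0⟩, 0⟩ 0 0) (.pos 46 .mp ⟨280607564, 0, 0, 0, 0, 712498294, 0, 0, 0, ⟨0, 0⟩, 0⟩ 0 0)) (.pos 46 .mp ⟨286544233, 0, 0, 0, 0, 723126210, 0, 0, 0, ⟨0, 0⟩, 0⟩ 0 0)) (.pos 46 .mp ⟨283127032, 0, 0, 0, 0, 0, 0, 0, 0, ⟨0, 0⟩, 0⟩ 0 0))) (.pos 47 .mp ⟨564237649, 0, 0, 0, 0, 216049067, 0, 0, 0, ⟨0, 0⟩, 0⟩ 0 0)) (.pos 27 .mp ⟨291970481, 0, 0, 0, 0, 0, 0, 0, 0, ⟨0, 0⟩, 0⟩ 0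 0))) (.pos 28 .mp ⟨707282342, 0, 0, 0, 0, 0, 0, 0, 0, ⟨0, 0⟩, 0⟩ 0 0)) (.cut .v 17039360 (.cut .d (-32768) (.cut .l 1062557 (.pos 27 .mp ⟨291970481, 0, 0, 0, 0, 832838077, 0, 0, 0, ⟨0, 0⟩, 0⟩ 0 0) (.pos 27 .mp ⟨258835218, 0, 0, 0, 0, 851322425, 0, 0, 0, ⟨0, 0⟩, 0⟩ 0 0)) (.cut .l 1062557 (.cut .v 16908288 (.cut .l 685069 (.cut .d (-16384) (.pos 46 .mp ⟨278820124, 0, 0, 0, 0, 820606386, 0, 0, 0, ⟨0, 0⟩, 0⟩ 0 0) (.cut .d (-8192) (.pos 46 .mp ⟨296498064, 0, 0, 0, 0, 745785456, 0, 0, 0, ⟨0, 0⟩, 0⟩ 0 0) (.pos 46 .mp ⟨285369614, 0, 0, 0, 0, 0, 0, 0, 0, ⟨0, 0⟩, 0⟩ 0 0))) (.pos 46 .mp ⟨254139302, 0, 0, 0, 0, 803426175, 0, 0, 0, ⟨0, 0⟩, 0⟩ 0 0)) (.pos 47 .mp ⟨637230579,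 0, 0, 0, 0, 154326736, 0, 0, 0, ⟨0, 0⟩, 0⟩ 0 0)) (.pos 27 .mp ⟨295775786, 0, 0, 0, 0, 0, 0, 0, 0, ⟨0, 0⟩, 0⟩ 0 0))) (.pos 28 .mp ⟨743330172, 0, 0, 0, 0, 0, 0, 0, 0, ⟨0, 0⟩, 0⟩ 0 0)))) (.pos 26 .mp ⟨701796163, 0, 0, 0, 0, 0, 0, 0, 0, ⟨0, 0⟩, 0⟩ 0 0))) (.pos 24 .mp ⟨781101264, 0, 0, 0, 0, 0, 0, 0, 0, ⟨0, 0⟩, 0⟩ 0 0)) (.void 22 ⟨100000, 0, 0, 0, 0, 0, 0, 0, 0, ⟨0, 0⟩, 0⟩ 0 0)))))) (.void 20 ⟨100000, 0, 0, 0, 0, 0, 0, 0, 0, ⟨0, 0⟩, 0⟩ 0 0)))) (.void 18 ⟨100000, 0, 0, 0, 0, 0, 0, 0, 0, ⟨0, 0⟩, 0⟩ 0 0))) (.void 45 ⟨100000, 0, 0, 0, 0, 0, 0, 0, 0, ⟨0, 0⟩, 0⟩ 0 0)) (.void 56 ⟨100000, 0, 0, 0, 0, 0, 0, 0, 0, ⟨0, 0⟩, 0⟩ 0 0)) (.void 95 ⟨93905, 0, 0, 6095, 0, 0, 0, 0,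 0, ⟨0, 0⟩, 0⟩ 0 0))) (.cut .v 16777216 (.cut .v 8388608 (.cut .v 4194304 (.cut .v 2097152 (.cut .d 1837506 (.void 73 ⟨0, 0, 100000, 0, 0, 0, 0, 0, 0, ⟨0, 0⟩, 0⟩ 0 0) (.cut .v 1048576 (.cut .v 524288 (.pos 130 .pm ⟨0, 159855, 0, 0, 0, 0, 0, 0, 0, ⟨0, 0⟩, 0⟩ 0 0) (.pos 131 .pm ⟨0, 29577536, 0, 0, 0, 0, 0, 0, 0, ⟨0, 0⟩, 0⟩ 0 0)) (.cut .d 2756259 (.pos 105 .pm ⟨0, 0, 0, 0, 0, 0, 0, 0, 0, ⟨0, 0⟩, 0⟩ 0 0) (.pos 105 .pm ⟨0, 89403839, 0, 0, 0, 0, 0, 0, 0, ⟨0, 0⟩, 0⟩ 0 0)))) (.cut .d 1837506 (.pos 74 .pm ⟨0, 0, 143603920, 0, 0, 0, 0, 0, 0, ⟨0, 0⟩, 0⟩ 0 0) (.cut .d 2756259 (.pos 74 .pm ⟨0, 0, 0, 0, 0, 0, 0, 0, 0, ⟨0, 0⟩, 0⟩ 0 0) (.cut .d 3215635 (.pos 74 .pm ⟨0, 92228095,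 0, 0, 0, 0, 0, 0, 0, ⟨0, 0⟩, 0⟩ 0 0) (.cut .s 13959168 (.pos 74 .pm ⟨0, 127787179, 0, 0, 0, 0, 0, 0, 0, ⟨0, 0⟩, 0⟩ 0 0) (.pos 74 .pm ⟨0, 197863987, 0, 0, 0, 0, 0, 0, 0, ⟨0, 0⟩, 0⟩ 0 0)))))) (.cut .d 1837506 (.pos 5 .pm ⟨0, 0, 224172809, 0, 0, 0, 0, 0, 0, ⟨0, 0⟩, 0⟩ 0 0) (.cut .d 2756259 (.pos 5 .pm ⟨0, 0, 0, 0, 0, 0, 0, 0, 0, ⟨0, 0⟩, 0⟩ 0 0) (.pos 5 .pm ⟨0, 198093793, 0, 0, 0, 0, 0, 0, 0, ⟨0, 0⟩, 0⟩ 0 0)))) (.cut .d 1837506 (.pos 3 .pm ⟨0, 0, 0, 0, 0, 0, 0, 0, 0, ⟨0, 0⟩, 0⟩ 0 0) (.pos 3 .pm ⟨0, 224775231, 0, 0, 0, 0, 0, 0, 0, ⟨0, 0⟩, 0⟩ 0 0))) (.cut .v 268435456 (.cut .d 1837506 (.cut .v 67108864 (.cut .d 918753 (.cut .v 33554432 (.cut .d 459376 (.cut .v 25165824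 (.cut .v 20971520 (.pos 19 .pp ⟨437716894, 0, 0, 0, 0, 0, 0, 0, 0, ⟨0, 0⟩, 0⟩ 0 0) (.pos 20 .pp ⟨809668233, 0, 0, 0, 0, 0, 0, 0, 0, ⟨0, 0⟩, 0⟩ 0 0)) (.pos 18 .pp ⟨1311331228, 0, 0, 0, 0, 0, 0, 0, 0, ⟨0, 0⟩, 0⟩ 0 0)) (.pos 16 .pp ⟨130143040, 0, 0, 0, 0, 0, 0, 0, 0, ⟨0, 0⟩, 0⟩ 0 0)) (.cut .d 459376 (.cut .v 50331648 (.pos 48 .pp ⟨3035021025, 0, 0, 0, 0, 0, 0, 0, 0, ⟨0, 0⟩, 0⟩ 0 0) (.void 49 ⟨100000, 0, 0, 0, 0, 0, 0, 0, 0, ⟨0, 0⟩, 0⟩ 0 0)) (.cut .v 50331648 (.pos 48 .pp ⟨1672703676, 0, 0, 0, 0, 0, 0, 0, 0, ⟨0, 0⟩, 0⟩ 0 0) (.cut .v 58720256 (.pos 67 .pp ⟨3156990907, 0, 0, 0, 0, 0, 0, 0, 0, ⟨0, 0⟩, 0⟩ 0 0) (.pos 68 .pp ⟨4362392257, 0, 0, 0, 0, 0, 0, 0, 0, ⟨0, 0⟩,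 0⟩ 0 0))))) (.pos 44 .pp ⟨0, 0, 0, 0, 0, 0, 0, 0, 0, ⟨0, 0⟩, 0⟩ 0 0)) (.cut .v 134217728 (.cut .v 100663296 (.cut .v 83886080 (.cut .d 918753 (.cut .d 459376 (.void 100 ⟨100000, 0, 0, 0, 0, 0, 0, 0, 0, ⟨0, 0⟩, 0⟩ 0 0) (.cut .v 75497472 (.pos 108 .pp ⟨5669097125, 0, 0, 0, 0, 0, 0, 0, 0, ⟨0, 0⟩, 0⟩ 0 0) (.cut .d 689064 (.void 109 ⟨100000, 0, 0, 0, 0, 0, 0, 0, 0, ⟨0, 0⟩, 0⟩ 0 0) (.pos 109 .pp ⟨6705211876, 1589478307, 0, 0, 0, 0, 0, 0, 0, ⟨0, 0⟩, 0⟩ 0 0)))) (.pos 100 .pp ⟨3007499806, 1234690875, 0, 0, 0, 0, 0, 0, 0, ⟨0, 0⟩, 0⟩ 0 0)) (.void 101 ⟨35972, 64028, 0, 0, 0, 0, 0, 0, 0, ⟨0, 0⟩, 0⟩ 0 0)) (.void 82 ⟨87957, 0, 0, 12043, 0, 0, 0, 0, 0, ⟨0, 0⟩, 0⟩ 0 0)) (.void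 60 ⟨0, 0, 0, 100000, 0, 0, 0, 0, 0, ⟨0, 0⟩, 0⟩ 0 0))) (.pos 55 .pp ⟨0, 246928637, 0, 0, 0, 0, 0, 0, 0, ⟨0, 0⟩, 0⟩ 0 0)) (.void 95 ⟨0, 0, 0, 100000, 0, 0, 0, 0, 0, ⟨0, 0⟩, 0⟩ 0 0)))),
    by decide +kernel⟩

def covers22 : cell.Covers table row22.1 :=
  ⟨(.cut .d 0 (.cut .v 16777216 (.cut .v 8388608 (.void 2 ⟨0, 0, 100000, 0, 0, 0, 0, 0, 0, ⟨0, 0⟩, 0⟩ 0 0) (.cut .d (-8388608) (.void 3 ⟨100000, 0, 0, 0, 0, 0, 0, 0, 0, ⟨0, 0⟩, 0⟩ 0 0) (.cut .d (-4194304) (.void 3 ⟨100000, 0, 0, 0, 0, 0, 0, 0, 0, ⟨0, 0⟩, 0⟩ 0 0) (.cut .d (-2097152) (.void 3 ⟨100000, 0, 0, 0, 0, 0, 0, 0, 0, ⟨0, 0⟩, 0⟩ 0 0) (.cut .d (-1048576) (.void 3 ⟨0, 0, 0, 0, 0, 100000, 0, 0, 0, ⟨0, 0⟩, 0⟩ 0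 0) (.cut .d (-524288) (.void 3 ⟨0, 0, 0, 0, 0, 100000, 0, 0, 0, ⟨0, 0⟩, 0⟩ 0 0) (.cut .d (-262144) (.void 3 ⟨0, 0, 0, 0, 0, 100000, 0, 0, 0, ⟨0, 0⟩, 0⟩ 0 0) (.cut .v 12582912 (.pos 6 .mm ⟨0, 0, 0, 0, 0, 1039440494, 0, 0, 0, ⟨0, 0⟩, 0⟩ 0 0) (.cut .d (-131072) (.void 7 ⟨0, 0, 0, 0, 0, 100000, 0, 0, 0, ⟨0, 0⟩, 0⟩ 0 0) (.cut .d (-65536) (.void 7 ⟨0, 0, 0, 0, 0, 100000, 0, 0, 0, ⟨0, 0⟩, 0⟩ 0 0) (.cut .d (-32768) (.pos 7 .mm ⟨0, 0, 0, 0, 0, 1550411323, 0, 0, 0, ⟨0, 0⟩, 0⟩ 0 0) (.cut .s 14319616 (.pos 7 .mm ⟨0, 0, 0, 0, 0, 1375264638, 0, 0, 0, ⟨0, 0⟩, 0⟩ 0 0) (.pos 7 .mm ⟨0, 0, 0, 0, 0, 1496771008, 0, 0, 0, ⟨0, 0⟩, 0⟩ 0 0))))))))))))) (.cut .v 268435456 (.cut .v 67108864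 (.cut .v 33554432 (.cut .d (-8388608) (.void 16 ⟨100000, 0, 0, 0, 0, 0, 0, 0, 0, ⟨0, 0⟩, 0⟩ 0 0) (.cut .d (-4194304) (.void 16 ⟨100000, 0, 0, 0, 0, 0, 0, 0, 0, ⟨0, 0⟩, 0⟩ 0 0) (.cut .v 25165824 (.cut .d (-2097152) (.void 17 ⟨100000, 0, 0, 0, 0, 0, 0, 0, 0, ⟨0, 0⟩, 0⟩ 0 0) (.cut .v 20971520 (.cut .d (-1048576) (.void 19 ⟨100000, 0, 0, 0, 0, 0, 0, 0, 0, ⟨0, 0⟩, 0⟩ 0 0) (.cut .d (-524288) (.void 19 ⟨100000, 0, 0, 0, 0, 0, 0, 0, 0, ⟨0, 0⟩, 0⟩ 0 0) (.cut .d (-262144) (.void 19 ⟨100000, 0, 0, 0, 0, 0, 0, 0, 0, ⟨0, 0⟩, 0⟩ 0 0) (.cut .d (-131072) (.void 19 ⟨100000, 0, 0, 0, 0, 0, 0, 0, 0, ⟨0, 0⟩, 0⟩ 0 0) (.cut .d (-65536) (.void 19 ⟨0, 0, 0, 0, 0, 100000, 0, 0, 0, ⟨0,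 0⟩, 0⟩ 0 0) (.cut .v 18874368 (.cut .v 17825792 (.cut .v 17301504 (.cut .d (-32768) (.cut .l 1062557 (.pos 25 .mp ⟨315934664, 0, 0, 0, 0, 1441380410, 0, 0, 0, ⟨0, 0⟩, 0⟩ 0 0) (.cut .v 17039360 (.cut .s 14319616 (.cut .d (-49152) (.pos 27 .mp ⟨296602789, 0, 0, 0, 0, 956006255, 0, 0, 0, ⟨0, 0⟩, 0⟩ 0 0) (.cut .l 1440044 (.pos 27 .mp ⟨282230982, 0, 0, 0, 0, 960488168, 0, 0, 0, ⟨0, 0⟩, 0⟩ 0 0) (.pos 27 .mp ⟨264375594, 0, 0, 0, 0, 973269508, 0, 0, 0, ⟨0, 0⟩, 0⟩ 0 0))) (.cut .v 16908288 (.pos 46 .mp ⟨0, 0, 0, 0, 0, 1551633909, 0, 0, 0, ⟨0, 0⟩, 0⟩ 0 0) (.cut .d (-49152) (.cut .s 14401536 (.pos 47 .mp ⟨303581189, 0, 0, 0, 0, 1001496762, 0, 0, 0, ⟨0, 0⟩, 0⟩ 0 0) (.pos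 47 .mp ⟨304246764, 0, 0, 0, 0, 1050782803, 0, 0, 0, ⟨0, 0⟩, 0⟩ 0 0)) (.cut .s 14401536 (.cut .s 14360576 (.cut .d (-40960) (.pos 47 .mp ⟨285995176, 0, 0, 0, 0, 984628524, 0, 0, 0, ⟨0, 0⟩, 0⟩ 0 0) (.pos 47 .mp ⟨324465859, 0, 0, 0, 0, 888861776, 0, 0, 0, ⟨0, 0⟩, 0⟩ 0 0)) (.cut .s 14381056 (.pos 47 .mp ⟨338672770, 0, 0, 0, 0, 889018830, 0, 0, 0, ⟨0, 0⟩, 0⟩ 0 0) (.pos 47 .mp ⟨269868301, 0, 0, 0, 0, 1044855218, 0, 0, 0, ⟨0, 0⟩, 0⟩ 0 0))) (.cut .l 1440044 (.pos 47 .mp ⟨288652035, 0, 0, 0, 0, 1056488018, 0, 0, 0, ⟨0, 0⟩, 0⟩ 0 0) (.pos 47 .mp ⟨324663541, 0, 0, 0, 0, 950733071, 0, 0, 0, ⟨0, 0⟩, 0⟩ 0 0)))))) (.cut .d (-49152) (.cut .s 14319616 (.pos 28 .mp ⟨858563832,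 0, 0, 0, 0, 0, 0, 0, 0, ⟨0, 0⟩, 0⟩ 0 0) (.pos 28 .mp ⟨903792865, 0, 0, 0, 0, 0, 0, 0, 0, ⟨0, 0⟩, 0⟩ 0 0)) (.pos 28 .mp ⟨818229625, 0, 0, 0, 0, 0, 0, 0, 0, ⟨0, 0⟩, 0⟩ 0 0)))) (.cut .v 17039360 (.cut .l 1062557 (.cut .d (-16384) (.cut .s 14319616 (.cut .v 16908288 (.cut .l 685069 (.pos 46 .mp ⟨283644204, 0, 0, 0, 0, 945069149, 0, 0, 0, ⟨0, 0⟩, 0⟩ 0 0) (.pos 46 .mp ⟨263501501, 0, 0, 0, 0, 953570486, 0, 0, 0, ⟨0, 0⟩, 0⟩ 0 0)) (.pos 47 .mp ⟨513598030, 0, 0, 0, 0, 504947824, 0, 0, 0, ⟨0, 0⟩, 0⟩ 0 0)) (.cut .l 685069 (.cut .s 14401536 (.pos 27 .mp ⟨288346469, 0, 0, 0, 0, 1003249894, 0, 0, 0, ⟨0, 0⟩, 0⟩ 0 0) (.pos 27 .mp ⟨287005810, 0, 0, 0, 0, 1066857538, 0, 0, 0,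 ⟨0, 0⟩, 0⟩ 0 0)) (.cut .d (-24576) (.cut .s 14401536 (.pos 27 .mp ⟨285718126, 0, 0, 0, 0, 1000794088, 0, 0, 0, ⟨0, 0⟩, 0⟩ 0 0) (.pos 27 .mp ⟨285087668, 0, 0, 0, 0, 1055259114, 0, 0, 0, ⟨0, 0⟩, 0⟩ 0 0)) (.cut .s 14401536 (.pos 27 .mp ⟨304299875, 0, 0, 0, 0, 912224778, 0, 0, 0, ⟨0, 0⟩, 0⟩ 0 0) (.pos 27 .mp ⟨302585196, 0, 0, 0, 0, 966747910, 0, 0, 0, ⟨0, 0⟩, 0⟩ 0 0))))) (.cut .d (-8192) (.cut .l 685069 (.cut .v 16908288 (.cut .s 14319616 (.cut .s 14237696 (.pos 46 .mp ⟨286302293, 0, 0, 0, 0, 864162621, 0, 0, 0, ⟨0, 0⟩, 0⟩ 0 0) (.cut .s 14278656 (.pos 46 .mp ⟨286268501, 0, 0, 0, 0, 894227465, 0, 0, 0, ⟨0, 0⟩, 0⟩ 0 0) (.pos 46 .mp ⟨300771135, 0, 0, 0, 0, 885381064,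 0, 0, 0, ⟨0, 0⟩, 0⟩ 0 0))) (.cut .l 496325 (.cut .s 14401536 (.cut .s 14360576 (.pos 46 .mp ⟨276753380, 0, 0, 0, 0, 968038538, 0, 0, 0, ⟨0, 0⟩, 0⟩ 0 0) (.pos 46 .mp ⟨275511979, 0, 0, 0, 0, 998736062, 0, 0, 0, ⟨0, 0⟩, 0⟩ 0 0)) (.pos 46 .mp ⟨274078768, 0, 0, 0, 0, 1043761163, 0, 0, 0, ⟨0, 0⟩, 0⟩ 0 0)) (.pos 46 .mp ⟨291412003, 0, 0, 0, 0, 924089420, 0, 0, 0, ⟨0, 0⟩, 0⟩ 0 0))) (.pos 47 .mp ⟨798879701, 0, 0, 0, 0, 0, 0, 0, 0, ⟨0, 0⟩, 0⟩ 0 0)) (.pos 27 .mp ⟨283850599, 0, 0, 0, 0, 0, 0, 0, 0, ⟨0, 0⟩, 0⟩ 0 0)) (.pos 27 .mp ⟨294140028, 0, 0, 0, 0, 464266859, 0, 0, 0, ⟨0, 0⟩, 0⟩ 0 0))) (.cut .s 14319616 (.pos 27 .mp ⟨301680345, 0, 0, 0, 0, 810251538, 0, 0, 0, ⟨0, 0⟩,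 0⟩ 0 0) (.pos 27 .mp ⟨303219997, 0, 0, 0, 0, 895235854, 0, 0, 0, ⟨0, 0⟩, 0⟩ 0 0))) (.pos 28 .mp ⟨797559985, 0, 0, 0, 0, 0, 0, 0, 0, ⟨0, 0⟩, 0⟩ 0 0))) (.pos 26 .mp ⟨853782968, 0, 0, 0, 0, 0, 0, 0, 0, ⟨0, 0⟩, 0⟩ 0 0)) (.pos 24 .mp ⟨903245021, 0, 0, 0, 0, 0, 0, 0, 0, ⟨0, 0⟩, 0⟩ 0 0)) (.void 22 ⟨100000, 0, 0, 0, 0, 0, 0, 0, 0, ⟨0, 0⟩, 0⟩ 0 0))))))) (.void 20 ⟨100000, 0, 0, 0, 0, 0, 0, 0, 0, ⟨0, 0⟩, 0⟩ 0 0))) (.void 18 ⟨100000, 0, 0, 0, 0, 0, 0, 0, 0, ⟨0, 0⟩, 0⟩ 0 0)))) (.void 45 ⟨100000, 0, 0, 0, 0, 0, 0, 0, 0, ⟨0, 0⟩, 0⟩ 0 0)) (.void 56 ⟨100000, 0, 0, 0, 0, 0, 0, 0, 0, ⟨0, 0⟩, 0⟩ 0 0)) (.void 95 ⟨93773, 0, 0, 6227, 0, 0, 0, 0, 0, ⟨0, 0⟩, 0⟩ 0 0))) (.cut .v 16777216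 (.cut .v 8388608 (.cut .v 4194304 (.cut .v 2097152 (.cut .d 1553447 (.void 73 ⟨0, 0, 100000, 0, 0, 0, 0, 0, 0, ⟨0, 0⟩, 0⟩ 0 0) (.cut .v 1048576 (.cut .v 524288 (.pos 130 .pm ⟨0, 2650626, 0, 0, 0, 0, 0, 0, 0, ⟨0, 0⟩, 0⟩ 0 0) (.pos 131 .pm ⟨0, 34745925, 0, 0, 0, 0, 0, 0, 0, ⟨0, 0⟩, 0⟩ 0 0)) (.cut .d 2330170 (.pos 105 .pm ⟨0, 0, 0, 0, 0, 0, 0, 0, 0, ⟨0, 0⟩, 0⟩ 0 0) (.cut .d 2718532 (.pos 105 .pm ⟨0, 76126245, 0, 0, 0, 0, 0, 0, 0, ⟨0, 0⟩, 0⟩ 0 0) (.pos 105 .pm ⟨0, 128490382, 0, 0, 0, 0, 0, 0, 0, ⟨0, 0⟩, 0⟩ 0 0))))) (.cut .d 1553447 (.pos 74 .pm ⟨0, 0, 197421033, 0, 0, 0, 0, 0, 0, ⟨0, 0⟩, 0⟩ 0 0) (.cut .d 2330170 (.pos 74 .pm ⟨0, 0, 0, 0, 0, 0, 0, 0, 0, ⟨0, 0⟩, 0⟩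 0 0) (.cut .d 2718532 (.pos 74 .pm ⟨0, 104456132, 0, 0, 0, 0, 0, 0, 0, ⟨0, 0⟩, 0⟩ 0 0) (.pos 74 .pm ⟨0, 179855596, 0, 0, 0, 0, 0, 0, 0, ⟨0, 0⟩, 0⟩ 0 0))))) (.cut .d 1553447 (.pos 5 .pm ⟨0, 0, 296705784, 0, 0, 0, 0, 0, 0, ⟨0, 0⟩, 0⟩ 0 0) (.cut .d 2330170 (.pos 5 .pm ⟨0, 0, 0, 0, 0, 0, 0, 0, 0, ⟨0, 0⟩, 0⟩ 0 0) (.pos 5 .pm ⟨0, 222029371, 0, 0, 0, 0, 0, 0, 0, ⟨0, 0⟩, 0⟩ 0 0)))) (.cut .d 1553447 (.pos 3 .pm ⟨0, 0, 0, 0, 0, 0, 0, 0, 0, ⟨0, 0⟩, 0⟩ 0 0) (.pos 3 .pm ⟨0, 256358874, 0, 0, 0, 0, 0, 0, 0, ⟨0, 0⟩, 0⟩ 0 0))) (.cut .v 268435456 (.cut .d 1553447 (.cut .v 67108864 (.cut .d 776723 (.cut .v 33554432 (.cut .d 388361 (.cut .v 25165824 (.cut .v 20971520 (.pos 19 .pp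 ⟨453307339, 0, 0, 0, 0, 0, 0, 0, 0, ⟨0, 0⟩, 0⟩ 0 0) (.pos 20 .pp ⟨950447474, 0, 0, 0, 0, 0, 0, 0, 0, ⟨0, 0⟩, 0⟩ 0 0)) (.pos 18 .pp ⟨1496448175, 0, 0, 0, 0, 0, 0, 0, 0, ⟨0, 0⟩, 0⟩ 0 0)) (.pos 16 .pp ⟨0, 0, 0, 0, 0, 0, 0, 0, 0, ⟨0, 0⟩, 0⟩ 0 0)) (.cut .v 50331648 (.cut .d 388361 (.pos 48 .pp ⟨3396276029, 0, 0, 0, 0, 0, 0, 0, 0, ⟨0, 0⟩, 0⟩ 0 0) (.pos 48 .pp ⟨1923352428, 0, 0, 0, 0, 0, 0, 0, 0, ⟨0, 0⟩, 0⟩ 0 0)) (.cut .v 58720256 (.pos 67 .pp ⟨4373288213, 0, 0, 0, 0, 0, 0, 0, 0, ⟨0, 0⟩, 0⟩ 0 0) (.pos 68 .pp ⟨5755284916, 0, 0, 0, 0, 0, 0, 0, 0, ⟨0, 0⟩, 0⟩ 0 0)))) (.pos 44 .pp ⟨0, 0, 0, 0, 0, 0, 0, 0, 0, ⟨0, 0⟩, 0⟩ 0 0)) (.cut .v 134217728 (.cut .v 100663296 (.cut .d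 776723 (.cut .v 83886080 (.cut .v 75497472 (.pos 108 .pp ⟨7280155822, 0, 0, 0, 0, 0, 0, 0, 0, ⟨0, 0⟩, 0⟩ 0 0) (.pos 109 .pp ⟨8965316577, 0, 0, 0, 0, 0, 0, 0, 0, ⟨0, 0⟩, 0⟩ 0 0)) (.void 101 ⟨36146, 63854, 0, 0, 0, 0, 0, 0, 0, ⟨0, 0⟩, 0⟩ 0 0)) (.pos 81 .pp ⟨3756754845, 2139394430, 0, 0, 0, 0, 0, 0, 0, ⟨0, 0⟩, 0⟩ 0 0)) (.void 82 ⟨87799, 0, 0, 12201, 0, 0, 0, 0, 0, ⟨0, 0⟩, 0⟩ 0 0)) (.void 60 ⟨0, 0, 0, 100000, 0, 0, 0, 0, 0, ⟨0, 0⟩, 0⟩ 0 0))) (.pos 55 .pp ⟨0, 279163619, 0, 0, 0, 0, 0, 0, 0, ⟨0, 0⟩, 0⟩ 0 0)) (.void 95 ⟨0, 0, 0, 100000, 0, 0, 0, 0, 0, ⟨0, 0⟩, 0⟩ 0 0)))),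
    by decide +kernel⟩

def covers23 : cell.Covers table row23.1 :=
  ⟨(.cut .d 0 (.cut .v 16777216 (.cut .v 8388608 (.void 2 ⟨0, 0, 100000, 0, 0, 0, 0, 0, 0, ⟨0, 0⟩, 0⟩ 0 0) (.cut .d (-8388608) (.void 3 ⟨100000, 0, 0, 0, 0, 0, 0, 0, 0, ⟨0, 0⟩, 0⟩ 0 0) (.cut .d (-4194304) (.void 3 ⟨100000, 0, 0, 0, 0, 0, 0, 0, 0, ⟨0, 0⟩, 0⟩ 0 0) (.cut .d (-2097152) (.void 3 ⟨100000, 0, 0, 0, 0, 0, 0, 0, 0, ⟨0, 0⟩, 0⟩ 0 0) (.cut .d (-1048576) (.void 3 ⟨79259, 0, 20741, 0, 0, 0, 0, 0, 0, ⟨0, 0⟩, 0⟩ 0 0) (.cut .d (-524288) (.void 3 ⟨0, 0, 0, 0, 0, 100000, 0, 0, 0, ⟨0, 0⟩, 0⟩ 0 0) (.cut .d (-262144) (.void 3 ⟨0, 0, 0, 0, 0, 100000, 0, 0, 0, ⟨0, 0⟩, 0⟩ 0 0) (.cut .d (-131072) (.void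 3 ⟨0, 0, 0, 0, 0, 100000, 0, 0, 0, ⟨0, 0⟩, 0⟩ 0 0) (.cut .d (-65536) (.void 3 ⟨0, 0, 0, 0, 0, 100000, 0, 0, 0, ⟨0, 0⟩, 0⟩ 0 0) (.cut .v 12582912 (.pos 6 .mm ⟨0, 0, 0, 0, 0, 943936783, 0, 0, 0, ⟨0, 0⟩, 0⟩ 0 0) (.cut .v 14680064 (.pos 10 .mm ⟨0, 0, 0, 0, 0, 1554699253, 0, 0, 0, ⟨0, 0⟩, 0⟩ 0 0) (.cut .v 15728640 (.pos 12 .mm ⟨0, 0, 0, 0, 0, 1652250223, 0, 0, 0, ⟨0, 0⟩, 0⟩ 0 0) (.cut .v 16252928 (.pos 14 .mm ⟨0, 0, 0, 0, 0, 1698512401, 0, 0, 0, ⟨0, 0⟩, 0⟩ 0 0) (.cut .d (-32768) (.cut .s 14647296 (.pos 15 .mm ⟨0, 0, 0, 0, 0, 1719199689, 0, 0, 0, ⟨0, 0⟩, 0⟩ 0 0) (.pos 15 .mm ⟨0, 0, 0, 0, 0, 1867145707, 0, 0, 0, ⟨0, 0⟩, 0⟩ 0 0)) (.cut .l 1062557 (.cut .d (-16384) (.pos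 15 .mm ⟨0, 0, 0, 0, 0, 1784455615, 0, 0, 0, ⟨0, 0⟩, 0⟩ 0 0) (.cut .s 14647296 (.pos 15 .mm ⟨0, 0, 0, 0, 0, 1609781027, 0, 0, 0, ⟨0, 0⟩, 0⟩ 0 0) (.pos 15 .mm ⟨0, 0, 0, 0, 0, 1731431227, 0, 0, 0, ⟨0, 0⟩, 0⟩ 0 0))) (.pos 15 .mm ⟨0, 0, 0, 0, 0, 1589321482, 0, 0, 0, ⟨0, 0⟩, 0⟩ 0 0)))))))))))))))) (.cut .v 268435456 (.cut .v 67108864 (.cut .v 33554432 (.cut .d (-8388608) (.void 16 ⟨100000, 0, 0, 0, 0, 0, 0, 0, 0, ⟨0, 0⟩, 0⟩ 0 0) (.cut .d (-4194304) (.void 16 ⟨100000, 0, 0, 0, 0, 0, 0, 0, 0, ⟨0, 0⟩, 0⟩ 0 0) (.cut .v 25165824 (.cut .d (-2097152) (.void 17 ⟨100000, 0, 0, 0, 0, 0, 0, 0, 0, ⟨0, 0⟩, 0⟩ 0 0) (.cut .v 20971520 (.cut .d (-1048576) (.void 19 ⟨100000, 0, 0,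 0, 0, 0, 0, 0, 0, ⟨0, 0⟩, 0⟩ 0 0) (.cut .d (-524288) (.void 19 ⟨100000, 0, 0, 0, 0, 0, 0, 0, 0, ⟨0, 0⟩, 0⟩ 0 0) (.cut .d (-262144) (.void 19 ⟨100000, 0, 0, 0, 0, 0, 0, 0, 0, ⟨0, 0⟩, 0⟩ 0 0) (.cut .d (-131072) (.void 19 ⟨100000, 0, 0, 0, 0, 0, 0, 0, 0, ⟨0, 0⟩, 0⟩ 0 0) (.cut .d (-65536) (.void 19 ⟨0, 0, 0, 0, 0, 100000, 0, 0, 0, ⟨0, 0⟩, 0⟩ 0 0) (.cut .v 18874368 (.cut .v 17825792 (.cut .v 17301504 (.cut .d (-32768) (.cut .l 1062557 (.void 25 ⟨0, 0, 0, 0, 0, 100000, 0, 0, 0, ⟨0, 0⟩, 0⟩ 0 0) (.cut .d (-49152) (.pos 25 .mp ⟨310393248, 0, 0, 0, 0, 1490255801, 0, 0, 0, ⟨0, 0⟩, 0⟩ 0 0) (.cut .v 17039360 (.cut .s 14647296 (.cut .v 16908288 (.pos 46 .mp ⟨0, 0, 0, 0, 0,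 1697893009, 0, 0, 0, ⟨0, 0⟩, 0⟩ 0 0) (.cut .s 14565376 (.cut .d (-40960) (.pos 47 .mp ⟨285834714, 0, 0, 0, 0, 1149713402, 0, 0, 0, ⟨0, 0⟩, 0⟩ 0 0) (.cut .l 1440044 (.pos 47 .mp ⟨286379428, 0, 0, 0, 0, 1146822014, 0, 0, 0, ⟨0, 0⟩, 0⟩ 0 0) (.pos 47 .mp ⟨304864190, 0, 0, 0, 0, 1074940360, 0, 0, 0, ⟨0, 0⟩, 0⟩ 0 0))) (.cut .s 14606336 (.cut .s 14585856 (.pos 47 .mp ⟨264040491, 0, 0, 0, 0, 1208982386, 0, 0, 0, ⟨0, 0⟩, 0⟩ 0 0) (.pos 47 .mp ⟨262786424, 0, 0, 0, 0, 1228648997, 0, 0, 0, ⟨0, 0⟩, 0⟩ 0 0)) (.pos 47 .mp ⟨261331534, 0, 0, 0, 0, 1257991178, 0, 0, 0, ⟨0, 0⟩, 0⟩ 0 0)))) (.cut .l 1440044 (.pos 27 .mp ⟨273367765, 0, 0, 0, 0, 1321862250, 0, 0, 0, ⟨0, 0⟩, 0⟩ 0 0)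 (.pos 27 .mp ⟨252296966, 0, 0, 0, 0, 1309316560, 0, 0, 0, ⟨0, 0⟩, 0⟩ 0 0))) (.cut .s 14647296 (.pos 28 .mp ⟨949922041, 0, 0, 0, 0, 0, 0, 0, 0, ⟨0, 0⟩, 0⟩ 0 0) (.pos 28 .mp ⟨998555488, 0, 0, 0, 0, 0, 0, 0, 0, ⟨0, 0⟩, 0⟩ 0 0))))) (.cut .v 17039360 (.cut .s 14647296 (.cut .l 1062557 (.cut .d (-16384) (.cut .l 685069 (.pos 27 .mp ⟨280436708, 0, 0, 0, 0, 1218775319, 0, 0, 0, ⟨0, 0⟩, 0⟩ 0 0) (.cut .d (-24576) (.pos 27 .mp ⟨280275224, 0, 0, 0, 0, 1202300043, 0, 0, 0, ⟨0, 0⟩, 0⟩ 0 0) (.cut .s 14565376 (.pos 27 .mp ⟨299565321, 0, 0, 0, 0, 1066118292, 0, 0, 0, ⟨0, 0⟩, 0⟩ 0 0) (.pos 27 .mp ⟨293890145, 0, 0, 0, 0, 1126397813, 0, 0, 0, ⟨0, 0⟩, 0⟩ 0 0)))) (.cut .d (-8192)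 (.cut .l 685069 (.cut .l 496325 (.cut .s 14565376 (.pos 27 .mp ⟨299873872, 0, 0, 0, 0, 1072244156, 0, 0, 0, ⟨0, 0⟩, 0⟩ 0 0) (.pos 27 .mp ⟨293244207, 0, 0, 0, 0, 1141449329, 0, 0, 0, ⟨0, 0⟩, 0⟩ 0 0)) (.pos 27 .mp ⟨282516181, 0, 0, 0, 0, 1099886715, 0, 0, 0, ⟨0, 0⟩, 0⟩ 0 0)) (.pos 27 .mp ⟨271832166, 0, 0, 0, 0, 0, 0, 0, 0, ⟨0, 0⟩, 0⟩ 0 0)) (.pos 27 .mp ⟨280670394, 0, 0, 0, 0, 1059973456, 0, 0, 0, ⟨0, 0⟩, 0⟩ 0 0))) (.cut .s 14565376 (.cut .s 14524416 (.pos 27 .mp ⟨300665590, 0, 0, 0, 0, 1028195840, 0, 0, 0, ⟨0, 0⟩, 0⟩ 0 0) (.pos 27 .mp ⟨299329953, 0, 0, 0, 0, 1061122295, 0, 0, 0, ⟨0, 0⟩, 0⟩ 0 0)) (.pos 27 .mp ⟨294610903, 0, 0, 0, 0, 1103964334, 0, 0, 0, ⟨0, 0⟩,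 0⟩ 0 0))) (.cut .l 1062557 (.cut .d (-16384) (.cut .l 685069 (.pos 27 .mp ⟨271832166, 0, 0, 0, 0, 1369470277, 0, 0, 0, ⟨0, 0⟩, 0⟩ 0 0) (.cut .d (-24576) (.pos 27 .mp ⟨272562999, 0, 0, 0, 0, 1313586543, 0, 0, 0, ⟨0, 0⟩, 0⟩ 0 0) (.pos 27 .mp ⟨286541606, 0, 0, 0, 0, 1206458102, 0, 0, 0, ⟨0, 0⟩, 0⟩ 0 0))) (.cut .s 14729216 (.cut .s 14688256 (.pos 27 .mp ⟨288875359, 0, 0, 0, 0, 1182620529, 0, 0, 0, ⟨0, 0⟩, 0⟩ 0 0) (.pos 27 .mp ⟨283750657, 0, 0, 0, 0, 1226371210, 0, 0, 0, ⟨0, 0⟩, 0⟩ 0 0)) (.pos 27 .mp ⟨271054150, 0, 0, 0, 0, 1295453587, 0, 0, 0, ⟨0, 0⟩, 0⟩ 0 0))) (.pos 27 .mp ⟨289668215, 0, 0, 0, 0, 1176386946, 0, 0, 0, ⟨0, 0⟩, 0⟩ 0 0))) (.pos 28 .mp ⟨919082671, 0,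 0, 0, 0, 0, 0, 0, 0, ⟨0, 0⟩, 0⟩ 0 0))) (.pos 26 .mp ⟨991318819, 0, 0, 0, 0, 0, 0, 0, 0, ⟨0, 0⟩, 0⟩ 0 0)) (.pos 24 .mp ⟨1038001759, 0, 0, 0, 0, 0, 0, 0, 0, ⟨0, 0⟩, 0⟩ 0 0)) (.void 22 ⟨100000, 0, 0, 0, 0, 0, 0, 0, 0, ⟨0, 0⟩, 0⟩ 0 0))))))) (.void 20 ⟨100000, 0, 0, 0, 0, 0, 0, 0, 0, ⟨0, 0⟩, 0⟩ 0 0))) (.void 18 ⟨100000, 0, 0, 0, 0, 0, 0, 0, 0, ⟨0, 0⟩, 0⟩ 0 0)))) (.void 45 ⟨100000, 0, 0, 0, 0, 0, 0, 0, 0, ⟨0, 0⟩, 0⟩ 0 0)) (.void 56 ⟨100000, 0, 0, 0, 0, 0, 0, 0, 0, ⟨0, 0⟩, 0⟩ 0 0)) (.void 95 ⟨93641, 0, 0, 6359, 0, 0, 0, 0, 0, ⟨0, 0⟩, 0⟩ 0 0))) (.cut .v 16777216 (.cut .v 8388608 (.cut .v 4194304 (.cut .v 2097152 (.cut .d 1328514 (.void 73 ⟨0, 0, 100000, 0, 0, 0, 0,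 0, 0, ⟨0, 0⟩, 0⟩ 0 0) (.cut .v 1048576 (.cut .v 524288 (.cut .v 262144 (.pos 136 .pm ⟨0, 0, 5117766, 0, 0, 0, 0, 0, 0, ⟨0, 0⟩, 0⟩ 0 0) (.pos 137 .pm ⟨0, 18030160, 0, 0, 0, 0, 0, 0, 0, ⟨0, 0⟩, 0⟩ 0 0)) (.pos 131 .pm ⟨0, 44028428, 0, 0, 0, 0, 0, 0, 0, ⟨0, 0⟩, 0⟩ 0 0)) (.cut .d 1992771 (.pos 105 .pm ⟨0, 0, 0, 0, 0, 0, 0, 0, 0, ⟨0, 0⟩, 0⟩ 0 0) (.cut .d 2324899 (.cut .d 2158835 (.pos 105 .pm ⟨0, 0, 0, 0, 0, 0, 0, 0, 0, ⟨0, 0⟩, 0⟩ 0 0) (.pos 105 .pm ⟨0, 108348538, 0, 0, 0, 0, 0, 0, 0, ⟨0, 0⟩, 0⟩ 0 0)) (.cut .s 14647296 (.pos 105 .pm ⟨0, 121066209, 0, 0, 0, 0, 0, 0, 0, ⟨0, 0⟩, 0⟩ 0 0) (.pos 105 .pm ⟨0, 177286269, 0, 0, 0, 0, 0, 0, 0, ⟨0, 0⟩, 0⟩ 0 0)))))) (.cut .d 1328514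 (.pos 74 .pm ⟨0, 0, 241864994, 0, 0, 0, 0, 0, 0, ⟨0, 0⟩, 0⟩ 0 0) (.cut .d 1992771 (.pos 74 .pm ⟨0, 0, 0, 0, 0, 0, 0, 0, 0, ⟨0, 0⟩, 0⟩ 0 0) (.cut .d 2324899 (.cut .v 3145728 (.pos 96 .pm ⟨0, 123445914, 0, 0, 0, 0, 0, 0, 0, ⟨0, 0⟩, 0⟩ 0 0) (.pos 97 .pm ⟨0, 169881554, 0, 0, 0, 0, 0, 0, 0, ⟨0, 0⟩, 0⟩ 0 0)) (.cut .s 14647296 (.pos 74 .pm ⟨0, 164060651, 0, 0, 0, 0, 0, 0, 0, ⟨0, 0⟩, 0⟩ 0 0) (.pos 74 .pm ⟨0, 247903366, 0, 0, 0, 0, 0, 0, 0, ⟨0, 0⟩, 0⟩ 0 0)))))) (.cut .d 1328514 (.pos 5 .pm ⟨0, 0, 372935018, 0, 0, 0, 0, 0, 0, ⟨0, 0⟩, 0⟩ 0 0) (.cut .d 1992771 (.pos 5 .pm ⟨0, 0, 0, 0, 0, 0, 0, 0, 0, ⟨0, 0⟩, 0⟩ 0 0) (.pos 5 .pm ⟨0, 268986376, 0, 0, 0, 0, 0, 0, 0, ⟨0, 0⟩,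 0⟩ 0 0)))) (.cut .d 1328514 (.pos 3 .pm ⟨0, 0, 2367308, 0, 0, 0, 0, 0, 0, ⟨0, 0⟩, 0⟩ 0 0) (.pos 3 .pm ⟨0, 309209769, 0, 0, 0, 0, 0, 0, 0, ⟨0, 0⟩, 0⟩ 0 0))) (.cut .v 268435456 (.cut .d 1328514 (.cut .v 67108864 (.cut .d 664257 (.cut .v 33554432 (.cut .v 25165824 (.pos 17 .pp ⟨686072486, 0, 0, 0, 0, 0, 0, 0, 0, ⟨0, 0⟩, 0⟩ 0 0) (.pos 18 .pp ⟨1442680532, 0, 0, 0, 0, 0, 0, 0, 0, ⟨0, 0⟩, 0⟩ 0 0)) (.cut .v 50331648 (.cut .d 332128 (.pos 48 .pp ⟨3680795917, 0, 0, 0, 0, 0, 0, 0, 0, ⟨0, 0⟩, 0⟩ 0 0) (.pos 48 .pp ⟨2114148446, 0, 0, 0, 0, 0, 0, 0, 0, ⟨0, 0⟩, 0⟩ 0 0)) (.cut .v 58720256 (.pos 67 .pp ⟨4855285978, 0, 0, 0, 0, 0, 0, 0, 0, ⟨0, 0⟩, 0⟩ 0 0) (.pos 68 .pp ⟨6400577355,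 0, 0, 0, 0, 0, 0, 0, 0, ⟨0, 0⟩, 0⟩ 0 0)))) (.pos 44 .pp ⟨0, 0, 0, 0, 0, 0, 0, 0, 0, ⟨0, 0⟩, 0⟩ 0 0)) (.cut .v 134217728 (.cut .v 100663296 (.cut .d 664257 (.cut .v 83886080 (.pos 100 .pp ⟨9598289883, 0, 0, 0, 0, 0, 0, 0, 0, ⟨0, 0⟩, 0⟩ 0 0) (.void 101 ⟨35707, 64293, 0, 0, 0, 0, 0, 0, 0, ⟨0, 0⟩, 0⟩ 0 0)) (.pos 81 .pp ⟨4245048119, 2244552639, 0, 0, 0, 0, 0, 0, 0, ⟨0, 0⟩, 0⟩ 0 0)) (.void 82 ⟨79825, 0, 0, 11416, 0, 0, 0, 0, 0, ⟨0, 0⟩, 0⟩ 0 0)) (.void 60 ⟨0, 0, 0, 100000, 0, 0, 0, 0, 0, ⟨0, 0⟩, 0⟩ 0 0))) (.pos 55 .pp ⟨0, 351957007, 0, 0, 0, 0, 0, 0, 0, ⟨0, 0⟩, 0⟩ 0 0)) (.void 95 ⟨0, 0, 0, 100000, 0, 0, 0, 0, 0, ⟨0, 0⟩, 0⟩ 0 0)))),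
    by decide +kernel⟩

def covers24 : cell.Covers table row24.1 :=
  ⟨(.cut .d 0 (.cut .v 16777216 (.cut .v 8388608 (.void 2 ⟨0, 0, 100000, 0, 0, 0, 0, 0, 0, ⟨0, 0⟩, 0⟩ 0 0) (.cut .d (-8388608) (.void 3 ⟨100000, 0, 0, 0, 0, 0, 0, 0, 0, ⟨0, 0⟩, 0⟩ 0 0) (.cut .d (-4194304) (.void 3 ⟨100000, 0, 0, 0, 0, 0, 0, 0, 0, ⟨0, 0⟩, 0⟩ 0 0) (.cut .d (-2097152) (.void 3 ⟨100000, 0, 0, 0, 0, 0, 0, 0, 0, ⟨0, 0⟩, 0⟩ 0 0) (.cut .d (-1048576) (.void 3 ⟨100000, 0, 0, 0, 0, 0, 0, 0, 0, ⟨0, 0⟩, 0⟩ 0 0) (.cut .d (-524288) (.void 3 ⟨0, 0, 0, 0, 0, 100000, 0, 0, 0, ⟨0, 0⟩, 0⟩ 0 0) (.cut .d (-262144) (.void 3 ⟨0, 0, 0, 0, 0, 100000, 0, 0, 0, ⟨0, 0⟩, 0⟩ 0 0) (.cut .d (-131072) (.void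 3 ⟨0, 0, 0, 0, 0, 99651, 0, 0, 0, ⟨0, 0⟩, 0⟩ 0 0) (.cut .v 12582912 (.cut .d (-65536) (.void 6 ⟨0, 0, 0, 0, 0, 100000, 0, 0, 0, ⟨0, 0⟩, 0⟩ 0 0) (.cut .v 10485760 (.cut .v 9437184 (.cut .d (-32768) (.pos 77 .mm ⟨0, 0, 45808333, 0, 0, 1017121577, 0, 0, 0, ⟨0, 0⟩, 0⟩ 0 0) (.pos 77 .mm ⟨0, 0, 44057649, 0, 0, 849171835, 0, 0, 0, ⟨0, 0⟩, 0⟩ 0 0)) (.pos 78 .mm ⟨0, 0, 0, 0, 0, 1048457925, 0, 0, 0, ⟨0, 0⟩, 0⟩ 0 0)) (.pos 9 .mm ⟨0, 0, 0, 0, 0, 1167902730, 0, 0, 0, ⟨0, 0⟩, 0⟩ 0 0))) (.pos 7 .mm ⟨0, 0, 0, 0, 0, 1925647166, 0, 0, 0, ⟨0, 0⟩, 0⟩ 0 0)))))))))) (.cut .v 268435456 (.cut .v 67108864 (.cut .v 33554432 (.cut .d (-8388608) (.void 16 ⟨100000, 0, 0, 0, 0, 0, 0, 0,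 0, ⟨0, 0⟩, 0⟩ 0 0) (.cut .d (-4194304) (.void 16 ⟨100000, 0, 0, 0, 0, 0, 0, 0, 0, ⟨0, 0⟩, 0⟩ 0 0) (.cut .v 25165824 (.cut .d (-2097152) (.void 17 ⟨100000, 0, 0, 0, 0, 0, 0, 0, 0, ⟨0, 0⟩, 0⟩ 0 0) (.cut .d (-1048576) (.void 17 ⟨100000, 0, 0, 0, 0, 0, 0, 0, 0, ⟨0, 0⟩, 0⟩ 0 0) (.cut .v 20971520 (.cut .d (-524288) (.void 19 ⟨100000, 0, 0, 0, 0, 0, 0, 0, 0, ⟨0, 0⟩, 0⟩ 0 0) (.cut .d (-262144) (.void 19 ⟨100000, 0, 0, 0, 0, 0, 0, 0, 0, ⟨0, 0⟩, 0⟩ 0 0) (.cut .d (-131072) (.void 19 ⟨100000, 0, 0, 0, 0, 0, 0, 0, 0, ⟨0, 0⟩, 0⟩ 0 0) (.cut .d (-65536) (.void 19 ⟨100000, 0, 0, 0, 0, 0, 0, 0, 0, ⟨0, 0⟩, 0⟩ 0 0) (.cut .v 18874368 (.cut .d (-32768) (.pos 21 .mp ⟨525725587, 0,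 0, 0, 0, 948777809, 0, 0, 0, ⟨0, 0⟩, 0⟩ 0 0) (.pos 21 .mp ⟨412905200, 0, 0, 0, 0, 1107349821, 0, 0, 0, ⟨0, 0⟩, 0⟩ 0 0)) (.void 22 ⟨100000, 0, 0, 0, 0, 0, 0, 0, 0, ⟨0, 0⟩, 0⟩ 0 0)))))) (.void 20 ⟨100000, 0, 0, 0, 0, 0, 0, 0, 0, ⟨0, 0⟩, 0⟩ 0 0)))) (.void 18 ⟨100000, 0, 0, 0, 0, 0, 0, 0, 0, ⟨0, 0⟩, 0⟩ 0 0)))) (.void 45 ⟨100000, 0, 0, 0, 0, 0, 0, 0, 0, ⟨0, 0⟩, 0⟩ 0 0)) (.void 56 ⟨100000, 0, 0, 0, 0, 0, 0, 0, 0, ⟨0, 0⟩, 0⟩ 0 0)) (.void 95 ⟨93536, 0, 0, 6464, 0, 0, 0, 0, 0, ⟨0, 0⟩, 0⟩ 0 0))) (.cut .v 16777216 (.cut .v 8388608 (.cut .v 4194304 (.cut .v 2097152 (.cut .d 1113533 (.void 73 ⟨0, 0, 100000, 0, 0, 0, 0, 0, 0, ⟨0, 0⟩, 0⟩ 0 0) (.cut .v 1048576 (.cut .d 1670300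 (.pos 104 .pm ⟨0, 0, 1402524875, 0, 0, 0, 0, 0, 0, ⟨0, 0⟩, 0⟩ 0 0) (.cut .v 524288 (.cut .v 262144 (.pos 136 .pm ⟨0, 0, 40245, 0, 0, 0, 0, 0, 0, ⟨0, 0⟩, 0⟩ 0 0) (.pos 137 .pm ⟨0, 33581981, 0, 0, 0, 0, 0, 0, 0, ⟨0, 0⟩, 0⟩ 0 0)) (.pos 131 .pm ⟨0, 76406269, 0, 0, 0, 0, 0, 0, 0, ⟨0, 0⟩, 0⟩ 0 0))) (.cut .d 1670300 (.pos 105 .pm ⟨0, 0, 0, 0, 0, 0, 0, 0, 0, ⟨0, 0⟩, 0⟩ 0 0) (.cut .d 1948683 (.cut .d 1809491 (.pos 105 .pm ⟨0, 0, 0, 0, 0, 0, 0, 0, 0, ⟨0, 0⟩, 0⟩ 0 0) (.cut .s 14942208 (.pos 105 .pm ⟨0, 0, 0, 0, 0, 0, 0, 0, 0, ⟨0, 0⟩, 0⟩ 0 0) (.cut .s 15007744 (.pos 105 .pm ⟨0, 99149171, 0, 0, 0, 0, 0, 0, 0, ⟨0, 0⟩, 0⟩ 0 0) (.cut .v 1572864 (.pos 132 .pm ⟨0, 121045251,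 0, 0, 0, 0, 0, 0, 0, ⟨0, 0⟩, 0⟩ 0 0) (.cut .s 15040512 (.pos 133 .pm ⟨0, 129079467, 0, 0, 0, 0, 0, 0, 0, ⟨0, 0⟩, 0⟩ 0 0) (.cut .l 1062557 (.cut .d 1879087 (.cut .d 1844289 (.pos 133 .pm ⟨0, 0, 0, 0, 0, 0, 0, 0, 0, ⟨0, 0⟩, 0⟩ 0 0) (.cut .s 15056896 (.pos 133 .pm ⟨0, 0, 0, 0, 0, 0, 0, 0, 0, ⟨0, 0⟩, 0⟩ 0 0) (.cut .l 685069 (.cut .l 496325 (.cut .v 1835008 (.cut .d 1861688 (.pos 140 .pm ⟨0, 0, 0, 0, 0, 0, 0, 0, 0, ⟨0, 0⟩, 0⟩ 0 0) (.cut .d 1870387 (.cut .s 15065088 (.pos 140 .pm ⟨0, 0, 0, 0, 0, 0, 0, 0, 0, ⟨0, 0⟩, 0⟩ 0 0) (.cut .s 15069184 (.pos 140 .pm ⟨0, 132561493, 0, 0, 0, 0, 0, 0, 0, ⟨0, 0⟩, 0⟩ 0 0) (.cut .s 15071232 (.pos 140 .pm ⟨0, 133071539, 0, 0, 0, 0,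 0, 0, 0, ⟨0, 0⟩, 0⟩ 0 0) (.cut .v 1703936 (.pos 142 .pm ⟨0, 129975558, 0, 0, 0, 0, 0, 0, 0, ⟨0, 0⟩, 0⟩ 0 0) (.cut .v 1769472 (.pos 144 .pm ⟨0, 135357145, 0, 0, 0, 0, 0, 0, 0, ⟨0, 0⟩, 0⟩ 0 0) (.cut .s 15072256 (.pos 145 .pm ⟨0, 137517625, 0, 0, 0, 0, 0, 0, 0, ⟨0, 0⟩, 0⟩ 0 0) (.cut .s 15072768 (.pos 145 .pm ⟨0, 137753908, 0, 0, 0, 0, 0, 0, 0, ⟨0, 0⟩, 0⟩ 0 0) (.cut .s 15073024 (.pos 145 .pm ⟨0, 137872126, 0, 0, 0, 0, 0, 0, 0, ⟨0, 0⟩, 0⟩ 0 0) (.cut .d 1866037 (.cut .v 1802240 (.pos 146 .pm ⟨0, 136830980, 0, 0, 0, 0, 0, 0, 0, ⟨0, 0⟩, 0⟩ 0 0) (.pos 147 .pm ⟨0, 137691047, 0, 0, 0, 0, 0, 0, 0, ⟨0, 0⟩, 0⟩ 0 0)) (.void 145 ⟨0, 100000, 0, 0, 0, 0, 0, 0, 0, ⟨0, 0⟩, 0⟩ 0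 0)))))))))) (.pos 140 .pm ⟨0, 161056371, 0, 0, 0, 0, 0, 0, 0, ⟨0, 0⟩, 0⟩ 0 0))) (.cut .d 1861688 (.pos 141 .pm ⟨0, 0, 0, 0, 0, 0, 0, 0, 0, ⟨0, 0⟩, 0⟩ 0 0) (.pos 141 .pm ⟨0, 143337428, 0, 0, 0, 0, 0, 0, 0, ⟨0, 0⟩, 0⟩ 0 0))) (.pos 133 .pm ⟨0, 132933597, 0, 0, 0, 0, 0, 0, 0, ⟨0, 0⟩, 0⟩ 0 0)) (.pos 133 .pm ⟨0, 132933597, 0, 0, 0, 0, 0, 0, 0, ⟨0, 0⟩, 0⟩ 0 0)))) (.cut .v 1835008 (.pos 140 .pm ⟨0, 159999725, 0, 0, 0, 0, 0, 0, 0, ⟨0, 0⟩, 0⟩ 0 0) (.pos 141 .pm ⟨0, 166828855, 0, 0, 0, 0, 0, 0, 0, ⟨0, 0⟩, 0⟩ 0 0))) (.pos 133 .pm ⟨0, 140793272, 0, 0, 0, 0, 0, 0, 0, ⟨0, 0⟩, 0⟩ 0 0))))))) (.cut .s 14942208 (.cut .d 2087875 (.pos 105 .pm ⟨0, 108875245, 0, 0, 0, 0, 0, 0, 0,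 ⟨0, 0⟩, 0⟩ 0 0) (.pos 105 .pm ⟨0, 152129143, 0, 0, 0, 0, 0, 0, 0, ⟨0, 0⟩, 0⟩ 0 0)) (.cut .v 1572864 (.pos 132 .pm ⟨0, 149656106, 0, 0, 0, 0, 0, 0, 0, ⟨0, 0⟩, 0⟩ 0 0) (.cut .s 15007744 (.pos 133 .pm ⟨0, 171890368, 0, 0, 0, 0, 0, 0, 0, ⟨0, 0⟩, 0⟩ 0 0) (.void 133 ⟨0, 100000, 0, 0, 0, 0, 0, 0, 0, ⟨0, 0⟩, 0⟩ 0 0)))))))) (.cut .d 1113533 (.pos 74 .pm ⟨0, 0, 294088270, 0, 0, 0, 0, 0, 0, ⟨0, 0⟩, 0⟩ 0 0) (.cut .d 1670300 (.pos 74 .pm ⟨0, 0, 0, 0, 0, 0, 0, 0, 0, ⟨0, 0⟩, 0⟩ 0 0) (.cut .d 1948683 (.cut .v 3145728 (.cut .d 1809491 (.pos 96 .pm ⟨0, 0, 0, 0, 0, 0, 0, 0, 0, ⟨0, 0⟩, 0⟩ 0 0) (.cut .s 14942208 (.pos 96 .pm ⟨0, 0, 0, 0, 0, 0, 0, 0, 0, ⟨0, 0⟩, 0⟩ 0 0) (.cut .d 1879087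 (.pos 96 .pm ⟨0, 154903489, 0, 0, 0, 0, 0, 0, 0, ⟨0, 0⟩, 0⟩ 0 0) (.pos 96 .pm ⟨0, 171466295, 0, 0, 0, 0, 0, 0, 0, ⟨0, 0⟩, 0⟩ 0 0)))) (.pos 97 .pm ⟨0, 181210415, 0, 0, 0, 0, 0, 0, 0, ⟨0, 0⟩, 0⟩ 0 0)) (.cut .v 3145728 (.cut .s 14942208 (.cut .d 2087875 (.pos 96 .pm ⟨0, 144774772, 0, 0, 0, 0, 0, 0, 0, ⟨0, 0⟩, 0⟩ 0 0) (.pos 96 .pm ⟨0, 183406325, 0, 0, 0, 0, 0, 0, 0, ⟨0, 0⟩, 0⟩ 0 0)) (.cut .d 2087875 (.pos 96 .pm ⟨0, 204135541, 0, 0, 0, 0, 0, 0, 0, ⟨0, 0⟩, 0⟩ 0 0) (.void 96 ⟨0, 0, 0, 100000, 0, 0, 0, 0, 0, ⟨0, 0⟩, 0⟩ 0 0))) (.pos 97 .pm ⟨0, 265923100, 0, 0, 0, 0, 0, 0, 0, ⟨0, 0⟩, 0⟩ 0 0)))))) (.cut .d 1113533 (.pos 5 .pm ⟨0, 0, 439840359, 0, 0, 0, 0, 0, 0, ⟨0, 0⟩,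 0⟩ 0 0) (.cut .d 1670300 (.pos 5 .pm ⟨0, 0, 0, 0, 0, 0, 0, 0, 0, ⟨0, 0⟩, 0⟩ 0 0) (.pos 5 .pm ⟨0, 286558983, 0, 0, 0, 0, 0, 0, 0, ⟨0, 0⟩, 0⟩ 0 0)))) (.pos 3 .pm ⟨0, 0, 3066902, 0, 0, 0, 0, 0, 0, ⟨0, 0⟩, 0⟩ 0 0)) (.cut .v 268435456 (.cut .d 1113533 (.cut .v 67108864 (.cut .d 556766 (.cut .v 33554432 (.cut .v 25165824 (.pos 17 .pp ⟨651181353, 0, 0, 0, 0, 0, 0, 0, 0, ⟨0, 0⟩, 0⟩ 0 0) (.pos 18 .pp ⟨1617509005, 0, 0, 0, 0, 0, 0, 0, 0, ⟨0, 0⟩, 0⟩ 0 0)) (.cut .v 50331648 (.cut .d 278383 (.pos 48 .pp ⟨3908882594, 0, 0, 0, 0, 0, 0, 0, 0, ⟨0, 0⟩, 0⟩ 0 0) (.pos 48 .pp ⟨2275150588, 0, 0, 0, 0, 0, 0, 0, 0, ⟨0, 0⟩, 0⟩ 0 0)) (.pos 49 .pp ⟨6374917855, 0, 0, 0, 0, 0, 0, 0, 0,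 ⟨0, 0⟩, 0⟩ 0 0))) (.pos 44 .pp ⟨0, 0, 0, 0, 0, 0, 0, 0, 0, ⟨0, 0⟩, 0⟩ 0 0)) (.cut .v 134217728 (.cut .d 556766 (.cut .v 100663296 (.cut .v 83886080 (.pos 100 .pp ⟨10422797011, 0, 0, 0, 0, 0, 0, 0, 0, ⟨0, 0⟩, 0⟩ 0 0) (.void 101 ⟨35377, 64623, 0, 0, 0, 0, 0, 0, 0, ⟨0, 0⟩, 0⟩ 0 0)) (.void 82 ⟨87680, 0, 0, 12320, 0, 0, 0, 0, 0, ⟨0, 0⟩, 0⟩ 0 0)) (.pos 59 .pp ⟨0, 5779330283, 0, 0, 0, 0, 0, 0, 0, ⟨0, 0⟩, 0⟩ 0 0)) (.void 60 ⟨0, 0, 0, 100000, 0, 0, 0, 0, 0, ⟨0, 0⟩, 0⟩ 0 0))) (.pos 55 .pp ⟨0, 345541740, 0, 0, 0, 0, 0, 0, 0, ⟨0, 0⟩, 0⟩ 0 0)) (.void 95 ⟨0, 0, 0, 100000, 0, 0, 0, 0, 0, ⟨0, 0⟩, 0⟩ 0 0)))),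
    by decide +kernel⟩

def covers25 : cell.Covers table row25.1 :=
  ⟨(.cut .d 0 (.cut .v 16777216 (.cut .v 8388608 (.void 2 ⟨0, 0, 100000, 0, 0, 0, 0, 0, 0, ⟨0, 0⟩, 0⟩ 0 0) (.cut .d (-8388608) (.void 3 ⟨100000, 0, 0, 0, 0, 0, 0, 0, 0, ⟨0, 0⟩, 0⟩ 0 0) (.cut .d (-4194304) (.void 3 ⟨100000, 0, 0, 0, 0, 0, 0, 0, 0, ⟨0, 0⟩, 0⟩ 0 0) (.cut .d (-2097152) (.void 3 ⟨100000, 0, 0, 0, 0, 0, 0, 0, 0, ⟨0, 0⟩, 0⟩ 0 0) (.cut .d (-1048576) (.void 3 ⟨100000, 0, 0, 0, 0, 0, 0, 0, 0, ⟨0, 0⟩, 0⟩ 0 0) (.cut .d (-524288) (.void 3 ⟨0, 0, 0, 0, 0, 100000, 0, 0, 0, ⟨0, 0⟩, 0⟩ 0 0) (.cut .d (-262144) (.void 3 ⟨0, 0, 0, 0, 0, 100000, 0, 0, 0, ⟨0, 0⟩, 0⟩ 0 0) (.cut .v 12582912 (.cut .v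 10485760 (.cut .d (-131072) (.void 8 ⟨0, 0, 0, 0, 0, 100000, 0, 0, 0, ⟨0, 0⟩, 0⟩ 0 0) (.cut .d (-65536) (.void 8 ⟨0, 0, 0, 0, 0, 100000, 0, 0, 0, ⟨0, 0⟩, 0⟩ 0 0) (.cut .d (-32768) (.cut .v 9437184 (.pos 77 .mm ⟨0, 0, 45811308, 0, 0, 1017091551, 0, 0, 0, ⟨0, 0⟩, 0⟩ 0 0) (.pos 78 .mm ⟨0, 0, 0, 0, 0, 1062902859, 0, 0, 0, ⟨0, 0⟩, 0⟩ 0 0)) (.pos 8 .mm ⟨0, 0, 42770323, 0, 0, 857430443, 0, 0, 0, ⟨0, 0⟩, 0⟩ 0 0)))) (.pos 9 .mm ⟨0, 0, 0, 0, 0, 1509832275, 0, 0, 0, ⟨0, 0⟩, 0⟩ 0 0)) (.pos 7 .mm ⟨0, 0, 0, 0, 0, 2206458709, 0, 0, 0, ⟨0, 0⟩, 0⟩ 0 0))))))))) (.cut .v 268435456 (.cut .v 67108864 (.cut .v 33554432 (.cut .d (-8388608) (.void 16 ⟨100000, 0, 0, 0, 0, 0, 0, 0, 0,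 ⟨0, 0⟩, 0⟩ 0 0) (.cut .d (-4194304) (.void 16 ⟨100000, 0, 0, 0, 0, 0, 0, 0, 0, ⟨0, 0⟩, 0⟩ 0 0) (.cut .v 25165824 (.cut .d (-2097152) (.void 17 ⟨100000, 0, 0, 0, 0, 0, 0, 0, 0, ⟨0, 0⟩, 0⟩ 0 0) (.cut .d (-1048576) (.void 17 ⟨100000, 0, 0, 0, 0, 0, 0, 0, 0, ⟨0, 0⟩, 0⟩ 0 0) (.cut .d (-524288) (.void 17 ⟨100000, 0, 0, 0, 0, 0, 0, 0, 0, ⟨0, 0⟩, 0⟩ 0 0) (.cut .d (-262144) (.void 17 ⟨100000, 0, 0, 0, 0, 0, 0, 0, 0, ⟨0, 0⟩, 0⟩ 0 0) (.cut .d (-131072) (.void 17 ⟨100000, 0, 0, 0, 0, 0, 0, 0, 0, ⟨0, 0⟩, 0⟩ 0 0) (.pos 17 .mp ⟨1164680650, 0, 0, 0, 0, 104301601, 0, 0, 0, ⟨0, 0⟩, 0⟩ 0 0)))))) (.void 18 ⟨100000, 0, 0, 0, 0, 0, 0, 0, 0, ⟨0, 0⟩, 0⟩ 0 0)))) (.void 45 ⟨100000, 0,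 0, 0, 0, 0, 0, 0, 0, ⟨0, 0⟩, 0⟩ 0 0)) (.void 56 ⟨100000, 0, 0, 0, 0, 0, 0, 0, 0, ⟨0, 0⟩, 0⟩ 0 0)) (.void 95 ⟨87619, 0, 0, 6292, 0, 0, 0, 0, 0, ⟨0, 0⟩, 0⟩ 0 0))) (.cut .v 16777216 (.cut .v 8388608 (.cut .v 4194304 (.cut .v 2097152 (.cut .d 948278 (.void 73 ⟨0, 0, 100000, 0, 0, 0, 0, 0, 0, ⟨0, 0⟩, 0⟩ 0 0) (.cut .v 1048576 (.cut .d 1422417 (.void 104 ⟨0, 0, 100000, 0, 0, 0, 0, 0, 0, ⟨0, 0⟩, 0⟩ 0 0) (.cut .v 524288 (.cut .v 262144 (.pos 136 .pm ⟨0, 942557, 0, 0, 0, 0, 0, 0, 0, ⟨0, 0⟩, 0⟩ 0 0) (.pos 137 .pm ⟨0, 35374124, 0, 0, 0, 0, 0, 0, 0, ⟨0, 0⟩, 0⟩ 0 0)) (.cut .d 1659487 (.pos 131 .pm ⟨0, 61154549, 0, 0, 0, 0, 0, 0, 0, ⟨0, 0⟩, 0⟩ 0 0) (.pos 131 .pm ⟨0, 91550919,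 0, 0, 0, 0, 0, 0, 0, ⟨0, 0⟩, 0⟩ 0 0)))) (.cut .d 1422417 (.pos 105 .pm ⟨0, 0, 0, 0, 0, 0, 0, 0, 0, ⟨0, 0⟩, 0⟩ 0 0) (.cut .d 1659487 (.cut .s 15171584 (.pos 105 .pm ⟨0, 0, 0, 0, 0, 0, 0, 0, 0, ⟨0, 0⟩, 0⟩ 0 0) (.cut .d 1540952 (.pos 105 .pm ⟨0, 0, 0, 0, 0, 0, 0, 0, 0, ⟨0, 0⟩, 0⟩ 0 0) (.cut .d 1600219 (.pos 105 .pm ⟨0, 0, 0, 0, 0, 0, 0, 0, 0, ⟨0, 0⟩, 0⟩ 0 0) (.cut .s 15220736 (.pos 105 .pm ⟨0, 0, 0, 0, 0, 0, 0, 0, 0, ⟨0, 0⟩, 0⟩ 0 0) (.cut .v 1572864 (.cut .d 1629853 (.pos 132 .pm ⟨0, 0, 0, 0, 0, 0, 0, 0, 0, ⟨0, 0⟩, 0⟩ 0 0) (.cut .s 15245312 (.pos 132 .pm ⟨0, 0, 0, 0, 0, 0, 0, 0, 0, ⟨0, 0⟩, 0⟩ 0 0) (.pos 132 .pm ⟨0, 124915679, 0, 0, 0, 0, 0, 0, 0, ⟨0, 0⟩, 0⟩ 0 0)))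 (.cut .v 1835008 (.cut .d 1629853 (.pos 140 .pm ⟨0, 0, 0, 0, 0, 0, 0, 0, 0, ⟨0, 0⟩, 0⟩ 0 0) (.pos 140 .pm ⟨0, 130951506, 0, 0, 0, 0, 0, 0, 0, ⟨0, 0⟩, 0⟩ 0 0)) (.pos 141 .pm ⟨0, 143671573, 0, 0, 0, 0, 0, 0, 0, ⟨0, 0⟩, 0⟩ 0 0))))))) (.cut .d 1778022 (.cut .s 15171584 (.cut .s 15122432 (.pos 105 .pm ⟨0, 0, 0, 0, 0, 0, 0, 0, 0, ⟨0, 0⟩, 0⟩ 0 0) (.cut .v 1572864 (.pos 132 .pm ⟨0, 105477221, 0, 0, 0, 0, 0, 0, 0, ⟨0, 0⟩, 0⟩ 0 0) (.cut .v 1835008 (.cut .d 1718754 (.pos 140 .pm ⟨0, 0, 0, 0, 0, 0, 0, 0, 0, ⟨0, 0⟩, 0⟩ 0 0) (.pos 140 .pm ⟨0, 124021343, 0, 0, 0, 0, 0, 0, 0, ⟨0, 0⟩, 0⟩ 0 0)) (.pos 141 .pm ⟨0, 131899846, 0, 0, 0, 0, 0, 0, 0, ⟨0, 0⟩, 0⟩ 0 0)))) (.cut .v 1572864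 (.cut .d 1718754 (.cut .s 15220736 (.pos 132 .pm ⟨0, 115816006, 0, 0, 0, 0, 0, 0, 0, ⟨0, 0⟩, 0⟩ 0 0) (.cut .s 15245312 (.pos 132 .pm ⟨0, 129327474, 0, 0, 0, 0, 0, 0, 0, ⟨0, 0⟩, 0⟩ 0 0) (.pos 132 .pm ⟨0, 139376760, 0, 0, 0, 0, 0, 0, 0, ⟨0, 0⟩, 0⟩ 0 0))) (.pos 132 .pm ⟨0, 142465983, 0, 0, 0, 0, 0, 0, 0, ⟨0, 0⟩, 0⟩ 0 0)) (.cut .d 1718754 (.cut .v 1835008 (.cut .s 15220736 (.pos 140 .pm ⟨0, 125346504, 0, 0, 0, 0, 0, 0, 0, ⟨0, 0⟩, 0⟩ 0 0) (.cut .s 15245312 (.pos 140 .pm ⟨0, 139764281, 0, 0, 0, 0, 0, 0, 0, ⟨0, 0⟩, 0⟩ 0 0) (.pos 140 .pm ⟨0, 162117770, 0, 0, 0, 0, 0, 0, 0, ⟨0, 0⟩, 0⟩ 0 0))) (.pos 141 .pm ⟨0, 149298730, 0, 0, 0, 0, 0, 0, 0, ⟨0, 0⟩, 0⟩ 0 0)) (.cut .s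 15220736 (.cut .s 15196160 (.pos 133 .pm ⟨0, 143047771, 0, 0, 0, 0, 0, 0, 0, ⟨0, 0⟩, 0⟩ 0 0) (.pos 133 .pm ⟨0, 282183219, 0, 0, 0, 0, 0, 0, 0, ⟨0, 0⟩, 0⟩ 0 0)) (.void 133 ⟨0, 0, 0, 100000, 0, 0, 0, 0, 0, ⟨0, 0⟩, 0⟩ 0 0))))) (.cut .s 15171584 (.cut .v 1572864 (.cut .s 15122432 (.pos 132 .pm ⟨0, 118930645, 0, 0, 0, 0, 0, 0, 0, ⟨0, 0⟩, 0⟩ 0 0) (.pos 132 .pm ⟨0, 134263354, 0, 0, 0, 0, 0, 0, 0, ⟨0, 0⟩, 0⟩ 0 0)) (.cut .s 15122432 (.cut .l 1062557 (.cut .d 1837289 (.cut .v 1835008 (.cut .s 15097856 (.pos 140 .pm ⟨0, 118351796, 0, 0, 0, 0, 0, 0, 0, ⟨0, 0⟩, 0⟩ 0 0) (.pos 140 .pm ⟨0, 128020169, 0, 0, 0, 0, 0, 0, 0, ⟨0, 0⟩, 0⟩ 0 0)) (.pos 141 .pm ⟨0, 131749087, 0, 0, 0,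 0, 0, 0, 0, ⟨0, 0⟩, 0⟩ 0 0)) (.cut .d 1866923 (.cut .s 15097856 (.cut .v 1835008 (.cut .v 1703936 (.pos 142 .pm ⟨0, 127744585, 0, 0, 0, 0, 0, 0, 0, ⟨0, 0⟩, 0⟩ 0 0) (.pos 143 .pm ⟨0, 132519271, 0, 0, 0, 0, 0, 0, 0, ⟨0, 0⟩, 0⟩ 0 0)) (.pos 141 .pm ⟨0, 138313563, 0, 0, 0, 0, 0, 0, 0, ⟨0, 0⟩, 0⟩ 0 0)) (.pos 133 .pm ⟨0, 448311701, 0, 0, 0, 0, 0, 0, 0, ⟨0, 0⟩, 0⟩ 0 0)) (.pos 133 .pm ⟨0, 490312879, 0, 0, 0, 0, 0, 0, 0, ⟨0, 0⟩, 0⟩ 0 0))) (.pos 133 .pm ⟨0, 137602196, 0, 0, 0, 0, 0, 0, 0, ⟨0, 0⟩, 0⟩ 0 0)) (.cut .v 1835008 (.cut .d 1837289 (.cut .s 15147008 (.pos 140 .pm ⟨0, 138678832, 0, 0, 0, 0, 0, 0, 0, ⟨0, 0⟩, 0⟩ 0 0) (.pos 140 .pm ⟨0, 337792709, 0, 0, 0, 0, 0, 0, 0,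 ⟨0, 0⟩, 0⟩ 0 0)) (.void 140 ⟨0, 0, 0, 100000, 0, 0, 0, 0, 0, ⟨0, 0⟩, 0⟩ 0 0)) (.pos 141 .pm ⟨0, 165006681, 0, 0, 0, 0, 0, 0, 0, ⟨0, 0⟩, 0⟩ 0 0)))) (.void 105 ⟨0, 0, 0, 100000, 0, 0, 0, 0, 0, ⟨0, 0⟩, 0⟩ 0 0))))))) (.cut .d 948278 (.pos 74 .pm ⟨0, 0, 366315438, 0, 0, 0, 0, 0, 0, ⟨0, 0⟩, 0⟩ 0 0) (.cut .d 1422417 (.pos 74 .pm ⟨0, 0, 0, 0, 0, 0, 0, 0, 0, ⟨0, 0⟩, 0⟩ 0 0) (.cut .d 1659487 (.pos 74 .pm ⟨0, 116347469, 0, 0, 0, 0, 0, 0, 0, ⟨0, 0⟩, 0⟩ 0 0) (.cut .v 3145728 (.cut .v 2621440 (.cut .s 15171584 (.cut .d 1778022 (.pos 150 .pm ⟨0, 138044998, 0, 0, 0, 0, 0, 0, 0, ⟨0, 0⟩, 0⟩ 0 0) (.cut .d 1837289 (.pos 150 .pm ⟨0, 155851636, 0, 0, 0, 0, 0, 0, 0, ⟨0, 0⟩, 0⟩ 0 0)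 (.pos 150 .pm ⟨0, 174068005, 0, 0, 0, 0, 0, 0, 0, ⟨0, 0⟩, 0⟩ 0 0))) (.cut .d 1778022 (.pos 150 .pm ⟨0, 176927281, 0, 0, 0, 0, 0, 0, 0, ⟨0, 0⟩, 0⟩ 0 0) (.void 150 ⟨0, 0, 0, 100000, 0, 0, 0, 0, 0, ⟨0, 0⟩, 0⟩ 0 0))) (.pos 151 .pm ⟨0, 212617133, 0, 0, 0, 0, 0, 0, 0, ⟨0, 0⟩, 0⟩ 0 0)) (.pos 97 .pm ⟨0, 248610209, 0, 0, 0, 0, 0, 0, 0, ⟨0, 0⟩, 0⟩ 0 0)))))) (.cut .d 948278 (.pos 5 .pm ⟨0, 0, 515180659, 0, 0, 0, 0, 0, 0, ⟨0, 0⟩, 0⟩ 0 0) (.pos 5 .pm ⟨0, 187378545, 0, 0, 0, 0, 0, 0, 0, ⟨0, 0⟩, 0⟩ 0 0))) (.pos 3 .pm ⟨0, 0, 30034602, 0, 0, 0, 0, 0, 0, ⟨0, 0⟩, 0⟩ 0 0)) (.cut .v 268435456 (.cut .d 948278 (.cut .v 67108864 (.cut .d 474139 (.cut .v 33554432 (.cut .v 25165824 (.pos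 17 .pp ⟨459817041, 0, 0, 0, 0, 0, 0, 0, 0, ⟨0, 0⟩, 0⟩ 0 0) (.pos 18 .pp ⟨1713048968, 0, 0, 0, 0, 0, 0, 0, 0, ⟨0, 0⟩, 0⟩ 0 0)) (.cut .d 237069 (.pos 45 .pp ⟨6585195564, 0, 0, 0, 0, 0, 0, 0, 0, ⟨0, 0⟩, 0⟩ 0 0) (.pos 45 .pp ⟨3363497745, 0, 0, 0, 0, 0, 0, 0, 0, ⟨0, 0⟩, 0⟩ 0 0))) (.pos 44 .pp ⟨0, 0, 0, 0, 0, 0, 0, 0, 0, ⟨0, 0⟩, 0⟩ 0 0)) (.cut .v 134217728 (.cut .d 474139 (.cut .v 100663296 (.pos 81 .pp ⟨14971190249, 0, 0, 0, 0, 0, 0, 0, 0, ⟨0, 0⟩, 0⟩ 0 0) (.void 82 ⟨87565, 0, 0, 12435, 0, 0, 0, 0, 0, ⟨0, 0⟩, 0⟩ 0 0)) (.pos 59 .pp ⟨0, 5713990039, 0, 0, 0, 0, 0, 0, 0, ⟨0, 0⟩, 0⟩ 0 0)) (.void 60 ⟨0, 0, 0, 100000, 0, 0, 0, 0, 0, ⟨0, 0⟩, 0⟩ 0 0))) (.pos 55 .pp ⟨0, 264123221,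 0, 0, 0, 0, 0, 0, 0, ⟨0, 0⟩, 0⟩ 0 0)) (.void 95 ⟨0, 0, 0, 100000, 0, 0, 0, 0, 0, ⟨0, 0⟩, 0⟩ 0 0)))),
    by decide +kernel⟩

def covers26 : cell.Covers table row26.1 :=
  ⟨(.cut .d 0 (.cut .v 16777216 (.cut .v 8388608 (.void 2 ⟨0, 0, 100000, 0, 0, 0, 0, 0, 0, ⟨0, 0⟩, 0⟩ 0 0) (.cut .d (-8388608) (.void 3 ⟨100000, 0, 0, 0, 0, 0, 0, 0, 0, ⟨0, 0⟩, 0⟩ 0 0) (.cut .d (-4194304) (.void 3 ⟨100000, 0, 0, 0, 0, 0, 0, 0, 0, ⟨0, 0⟩, 0⟩ 0 0) (.cut .d (-2097152) (.void 3 ⟨100000, 0, 0, 0, 0, 0, 0, 0, 0, ⟨0, 0⟩, 0⟩ 0 0) (.cut .d (-1048576) (.void 3 ⟨100000, 0, 0, 0, 0, 0, 0, 0, 0, ⟨0, 0⟩, 0⟩ 0 0) (.cut .v 12582912 (.cut .d (-524288) (.void 6 ⟨0, 0, 0, 0, 0, 100000, 0, 0, 0,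 ⟨0, 0⟩, 0⟩ 0 0) (.cut .v 10485760 (.pos 8 .mm ⟨0, 0, 105006928, 0, 0, 1579762373, 0, 0, 0, ⟨0, 0⟩, 0⟩ 0 0) (.pos 9 .mm ⟨0, 0, 0, 0, 0, 2006048291, 0, 0, 0, ⟨0, 0⟩, 0⟩ 0 0))) (.pos 7 .mm ⟨0, 0, 0, 0, 0, 3799402525, 0, 0, 0, ⟨0, 0⟩, 0⟩ 0 0))))))) (.cut .v 268435456 (.cut .v 67108864 (.cut .v 33554432 (.cut .d (-8388608) (.void 16 ⟨100000, 0, 0, 0, 0, 0, 0, 0, 0, ⟨0, 0⟩, 0⟩ 0 0) (.cut .d (-4194304) (.void 16 ⟨100000, 0, 0, 0, 0, 0, 0, 0, 0, ⟨0, 0⟩, 0⟩ 0 0) (.cut .d (-2097152) (.void 16 ⟨100000, 0, 0, 0, 0, 0, 0, 0, 0, ⟨0, 0⟩, 0⟩ 0 0) (.cut .v 25165824 (.cut .d (-1048576) (.void 17 ⟨100000, 0, 0, 0, 0, 0, 0, 0, 0, ⟨0, 0⟩, 0⟩ 0 0) (.cut .d (-524288) (.void 17 ⟨100000,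 0, 0, 0, 0, 0, 0, 0, 0, ⟨0, 0⟩, 0⟩ 0 0) (.pos 17 .mp ⟨2186508672, 0, 0, 0, 0, 0, 0, 0, 0, ⟨0, 0⟩, 0⟩ 0 0))) (.void 18 ⟨100000, 0, 0, 0, 0, 0, 0, 0, 0, ⟨0, 0⟩, 0⟩ 0 0))))) (.void 45 ⟨100000, 0, 0, 0, 0, 0, 0, 0, 0, ⟨0, 0⟩, 0⟩ 0 0)) (.void 56 ⟨100000, 0, 0, 0, 0, 0, 0, 0, 0, ⟨0, 0⟩, 0⟩ 0 0)) (.void 95 ⟨93812, 0, 0, 6686, 0, 0, 0, 0, 0, ⟨0, 0⟩, 0⟩ 0 0))) (.cut .v 16777216 (.cut .v 8388608 (.cut .v 4194304 (.cut .v 2097152 (.cut .d 828061 (.void 73 ⟨0, 0, 100000, 0, 0, 0, 0, 0, 0, ⟨0, 0⟩, 0⟩ 0 0) (.cut .v 1048576 (.cut .v 524288 (.cut .v 262144 (.pos 136 .pm ⟨0, 437118, 0, 0, 0, 0, 0, 0, 0, ⟨0, 0⟩, 0⟩ 0 0) (.pos 137 .pm ⟨0, 29519338, 0, 0, 0, 0, 0, 0, 0, ⟨0, 0⟩,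 0⟩ 0 0)) (.cut .d 1242092 (.pos 131 .pm ⟨0, 0, 0, 0, 0, 0, 0, 0, 0, ⟨0, 0⟩, 0⟩ 0 0) (.cut .d 1449107 (.cut .s 15400960 (.pos 131 .pm ⟨0, 0, 0, 0, 0, 0, 0, 0, 0, ⟨0, 0⟩, 0⟩ 0 0) (.cut .d 1345599 (.pos 131 .pm ⟨0, 74498940, 0, 0, 0, 0, 0, 0, 0, ⟨0, 0⟩, 0⟩ 0 0) (.pos 131 .pm ⟨0, 97188046, 0, 0, 0, 0, 0, 0, 0, ⟨0, 0⟩, 0⟩ 0 0))) (.cut .s 15400960 (.pos 131 .pm ⟨0, 89574495, 0, 0, 0, 0, 0, 0, 0, ⟨0, 0⟩, 0⟩ 0 0) (.pos 131 .pm ⟨0, 122674484, 0, 0, 0, 0, 0, 0, 0, ⟨0, 0⟩, 0⟩ 0 0))))) (.cut .d 1242092 (.pos 105 .pm ⟨0, 0, 0, 0, 0, 0, 0, 0, 0, ⟨0, 0⟩, 0⟩ 0 0) (.cut .d 1449107 (.cut .s 15400960 (.pos 105 .pm ⟨0, 0, 0, 0, 0, 0, 0, 0, 0, ⟨0, 0⟩, 0⟩ 0 0) (.cut .v 1572864 (.cut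 .d 1345599 (.cut .v 1310720 (.cut .s 15466496 (.pos 154 .pm ⟨0, 0, 0, 0, 0, 0, 0, 0, 0, ⟨0, 0⟩, 0⟩ 0 0) (.cut .d 1293845 (.pos 154 .pm ⟨0, 0, 0, 0, 0, 0, 0, 0, 0, ⟨0, 0⟩, 0⟩ 0 0) (.pos 154 .pm ⟨0, 99389205, 0, 0, 0, 0, 0, 0, 0, ⟨0, 0⟩, 0⟩ 0 0))) (.pos 155 .pm ⟨0, 95995067, 0, 0, 0, 0, 0, 0, 0, ⟨0, 0⟩, 0⟩ 0 0)) (.cut .s 15466496 (.cut .d 1397353 (.pos 132 .pm ⟨0, 0, 0, 0, 0, 0, 0, 0, 0, ⟨0, 0⟩, 0⟩ 0 0) (.cut .v 1310720 (.pos 154 .pm ⟨0, 109696306, 0, 0, 0, 0, 0, 0, 0, ⟨0, 0⟩, 0⟩ 0 0) (.pos 155 .pm ⟨0, 117238386, 0, 0, 0, 0, 0, 0, 0, ⟨0, 0⟩, 0⟩ 0 0))) (.cut .d 1397353 (.cut .v 1310720 (.cut .s 15499264 (.pos 154 .pm ⟨0, 109520425, 0, 0, 0, 0, 0, 0, 0, ⟨0, 0⟩,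 0⟩ 0 0) (.pos 154 .pm ⟨0, 122102265, 0, 0, 0, 0, 0, 0, 0, ⟨0, 0⟩, 0⟩ 0 0)) (.cut .s 15499264 (.pos 155 .pm ⟨0, 118228708, 0, 0, 0, 0, 0, 0, 0, ⟨0, 0⟩, 0⟩ 0 0) (.pos 155 .pm ⟨0, 130277319, 0, 0, 0, 0, 0, 0, 0, ⟨0, 0⟩, 0⟩ 0 0))) (.cut .v 1310720 (.pos 154 .pm ⟨0, 132488180, 0, 0, 0, 0, 0, 0, 0, ⟨0, 0⟩, 0⟩ 0 0) (.pos 155 .pm ⟨0, 146123870, 0, 0, 0, 0, 0, 0, 0, ⟨0, 0⟩, 0⟩ 0 0))))) (.cut .d 1345599 (.pos 133 .pm ⟨0, 111602554, 0, 0, 0, 0, 0, 0, 0, ⟨0, 0⟩, 0⟩ 0 0) (.cut .s 15466496 (.pos 133 .pm ⟨0, 127614463, 0, 0, 0, 0, 0, 0, 0, ⟨0, 0⟩, 0⟩ 0 0) (.pos 133 .pm ⟨0, 152777648, 0, 0, 0, 0, 0, 0, 0, ⟨0, 0⟩, 0⟩ 0 0))))) (.cut .s 15400960 (.cut .d 1552615 (.cut .v 1572864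 (.cut .s 15335424 (.pos 132 .pm ⟨0, 0, 0, 0, 0, 0, 0, 0, 0, ⟨0, 0⟩, 0⟩ 0 0) (.cut .d 1500861 (.pos 132 .pm ⟨0, 102860449, 0, 0, 0, 0, 0, 0, 0, ⟨0, 0⟩, 0⟩ 0 0) (.cut .s 15368192 (.pos 132 .pm ⟨0, 112898542, 0, 0, 0, 0, 0, 0, 0, ⟨0, 0⟩, 0⟩ 0 0) (.pos 132 .pm ⟨0, 130508954, 0, 0, 0, 0, 0, 0, 0, ⟨0, 0⟩, 0⟩ 0 0)))) (.cut .s 15335424 (.pos 133 .pm ⟨0, 0, 0, 0, 0, 0, 0, 0, 0, ⟨0, 0⟩, 0⟩ 0 0) (.cut .s 15368192 (.pos 133 .pm ⟨0, 125564802, 0, 0, 0, 0, 0, 0, 0, ⟨0, 0⟩, 0⟩ 0 0) (.pos 133 .pm ⟨0, 139322495, 0, 0, 0, 0, 0, 0, 0, ⟨0, 0⟩, 0⟩ 0 0)))) (.cut .v 1572864 (.cut .s 15335424 (.cut .v 1310720 (.pos 154 .pm ⟨0, 109230163, 0, 0, 0, 0, 0, 0, 0, ⟨0, 0⟩, 0⟩ 0 0) (.cut .d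 1604369 (.cut .s 15302656 (.pos 155 .pm ⟨0, 108877512, 0, 0, 0, 0, 0, 0, 0, ⟨0, 0⟩, 0⟩ 0 0) (.pos 155 .pm ⟨0, 122994898, 0, 0, 0, 0, 0, 0, 0, ⟨0, 0⟩, 0⟩ 0 0)) (.cut .s 15302656 (.cut .v 1441792 (.pos 160 .pm ⟨0, 118707934, 0, 0, 0, 0, 0, 0, 0, ⟨0, 0⟩, 0⟩ 0 0) (.cut .d 1630246 (.pos 161 .pm ⟨0, 120826633, 0, 0, 0, 0, 0, 0, 0, ⟨0, 0⟩, 0⟩ 0 0) (.cut .s 15286272 (.cut .s 15278080 (.cut .s 15273984 (.cut .s 15271936 (.cut .s 15270912 (.cut .s 15270400 (.cut .d 1643184 (.cut .v 1507328 (.pos 162 .pm ⟨0, 125315670, 0, 0, 0, 0, 0, 0, 0, ⟨0, 0⟩, 0⟩ 0 0) (.pos 163 .pm ⟨0, 130736654, 0, 0, 0, 0, 0, 0, 0, ⟨0, 0⟩, 0⟩ 0 0)) (.void 161 ⟨0, 0, 0, 100000, 0, 0, 0, 0, 0, ⟨0,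 0⟩, 0⟩ 0 0)) (.pos 161 .pm ⟨0, 132072453, 0, 0, 0, 0, 0, 0, 0, ⟨0, 0⟩, 0⟩ 0 0)) (.pos 161 .pm ⟨0, 132255805, 0, 0, 0, 0, 0, 0, 0, ⟨0, 0⟩, 0⟩ 0 0)) (.pos 161 .pm ⟨0, 227212814, 0, 0, 0, 0, 0, 0, 0, ⟨0, 0⟩, 0⟩ 0 0)) (.void 161 ⟨0, 100000, 0, 0, 0, 0, 0, 0, 0, ⟨0, 0⟩, 0⟩ 0 0)) (.void 161 ⟨0, 0, 0, 100000, 0, 0, 0, 0, 0, ⟨0, 0⟩, 0⟩ 0 0)) (.void 161 ⟨0, 0, 0, 100000, 0, 0, 0, 0, 0, ⟨0, 0⟩, 0⟩ 0 0)))) (.void 155 ⟨0, 0, 0, 100000, 0, 0, 0, 0, 0, ⟨0, 0⟩, 0⟩ 0 0)))) (.pos 132 .pm ⟨0, 150580699, 0, 0, 0, 0, 0, 0, 0, ⟨0, 0⟩, 0⟩ 0 0)) (.cut .s 15335424 (.cut .v 1835008 (.cut .d 1604369 (.cut .s 15302656 (.pos 140 .pm ⟨0, 115034061, 0, 0, 0, 0, 0, 0, 0, ⟨0, 0⟩, 0⟩ 0 0) (.pos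 140 .pm ⟨0, 131553561, 0, 0, 0, 0, 0, 0, 0, ⟨0, 0⟩, 0⟩ 0 0)) (.cut .s 15302656 (.cut .d 1630246 (.pos 140 .pm ⟨0, 126195261, 0, 0, 0, 0, 0, 0, 0, ⟨0, 0⟩, 0⟩ 0 0) (.cut .v 1703936 (.pos 142 .pm ⟨0, 136108863, 0, 0, 0, 0, 0, 0, 0, ⟨0, 0⟩, 0⟩ 0 0) (.void 143 ⟨0, 100000, 0, 0, 0, 0, 0, 0, 0, ⟨0, 0⟩, 0⟩ 0 0))) (.void 140 ⟨0, 0, 0, 100000, 0, 0, 0, 0, 0, ⟨0, 0⟩, 0⟩ 0 0))) (.pos 141 .pm ⟨0, 149422721, 0, 0, 0, 0, 0, 0, 0, ⟨0, 0⟩, 0⟩ 0 0)) (.pos 133 .pm ⟨0, 171644832, 0, 0, 0, 0, 0, 0, 0, ⟨0, 0⟩, 0⟩ 0 0)))) (.cut .d 1552615 (.cut .v 1572864 (.cut .v 1310720 (.pos 154 .pm ⟨0, 140971075, 0, 0, 0, 0, 0, 0, 0, ⟨0, 0⟩, 0⟩ 0 0) (.cut .s 15466496 (.cut .d 1500861 (.pos 155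 .pm ⟨0, 136997121, 0, 0, 0, 0, 0, 0, 0, ⟨0, 0⟩, 0⟩ 0 0) (.void 155 ⟨0, 0, 0, 100000, 0, 0, 0, 0, 0, ⟨0, 0⟩, 0⟩ 0 0)) (.void 155 ⟨0, 0, 0, 100000, 0, 0, 0, 0, 0, ⟨0, 0⟩, 0⟩ 0 0))) (.pos 133 .pm ⟨0, 182418350, 0, 0, 0, 0, 0, 0, 0, ⟨0, 0⟩, 0⟩ 0 0)) (.void 105 ⟨0, 0, 0, 100000, 0, 0, 0, 0, 0, ⟨0, 0⟩, 0⟩ 0 0))))))) (.cut .d 828061 (.pos 74 .pm ⟨0, 0, 472390793, 0, 0, 0, 0, 0, 0, ⟨0, 0⟩, 0⟩ 0 0) (.cut .d 1242092 (.pos 74 .pm ⟨0, 0, 0, 0, 0, 0, 0, 0, 0, ⟨0, 0⟩, 0⟩ 0 0) (.cut .d 1449107 (.pos 74 .pm ⟨0, 134351330, 0, 0, 0, 0, 0, 0, 0, ⟨0, 0⟩, 0⟩ 0 0) (.cut .s 15400960 (.cut .s 15335424 (.pos 74 .pm ⟨0, 159930400, 0, 0, 0, 0, 0, 0, 0, ⟨0, 0⟩, 0⟩ 0 0) (.pos 74 .pm ⟨0,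 195847744, 0, 0, 0, 0, 0, 0, 0, ⟨0, 0⟩, 0⟩ 0 0)) (.pos 74 .pm ⟨0, 272467456, 0, 0, 0, 0, 0, 0, 0, ⟨0, 0⟩, 0⟩ 0 0)))))) (.cut .d 828061 (.pos 5 .pm ⟨0, 0, 578561155, 0, 0, 0, 0, 0, 0, ⟨0, 0⟩, 0⟩ 0 0) (.pos 5 .pm ⟨0, 222146901, 0, 0, 0, 0, 0, 0, 0, ⟨0, 0⟩, 0⟩ 0 0))) (.pos 3 .pm ⟨0, 0, 50090698, 0, 0, 0, 0, 0, 0, ⟨0, 0⟩, 0⟩ 0 0)) (.cut .v 268435456 (.cut .d 828061 (.cut .v 67108864 (.cut .v 33554432 (.pos 16 .pp ⟨577192818, 0, 0, 0, 0, 0, 0, 0, 0, ⟨0, 0⟩, 0⟩ 0 0) (.cut .v 50331648 (.pos 48 .pp ⟨2740499432, 0, 0, 0, 0, 0, 0, 0, 0, ⟨0, 0⟩, 0⟩ 0 0) (.pos 49 .pp ⟨5601830880, 0, 0, 0, 0, 0, 0, 0, 0, ⟨0, 0⟩, 0⟩ 0 0))) (.cut .v 134217728 (.cut .d 414030 (.cut .d 207015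 (.void 59 ⟨100000, 0, 0, 0, 0, 0, 0, 0, 0, ⟨0, 0⟩, 0⟩ 0 0) (.pos 59 .pp ⟨20687092787, 2472059907, 0, 0, 0, 0, 0, 0, 0, ⟨0, 0⟩, 0⟩ 0 0)) (.pos 59 .pp ⟨0, 5065651952, 0, 0, 0, 0, 0, 0, 0, ⟨0, 0⟩, 0⟩ 0 0)) (.void 60 ⟨0, 0, 0, 100000, 0, 0, 0, 0, 0, ⟨0, 0⟩, 0⟩ 0 0))) (.pos 55 .pp ⟨0, 338891095, 0, 0, 0, 0, 0, 0, 0, ⟨0, 0⟩, 0⟩ 0 0)) (.void 95 ⟨0, 0, 0, 100000, 0, 0, 0, 0, 0, ⟨0, 0⟩, 0⟩ 0 0)))),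
    by decide +kernel⟩

def covers27 : cell.Covers table row27.1 :=
  ⟨(.cut .d 0 (.cut .v 16777216 (.cut .v 8388608 (.void 2 ⟨0, 0, 100000, 0, 0, 0, 0, 0, 0, ⟨0, 0⟩, 0⟩ 0 0) (.cut .d (-8388608) (.void 3 ⟨100000, 0, 0, 0, 0, 0, 0, 0, 0, ⟨0, 0⟩, 0⟩ 0 0) (.cut .d (-4194304) (.void 3 ⟨100000, 0, 0, 0, 0, 0, 0, 0, 0, ⟨0, 0⟩, 0⟩ 0 0) (.cut .d (-2097152) (.void 3 ⟨100000, 0, 0, 0, 0, 0, 0, 0, 0, ⟨0, 0⟩, 0⟩ 0 0) (.cut .d (-1048576) (.void 3 ⟨100000, 0, 0, 0, 0, 0, 0, 0, 0, ⟨0, 0⟩, 0⟩ 0 0) (.pos 3 .mm ⟨0, 0, 204773059, 0, 0, 4511188001, 0, 0, 0, ⟨0, 0⟩, 0⟩ 0 0)))))) (.cut .v 268435456 (.cut .v 67108864 (.cut .v 33554432 (.cut .d (-8388608) (.void 16 ⟨100000, 0, 0, 0,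 0, 0, 0, 0, 0, ⟨0, 0⟩, 0⟩ 0 0) (.cut .d (-4194304) (.void 16 ⟨100000, 0, 0, 0, 0, 0, 0, 0, 0, ⟨0, 0⟩, 0⟩ 0 0) (.cut .d (-2097152) (.void 16 ⟨100000, 0, 0, 0, 0, 0, 0, 0, 0, ⟨0, 0⟩, 0⟩ 0 0) (.pos 16 .mp ⟨0, 0, 0, 0, 0, 15433649903, 0, 0, 0, ⟨0, 0⟩, 0⟩ 0 0)))) (.void 45 ⟨100000, 0, 0, 0, 0, 0, 0, 0, 0, ⟨0, 0⟩, 0⟩ 0 0)) (.void 56 ⟨100000, 0, 0, 0, 0, 0, 0, 0, 0, ⟨0, 0⟩, 0⟩ 0 0)) (.void 95 ⟨93254, 0, 0, 6746, 0, 0, 0, 0, 0, ⟨0, 0⟩, 0⟩ 0 0))) (.cut .v 16777216 (.cut .v 8388608 (.cut .v 4194304 (.cut .v 2097152 (.cut .d 672505 (.void 73 ⟨0, 0, 100000, 0, 0, 0, 0, 0, 0, ⟨0, 0⟩, 0⟩ 0 0) (.cut .v 1048576 (.cut .v 524288 (.cut .v 262144 (.cut .v 131072 (.pos 164 .pm ⟨0,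 0, 6182360, 0, 0, 0, 0, 0, 0, ⟨0, 0⟩, 0⟩ 0 0) (.pos 165 .pm ⟨0, 11811526, 0, 0, 0, 0, 0, 0, 0, ⟨0, 0⟩, 0⟩ 0 0)) (.cut .d 1008758 (.pos 137 .pm ⟨0, 0, 0, 0, 0, 0, 0, 0, 0, ⟨0, 0⟩, 0⟩ 0 0) (.pos 137 .pm ⟨0, 52930892, 0, 0, 0, 0, 0, 0, 0, ⟨0, 0⟩, 0⟩ 0 0))) (.cut .d 1008758 (.pos 131 .pm ⟨0, 0, 0, 0, 0, 0, 0, 0, 0, ⟨0, 0⟩, 0⟩ 0 0) (.cut .d 1176884 (.cut .s 15654912 (.pos 131 .pm ⟨0, 0, 0, 0, 0, 0, 0, 0, 0, ⟨0, 0⟩, 0⟩ 0 0) (.cut .d 1092821 (.cut .v 786432 (.pos 152 .pm ⟨0, 66912763, 0, 0, 0, 0, 0, 0, 0, ⟨0, 0⟩, 0⟩ 0 0) (.cut .s 15716352 (.pos 153 .pm ⟨0, 0, 0, 0, 0, 0, 0, 0, 0, ⟨0, 0⟩, 0⟩ 0 0) (.cut .d 1050789 (.pos 153 .pm ⟨0, 0, 0, 0, 0, 0, 0, 0, 0, ⟨0, 0⟩, 0⟩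 0 0) (.pos 153 .pm ⟨0, 87613576, 0, 0, 0, 0, 0, 0, 0, ⟨0, 0⟩, 0⟩ 0 0)))) (.cut .v 786432 (.pos 152 .pm ⟨0, 82231639, 0, 0, 0, 0, 0, 0, 0, ⟨0, 0⟩, 0⟩ 0 0) (.cut .s 15716352 (.cut .d 1134852 (.pos 153 .pm ⟨0, 82713120, 0, 0, 0, 0, 0, 0, 0, ⟨0, 0⟩, 0⟩ 0 0) (.pos 153 .pm ⟨0, 97379397, 0, 0, 0, 0, 0, 0, 0, ⟨0, 0⟩, 0⟩ 0 0)) (.pos 153 .pm ⟨0, 109893316, 0, 0, 0, 0, 0, 0, 0, ⟨0, 0⟩, 0⟩ 0 0))))) (.cut .s 15654912 (.cut .v 786432 (.pos 152 .pm ⟨0, 74601603, 0, 0, 0, 0, 0, 0, 0, ⟨0, 0⟩, 0⟩ 0 0) (.cut .d 1260947 (.cut .s 15593472 (.pos 153 .pm ⟨0, 0, 0, 0, 0, 0, 0, 0, 0, ⟨0, 0⟩, 0⟩ 0 0) (.pos 153 .pm ⟨0, 94767034, 0, 0, 0, 0, 0, 0, 0, ⟨0, 0⟩, 0⟩ 0 0)) (.cut .s 15593472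 (.pos 153 .pm ⟨0, 95711545, 0, 0, 0, 0, 0, 0, 0, ⟨0, 0⟩, 0⟩ 0 0) (.pos 153 .pm ⟨0, 114368995, 0, 0, 0, 0, 0, 0, 0, ⟨0, 0⟩, 0⟩ 0 0)))) (.pos 131 .pm ⟨0, 135012740, 0, 0, 0, 0, 0, 0, 0, ⟨0, 0⟩, 0⟩ 0 0))))) (.cut .d 1008758 (.pos 105 .pm ⟨0, 0, 0, 0, 0, 0, 0, 0, 0, ⟨0, 0⟩, 0⟩ 0 0) (.cut .d 1176884 (.cut .s 15654912 (.pos 105 .pm ⟨0, 0, 0, 0, 0, 0, 0, 0, 0, ⟨0, 0⟩, 0⟩ 0 0) (.cut .v 1572864 (.cut .d 1092821 (.cut .s 15716352 (.pos 132 .pm ⟨0, 0, 0, 0, 0, 0, 0, 0, 0, ⟨0, 0⟩, 0⟩ 0 0) (.pos 132 .pm ⟨0, 93993063, 0, 0, 0, 0, 0, 0, 0, ⟨0, 0⟩, 0⟩ 0 0)) (.cut .v 1310720 (.cut .s 15716352 (.cut .d 1134852 (.pos 154 .pm ⟨0, 91494636, 0, 0, 0, 0, 0, 0, 0, ⟨0, 0⟩, 0⟩ 0 0) (.pos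 154 .pm ⟨0, 104617517, 0, 0, 0, 0, 0, 0, 0, ⟨0, 0⟩, 0⟩ 0 0)) (.pos 154 .pm ⟨0, 121263895, 0, 0, 0, 0, 0, 0, 0, ⟨0, 0⟩, 0⟩ 0 0)) (.pos 155 .pm ⟨0, 125739989, 0, 0, 0, 0, 0, 0, 0, ⟨0, 0⟩, 0⟩ 0 0))) (.pos 133 .pm ⟨0, 136013619, 0, 0, 0, 0, 0, 0, 0, ⟨0, 0⟩, 0⟩ 0 0))) (.cut .s 15654912 (.cut .v 1572864 (.cut .d 1260947 (.cut .s 15593472 (.pos 132 .pm ⟨0, 87124136, 0, 0, 0, 0, 0, 0, 0, ⟨0, 0⟩, 0⟩ 0 0) (.cut .v 1310720 (.cut .d 1218915 (.pos 154 .pm ⟨0, 96564994, 0, 0, 0, 0, 0, 0, 0, ⟨0, 0⟩, 0⟩ 0 0) (.pos 154 .pm ⟨0, 111239364, 0, 0, 0, 0, 0, 0, 0, ⟨0, 0⟩, 0⟩ 0 0)) (.pos 155 .pm ⟨0, 118307348, 0, 0, 0, 0, 0, 0, 0, ⟨0, 0⟩, 0⟩ 0 0))) (.cut .s 15593472 (.cut .v 1310720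 (.cut .d 1302979 (.cut .s 15562752 (.pos 154 .pm ⟨0, 95333030, 0, 0, 0, 0, 0, 0, 0, ⟨0, 0⟩, 0⟩ 0 0) (.pos 154 .pm ⟨0, 107107314, 0, 0, 0, 0, 0, 0, 0, ⟨0, 0⟩, 0⟩ 0 0)) (.cut .s 15562752 (.cut .s 15547392 (.pos 154 .pm ⟨0, 108562953, 0, 0, 0, 0, 0, 0, 0, ⟨0, 0⟩, 0⟩ 0 0) (.pos 154 .pm ⟨0, 115926565, 0, 0, 0, 0, 0, 0, 0, ⟨0, 0⟩, 0⟩ 0 0)) (.void 154 ⟨0, 0, 0, 100000, 0, 0, 0, 0, 0, ⟨0, 0⟩, 0⟩ 0 0))) (.cut .d 1302979 (.pos 155 .pm ⟨0, 109929544, 0, 0, 0, 0, 0, 0, 0, ⟨0, 0⟩, 0⟩ 0 0) (.pos 155 .pm ⟨0, 123644235, 0, 0, 0, 0, 0, 0, 0, ⟨0, 0⟩, 0⟩ 0 0))) (.pos 132 .pm ⟨0, 610637996, 0, 0, 0, 0, 0, 0, 0, ⟨0, 0⟩, 0⟩ 0 0))) (.cut .s 15593472 (.pos 133 .pm ⟨0, 131004874, 0,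 0, 0, 0, 0, 0, 0, ⟨0, 0⟩, 0⟩ 0 0) (.pos 133 .pm ⟨0, 157476213, 0, 0, 0, 0, 0, 0, 0, ⟨0, 0⟩, 0⟩ 0 0))) (.cut .v 1572864 (.cut .v 1310720 (.pos 154 .pm ⟨0, 161570677, 0, 0, 0, 0, 0, 0, 0, ⟨0, 0⟩, 0⟩ 0 0) (.pos 155 .pm ⟨0, 184235967, 0, 0, 0, 0, 0, 0, 0, ⟨0, 0⟩, 0⟩ 0 0)) (.pos 133 .pm ⟨0, 211630955, 0, 0, 0, 0, 0, 0, 0, ⟨0, 0⟩, 0⟩ 0 0))))))) (.cut .d 672505 (.pos 74 .pm ⟨0, 0, 694060390, 0, 0, 0, 0, 0, 0, ⟨0, 0⟩, 0⟩ 0 0) (.cut .d 1008758 (.pos 74 .pm ⟨0, 0, 0, 0, 0, 0, 0, 0, 0, ⟨0, 0⟩, 0⟩ 0 0) (.cut .s 15654912 (.pos 74 .pm ⟨0, 158161723, 0, 0, 0, 0, 0, 0, 0, ⟨0, 0⟩, 0⟩ 0 0) (.pos 74 .pm ⟨0, 232072913, 0, 0, 0, 0, 0, 0, 0, ⟨0, 0⟩, 0⟩ 0 0))))) (.cut .d 672505 (.pos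 5 .pm ⟨0, 0, 563142128, 0, 0, 0, 0, 0, 0, ⟨0, 0⟩, 0⟩ 0 0) (.pos 5 .pm ⟨0, 232979795, 0, 0, 0, 0, 0, 0, 0, ⟨0, 0⟩, 0⟩ 0 0))) (.pos 3 .pm ⟨0, 0, 87841830, 0, 0, 0, 0, 0, 0, ⟨0, 0⟩, 0⟩ 0 0)) (.cut .v 268435456 (.cut .d 672505 (.cut .v 67108864 (.cut .v 33554432 (.pos 16 .pp ⟨0, 0, 0, 0, 0, 0, 0, 0, 0, ⟨0, 0⟩, 0⟩ 0 0) (.pos 45 .pp ⟨3546019972, 0, 0, 0, 0, 0, 0, 0, 0, ⟨0, 0⟩, 0⟩ 0 0)) (.cut .v 134217728 (.cut .d 336252 (.pos 59 .pp ⟨26079951648, 0, 0, 0, 0, 0, 0, 0, 0, ⟨0, 0⟩, 0⟩ 0 0) (.pos 59 .pp ⟨0, 3163867654, 0, 0, 0, 0, 0, 0, 0, ⟨0, 0⟩, 0⟩ 0 0)) (.void 60 ⟨0, 0, 0, 100000, 0, 0, 0, 0, 0, ⟨0, 0⟩, 0⟩ 0 0))) (.pos 55 .pp ⟨0, 305533312, 0, 0, 0, 0, 0, 0, 0, ⟨0,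 0⟩, 0⟩ 0 0)) (.void 95 ⟨0, 0, 0, 100000, 0, 0, 0, 0, 0, ⟨0, 0⟩, 0⟩ 0 0)))),
    by decide +kernel⟩

def covers28 : cell.Covers table row28.1 :=
  ⟨(.cut .d 0 (.cut .v 16777216 (.cut .v 8388608 (.void 2 ⟨0, 0, 100000, 0, 0, 0, 0, 0, 0, ⟨0, 0⟩, 0⟩ 0 0) (.cut .d (-8388608) (.void 3 ⟨100000, 0, 0, 0, 0, 0, 0, 0, 0, ⟨0, 0⟩, 0⟩ 0 0) (.cut .d (-4194304) (.void 3 ⟨100000, 0, 0, 0, 0, 0, 0, 0, 0, ⟨0, 0⟩, 0⟩ 0 0) (.cut .d (-2097152) (.void 3 ⟨100000, 0, 0, 0, 0, 0, 0, 0, 0, ⟨0, 0⟩, 0⟩ 0 0) (.pos 3 .mm ⟨0, 0, 417527868, 0, 0, 8511617585, 0, 0, 0, ⟨0, 0⟩, 0⟩ 0 0))))) (.cut .v 268435456 (.cut .v 67108864 (.cut .v 33554432 (.cut .d (-8388608) (.void 16 ⟨100000, 0, 0, 0, 0,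 0, 0, 0, 0, ⟨0, 0⟩, 0⟩ 0 0) (.cut .d (-4194304) (.void 16 ⟨100000, 0, 0, 0, 0, 0, 0, 0, 0, ⟨0, 0⟩, 0⟩ 0 0) (.pos 16 .mp ⟨0, 0, 0, 0, 0, 31013008125, 0, 0, 0, ⟨0, 0⟩, 0⟩ 0 0))) (.void 45 ⟨100000, 0, 0, 0, 0, 0, 0, 0, 0, ⟨0, 0⟩, 0⟩ 0 0)) (.void 56 ⟨100000, 0, 0, 0, 0, 0, 0, 0, 0, ⟨0, 0⟩, 0⟩ 0 0)) (.void 95 ⟨93176, 0, 0, 6824, 0, 0, 0, 0, 0, ⟨0, 0⟩, 0⟩ 0 0))) (.cut .v 16777216 (.cut .v 8388608 (.cut .v 4194304 (.cut .v 2097152 (.cut .d 531367 (.void 73 ⟨0, 0, 100000, 0, 0, 0, 0, 0, 0, ⟨0, 0⟩, 0⟩ 0 0) (.cut .v 1048576 (.cut .v 524288 (.cut .v 262144 (.cut .v 131072 (.pos 164 .pm ⟨0, 0, 5950557, 0, 0, 0, 0, 0, 0, ⟨0, 0⟩, 0⟩ 0 0) (.pos 165 .pm ⟨0, 11676118, 0, 0,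 0, 0, 0, 0, 0, ⟨0, 0⟩, 0⟩ 0 0)) (.cut .d 797050 (.pos 137 .pm ⟨0, 0, 0, 0, 0, 0, 0, 0, 0, ⟨0, 0⟩, 0⟩ 0 0) (.cut .d 929892 (.pos 137 .pm ⟨0, 45123310, 0, 0, 0, 0, 0, 0, 0, ⟨0, 0⟩, 0⟩ 0 0) (.pos 137 .pm ⟨0, 63876524, 0, 0, 0, 0, 0, 0, 0, ⟨0, 0⟩, 0⟩ 0 0)))) (.cut .d 797050 (.pos 131 .pm ⟨0, 0, 0, 0, 0, 0, 0, 0, 0, ⟨0, 0⟩, 0⟩ 0 0) (.cut .d 929892 (.cut .s 15876096 (.pos 131 .pm ⟨0, 0, 0, 0, 0, 0, 0, 0, 0, ⟨0, 0⟩, 0⟩ 0 0) (.cut .v 786432 (.cut .d 863471 (.pos 152 .pm ⟨0, 53747471, 0, 0, 0, 0, 0, 0, 0, ⟨0, 0⟩, 0⟩ 0 0) (.cut .s 15925248 (.pos 152 .pm ⟨0, 66214416, 0, 0, 0, 0, 0, 0, 0, ⟨0, 0⟩, 0⟩ 0 0) (.pos 152 .pm ⟨0, 78291976, 0, 0, 0, 0, 0, 0, 0, ⟨0, 0⟩, 0⟩ 0 0)))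 (.cut .d 863471 (.pos 153 .pm ⟨0, 61159625, 0, 0, 0, 0, 0, 0, 0, ⟨0, 0⟩, 0⟩ 0 0) (.cut .s 15925248 (.pos 153 .pm ⟨0, 73606491, 0, 0, 0, 0, 0, 0, 0, ⟨0, 0⟩, 0⟩ 0 0) (.pos 153 .pm ⟨0, 86820146, 0, 0, 0, 0, 0, 0, 0, ⟨0, 0⟩, 0⟩ 0 0))))) (.cut .s 15876096 (.cut .v 786432 (.cut .d 996313 (.pos 152 .pm ⟨0, 67413293, 0, 0, 0, 0, 0, 0, 0, ⟨0, 0⟩, 0⟩ 0 0) (.pos 152 .pm ⟨0, 82399167, 0, 0, 0, 0, 0, 0, 0, ⟨0, 0⟩, 0⟩ 0 0)) (.cut .d 996313 (.cut .s 15826944 (.pos 153 .pm ⟨0, 0, 0, 0, 0, 0, 0, 0, 0, ⟨0, 0⟩, 0⟩ 0 0) (.pos 153 .pm ⟨0, 80483748, 0, 0, 0, 0, 0, 0, 0, ⟨0, 0⟩, 0⟩ 0 0)) (.cut .s 15826944 (.cut .d 1029523 (.pos 153 .pm ⟨0, 80096362, 0, 0, 0, 0, 0, 0, 0, ⟨0, 0⟩, 0⟩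 0 0) (.pos 153 .pm ⟨0, 91188500, 0, 0, 0, 0, 0, 0, 0, ⟨0, 0⟩, 0⟩ 0 0)) (.pos 153 .pm ⟨0, 105630397, 0, 0, 0, 0, 0, 0, 0, ⟨0, 0⟩, 0⟩ 0 0)))) (.cut .v 786432 (.pos 152 .pm ⟨0, 99732960, 0, 0, 0, 0, 0, 0, 0, ⟨0, 0⟩, 0⟩ 0 0) (.cut .d 996313 (.pos 153 .pm ⟨0, 105255141, 0, 0, 0, 0, 0, 0, 0, ⟨0, 0⟩, 0⟩ 0 0) (.void 153 ⟨0, 0, 0, 100000, 0, 0, 0, 0, 0, ⟨0, 0⟩, 0⟩ 0 0))))))) (.cut .d 797050 (.pos 105 .pm ⟨0, 0, 0, 0, 0, 0, 0, 0, 0, ⟨0, 0⟩, 0⟩ 0 0) (.cut .v 1572864 (.cut .d 929892 (.cut .s 15876096 (.pos 132 .pm ⟨0, 0, 0, 0, 0, 0, 0, 0, 0, ⟨0, 0⟩, 0⟩ 0 0) (.pos 132 .pm ⟨0, 87866480, 0, 0, 0, 0, 0, 0, 0, ⟨0, 0⟩, 0⟩ 0 0)) (.cut .s 15876096 (.cut .s 15826944 (.cut .d 996313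 (.pos 132 .pm ⟨0, 0, 0, 0, 0, 0, 0, 0, 0, ⟨0, 0⟩, 0⟩ 0 0) (.pos 132 .pm ⟨0, 99808170, 0, 0, 0, 0, 0, 0, 0, ⟨0, 0⟩, 0⟩ 0 0)) (.pos 132 .pm ⟨0, 111338926, 0, 0, 0, 0, 0, 0, 0, ⟨0, 0⟩, 0⟩ 0 0)) (.pos 132 .pm ⟨0, 140971919, 0, 0, 0, 0, 0, 0, 0, ⟨0, 0⟩, 0⟩ 0 0))) (.pos 133 .pm ⟨0, 136790355, 0, 0, 0, 0, 0, 0, 0, ⟨0, 0⟩, 0⟩ 0 0))))) (.cut .d 531367 (.pos 74 .pm ⟨0, 0, 1012685892, 0, 0, 0, 0, 0, 0, ⟨0, 0⟩, 0⟩ 0 0) (.pos 74 .pm ⟨0, 120358060, 0, 0, 0, 0, 0, 0, 0, ⟨0, 0⟩, 0⟩ 0 0))) (.pos 5 .pm ⟨0, 0, 30925154, 0, 0, 0, 0, 0, 0, ⟨0, 0⟩, 0⟩ 0 0)) (.pos 3 .pm ⟨0, 0, 200482798, 0, 0, 0, 0, 0, 0, ⟨0, 0⟩, 0⟩ 0 0)) (.cut .v 268435456 (.cut .v 67108864 (.pos 44 .pp ⟨0, 0, 0,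 0, 0, 0, 0, 0, 0, ⟨0, 0⟩, 0⟩ 0 0) (.cut .v 134217728 (.pos 59 .pp ⟨14335447405, 13988458789, 0, 0, 0, 0, 0, 0, 0, ⟨0, 0⟩, 0⟩ 0 0) (.void 60 ⟨0, 0, 0, 100000, 0, 0, 0, 0, 0, ⟨0, 0⟩, 0⟩ 0 0))) (.void 95 ⟨0, 0, 0, 100000, 0, 0, 0, 0, 0, ⟨0, 0⟩, 0⟩ 0 0)))),
    by decide +kernel⟩

def covers29 : cell.Covers table row29.1 :=
  ⟨(.cut .d 0 (.cut .v 16777216 (.cut .v 8388608 (.pos 2 .mm ⟨0, 0, 167772160000, 0, 0, 0, 0, 0, 0, ⟨0, 0⟩, 0⟩ 0 0) (.cut .d (-8388608) (.void 3 ⟨100000, 0, 0, 0, 0, 0, 0, 0, 0, ⟨0, 0⟩, 0⟩ 0 0) (.cut .d (-4194304) (.void 3 ⟨100000, 0, 0, 0, 0, 0, 0, 0, 0, ⟨0, 0⟩, 0⟩ 0 0) (.pos 3 .mm ⟨0, 0, 727585842, 0, 0, 18721857011, 0, 0, 0, ⟨0, 0⟩, 0⟩ 0 0))))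 (.cut .v 268435456 (.cut .v 67108864 (.cut .v 33554432 (.cut .d (-8388608) (.void 16 ⟨100000, 0, 0, 0, 0, 0, 0, 0, 0, ⟨0, 0⟩, 0⟩ 0 0) (.cut .d (-4194304) (.void 16 ⟨100000, 0, 0, 0, 0, 0, 0, 0, 0, ⟨0, 0⟩, 0⟩ 0 0) (.pos 16 .mp ⟨0, 0, 0, 0, 0, 40538134392, 0, 0, 0, ⟨0, 0⟩, 0⟩ 0 0))) (.void 45 ⟨100000, 0, 0, 0, 0, 0, 0, 0, 0, ⟨0, 0⟩, 0⟩ 0 0)) (.void 56 ⟨100000, 0, 0, 0, 0, 0, 0, 0, 0, ⟨0, 0⟩, 0⟩ 0 0)) (.void 95 ⟨93110, 0, 0, 6890, 0, 0, 0, 0, 0, ⟨0, 0⟩, 0⟩ 0 0))) (.cut .v 16777216 (.cut .v 8388608 (.cut .v 4194304 (.cut .v 2097152 (.cut .d 421582 (.void 73 ⟨0, 0, 100000, 0, 0, 0, 0, 0, 0, ⟨0, 0⟩, 0⟩ 0 0) (.cut .v 1048576 (.cut .v 524288 (.cut .v 262144 (.cut .v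 131072 (.cut .v 65536 (.pos 172 .pm ⟨0, 0, 10583062, 0, 0, 0, 0, 0, 0, ⟨0, 0⟩, 0⟩ 0 0) (.pos 173 .pm ⟨0, 0, 2739725, 0, 0, 0, 0, 0, 0, ⟨0, 0⟩, 0⟩ 0 0)) (.pos 165 .pm ⟨0, 8931498, 0, 0, 0, 0, 0, 0, 0, ⟨0, 0⟩, 0⟩ 0 0)) (.cut .d 632373 (.pos 137 .pm ⟨0, 0, 0, 0, 0, 0, 0, 0, 0, ⟨0, 0⟩, 0⟩ 0 0) (.cut .d 737769 (.cut .d 685071 (.pos 137 .pm ⟨0, 33903983, 0, 0, 0, 0, 0, 0, 0, ⟨0, 0⟩, 0⟩ 0 0) (.pos 137 .pm ⟨0, 42572505, 0, 0, 0, 0, 0, 0, 0, ⟨0, 0⟩, 0⟩ 0 0)) (.pos 137 .pm ⟨0, 55531167, 0, 0, 0, 0, 0, 0, 0, ⟨0, 0⟩, 0⟩ 0 0)))) (.cut .d 632373 (.pos 131 .pm ⟨0, 0, 0, 0, 0, 0, 0, 0, 0, ⟨0, 0⟩, 0⟩ 0 0) (.cut .d 737769 (.cut .v 786432 (.cut .d 685071 (.pos 152 .pm ⟨0, 36381228,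 0, 0, 0, 0, 0, 0, 0, ⟨0, 0⟩, 0⟩ 0 0) (.cut .v 655360 (.cut .s 16056320 (.pos 170 .pm ⟨0, 0, 0, 0, 0, 0, 0, 0, 0, ⟨0, 0⟩, 0⟩ 0 0) (.pos 170 .pm ⟨0, 48155615, 0, 0, 0, 0, 0, 0, 0, ⟨0, 0⟩, 0⟩ 0 0)) (.pos 171 .pm ⟨0, 46974062, 0, 0, 0, 0, 0, 0, 0, ⟨0, 0⟩, 0⟩ 0 0))) (.pos 153 .pm ⟨0, 46678827, 0, 0, 0, 0, 0, 0, 0, ⟨0, 0⟩, 0⟩ 0 0)) (.cut .v 786432 (.cut .s 16056320 (.cut .d 790467 (.cut .v 655360 (.pos 170 .pm ⟨0, 50936470, 0, 0, 0, 0, 0, 0, 0, ⟨0, 0⟩, 0⟩ 0 0) (.pos 171 .pm ⟨0, 53748652, 0, 0, 0, 0, 0, 0, 0, ⟨0, 0⟩, 0⟩ 0 0)) (.cut .v 655360 (.pos 170 .pm ⟨0, 63624307, 0, 0, 0, 0, 0, 0, 0, ⟨0, 0⟩, 0⟩ 0 0) (.pos 171 .pm ⟨0, 68151595, 0, 0, 0, 0, 0, 0, 0, ⟨0, 0⟩, 0⟩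 0 0))) (.cut .v 655360 (.pos 170 .pm ⟨0, 71777363, 0, 0, 0, 0, 0, 0, 0, ⟨0, 0⟩, 0⟩ 0 0) (.pos 171 .pm ⟨0, 79177810, 0, 0, 0, 0, 0, 0, 0, ⟨0, 0⟩, 0⟩ 0 0))) (.cut .d 790467 (.pos 153 .pm ⟨0, 63926838, 0, 0, 0, 0, 0, 0, 0, ⟨0, 0⟩, 0⟩ 0 0) (.pos 153 .pm ⟨0, 80541377, 0, 0, 0, 0, 0, 0, 0, ⟨0, 0⟩, 0⟩ 0 0)))))) (.cut .d 632373 (.pos 105 .pm ⟨0, 0, 0, 0, 0, 0, 0, 0, 0, ⟨0, 0⟩, 0⟩ 0 0) (.pos 105 .pm ⟨0, 79940411, 0, 0, 0, 0, 0, 0, 0, ⟨0, 0⟩, 0⟩ 0 0)))) (.pos 74 .pm ⟨0, 0, 35492505, 0, 0, 0, 0, 0, 0, ⟨0, 0⟩, 0⟩ 0 0)) (.pos 5 .pm ⟨0, 0, 110032043, 0, 0, 0, 0, 0, 0, ⟨0, 0⟩, 0⟩ 0 0)) (.pos 3 .pm ⟨0, 0, 391576142, 0, 0, 0, 0, 0, 0, ⟨0, 0⟩, 0⟩ 0 0)) (.cut .v 268435456 (.cut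 .v 67108864 (.pos 44 .pp ⟨0, 0, 0, 0, 0, 0, 0, 0, 0, ⟨0, 0⟩, 0⟩ 0 0) (.pos 56 .pp ⟨27312313357, 37769085248, 0, 0, 0, 0, 0, 0, 0, ⟨0, 0⟩, 0⟩ 0 0)) (.void 95 ⟨0, 0, 0, 100000, 0, 0, 0, 0, 0, ⟨0, 0⟩, 0⟩ 0 0)))),
    by decide +kernel⟩

def covers30 : cell.Covers table row30.1 :=
  ⟨(.cut .d 0 (.cut .v 16777216 (.cut .v 8388608 (.void 2 ⟨0, 0, 136549, 0, 0, 0, 0, 0, 0, ⟨0, 0⟩, 0⟩ 0 0) (.cut .d (-8388608) (.pos 3 .mm ⟨73598656403, 0, 0, 0, 0, 94173503597, 0, 0, 0, ⟨0, 0⟩, 0⟩ 0 0) (.cut .d (-4194304) (.void 3 ⟨100000, 0, 0, 0, 0, 0, 0, 0, 0, ⟨0, 0⟩, 0⟩ 0 0) (.pos 3 .mm ⟨0, 0, 1174321725, 0, 0, 24439993993, 0, 0, 0, ⟨0, 0⟩, 0⟩ 0 0)))) (.cut .v 268435456 (.cut .v 67108864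 (.cut .d (-8388608) (.void 44 ⟨100000, 0, 0, 0, 0, 0, 0, 0, 0, ⟨0, 0⟩, 0⟩ 0 0) (.cut .v 33554432 (.pos 16 .mp ⟨0, 0, 0, 0, 0, 94870015659, 0, 0, 0, ⟨0, 0⟩, 0⟩ 0 0) (.void 45 ⟨100000, 0, 0, 0, 0, 0, 0, 0, 0, ⟨0, 0⟩, 0⟩ 0 0))) (.void 56 ⟨100000, 0, 0, 0, 0, 0, 0, 0, 0, ⟨0, 0⟩, 0⟩ 0 0)) (.void 95 ⟨93058, 0, 0, 6942, 0, 0, 0, 0, 0, ⟨0, 0⟩, 0⟩ 0 0))) (.cut .v 16777216 (.cut .v 8388608 (.cut .v 4194304 (.cut .v 2097152 (.cut .v 1048576 (.cut .d 332139 (.void 104 ⟨0, 0, 100000, 0, 0, 0, 0, 0, 0, ⟨0, 0⟩, 0⟩ 0 0) (.cut .v 524288 (.cut .v 262144 (.cut .v 131072 (.cut .v 65536 (.pos 172 .pm ⟨0, 0, 11871766, 0, 0, 0, 0, 0, 0, ⟨0, 0⟩, 0⟩ 0 0) (.pos 173 .pm ⟨0, 0, 7146439,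 0, 0, 0, 0, 0, 0, ⟨0, 0⟩, 0⟩ 0 0)) (.pos 165 .pm ⟨0, 0, 5714129, 0, 0, 0, 0, 0, 0, ⟨0, 0⟩, 0⟩ 0 0)) (.pos 137 .pm ⟨0, 0, 997919, 0, 0, 0, 0, 0, 0, ⟨0, 0⟩, 0⟩ 0 0)) (.cut .v 786432 (.pos 152 .pm ⟨0, 2241725, 0, 0, 0, 0, 0, 0, 0, ⟨0, 0⟩, 0⟩ 0 0) (.pos 153 .pm ⟨0, 8599900, 0, 0, 0, 0, 0, 0, 0, ⟨0, 0⟩, 0⟩ 0 0)))) (.pos 105 .pm ⟨0, 0, 65098826, 0, 0, 0, 0, 0, 0, ⟨0, 0⟩, 0⟩ 0 0)) (.pos 74 .pm ⟨0, 0, 115461193, 0, 0, 0, 0, 0, 0, ⟨0, 0⟩, 0⟩ 0 0)) (.pos 5 .pm ⟨0, 0, 246804309, 0, 0, 0, 0, 0, 0, ⟨0, 0⟩, 0⟩ 0 0)) (.pos 3 .pm ⟨0, 0, 598136495, 0, 0, 0, 0, 0, 0, ⟨0, 0⟩, 0⟩ 0 0)) (.cut .v 268435456 (.cut .v 67108864 (.pos 44 .pp ⟨0, 0, 0, 0, 0, 0, 0, 0, 0, ⟨0, 0⟩, 0⟩ 0 0)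 (.pos 56 .pp ⟨28663449706, 38308038986, 0, 0, 0, 0, 0, 0, 0, ⟨0, 0⟩, 0⟩ 0 0)) (.void 95 ⟨0, 0, 0, 100000, 0, 0, 0, 0, 0, ⟨0, 0⟩, 0⟩ 0 0)))),
    by decide +kernel⟩

def covers31 : cell.Covers table row31.1 :=
  ⟨(.cut .d 0 (.cut .v 16777216 (.cut .v 8388608 (.void 2 ⟨0, 0, 100000, 0, 0, 0, 0, 0, 0, ⟨0, 0⟩, 0⟩ 0 0) (.cut .d (-8388608) (.void 3 ⟨100000, 0, 0, 0, 0, 0, 0, 0, 0, ⟨0, 0⟩, 0⟩ 0 0) (.pos 3 .mm ⟨0, 0, 2156930673, 0, 0, 58331820875, 0, 0, 0, ⟨0, 0⟩, 0⟩ 0 0))) (.cut .v 4294967296 (.cut .v 268435456 (.cut .v 67108864 (.cut .d (-8388608) (.void 44 ⟨100000, 0, 0, 0, 0, 0, 0, 0, 0, ⟨0, 0⟩, 0⟩ 0 0) (.cut .d (-4194304) (.void 44 ⟨100000, 0, 0, 0, 0, 0, 0, 0,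 0, ⟨0, 0⟩, 0⟩ 0 0) (.pos 44 .mp ⟨0, 0, 0, 0, 0, 144215556713, 0, 0, 0, ⟨0, 0⟩, 0⟩ 0 0))) (.void 56 ⟨100000, 0, 0, 0, 0, 0, 0, 0, 0, ⟨0, 0⟩, 0⟩ 0 0)) (.void 95 ⟨97768, 0, 0, 6391, 0, 0, 0, 0, 0, ⟨0, 0⟩, 0⟩ 0 0)) (.void 178 ⟨93019, 0, 0, 6981, 0, 0, 0, 0, 0, ⟨0, 0⟩, 0⟩ 0 0))) (.cut .v 16777216 (.cut .v 8388608 (.cut .v 4194304 (.cut .v 2097152 (.cut .v 1048576 (.cut .v 524288 (.cut .v 262144 (.cut .v 131072 (.cut .v 65536 (.cut .v 32768 (.pos 179 .pm ⟨0, 0, 16209291, 0, 0, 0, 0, 0, 0, ⟨0, 0⟩, 0⟩ 0 0) (.pos 180 .pm ⟨0, 0, 21325691, 0, 0, 0, 0, 0, 0, ⟨0, 0⟩, 0⟩ 0 0)) (.pos 173 .pm ⟨0, 0, 29025689, 0, 0, 0, 0, 0, 0, ⟨0, 0⟩, 0⟩ 0 0)) (.pos 165 .pm ⟨0, 0, 43288446,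 0, 0, 0, 0, 0, 0, ⟨0, 0⟩, 0⟩ 0 0)) (.pos 137 .pm ⟨0, 0, 59582985, 0, 0, 0, 0, 0, 0, ⟨0, 0⟩, 0⟩ 0 0)) (.pos 131 .pm ⟨0, 0, 82341136, 0, 0, 0, 0, 0, 0, ⟨0, 0⟩, 0⟩ 0 0)) (.pos 105 .pm ⟨0, 0, 140108058, 0, 0, 0, 0, 0, 0, ⟨0, 0⟩, 0⟩ 0 0)) (.pos 74 .pm ⟨0, 0, 244555628, 0, 0, 0, 0, 0, 0, ⟨0, 0⟩, 0⟩ 0 0)) (.pos 5 .pm ⟨0, 0, 441015002, 0, 0, 0, 0, 0, 0, ⟨0, 0⟩, 0⟩ 0 0)) (.pos 3 .pm ⟨0, 0, 973754336, 0, 0, 0, 0, 0, 0, ⟨0, 0⟩, 0⟩ 0 0)) (.cut .v 4294967296 (.cut .v 268435456 (.cut .v 67108864 (.pos 44 .pp ⟨0, 0, 0, 0, 0, 0, 0, 0, 0, ⟨0, 0⟩, 0⟩ 0 0) (.pos 56 .pp ⟨33140491121, 43724247175, 0, 0, 0, 0, 0, 0, 0, ⟨0, 0⟩, 0⟩ 0 0)) (.void 95 ⟨0, 0, 0, 100000, 0, 0, 0, 0, 0, ⟨0,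 0⟩, 0⟩ 0 0)) (.void 178 ⟨0, 0, 0, 100000, 0, 0, 0, 0, 0, ⟨0, 0⟩, 0⟩ 0 0)))),
    by decide +kernel⟩

def covers32 : cell.Covers table row32.1 :=
  ⟨(.cut .d 0 (.cut .v 16777216 (.cut .v 8388608 (.void 2 ⟨0, 0, 100000, 0, 0, 0, 0, 0, 0, ⟨0, 0⟩, 0⟩ 0 0) (.pos 3 .mm ⟨0, 0, 3952892757, 0, 0, 145885240955, 0, 0, 0, ⟨0, 0⟩, 0⟩ 0 0)) (.cut .v 4294967296 (.cut .d (-8388608) (.void 94 ⟨100000, 0, 0, 0, 0, 0, 0, 0, 0, ⟨0, 0⟩, 0⟩ 0 0) (.cut .v 268435456 (.cut .v 67108864 (.cut .d (-4194304) (.void 44 ⟨100000, 0, 0, 0, 0, 0, 0, 0, 0, ⟨0, 0⟩, 0⟩ 0 0) (.pos 44 .mp ⟨24947098817, 0, 0, 0, 0, 142825061183, 0, 0, 0, ⟨0, 0⟩, 0⟩ 0 0)) (.void 56 ⟨100000, 0, 0, 0, 0, 0, 0, 0, 0,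 ⟨0, 0⟩, 0⟩ 0 0)) (.void 95 ⟨89837, 0, 0, 10163, 0, 0, 0, 0, 0, ⟨0, 0⟩, 0⟩ 0 0))) (.void 178 ⟨92987, 0, 0, 7013, 0, 0, 0, 0, 0, ⟨0, 0⟩, 0⟩ 0 0))) (.cut .v 16777216 (.cut .v 8388608 (.cut .v 4194304 (.cut .v 2097152 (.cut .v 1048576 (.cut .v 524288 (.cut .d 209926 (.pos 130 .pm ⟨0, 0, 167772160000, 0, 0, 0, 0, 0, 0, ⟨0, 0⟩, 0⟩ 0 0) (.cut .v 262144 (.cut .v 131072 (.cut .v 65536 (.cut .v 32768 (.pos 179 .pm ⟨0, 0, 16790078, 0, 0, 0, 0, 0, 0, ⟨0, 0⟩, 0⟩ 0 0) (.pos 180 .pm ⟨0, 0, 22622278, 0, 0, 0, 0, 0, 0, ⟨0, 0⟩, 0⟩ 0 0)) (.pos 173 .pm ⟨0, 0, 31396711, 0, 0, 0, 0, 0, 0, ⟨0, 0⟩, 0⟩ 0 0)) (.pos 165 .pm ⟨0, 0, 38640573, 0, 0, 0, 0, 0, 0, ⟨0, 0⟩, 0⟩ 0 0)) (.pos 137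 .pm ⟨0, 0, 50775521, 0, 0, 0, 0, 0, 0, ⟨0, 0⟩, 0⟩ 0 0))) (.pos 131 .pm ⟨0, 0, 155439816, 0, 0, 0, 0, 0, 0, ⟨0, 0⟩, 0⟩ 0 0)) (.pos 105 .pm ⟨0, 0, 256363067, 0, 0, 0, 0, 0, 0, ⟨0, 0⟩, 0⟩ 0 0)) (.pos 74 .pm ⟨0, 0, 483521673, 0, 0, 0, 0, 0, 0, ⟨0, 0⟩, 0⟩ 0 0)) (.pos 5 .pm ⟨0, 0, 922999124, 0, 0, 0, 0, 0, 0, ⟨0, 0⟩, 0⟩ 0 0)) (.pos 3 .pm ⟨0, 0, 1689651500, 0, 0, 0, 0, 0, 0, ⟨0, 0⟩, 0⟩ 0 0)) (.cut .v 4294967296 (.cut .v 268435456 (.cut .v 67108864 (.pos 44 .pp ⟨0, 0, 0, 0, 0, 0, 0, 0, 0, ⟨0, 0⟩, 0⟩ 0 0) (.pos 56 .pp ⟨47974565135, 67876872819, 0, 0, 0, 0, 0, 0, 0, ⟨0, 0⟩, 0⟩ 0 0)) (.void 95 ⟨0, 0, 0, 100000, 0, 0, 0, 0, 0, ⟨0, 0⟩, 0⟩ 0 0)) (.void 178 ⟨0, 0, 0, 100000,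 0, 0, 0, 0, 0, ⟨0, 0⟩, 0⟩ 0 0)))),
    by decide +kernel⟩

def covers33 : cell.Covers table row33.1 :=
  ⟨(.cut .d 0 (.cut .v 16777216 (.cut .v 8388608 (.void 2 ⟨0, 0, 134920, 0, 0, 0, 0, 0, 0, ⟨0, 0⟩, 0⟩ 0 0) (.cut .d (-8388608) (.void 3 ⟨71711, 0, 0, 0, 0, 0, 0, 0, 0, ⟨0, 0⟩, 0⟩ 0 0) (.pos 3 .mm ⟨0, 0, 4281880561, 0, 0, 98612096508, 0, 0, 0, ⟨0, 0⟩, 0⟩ 0 0))) (.cut .v 4294967296 (.cut .d (-8388608) (.void 94 ⟨100000, 0, 0, 0, 0, 0, 0, 0, 0, ⟨0, 0⟩, 0⟩ 0 0) (.cut .v 268435456 (.cut .v 67108864 (.cut .d (-4194304) (.void 44 ⟨100000, 0, 0, 0, 0, 0, 0, 0, 0, ⟨0, 0⟩, 0⟩ 0 0) (.pos 44 .mp ⟨94205354799, 0, 0, 0, 0, 73566805201, 0, 0, 0, ⟨0, 0⟩, 0⟩ 0 0)) (.void 56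 ⟨100000, 0, 0, 0, 0, 0, 0, 0, 0, ⟨0, 0⟩, 0⟩ 0 0)) (.void 95 ⟨89800, 0, 0, 10200, 0, 0, 0, 0, 0, ⟨0, 0⟩, 0⟩ 0 0))) (.void 178 ⟨92961, 0, 0, 7039, 0, 0, 0, 0, 0, ⟨0, 0⟩, 0⟩ 0 0))) (.cut .v 16777216 (.cut .v 8388608 (.cut .v 4194304 (.cut .v 2097152 (.cut .v 1048576 (.cut .v 524288 (.cut .v 262144 (.cut .v 131072 (.cut .v 65536 (.cut .v 32768 (.pos 179 .pm ⟨0, 0, 19589659, 0, 0, 0, 0, 0, 0, ⟨0, 0⟩, 0⟩ 0 0) (.pos 180 .pm ⟨0, 0, 31883630, 0, 0, 0, 0, 0, 0, ⟨0, 0⟩, 0⟩ 0 0)) (.pos 173 .pm ⟨0, 0, 50350719, 0, 0, 0, 0, 0, 0, ⟨0, 0⟩, 0⟩ 0 0)) (.pos 165 .pm ⟨0, 0, 82671251, 0, 0, 0, 0, 0, 0, ⟨0, 0⟩, 0⟩ 0 0)) (.pos 137 .pm ⟨0, 0, 126583113, 0, 0, 0, 0, 0, 0, ⟨0, 0⟩, 0⟩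 0 0)) (.pos 131 .pm ⟨0, 0, 182183907, 0, 0, 0, 0, 0, 0, ⟨0, 0⟩, 0⟩ 0 0)) (.pos 105 .pm ⟨0, 0, 312267012, 0, 0, 0, 0, 0, 0, ⟨0, 0⟩, 0⟩ 0 0)) (.pos 74 .pm ⟨0, 0, 619318885, 0, 0, 0, 0, 0, 0, ⟨0, 0⟩, 0⟩ 0 0)) (.pos 5 .pm ⟨0, 0, 1258123328, 0, 0, 0, 0, 0, 0, ⟨0, 0⟩, 0⟩ 0 0)) (.pos 3 .pm ⟨0, 0, 2634534996, 0, 0, 0, 0, 0, 0, ⟨0, 0⟩, 0⟩ 0 0)) (.cut .v 4294967296 (.cut .v 268435456 (.cut .v 67108864 (.pos 44 .pp ⟨0, 0, 0, 0, 0, 0, 0, 0, 0, ⟨0, 0⟩, 0⟩ 0 0) (.pos 56 .pp ⟨52329808954, 67900877448, 0, 0, 0, 0, 0, 0, 0, ⟨0, 0⟩, 0⟩ 0 0)) (.void 95 ⟨0, 0, 0, 100000, 0, 0, 0, 0, 0, ⟨0, 0⟩, 0⟩ 0 0)) (.void 178 ⟨0, 0, 0, 100000, 0, 0, 0, 0, 0, ⟨0, 0⟩, 0⟩ 0 0)))),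
    by decide +kernel⟩

def covers34 : cell.Covers table row34.1 :=
  ⟨(.cut .d 0 (.cut .v 16777216 (.cut .d (-8388608) (.void 1 ⟨0, 0, 0, 0, 0, 1000000000, 0, 0, 0, ⟨0, 0⟩, 0⟩ 0 0) (.cut .v 8388608 (.pos 2 .mm ⟨0, 0, 167772160000, 0, 0, 0, 0, 0, 0, ⟨0, 0⟩, 0⟩ 0 0) (.pos 3 .mm ⟨0, 0, 12624890850, 0, 0, 119554788464, 0, 0, 0, ⟨0, 0⟩, 0⟩ 0 0))) (.cut .v 4294967296 (.cut .v 268435456 (.cut .v 67108864 (.cut .d (-8388608) (.void 44 ⟨100000, 0, 0, 0, 0, 0, 0, 0, 0, ⟨0, 0⟩, 0⟩ 0 0) (.cut .d (-4194304) (.void 44 ⟨100000, 0, 0, 0, 0, 0, 0, 0, 0, ⟨0, 0⟩, 0⟩ 0 0) (.cut .d (-2097152) (.void 44 ⟨100000, 0, 0, 0, 0, 0, 0, 0, 0, ⟨0, 0⟩, 0⟩ 0 0) (.pos 44 .mp ⟨22533708184,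 0, 0, 0, 0, 145238451816, 0, 0, 0, ⟨0, 0⟩, 0⟩ 0 0)))) (.void 56 ⟨100000, 0, 0, 0, 0, 0, 0, 0, 0, ⟨0, 0⟩, 0⟩ 0 0)) (.void 95 ⟨92941, 0, 0, 7059, 0, 0, 0, 0, 0, ⟨0, 0⟩, 0⟩ 0 0)) (.void 178 ⟨92941, 0, 0, 7059, 0, 0, 0, 0, 0, ⟨0, 0⟩, 0⟩ 0 0))) (.cut .v 16777216 (.cut .v 8388608 (.cut .v 4194304 (.cut .v 2097152 (.cut .v 1048576 (.cut .v 524288 (.cut .v 262144 (.cut .v 131072 (.cut .v 65536 (.cut .v 32768 (.pos 179 .pm ⟨0, 0, 24429772, 0, 0, 0, 0, 0, 0, ⟨0, 0⟩, 0⟩ 0 0) (.pos 180 .pm ⟨0, 0, 38512504, 0, 0, 0, 0, 0, 0, ⟨0, 0⟩, 0⟩ 0 0)) (.pos 173 .pm ⟨0, 0, 62012905, 0, 0, 0, 0, 0, 0, ⟨0, 0⟩, 0⟩ 0 0)) (.pos 165 .pm ⟨0, 0, 106719010, 0, 0, 0, 0, 0, 0, ⟨0, 0⟩, 0⟩ 0 0))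 (.pos 137 .pm ⟨0, 0, 193274436, 0, 0, 0, 0, 0, 0, ⟨0, 0⟩, 0⟩ 0 0)) (.pos 131 .pm ⟨0, 0, 360824103, 0, 0, 0, 0, 0, 0, ⟨0, 0⟩, 0⟩ 0 0)) (.pos 105 .pm ⟨0, 0, 669833847, 0, 0, 0, 0, 0, 0, ⟨0, 0⟩, 0⟩ 0 0)) (.pos 74 .pm ⟨0, 0, 1247337984, 0, 0, 0, 0, 0, 0, ⟨0, 0⟩, 0⟩ 0 0)) (.pos 5 .pm ⟨0, 0, 2302247155, 0, 0, 0, 0, 0, 0, ⟨0, 0⟩, 0⟩ 0 0)) (.pos 3 .pm ⟨0, 0, 4353148505, 0, 0, 0, 0, 0, 0, ⟨0, 0⟩, 0⟩ 0 0)) (.cut .v 4294967296 (.cut .v 268435456 (.pos 55 .pp ⟨13206489376, 16974696678, 0, 0, 0, 0, 0, 0, 0, ⟨0, 0⟩, 0⟩ 0 0) (.void 95 ⟨0, 0, 0, 100000, 0, 0, 0, 0, 0, ⟨0, 0⟩, 0⟩ 0 0)) (.void 178 ⟨0, 0, 0, 100000, 0, 0, 0, 0, 0, ⟨0, 0⟩, 0⟩ 0 0)))),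
    by decide +kernel⟩

def covers35 : cell.Covers table row35.1 :=
  ⟨(.cut .d 0 (.cut .v 16777216 (.cut .d (-8388608) (.void 1 ⟨0, 0, 0, 0, 0, 72415, 0, 0, 0, ⟨0, 0⟩, 0⟩ 0 0) (.cut .v 8388608 (.void 2 ⟨0, 0, 100000, 0, 0, 0, 0, 0, 0, ⟨0, 0⟩, 0⟩ 0 0) (.pos 3 .mm ⟨26413143784, 0, 24013732177, 0, 0, 117345284038, 0, 0, 0, ⟨0, 0⟩, 0⟩ 0 0))) (.cut .v 4294967296 (.cut .d (-8388608) (.void 94 ⟨100000, 0, 0, 0, 0, 0, 0, 0, 0, ⟨0, 0⟩, 0⟩ 0 0) (.cut .v 268435456 (.cut .v 67108864 (.cut .d (-4194304) (.void 44 ⟨100000, 0, 0, 0, 0, 0, 0, 0, 0, ⟨0, 0⟩, 0⟩ 0 0) (.cut .d (-2097152) (.void 44 ⟨100000, 0, 0, 0, 0, 0, 0, 0, 0, ⟨0, 0⟩, 0⟩ 0 0) (.pos 44 .mp ⟨111431316879, 0,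 0, 0, 0, 56340843121, 0, 0, 0, ⟨0, 0⟩, 0⟩ 0 0))) (.void 56 ⟨100000, 0, 0, 0, 0, 0, 0, 0, 0, ⟨0, 0⟩, 0⟩ 0 0)) (.void 95 ⟨89746, 0, 0, 10254, 0, 0, 0, 0, 0, ⟨0, 0⟩, 0⟩ 0 0))) (.void 178 ⟨92922, 0, 0, 7078, 0, 0, 0, 0, 0, ⟨0, 0⟩, 0⟩ 0 0))) (.cut .v 16777216 (.cut .v 8388608 (.cut .v 4194304 (.cut .v 2097152 (.cut .v 1048576 (.cut .v 524288 (.cut .v 262144 (.cut .v 131072 (.cut .v 65536 (.cut .v 32768 (.cut .v 16384 (.pos 181 .pm ⟨0, 0, 24511542, 0, 0, 0, 0, 0, 0, ⟨0, 0⟩, 0⟩ 0 0) (.pos 182 .pm ⟨0, 0, 40068999, 0, 0, 0, 0, 0, 0, ⟨0, 0⟩, 0⟩ 0 0)) (.pos 180 .pm ⟨0, 0, 59580569, 0, 0, 0, 0, 0, 0, ⟨0, 0⟩, 0⟩ 0 0)) (.pos 173 .pm ⟨0, 0, 95440722, 0, 0, 0, 0, 0, 0, ⟨0,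 0⟩, 0⟩ 0 0)) (.pos 165 .pm ⟨0, 0, 169792340, 0, 0, 0, 0, 0, 0, ⟨0, 0⟩, 0⟩ 0 0)) (.pos 137 .pm ⟨0, 0, 315749653, 0, 0, 0, 0, 0, 0, ⟨0, 0⟩, 0⟩ 0 0)) (.pos 131 .pm ⟨0, 0, 590809335, 0, 0, 0, 0, 0, 0, ⟨0, 0⟩, 0⟩ 0 0)) (.pos 105 .pm ⟨0, 0, 1097760721, 0, 0, 0, 0, 0, 0, ⟨0, 0⟩, 0⟩ 0 0)) (.pos 74 .pm ⟨0, 0, 2026419190, 0, 0, 0, 0, 0, 0, ⟨0, 0⟩, 0⟩ 0 0)) (.pos 5 .pm ⟨0, 0, 3665923603, 0, 0, 0, 0, 0, 0, ⟨0, 0⟩, 0⟩ 0 0)) (.pos 3 .pm ⟨0, 0, 6820669407, 0, 0, 0, 0, 0, 0, ⟨0, 0⟩, 0⟩ 0 0)) (.cut .v 4294967296 (.cut .v 268435456 (.cut .v 67108864 (.pos 44 .pp ⟨0, 0, 0, 0, 0, 0, 0, 0, 0, ⟨0, 0⟩, 0⟩ 0 0) (.pos 56 .pp ⟨117293250800, 41079308822, 0, 9399600378, 0, 0, 0, 0, 0,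 ⟨0, 0⟩, 0⟩ 0 0)) (.void 95 ⟨0, 0, 0, 100000, 0, 0, 0, 0, 0, ⟨0, 0⟩, 0⟩ 0 0)) (.void 178 ⟨0, 0, 0, 100000, 0, 0, 0, 0, 0, ⟨0, 0⟩, 0⟩ 0 0)))),
    by decide +kernel⟩

def covers36 : cell.Covers table row36.1 :=
  ⟨(.cut .d 0 (.cut .v 16777216 (.cut .d (-8388608) (.void 1 ⟨0, 0, 0, 0, 0, 99998, 0, 0, 0, ⟨0, 0⟩, 0⟩ 0 0) (.cut .v 8388608 (.void 2 ⟨0, 0, 100000, 0, 0, 0, 0, 0, 0, ⟨0, 0⟩, 0⟩ 0 0) (.cut .d (-4194304) (.void 3 ⟨100000, 0, 0, 0, 0, 0, 0, 0, 0, ⟨0, 0⟩, 0⟩ 0 0) (.pos 3 .mm ⟨0, 0, 12100185866, 0, 0, 126177113220, 0, 0, 0, ⟨0, 0⟩, 0⟩ 0 0)))) (.cut .v 4294967296 (.cut .v 268435456 (.cut .v 67108864 (.cut .d (-8388608) (.void 44 ⟨100000, 0, 0, 0, 0, 0, 0, 0,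 0, ⟨0, 0⟩, 0⟩ 0 0) (.cut .d (-4194304) (.void 44 ⟨100000, 0, 0, 0, 0, 0, 0, 0, 0, ⟨0, 0⟩, 0⟩ 0 0) (.cut .v 33554432 (.pos 16 .mp ⟨148358634529, 0, 0, 0, 0, 19413525471, 0, 0, 0, ⟨0, 0⟩, 0⟩ 0 0) (.void 45 ⟨100000, 0, 0, 0, 0, 0, 0, 0, 0, ⟨0, 0⟩, 0⟩ 0 0)))) (.void 56 ⟨100000, 0, 0, 0, 0, 0, 0, 0, 0, ⟨0, 0⟩, 0⟩ 0 0)) (.void 95 ⟨92908, 0, 0, 7092, 0, 0, 0, 0, 0, ⟨0, 0⟩, 0⟩ 0 0)) (.void 178 ⟨92909, 0, 0, 7091, 0, 0, 0, 0, 0, ⟨0, 0⟩, 0⟩ 0 0))) (.cut .v 16777216 (.cut .v 8388608 (.cut .v 4194304 (.cut .v 2097152 (.cut .v 1048576 (.cut .v 524288 (.cut .v 262144 (.cut .d 82729 (.pos 136 .pm ⟨0, 0, 167772160000, 0, 0, 0, 0, 0, 0, ⟨0, 0⟩, 0⟩ 0 0) (.cut .v 131072 (.cut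 .v 65536 (.cut .v 32768 (.cut .v 16384 (.cut .v 8192 (.pos 183 .pm ⟨0, 0, 24519595, 0, 0, 0, 0, 0, 0, ⟨0, 0⟩, 0⟩ 0 0) (.pos 184 .pm ⟨0, 0, 46594757, 0, 0, 0, 0, 0, 0, ⟨0, 0⟩, 0⟩ 0 0)) (.pos 182 .pm ⟨0, 0, 75785063, 0, 0, 0, 0, 0, 0, ⟨0, 0⟩, 0⟩ 0 0)) (.pos 180 .pm ⟨0, 0, 119757521, 0, 0, 0, 0, 0, 0, ⟨0, 0⟩, 0⟩ 0 0)) (.pos 173 .pm ⟨0, 0, 180269118, 0, 0, 0, 0, 0, 0, ⟨0, 0⟩, 0⟩ 0 0)) (.pos 165 .pm ⟨0, 0, 292407016, 0, 0, 0, 0, 0, 0, ⟨0, 0⟩, 0⟩ 0 0))) (.pos 137 .pm ⟨0, 0, 748347122, 0, 0, 0, 0, 0, 0, ⟨0, 0⟩, 0⟩ 0 0)) (.pos 131 .pm ⟨0, 0, 1293330175, 0, 0, 0, 0, 0, 0, ⟨0, 0⟩, 0⟩ 0 0)) (.pos 105 .pm ⟨0, 0, 2352431968, 0, 0, 0, 0, 0, 0, ⟨0, 0⟩, 0⟩ 0 0)) (.pos 74 .pm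 ⟨0, 0, 4544743481, 0, 0, 0, 0, 0, 0, ⟨0, 0⟩, 0⟩ 0 0)) (.pos 5 .pm ⟨0, 0, 9124953023, 0, 0, 0, 0, 0, 0, ⟨0, 0⟩, 0⟩ 0 0)) (.pos 3 .pm ⟨0, 0, 12100185866, 0, 0, 0, 0, 0, 0, ⟨0, 0⟩, 0⟩ 0 0)) (.cut .v 4294967296 (.cut .v 268435456 (.cut .v 67108864 (.pos 44 .pp ⟨0, 0, 0, 0, 0, 0, 0, 0, 0, ⟨0, 0⟩, 0⟩ 0 0) (.cut .v 134217728 (.pos 59 .pp ⟨143658158880, 15697653581, 0, 8416347539, 0, 0, 0, 0, 0, ⟨0, 0⟩, 0⟩ 0 0) (.void 60 ⟨0, 0, 0, 100000, 0, 0, 0, 0, 0, ⟨0, 0⟩, 0⟩ 0 0))) (.void 95 ⟨0, 0, 0, 100000, 0, 0, 0, 0, 0, ⟨0, 0⟩, 0⟩ 0 0)) (.void 178 ⟨0, 0, 0, 100000, 0, 0, 0, 0, 0, ⟨0, 0⟩, 0⟩ 0 0)))),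
    by decide +kernel⟩

def covers37 : cell.Covers table row37.1 :=
  ⟨(.cut .d 0 (.cut .v 16777216 (.cut .d (-8388608) (.void 1 ⟨0, 0, 0, 0, 0, 100001, 0, 0, 0, ⟨0, 0⟩, 0⟩ 0 0) (.cut .v 8388608 (.pos 2 .mm ⟨0, 0, 167772160000, 0, 0, 0, 0, 0, 0, ⟨0, 0⟩, 0⟩ 0 0) (.cut .d (-4194304) (.void 3 ⟨100000, 0, 0, 0, 0, 0, 0, 0, 0, ⟨0, 0⟩, 0⟩ 0 0) (.pos 3 .mm ⟨0, 0, 12099959934, 0, 0, 151963797643, 0, 0, 0, ⟨0, 0⟩, 0⟩ 0 0)))) (.cut .v 4294967296 (.cut .v 268435456 (.cut .v 67108864 (.cut .d (-8388608) (.void 44 ⟨100000, 0, 0, 0, 0, 0, 0, 0, 0, ⟨0, 0⟩, 0⟩ 0 0) (.cut .d (-4194304) (.void 44 ⟨100000, 0, 0, 0, 0, 0, 0, 0, 0, ⟨0, 0⟩, 0⟩ 0 0) (.cut .v 33554432 (.cut .d (-2097152)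 (.void 16 ⟨100000, 0, 0, 0, 0, 0, 0, 0, 0, ⟨0, 0⟩, 0⟩ 0 0) (.pos 16 .mp ⟨55986158632, 0, 0, 0, 0, 111786001368, 0, 0, 0, ⟨0, 0⟩, 0⟩ 0 0)) (.void 45 ⟨100000, 0, 0, 0, 0, 0, 0, 0, 0, ⟨0, 0⟩, 0⟩ 0 0)))) (.void 56 ⟨100000, 0, 0, 0, 0, 0, 0, 0, 0, ⟨0, 0⟩, 0⟩ 0 0)) (.void 95 ⟨92899, 0, 0, 7101, 0, 0, 0, 0, 0, ⟨0, 0⟩, 0⟩ 0 0)) (.void 178 ⟨92903, 0, 0, 7097, 0, 0, 0, 0, 0, ⟨0, 0⟩, 0⟩ 0 0))) (.cut .v 16777216 (.cut .v 8388608 (.cut .v 4194304 (.cut .v 2097152 (.cut .v 1048576 (.cut .v 524288 (.cut .v 262144 (.cut .v 131072 (.cut .d 66053 (.void 164 ⟨0, 0, 93198, 0, 0, 0, 0, 0, 0, ⟨0, 0⟩, 0⟩ 0 0) (.cut .v 65536 (.cut .v 32768 (.cut .v 16384 (.cut .v 8192 (.pos 183 .pm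 ⟨0, 0, 28259633, 0, 0, 0, 0, 0, 0, ⟨0, 0⟩, 0⟩ 0 0) (.pos 184 .pm ⟨0, 0, 57936229, 0, 0, 0, 0, 0, 0, ⟨0, 0⟩, 0⟩ 0 0)) (.pos 182 .pm ⟨0, 0, 97398348, 0, 0, 0, 0, 0, 0, ⟨0, 0⟩, 0⟩ 0 0)) (.pos 180 .pm ⟨0, 0, 157100684, 0, 0, 0, 0, 0, 0, ⟨0, 0⟩, 0⟩ 0 0)) (.pos 173 .pm ⟨0, 0, 233853709, 0, 0, 0, 0, 0, 0, ⟨0, 0⟩, 0⟩ 0 0))) (.pos 165 .pm ⟨0, 0, 557146913, 0, 0, 0, 0, 0, 0, ⟨0, 0⟩, 0⟩ 0 0)) (.pos 137 .pm ⟨0, 0, 956432965, 0, 0, 0, 0, 0, 0, ⟨0, 0⟩, 0⟩ 0 0)) (.pos 131 .pm ⟨0, 0, 1581975281, 0, 0, 0, 0, 0, 0, ⟨0, 0⟩, 0⟩ 0 0)) (.pos 105 .pm ⟨0, 0, 2761362518, 0, 0, 0, 0, 0, 0, ⟨0, 0⟩, 0⟩ 0 0)) (.pos 74 .pm ⟨0, 0, 5093774269, 0, 0, 0, 0, 0, 0, ⟨0, 0⟩, 0⟩ 0 0)) (.pos 5 .pm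 ⟨0, 0, 9738966760, 0, 0, 0, 0, 0, 0, ⟨0, 0⟩, 0⟩ 0 0)) (.pos 3 .pm ⟨0, 0, 12099959934, 0, 0, 0, 0, 0, 0, ⟨0, 0⟩, 0⟩ 0 0)) (.cut .v 4294967296 (.cut .v 268435456 (.cut .v 67108864 (.pos 44 .pp ⟨0, 0, 0, 0, 0, 0, 0, 0, 0, ⟨0, 0⟩, 0⟩ 0 0) (.cut .v 134217728 (.pos 59 .pp ⟨153384981900, 0, 0, 14387178100, 0, 0, 0, 0, 0, ⟨0, 0⟩, 0⟩ 0 0) (.void 60 ⟨0, 0, 0, 100000, 0, 0, 0, 0, 0, ⟨0, 0⟩, 0⟩ 0 0))) (.void 95 ⟨0, 0, 0, 100000, 0, 0, 0, 0, 0, ⟨0, 0⟩, 0⟩ 0 0)) (.void 178 ⟨0, 0, 0, 100000, 0, 0, 0, 0, 0, ⟨0, 0⟩, 0⟩ 0 0)))),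
    by decide +kernel⟩

def covers38 : cell.Covers table row38.1 :=
  ⟨(.cut .d 0 (.cut .v 16777216 (.cut .d (-8388608) (.void 1 ⟨0, 0, 0, 0, 0, 99998, 0, 0, 0, ⟨0, 0⟩, 0⟩ 0 0) (.cut .d (-4194304) (.void 1 ⟨0, 0, 144133, 0, 0, 0, 0, 0, 0, ⟨0, 0⟩, 0⟩ 0 0) (.cut .v 8388608 (.pos 2 .mm ⟨0, 0, 167772160000, 0, 0, 0, 0, 0, 0, ⟨0, 0⟩, 0⟩ 0 0) (.cut .d (-2097152) (.void 3 ⟨100000, 0, 0, 0, 0, 0, 0, 0, 0, ⟨0, 0⟩, 0⟩ 0 0) (.pos 3 .mm ⟨8400706520, 0, 17322185004, 0, 0, 142049268476, 0, 0, 0, ⟨0, 0⟩, 0⟩ 0 0))))) (.cut .v 4294967296 (.cut .v 268435456 (.cut .v 67108864 (.cut .d (-8388608) (.void 44 ⟨100000, 0, 0, 0, 0, 0, 0, 0, 0, ⟨0, 0⟩, 0⟩ 0 0) (.cut .d (-4194304) (.void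 44 ⟨100000, 0, 0, 0, 0, 0, 0, 0, 0, ⟨0, 0⟩, 0⟩ 0 0) (.cut .d (-2097152) (.void 44 ⟨100000, 0, 0, 0, 0, 0, 0, 0, 0, ⟨0, 0⟩, 0⟩ 0 0) (.cut .v 33554432 (.cut .d (-1048576) (.void 16 ⟨100000, 0, 0, 0, 0, 0, 0, 0, 0, ⟨0, 0⟩, 0⟩ 0 0) (.pos 16 .mp ⟨107407491002, 0, 0, 0, 0, 60364668998, 0, 0, 0, ⟨0, 0⟩, 0⟩ 0 0)) (.void 45 ⟨100000, 0, 0, 0, 0, 0, 0, 0, 0, ⟨0, 0⟩, 0⟩ 0 0))))) (.void 56 ⟨100000, 0, 0, 0, 0, 0, 0, 0, 0, ⟨0, 0⟩, 0⟩ 0 0)) (.void 95 ⟨92894, 0, 0, 7106, 0, 0, 0, 0, 0, ⟨0, 0⟩, 0⟩ 0 0)) (.void 178 ⟨92890, 0, 0, 7110, 0, 0, 0, 0, 0, ⟨0, 0⟩, 0⟩ 0 0))) (.cut .v 16777216 (.cut .v 8388608 (.cut .v 4194304 (.cut .v 2097152 (.cut .v 1048576 (.cut .v 524288 (.cut .v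 262144 (.cut .v 131072 (.cut .d 57740 (.pos 164 .pm ⟨0, 0, 167772160000, 0, 0, 0, 0, 0, 0, ⟨0, 0⟩, 0⟩ 0 0) (.cut .v 65536 (.cut .v 32768 (.cut .v 16384 (.cut .v 8192 (.cut .v 4096 (.pos 185 .pm ⟨0, 0, 27555870, 0, 0, 0, 0, 0, 0, ⟨0, 0⟩, 0⟩ 0 0) (.pos 186 .pm ⟨0, 0, 50908418, 0, 0, 0, 0, 0, 0, ⟨0, 0⟩, 0⟩ 0 0)) (.pos 184 .pm ⟨0, 0, 79711628, 0, 0, 0, 0, 0, 0, ⟨0, 0⟩, 0⟩ 0 0)) (.pos 182 .pm ⟨0, 0, 121688649, 0, 0, 0, 0, 0, 0, ⟨0, 0⟩, 0⟩ 0 0)) (.cut .s 16678912 (.pos 180 .pm ⟨0, 0, 187489914, 0, 0, 0, 0, 0, 0, ⟨0, 0⟩, 0⟩ 0 0) (.pos 180 .pm ⟨0, 0, 194101971, 0, 0, 0, 0, 0, 0, ⟨0, 0⟩, 0⟩ 0 0))) (.pos 173 .pm ⟨0, 0, 285428305, 0, 0, 0, 0, 0, 0, ⟨0, 0⟩, 0⟩ 0 0))) (.pos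 165 .pm ⟨0, 0, 860468675, 0, 0, 0, 0, 0, 0, ⟨0, 0⟩, 0⟩ 0 0)) (.pos 137 .pm ⟨0, 0, 1477111662, 0, 0, 0, 0, 0, 0, ⟨0, 0⟩, 0⟩ 0 0)) (.pos 131 .pm ⟨0, 0, 2482600489, 0, 0, 0, 0, 0, 0, ⟨0, 0⟩, 0⟩ 0 0)) (.pos 105 .pm ⟨0, 0, 4261265459, 0, 0, 0, 0, 0, 0, ⟨0, 0⟩, 0⟩ 0 0)) (.pos 74 .pm ⟨0, 0, 7539565133, 0, 0, 0, 0, 0, 0, ⟨0, 0⟩, 0⟩ 0 0)) (.pos 5 .pm ⟨0, 0, 13401120116, 0, 0, 0, 0, 0, 0, ⟨0, 0⟩, 0⟩ 0 0)) (.pos 3 .pm ⟨0, 0, 14811141810, 0, 0, 0, 0, 0, 0, ⟨0, 0⟩, 0⟩ 0 0)) (.cut .v 4294967296 (.cut .v 268435456 (.cut .v 67108864 (.pos 44 .pp ⟨0, 0, 0, 0, 0, 0, 0, 0, 0, ⟨0, 0⟩, 0⟩ 0 0) (.cut .v 134217728 (.cut .v 100663296 (.pos 81 .pp ⟨162736198845, 0, 0, 5035961155, 0,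 0, 0, 0, 0, ⟨0, 0⟩, 0⟩ 0 0) (.void 82 ⟨86684, 0, 0, 13316, 0, 0, 0, 0, 0, ⟨0, 0⟩, 0⟩ 0 0)) (.void 60 ⟨0, 0, 0, 100000, 0, 0, 0, 0, 0, ⟨0, 0⟩, 0⟩ 0 0))) (.void 95 ⟨0, 0, 0, 100000, 0, 0, 0, 0, 0, ⟨0, 0⟩, 0⟩ 0 0)) (.void 178 ⟨0, 0, 0, 100000, 0, 0, 0, 0, 0, ⟨0, 0⟩, 0⟩ 0 0)))),
    by decide +kernel⟩

def covers39 : cell.Covers table row39.1 :=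
  ⟨(.cut .d 0 (.cut .v 16777216 (.cut .v 8388608 (.void 2 ⟨0, 0, 100000, 0, 0, 0, 0, 0, 0, ⟨0, 0⟩, 0⟩ 0 0) (.cut .d (-8388608) (.void 3 ⟨106657, 0, 0, 0, 0, 0, 0, 0, 0, ⟨0, 0⟩, 0⟩ 0 0) (.cut .d (-4194304) (.void 3 ⟨100000, 0, 0, 0, 0, 0, 0, 0, 0, ⟨0, 0⟩, 0⟩ 0 0) (.cut .d (-2097152) (.void 3 ⟨100000, 0, 0, 0, 0, 0, 0, 0, 0, ⟨0, 0⟩, 0⟩ 0 0) (.cut .v 12582912 (.pos 6 .mm ⟨15401841062, 0, 31137853971, 0, 0, 121232464967, 0, 0, 0, ⟨0, 0⟩, 0⟩ 0 0) (.pos 7 .mm ⟨84514732805, 0, 0, 0, 0, 83257427195, 0, 0, 0, ⟨0, 0⟩, 0⟩ 0 0)))))) (.cut .v 4294967296 (.cut .v 268435456 (.cut .v 67108864 (.cut .d (-8388608) (.void 44 ⟨100000, 0, 0, 0, 0, 0, 0, 0, 0, ⟨0, 0⟩, 0⟩ 0 0) (.cut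 .d (-4194304) (.void 44 ⟨100000, 0, 0, 0, 0, 0, 0, 0, 0, ⟨0, 0⟩, 0⟩ 0 0) (.cut .d (-2097152) (.void 44 ⟨100000, 0, 0, 0, 0, 0, 0, 0, 0, ⟨0, 0⟩, 0⟩ 0 0) (.cut .v 33554432 (.cut .d (-1048576) (.void 16 ⟨100000, 0, 0, 0, 0, 0, 0, 0, 0, ⟨0, 0⟩, 0⟩ 0 0) (.cut .d (-524288) (.void 16 ⟨100000, 0, 0, 0, 0, 0, 0, 0, 0, ⟨0, 0⟩, 0⟩ 0 0) (.pos 16 .mp ⟨160820849953, 0, 0, 0, 0, 6951310047, 0, 0, 0, ⟨0, 0⟩, 0⟩ 0 0))) (.void 45 ⟨100000, 0, 0, 0, 0, 0, 0, 0, 0, ⟨0, 0⟩, 0⟩ 0 0))))) (.void 56 ⟨100000, 0, 0, 0, 0, 0, 0, 0, 0, ⟨0, 0⟩, 0⟩ 0 0)) (.void 95 ⟨92883, 0, 0, 7117, 0, 0, 0, 0, 0, ⟨0, 0⟩, 0⟩ 0 0)) (.void 178 ⟨92883, 0, 0, 7117, 0, 0, 0, 0, 0, ⟨0, 0⟩, 0⟩ 0 0))) (.cut .v 16777216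 (.cut .v 8388608 (.cut .v 4194304 (.cut .v 2097152 (.cut .v 1048576 (.cut .v 524288 (.cut .v 262144 (.cut .v 131072 (.cut .v 65536 (.cut .v 32768 (.cut .d 41162 (.pos 179 .pm ⟨0, 0, 167772160000, 0, 0, 0, 0, 0, 0, ⟨0, 0⟩, 0⟩ 0 0) (.cut .v 16384 (.cut .v 8192 (.cut .v 4096 (.pos 185 .pm ⟨0, 0, 35163182, 0, 0, 0, 0, 0, 0, ⟨0, 0⟩, 0⟩ 0 0) (.pos 186 .pm ⟨0, 0, 72095746, 0, 0, 0, 0, 0, 0, ⟨0, 0⟩, 0⟩ 0 0)) (.pos 184 .pm ⟨0, 0, 117236702, 0, 0, 0, 0, 0, 0, ⟨0, 0⟩, 0⟩ 0 0)) (.pos 182 .pm ⟨0, 0, 191334724, 0, 0, 0, 0, 0, 0, ⟨0, 0⟩, 0⟩ 0 0))) (.pos 180 .pm ⟨0, 0, 431310061, 0, 0, 0, 0, 0, 0, ⟨0, 0⟩, 0⟩ 0 0)) (.pos 173 .pm ⟨0, 0, 770286361, 0, 0, 0, 0, 0, 0, ⟨0, 0⟩, 0⟩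 0 0)) (.pos 165 .pm ⟨0, 0, 1367347637, 0, 0, 0, 0, 0, 0, ⟨0, 0⟩, 0⟩ 0 0)) (.pos 137 .pm ⟨0, 0, 2398960656, 0, 0, 0, 0, 0, 0, ⟨0, 0⟩, 0⟩ 0 0)) (.pos 131 .pm ⟨0, 0, 4061587732, 0, 0, 0, 0, 0, 0, ⟨0, 0⟩, 0⟩ 0 0)) (.pos 105 .pm ⟨0, 0, 7263832424, 0, 0, 0, 0, 0, 0, ⟨0, 0⟩, 0⟩ 0 0)) (.pos 74 .pm ⟨0, 0, 13344128552, 0, 0, 0, 0, 0, 0, ⟨0, 0⟩, 0⟩ 0 0)) (.pos 5 .pm ⟨0, 0, 24804447179, 0, 0, 0, 0, 0, 0, ⟨0, 0⟩, 0⟩ 0 0)) (.pos 3 .pm ⟨0, 0, 24634256551, 0, 0, 0, 0, 0, 0, ⟨0, 0⟩, 0⟩ 0 0)) (.cut .v 4294967296 (.cut .v 268435456 (.cut .v 67108864 (.pos 44 .pp ⟨0, 0, 0, 0, 0, 0, 0, 0, 0, ⟨0, 0⟩, 0⟩ 0 0) (.cut .v 134217728 (.cut .v 100663296 (.pos 81 .pp ⟨167772160000, 0, 0,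 0, 0, 0, 0, 0, 0, ⟨0, 0⟩, 0⟩ 0 0) (.void 82 ⟨86684, 0, 0, 13316, 0, 0, 0, 0, 0, ⟨0, 0⟩, 0⟩ 0 0)) (.void 60 ⟨0, 0, 0, 100000, 0, 0, 0, 0, 0, ⟨0, 0⟩, 0⟩ 0 0))) (.void 95 ⟨0, 0, 0, 100000, 0, 0, 0, 0, 0, ⟨0, 0⟩, 0⟩ 0 0)) (.void 178 ⟨0, 0, 0, 100000, 0, 0, 0, 0, 0, ⟨0, 0⟩, 0⟩ 0 0)))),
    by decide +kernel⟩

def covers40 : cell.Covers table row40.1 :=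
  ⟨(.cut .d 0 (.cut .v 16777216 (.cut .d (-8388608) (.void 1 ⟨0, 0, 0, 0, 0, 100000, 0, 0, 0, ⟨0, 0⟩, 0⟩ 0 0) (.cut .d (-4194304) (.void 1 ⟨0, 0, 0, 0, 0, 208385, 0, 0, 0, ⟨0, 0⟩, 0⟩ 0 0) (.cut .d (-2097152) (.void 1 ⟨0, 0, 0, 0, 0, 100000, 0, 0, 0, ⟨0, 0⟩, 0⟩ 0 0) (.cut .v 8388608 (.void 2 ⟨0, 0, 100000, 0, 0, 0, 0, 0, 0, ⟨0, 0⟩, 0⟩ 0 0) (.cut .d (-1048576) (.void 3 ⟨100000, 0, 0, 0, 0, 0, 0, 0, 0, ⟨0, 0⟩, 0⟩ 0 0) (.cut .v 12582912 (.pos 6 .mm ⟨55059105220, 0, 55500371669, 0, 0, 57212683112, 0, 0, 0, ⟨0, 0⟩, 0⟩ 0 0) (.pos 7 .mm ⟨132230461344, 0, 0, 0, 0, 35541698656, 0, 0, 0, ⟨0, 0⟩, 0⟩ 0 0))))))) (.cut .v 4294967296 (.cut .v 268435456 (.cut .v 67108864 (.cut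 .d (-8388608) (.void 44 ⟨100000, 0, 0, 0, 0, 0, 0, 0, 0, ⟨0, 0⟩, 0⟩ 0 0) (.cut .d (-4194304) (.void 44 ⟨100000, 0, 0, 0, 0, 0, 0, 0, 0, ⟨0, 0⟩, 0⟩ 0 0) (.cut .d (-2097152) (.void 44 ⟨100000, 0, 0, 0, 0, 0, 0, 0, 0, ⟨0, 0⟩, 0⟩ 0 0) (.cut .v 33554432 (.cut .d (-1048576) (.void 16 ⟨100000, 0, 0, 0, 0, 0, 0, 0, 0, ⟨0, 0⟩, 0⟩ 0 0) (.cut .d (-524288) (.void 16 ⟨100000, 0, 0, 0, 0, 0, 0, 0, 0, ⟨0, 0⟩, 0⟩ 0 0) (.cut .d (-262144) (.void 16 ⟨100000, 0, 0, 0, 0, 0, 0, 0, 0, ⟨0, 0⟩, 0⟩ 0 0) (.cut .d (-131072) (.void 16 ⟨100000, 0, 0, 0, 0, 0, 0, 0, 0, ⟨0, 0⟩, 0⟩ 0 0) (.pos 16 .mp ⟨140655734838, 0, 0, 0, 0, 27116425162, 0, 0, 0, ⟨0, 0⟩, 0⟩ 0 0))))) (.void 45 ⟨100000, 0,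 0, 0, 0, 0, 0, 0, 0, ⟨0, 0⟩, 0⟩ 0 0))))) (.void 56 ⟨100000, 0, 0, 0, 0, 0, 0, 0, 0, ⟨0, 0⟩, 0⟩ 0 0)) (.void 95 ⟨92877, 0, 0, 7123, 0, 0, 0, 0, 0, ⟨0, 0⟩, 0⟩ 0 0)) (.void 178 ⟨92877, 0, 0, 7123, 0, 0, 0, 0, 0, ⟨0, 0⟩, 0⟩ 0 0))) (.cut .v 16777216 (.cut .v 8388608 (.cut .v 4194304 (.cut .v 2097152 (.cut .v 1048576 (.cut .v 524288 (.cut .v 262144 (.cut .v 131072 (.cut .v 65536 (.cut .v 32768 (.cut .v 16384 (.cut .v 8192 (.cut .v 4096 (.pos 185 .pm ⟨0, 0, 36651629, 0, 0, 0, 0, 0, 0, ⟨0, 0⟩, 0⟩ 0 0) (.pos 186 .pm ⟨0, 0, 79787940, 0, 0, 0, 0, 0, 0, ⟨0, 0⟩, 0⟩ 0 0)) (.pos 184 .pm ⟨0, 0, 144126599, 0, 0, 0, 0, 0, 0, ⟨0, 0⟩, 0⟩ 0 0)) (.pos 182 .pm ⟨0, 0, 260815590, 0,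 0, 0, 0, 0, 0, ⟨0, 0⟩, 0⟩ 0 0)) (.pos 180 .pm ⟨0, 0, 470438125, 0, 0, 0, 0, 0, 0, ⟨0, 0⟩, 0⟩ 0 0)) (.pos 173 .pm ⟨0, 0, 848262474, 0, 0, 0, 0, 0, 0, ⟨0, 0⟩, 0⟩ 0 0)) (.pos 165 .pm ⟨0, 0, 1519420241, 0, 0, 0, 0, 0, 0, ⟨0, 0⟩, 0⟩ 0 0)) (.pos 137 .pm ⟨0, 0, 2695082464, 0, 0, 0, 0, 0, 0, ⟨0, 0⟩, 0⟩ 0 0)) (.pos 131 .pm ⟨0, 0, 4739421286, 0, 0, 0, 0, 0, 0, ⟨0, 0⟩, 0⟩ 0 0)) (.pos 105 .pm ⟨0, 0, 8852958038, 0, 0, 0, 0, 0, 0, ⟨0, 0⟩, 0⟩ 0 0)) (.pos 74 .pm ⟨0, 0, 17354826405, 0, 0, 0, 0, 0, 0, ⟨0, 0⟩, 0⟩ 0 0)) (.pos 5 .pm ⟨0, 0, 35720906411, 0, 0, 0, 0, 0, 0, ⟨0, 0⟩, 0⟩ 0 0)) (.pos 3 .pm ⟨0, 0, 34502239919, 0, 0, 0, 0, 0, 0, ⟨0, 0⟩, 0⟩ 0 0)) (.cut .v 4294967296 (.cut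 .v 268435456 (.cut .v 67108864 (.pos 44 .pp ⟨0, 0, 0, 0, 0, 0, 0, 0, 0, ⟨0, 0⟩, 0⟩ 0 0) (.cut .v 134217728 (.cut .v 100663296 (.pos 81 .pp ⟨167772160000, 0, 0, 0, 0, 0, 0, 0, 0, ⟨0, 0⟩, 0⟩ 0 0) (.void 82 ⟨86678, 0, 0, 13322, 0, 0, 0, 0, 0, ⟨0, 0⟩, 0⟩ 0 0)) (.void 60 ⟨0, 0, 0, 100000, 0, 0, 0, 0, 0, ⟨0, 0⟩, 0⟩ 0 0))) (.void 95 ⟨0, 0, 0, 100000, 0, 0, 0, 0, 0, ⟨0, 0⟩, 0⟩ 0 0)) (.void 178 ⟨0, 0, 0, 100000, 0, 0, 0, 0, 0, ⟨0, 0⟩, 0⟩ 0 0)))),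
    by decide +kernel⟩

def covers41 : cell.Covers table row41.1 :=
  ⟨(.cut .d 0 (.cut .v 16777216 (.cut .d (-8388608) (.void 1 ⟨0, 0, 0, 0, 0, 100000, 0, 0, 0, ⟨0, 0⟩, 0⟩ 0 0) (.cut .v 8388608 (.void 2 ⟨0, 0, 100000, 0, 0, 0, 0, 0, 0, ⟨0, 0⟩, 0⟩ 0 0) (.cut .d (-4194304) (.void 3 ⟨100000, 0, 0, 0, 0, 0, 0, 0, 0, ⟨0, 0⟩, 0⟩ 0 0) (.cut .d (-2097152) (.void 3 ⟨100000, 0, 0, 0, 0, 0, 0, 0, 0, ⟨0, 0⟩, 0⟩ 0 0) (.cut .d (-1048576) (.void 3 ⟨100000, 0, 0, 0, 0, 0, 0, 0, 0, ⟨0, 0⟩, 0⟩ 0 0) (.cut .d (-524288) (.void 3 ⟨100000, 0, 0, 0, 0, 0, 0, 0, 0, ⟨0, 0⟩, 0⟩ 0 0) (.cut .d (-262144) (.void 3 ⟨100000, 0, 0, 0, 0, 0, 0, 0, 0, ⟨0, 0⟩, 0⟩ 0 0) (.pos 3 .mm ⟨154576454473,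 0, 13195705527, 0, 0, 0, 0, 0, 0, ⟨0, 0⟩, 0⟩ 0 0)))))))) (.cut .v 4294967296 (.cut .d (-8388608) (.void 94 ⟨100000, 0, 0, 0, 0, 0, 0, 0, 0, ⟨0, 0⟩, 0⟩ 0 0) (.cut .v 268435456 (.cut .v 67108864 (.cut .d (-4194304) (.void 44 ⟨100000, 0, 0, 0, 0, 0, 0, 0, 0, ⟨0, 0⟩, 0⟩ 0 0) (.cut .d (-2097152) (.void 44 ⟨100000, 0, 0, 0, 0, 0, 0, 0, 0, ⟨0, 0⟩, 0⟩ 0 0) (.cut .d (-1048576) (.void 44 ⟨100000, 0, 0, 0, 0, 0, 0, 0, 0, ⟨0, 0⟩, 0⟩ 0 0) (.cut .d (-524288) (.void 44 ⟨100000, 0, 0, 0, 0, 0, 0, 0, 0, ⟨0, 0⟩, 0⟩ 0 0) (.cut .d (-262144) (.void 44 ⟨1000000000, 0, 0, 0, 0, 0, 0, 0, 0, ⟨0, 0⟩, 0⟩ 0 0) (.cut .d (-131072) (.void 44 ⟨1000000000, 0, 0, 0, 0, 0, 0, 0, 0, ⟨0, 0⟩, 0⟩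 0 0) (.cut .d (-65536) (.void 44 ⟨1000000000, 0, 0, 0, 0, 0, 0, 0, 0, ⟨0, 0⟩, 0⟩ 0 0) (.pos 44 .mp ⟨167772160000, 0, 0, 0, 0, 0, 0, 0, 0, ⟨0, 0⟩, 0⟩ 0 0)))))))) (.void 56 ⟨1000000000, 0, 0, 0, 0, 0, 0, 0, 0, ⟨0, 0⟩, 0⟩ 0 0)) (.void 95 ⟨89673, 0, 0, 10327, 0, 0, 0, 0, 0, ⟨0, 0⟩, 0⟩ 0 0))) (.void 178 ⟨92870, 0, 0, 7130, 0, 0, 0, 0, 0, ⟨0, 0⟩, 0⟩ 0 0))) (.cut .v 16777216 (.cut .v 8388608 (.cut .v 4194304 (.cut .v 2097152 (.cut .v 1048576 (.cut .v 524288 (.cut .v 262144 (.cut .v 131072 (.cut .v 65536 (.cut .v 32768 (.cut .v 16384 (.cut .v 8192 (.cut .v 4096 (.pos 185 .pm ⟨0, 0, 39696934, 0, 0, 0, 0, 0, 0, ⟨0, 0⟩, 0⟩ 0 0) (.pos 186 .pm ⟨0, 0, 82918970, 0, 0, 0, 0,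 0, 0, ⟨0, 0⟩, 0⟩ 0 0)) (.pos 184 .pm ⟨0, 0, 139459391, 0, 0, 0, 0, 0, 0, ⟨0, 0⟩, 0⟩ 0 0)) (.pos 182 .pm ⟨0, 0, 241159941, 0, 0, 0, 0, 0, 0, ⟨0, 0⟩, 0⟩ 0 0)) (.pos 180 .pm ⟨0, 0, 452745056, 0, 0, 0, 0, 0, 0, ⟨0, 0⟩, 0⟩ 0 0)) (.pos 173 .pm ⟨0, 0, 892245334, 0, 0, 0, 0, 0, 0, ⟨0, 0⟩, 0⟩ 0 0)) (.pos 165 .pm ⟨0, 0, 1771272444, 0, 0, 0, 0, 0, 0, ⟨0, 0⟩, 0⟩ 0 0)) (.pos 137 .pm ⟨0, 0, 3529432879, 0, 0, 0, 0, 0, 0, ⟨0, 0⟩, 0⟩ 0 0)) (.pos 131 .pm ⟨0, 0, 7046178611, 0, 0, 0, 0, 0, 0, ⟨0, 0⟩, 0⟩ 0 0)) (.pos 105 .pm ⟨0, 0, 14081369518, 0, 0, 0, 0, 0, 0, ⟨0, 0⟩, 0⟩ 0 0)) (.pos 74 .pm ⟨0, 0, 28158549109, 0, 0, 0, 0, 0, 0, ⟨0, 0⟩, 0⟩ 0 0)) (.pos 5 .pm ⟨0, 0, 56340099396, 0,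 0, 0, 0, 0, 0, ⟨0, 0⟩, 0⟩ 0 0)) (.pos 3 .pm ⟨0, 0, 112811964393, 0, 0, 0, 0, 0, 0, ⟨0, 0⟩, 0⟩ 0 0)) (.cut .v 4294967296 (.cut .v 268435456 (.cut .v 67108864 (.pos 44 .pp ⟨0, 0, 0, 0, 0, 0, 0, 0, 0, ⟨0, 0⟩, 0⟩ 0 0) (.cut .v 134217728 (.pos 59 .pp ⟨142264733981, 0, 0, 25507426019, 0, 0, 0, 0, 0, ⟨0, 0⟩, 0⟩ 0 0) (.void 60 ⟨0, 0, 0, 92553, 0, 0, 0, 0, 0, ⟨0, 0⟩, 0⟩ 0 0))) (.void 95 ⟨0, 0, 0, 92553, 0, 0, 0, 0, 0, ⟨0, 0⟩, 0⟩ 0 0)) (.void 178 ⟨0, 0, 0, 92553, 0, 0, 0, 0, 0, ⟨0, 0⟩, 0⟩ 0 0)))),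
    by decide +kernel⟩

def covers42 : cell.Covers table row42.1 :=
  ⟨(.cut .d 0 (.cut .v 16777216 (.cut .d (-8388608) (.void 1 ⟨0, 0, 0, 0, 0, 96840, 0, 0, 0, ⟨0, 0⟩, 0⟩ 0 0) (.cut .d (-4194304) (.void 1 ⟨0, 0, 101885, 0, 0, 0, 0, 0, 0, ⟨0, 0⟩, 0⟩ 0 0) (.cut .d (-2097152) (.void 1 ⟨0, 0, 0, 0, 0, 100000, 0, 0, 0, ⟨0, 0⟩, 0⟩ 0 0) (.cut .d (-1048576) (.void 1 ⟨0, 0, 0, 0, 0, 100000, 0, 0, 0, ⟨0, 0⟩, 0⟩ 0 0) (.cut .d (-524288) (.void 1 ⟨0, 0, 0, 0, 0, 100000, 0, 0, 0, ⟨0, 0⟩, 0⟩ 0 0) (.cut .d (-262144) (.void 1 ⟨0, 0, 0, 0, 0, 100000, 0, 0, 0, ⟨0, 0⟩, 0⟩ 0 0) (.cut .d (-131072) (.void 1 ⟨0, 0, 0, 0, 0, 100000, 0, 0, 0, ⟨0, 0⟩, 0⟩ 0 0) (.cut .d (-65536) (.void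 1 ⟨0, 0, 0, 0, 0, 100000, 0, 0, 0, ⟨0, 0⟩, 0⟩ 0 0) (.cut .v 8388608 (.void 2 ⟨0, 0, 100000, 0, 0, 0, 0, 0, 0, ⟨0, 0⟩, 0⟩ 0 0) (.pos 3 .mm ⟨167772160000, 0, 0, 0, 0, 0, 0, 0, 0, ⟨0, 0⟩, 0⟩ 0 0)))))))))) (.cut .v 4294967296 (.cut .d (-8388608) (.void 94 ⟨1000000000, 0, 0, 0, 0, 0, 0, 0, 0, ⟨0, 0⟩, 0⟩ 0 0) (.cut .v 268435456 (.cut .v 67108864 (.cut .d (-4194304) (.void 44 ⟨1000000000, 0, 0, 0, 0, 0, 0, 0, 0, ⟨0, 0⟩, 0⟩ 0 0) (.cut .d (-2097152) (.void 44 ⟨1000000000, 0, 0, 0, 0, 0, 0, 0, 0, ⟨0, 0⟩, 0⟩ 0 0) (.cut .d (-1048576) (.void 44 ⟨1000000000, 0, 0, 0, 0, 0, 0, 0, 0, ⟨0, 0⟩, 0⟩ 0 0) (.cut .d (-524288) (.void 44 ⟨100000, 0, 0, 0, 0, 0, 0, 0, 0, ⟨0, 0⟩, 0⟩ 0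 0) (.cut .d (-262144) (.void 44 ⟨100000, 0, 0, 0, 0, 0, 0, 0, 0, ⟨0, 0⟩, 0⟩ 0 0) (.cut .d (-131072) (.void 44 ⟨100000, 0, 0, 0, 0, 0, 0, 0, 0, ⟨0, 0⟩, 0⟩ 0 0) (.cut .d (-65536) (.void 44 ⟨100000, 0, 0, 0, 0, 0, 0, 0, 0, ⟨0, 0⟩, 0⟩ 0 0) (.cut .d (-32768) (.void 44 ⟨100000, 0, 0, 0, 0, 0, 0, 0, 0, ⟨0, 0⟩, 0⟩ 0 0) (.pos 44 .mp ⟨167772160000, 0, 0, 0, 0, 0, 0, 0, 0, ⟨0, 0⟩, 0⟩ 0 0))))))))) (.void 56 ⟨1000000000, 0, 0, 0, 0, 0, 0, 0, 0, ⟨0, 0⟩, 0⟩ 0 0)) (.void 95 ⟨1000000000, 0, 0, 0, 0, 0, 0, 0, 0, ⟨0, 0⟩, 0⟩ 0 0))) (.void 178 ⟨1000000000, 0, 0, 0, 0, 0, 0, 0, 0, ⟨0, 0⟩, 0⟩ 0 0))) (.cut .v 16777216 (.cut .d 16417 (.pos 1 .pm ⟨0, 0, 165272501562, 0, 0, 0, 0, 374763087,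 0, ⟨5944854, 0⟩, 0⟩ 350 358) (.pos 1 .pm ⟨0, 0, 13251871, 0, 0, 0, 0, 0, 0, ⟨0, 0⟩, 0⟩ 0 0)) (.cut .v 4294967296 (.cut .v 268435456 (.pos 55 .pp ⟨0, 0, 0, 0, 0, 0, 0, 0, 0, ⟨0, 0⟩, 0⟩ 0 0) (.cut .s 16750592 (.void 95 ⟨0, 0, 0, 100000, 0, 0, 0, 0, 0, ⟨0, 0⟩, 0⟩ 0 0) (.void 95 ⟨0, 0, 0, 100000, 0, 0, 0, 0, 0, ⟨0, 0⟩, 0⟩ 0 0))) (.void 178 ⟨0, 0, 0, 100000, 0, 0, 0, 0, 0, ⟨0, 0⟩, 0⟩ 0 0)))),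
    by decide +kernel⟩

def covers43 : cell.Covers table row43.1 :=
  ⟨(.cut .d 0 (.cut .v 16777216 (.cut .d (-8388608) (.void 1 ⟨0, 0, 3714, 0, 0, 96286, 0, 0, 0, ⟨0, 0⟩, 0⟩ 0 0) (.cut .d (-4194304) (.void 1 ⟨0, 0, 1420, 0, 0, 98580, 0, 0, 0, ⟨0, 0⟩, 0⟩ 0 0) (.cut .d (-2097152) (.void 1 ⟨0, 0, 273, 0, 0, 99727, 0, 0, 0, ⟨0, 0⟩, 0⟩ 0 0) (.cut .d (-1048576) (.void 1 ⟨0, 0, 0, 0, 0, 100000, 0, 0, 0, ⟨0, 0⟩, 0⟩ 0 0) (.cut .d (-524288) (.void 1 ⟨0, 0, 0, 0, 0, 100000, 0, 0, 0, ⟨0, 0⟩, 0⟩ 0 0) (.cut .d (-262144) (.void 1 ⟨0, 0, 0, 0, 0, 100000, 0, 0, 0, ⟨0, 0⟩, 0⟩ 0 0) (.cut .d (-131072) (.void 1 ⟨0, 0, 0, 0, 0, 100000, 0, 0, 0, ⟨0, 0⟩, 0⟩ 0 0) (.cut .d (-65536)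 (.void 1 ⟨0, 0, 0, 0, 0, 100000, 0, 0, 0, ⟨0, 0⟩, 0⟩ 0 0) (.cut .d (-32768) (.void 1 ⟨0, 0, 0, 0, 0, 100000, 0, 0, 0, ⟨0, 0⟩, 0⟩ 0 0) (.cut .v 8388608 (.void 2 ⟨0, 0, 100000, 0, 0, 0, 0, 0, 0, ⟨0, 0⟩, 0⟩ 0 0) (.pos 3 .mm ⟨167772160000, 0, 0, 0, 0, 0, 0, 0, 0, ⟨0, 0⟩, 0⟩ 0 0))))))))))) (.cut .v 4294967296 (.cut .d (-8388608) (.void 94 ⟨100000, 0, 0, 0, 0, 0, 0, 0, 0, ⟨0, 0⟩, 0⟩ 0 0) (.cut .v 268435456 (.cut .v 67108864 (.cut .d (-4194304) (.void 44 ⟨100000, 0, 0, 0, 0, 0, 0, 0, 0, ⟨0, 0⟩, 0⟩ 0 0) (.cut .d (-2097152) (.void 44 ⟨100000, 0, 0, 0, 0, 0, 0, 0, 0, ⟨0, 0⟩, 0⟩ 0 0) (.cut .d (-1048576) (.void 44 ⟨100000, 0, 0, 0, 0, 0, 0, 0, 0, ⟨0, 0⟩, 0⟩ 0 0) (.cut .d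 (-524288) (.void 44 ⟨100000, 0, 0, 0, 0, 0, 0, 0, 0, ⟨0, 0⟩, 0⟩ 0 0) (.cut .d (-262144) (.void 44 ⟨100000, 0, 0, 0, 0, 0, 0, 0, 0, ⟨0, 0⟩, 0⟩ 0 0) (.cut .d (-131072) (.void 44 ⟨100000, 0, 0, 0, 0, 0, 0, 0, 0, ⟨0, 0⟩, 0⟩ 0 0) (.cut .d (-65536) (.void 44 ⟨100000, 0, 0, 0, 0, 0, 0, 0, 0, ⟨0, 0⟩, 0⟩ 0 0) (.cut .d (-32768) (.void 44 ⟨100000, 0, 0, 0, 0, 0, 0, 0, 0, ⟨0, 0⟩, 0⟩ 0 0) (.cut .d (-16384) (.void 44 ⟨100000, 0, 0, 0, 0, 0, 0, 0, 0, ⟨0, 0⟩, 0⟩ 0 0) (.pos 44 .mp ⟨167772160000, 0, 0, 0, 0, 0, 0, 0, 0, ⟨0, 0⟩, 0⟩ 0 0)))))))))) (.void 56 ⟨100000, 0, 0, 0, 0, 0, 0, 0, 0, ⟨0, 0⟩, 0⟩ 0 0)) (.void 95 ⟨89664, 0, 0, 10336, 0, 0, 0, 0, 0, ⟨0, 0⟩, 0⟩ 0 0))) (.void 178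 ⟨92852, 0, 0, 7151, 0, 0, 0, 0, 0, ⟨0, 0⟩, 0⟩ 0 0))) (.cut .v 16777216 (.cut .d 10254 (.pos 1 .pm ⟨0, 0, 167772160000, 0, 0, 0, 0, 0, 0, ⟨0, 0⟩, 0⟩ 0 0) (.pos 1 .pm ⟨0, 0, 13240018, 0, 0, 0, 0, 0, 0, ⟨0, 0⟩, 0⟩ 0 0)) (.cut .v 4294967296 (.cut .v 268435456 (.pos 55 .pp ⟨0, 0, 0, 0, 0, 0, 0, 0, 0, ⟨0, 0⟩, 0⟩ 0 0) (.void 95 ⟨0, 0, 0, 100000, 0, 0, 0, 0, 0, ⟨0, 0⟩, 0⟩ 0 0)) (.void 178 ⟨0, 0, 0, 100000, 0, 0, 0, 0, 0, ⟨0, 0⟩, 0⟩ 0 0)))),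
    by decide +kernel⟩

def covers44 : cell.Covers table row44.1 :=
  ⟨(.cut .d 0 (.cut .v 16777216 (.cut .d (-8388608) (.void 1 ⟨0, 0, 0, 0, 0, 1000000000, 0, 0, 0, ⟨0, 0⟩, 0⟩ 0 0) (.cut .d (-4194304) (.void 1 ⟨0, 0, 100000, 0, 0, 0, 0, 0, 0, ⟨0, 0⟩, 0⟩ 0 0) (.cut .d (-2097152) (.void 1 ⟨0, 0, 100000, 0, 0, 0, 0, 0, 0, ⟨0, 0⟩, 0⟩ 0 0) (.cut .d (-1048576) (.void 1 ⟨0, 0, 100000, 0, 0, 0, 0, 0, 0, ⟨0, 0⟩, 0⟩ 0 0) (.cut .d (-524288) (.void 1 ⟨0, 0, 100000, 0, 0, 0, 0, 0, 0, ⟨0, 0⟩, 0⟩ 0 0) (.cut .d (-262144) (.void 1 ⟨0, 0, 100000, 0, 0, 0, 0, 0, 0, ⟨0, 0⟩, 0⟩ 0 0) (.cut .d (-131072) (.void 1 ⟨0, 0, 100000, 0, 0, 0, 0, 0, 0, ⟨0, 0⟩, 0⟩ 0 0) (.cut .d (-65536) (.void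 1 ⟨0, 0, 100000, 0, 0, 0, 0, 0, 0, ⟨0, 0⟩, 0⟩ 0 0) (.cut .d (-32768) (.void 1 ⟨0, 0, 0, 0, 0, 100000, 0, 0, 0, ⟨0, 0⟩, 0⟩ 0 0) (.cut .d (-16384) (.void 1 ⟨0, 0, 0, 0, 0, 100000, 0, 0, 0, ⟨0, 0⟩, 0⟩ 0 0) (.cut .v 8388608 (.void 2 ⟨0, 0, 1000000000, 0, 0, 0, 0, 0, 0, ⟨0, 0⟩, 0⟩ 0 0) (.pos 3 .mm ⟨167772160000, 0, 0, 0, 0, 0, 0, 0, 0, ⟨0, 0⟩, 0⟩ 0 0)))))))))))) (.cut .v 4294967296 (.cut .d (-8388608) (.void 94 ⟨1000000000, 0, 0, 0, 0, 0, 0, 0, 0, ⟨0, 0⟩, 0⟩ 0 0) (.cut .v 268435456 (.cut .v 67108864 (.cut .d (-4194304) (.void 44 ⟨1000000000, 0, 0, 0, 0, 0, 0, 0, 0, ⟨0, 0⟩, 0⟩ 0 0) (.cut .d (-2097152) (.void 44 ⟨1000000000, 0, 0, 0, 0, 0, 0, 0, 0, ⟨0, 0⟩, 0⟩ 0 0)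 (.cut .d (-1048576) (.void 44 ⟨1000000000, 0, 0, 0, 0, 0, 0, 0, 0, ⟨0, 0⟩, 0⟩ 0 0) (.cut .d (-524288) (.void 44 ⟨1000000000, 0, 0, 0, 0, 0, 0, 0, 0, ⟨0, 0⟩, 0⟩ 0 0) (.cut .d (-262144) (.void 44 ⟨1000000000, 0, 0, 0, 0, 0, 0, 0, 0, ⟨0, 0⟩, 0⟩ 0 0) (.cut .d (-131072) (.void 44 ⟨1000000000, 0, 0, 0, 0, 0, 0, 0, 0, ⟨0, 0⟩, 0⟩ 0 0) (.cut .d (-65536) (.void 44 ⟨1000000000, 0, 0, 0, 0, 0, 0, 0, 0, ⟨0, 0⟩, 0⟩ 0 0) (.cut .d (-32768) (.void 44 ⟨1000000000, 0, 0, 0, 0, 0, 0, 0, 0, ⟨0, 0⟩, 0⟩ 0 0) (.cut .d (-16384) (.void 44 ⟨1000000000, 0, 0, 0, 0, 0, 0, 0, 0, ⟨0, 0⟩, 0⟩ 0 0) (.pos 44 .mp ⟨167772160000, 0, 0, 0, 0, 0, 0, 0, 0, ⟨0, 0⟩, 0⟩ 0 0)))))))))) (.void 56 ⟨1000000000,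 0, 0, 0, 0, 0, 0, 0, 0, ⟨0, 0⟩, 0⟩ 0 0)) (.void 95 ⟨89660, 0, 0, 10340, 0, 0, 0, 0, 0, ⟨0, 0⟩, 0⟩ 0 0))) (.cut .l 1062557 (.void 178 ⟨1000000000, 0, 0, 0, 0, 0, 0, 0, 0, ⟨0, 0⟩, 0⟩ 0 0) (.void 178 ⟨1000000000, 0, 0, 0, 0, 0, 0, 0, 0, ⟨0, 0⟩, 0⟩ 0 0)))) (.cut .v 16777216 (.pos 1 .pm ⟨0, 0, 13249340, 0, 0, 0, 0, 0, 0, ⟨0, 0⟩, 0⟩ 0 0) (.cut .v 4294967296 (.cut .v 268435456 (.pos 55 .pp ⟨0, 0, 0, 0, 0, 0, 0, 0, 0, ⟨0, 0⟩, 0⟩ 0 0) (.cut .s 16766976 (.void 95 ⟨0, 0, 0, 100000, 0, 0, 0, 0, 0, ⟨0, 0⟩, 0⟩ 0 0) (.void 95 ⟨0, 0, 0, 100000, 0, 0, 0, 0, 0, ⟨0, 0⟩, 0⟩ 0 0))) (.void 178 ⟨0, 0, 0, 100000, 0, 0, 0, 0, 0, ⟨0, 0⟩, 0⟩ 0 0)))),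
    by decide +kernel⟩

def covers45 : cell.Covers table row45.1 :=
  ⟨(.cut .d 0 (.cut .v 16777216 (.cut .d (-8388608) (.void 1 ⟨0, 0, 2356, 0, 0, 97644, 0, 0, 0, ⟨0, 0⟩, 0⟩ 0 0) (.cut .v 8388608 (.void 2 ⟨0, 0, 100000, 0, 0, 0, 0, 0, 0, ⟨0, 0⟩, 0⟩ 0 0) (.cut .d (-4194304) (.void 3 ⟨100000, 0, 0, 0, 0, 0, 0, 0, 0, ⟨0, 0⟩, 0⟩ 0 0) (.cut .d (-2097152) (.void 3 ⟨100000, 0, 0, 0, 0, 0, 0, 0, 0, ⟨0, 0⟩, 0⟩ 0 0) (.cut .d (-1048576) (.void 3 ⟨100000, 0, 0, 0, 0, 0, 0, 0, 0, ⟨0, 0⟩, 0⟩ 0 0) (.cut .d (-524288) (.void 3 ⟨100000, 0, 0, 0, 0, 0, 0, 0, 0, ⟨0, 0⟩, 0⟩ 0 0) (.cut .d (-262144) (.void 3 ⟨100000, 0, 0, 0, 0, 0, 0, 0, 0, ⟨0, 0⟩, 0⟩ 0 0) (.cut .d (-131072) (.void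 3 ⟨100000, 0, 0, 0, 0, 0, 0, 0, 0, ⟨0, 0⟩, 0⟩ 0 0) (.cut .d (-65536) (.void 3 ⟨100000, 0, 0, 0, 0, 0, 0, 0, 0, ⟨0, 0⟩, 0⟩ 0 0) (.cut .d (-32768) (.void 3 ⟨100000, 0, 0, 0, 0, 0, 0, 0, 0, ⟨0, 0⟩, 0⟩ 0 0) (.cut .d (-16384) (.void 3 ⟨100000, 0, 0, 0, 0, 0, 0, 0, 0, ⟨0, 0⟩, 0⟩ 0 0) (.cut .d (-8192) (.void 3 ⟨100000, 0, 0, 0, 0, 0, 0, 0, 0, ⟨0, 0⟩, 0⟩ 0 0) (.cut .d (-4096) (.void 3 ⟨100000, 0, 0, 0, 0, 0, 0, 0, 0, ⟨0, 0⟩, 0⟩ 0 0) (.pos 3 .mm ⟨167772160000, 0, 0, 0, 0, 0, 0, 0, 0, ⟨0, 0⟩, 0⟩ 0 0)))))))))))))) (.cut .v 4294967296 (.cut .v 268435456 (.cut .d (-8388608) (.void 55 ⟨69894, 0, 0, 1223, 0, 0, 0, 28449, 0, ⟨(-1), 11203838⟩, 0⟩ 0 128) (.cut .v 67108864 (.cut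 .d (-4194304) (.void 44 ⟨100000, 0, 0, 0, 0, 0, 0, 0, 0, ⟨0, 0⟩, 0⟩ 0 0) (.cut .d (-2097152) (.void 44 ⟨100000, 0, 0, 0, 0, 0, 0, 0, 0, ⟨0, 0⟩, 0⟩ 0 0) (.cut .d (-1048576) (.void 44 ⟨100000, 0, 0, 0, 0, 0, 0, 0, 0, ⟨0, 0⟩, 0⟩ 0 0) (.cut .d (-524288) (.void 44 ⟨100000, 0, 0, 0, 0, 0, 0, 0, 0, ⟨0, 0⟩, 0⟩ 0 0) (.cut .d (-262144) (.void 44 ⟨100000, 0, 0, 0, 0, 0, 0, 0, 0, ⟨0, 0⟩, 0⟩ 0 0) (.cut .d (-131072) (.void 44 ⟨100000, 0, 0, 0, 0, 0, 0, 0, 0, ⟨0, 0⟩, 0⟩ 0 0) (.cut .d (-65536) (.void 44 ⟨100000, 0, 0, 0, 0, 0, 0, 0, 0, ⟨0, 0⟩, 0⟩ 0 0) (.cut .d (-32768) (.void 44 ⟨100000, 0, 0, 0, 0, 0, 0, 0, 0, ⟨0, 0⟩, 0⟩ 0 0) (.cut .d (-16384) (.void 44 ⟨100000, 0, 0, 0, 0,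 0, 0, 0, 0, ⟨0, 0⟩, 0⟩ 0 0) (.cut .d (-8192) (.void 44 ⟨100000, 0, 0, 0, 0, 0, 0, 0, 0, ⟨0, 0⟩, 0⟩ 0 0) (.cut .d (-4096) (.void 44 ⟨100000, 0, 0, 0, 0, 0, 0, 0, 0, ⟨0, 0⟩, 0⟩ 0 0) (.pos 44 .mp ⟨167772160000, 0, 0, 0, 0, 0, 0, 0, 0, ⟨0, 0⟩, 0⟩ 0 0)))))))))))) (.void 56 ⟨100000, 0, 0, 0, 0, 0, 0, 0, 0, ⟨0, 0⟩, 0⟩ 0 0))) (.cut .d (-8388608) (.void 95 ⟨57320, 4736, 0, 0, 0, 0, 0, 37945, 0, ⟨(-1), 11203838⟩, 0⟩ 0 128) (.void 95 ⟨89659, 0, 0, 10341, 0, 0, 0, 0, 0, ⟨0, 0⟩, 0⟩ 0 0))) (.void 178 ⟨93407, 0, 0, 6290, 0, 0, 0, 0, 0, ⟨0, 0⟩, 0⟩ 0 0))) (.cut .v 16777216 (.cut .v 8388608 (.cut .v 4194304 (.cut .v 2097152 (.cut .d 4099 (.cut .d 2049 (.void 73 ⟨0, 0, 100000,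 0, 0, 0, 0, 0, 0, ⟨0, 0⟩, 0⟩ 0 0) (.pos 73 .pm ⟨0, 0, 13228171, 0, 0, 0, 0, 0, 0, ⟨0, 0⟩, 0⟩ 0 0)) (.pos 73 .pm ⟨0, 0, 0, 1806154, 0, 0, 0, 0, 0, ⟨0, 0⟩, 0⟩ 0 0)) (.pos 74 .pm ⟨0, 0, 167772160000, 0, 0, 0, 0, 0, 0, ⟨0, 0⟩, 0⟩ 0 0)) (.pos 5 .pm ⟨0, 0, 167772160000, 0, 0, 0, 0, 0, 0, ⟨0, 0⟩, 0⟩ 0 0)) (.pos 3 .pm ⟨0, 0, 167772160000, 0, 0, 0, 0, 0, 0, ⟨0, 0⟩, 0⟩ 0 0)) (.cut .v 4294967296 (.cut .v 268435456 (.cut .v 67108864 (.pos 44 .pp ⟨0, 0, 0, 0, 0, 0, 0, 0, 0, ⟨0, 0⟩, 0⟩ 0 0) (.cut .v 134217728 (.pos 59 .pp ⟨167772160000, 0, 0, 0, 0, 0, 0, 0, 0, ⟨0, 0⟩, 0⟩ 0 0) (.void 60 ⟨0, 0, 0, 100000, 0, 0, 0, 0, 0, ⟨0, 0⟩, 0⟩ 0 0))) (.cut .s 16771072 (.void 95 ⟨0, 0, 0,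 1000000000, 0, 0, 0, 0, 0, ⟨0, 0⟩, 0⟩ 0 0) (.void 95 ⟨0, 0, 0, 100000, 0, 0, 0, 0, 0, ⟨0, 0⟩, 0⟩ 0 0))) (.cut .s 16771072 (.cut .s 16770048 (.void 178 ⟨0, 0, 0, 100000, 0, 0, 0, 0, 0, ⟨0, 0⟩, 0⟩ 0 0) (.void 178 ⟨0, 0, 0, 100000, 0, 0, 0, 0, 0, ⟨0, 0⟩, 0⟩ 0 0)) (.void 178 ⟨0, 0, 0, 100000, 0, 0, 0, 0, 0, ⟨0, 0⟩, 0⟩ 0 0))))),
    by decide +kernel⟩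

end Vale.Agent.P237.Petty.Cor.Grid.N12.Low
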