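import Vale.Agent.P237.Petty.Cor.Grid.N12.MidCert

/-!
# P237: a cell in dimension 12, subdivisions
-/

namespace Vale.Agent.P237.Petty.Cor.Grid.N12.Mid

def covers0 : cell.Covers table row0.1 :=
  ⟨(.cut .d 0 (.cut .v 16777216 (.cut .v 8388608 (.cut .v 4194304 (.pos 4 .mm ⟨0, 0, 37831806, 0, 0, 0, 0, 0, 0, ⟨0, 0⟩, 0⟩ 0 0) (.pos 5 .mm ⟨0, 0, 0, 0, 0, 0, 0, 0, 0, ⟨0, 0⟩, 0⟩ 0 0)) (.cut .d (-8388608) (.pos 3 .mm ⟨0, 0, 0, 0, 0, 0, 0, 0, 0, ⟨0, 0⟩, 0⟩ 0 0) (.cut .d (-4194304) (.pos 3 .mm ⟨0, 0, 0, 0, 0, 0, 0, 0, 0, ⟨0, 0⟩, 0⟩ 0 0) (.cut .v 12582912 (.pos 6 .mm ⟨0, 0, 0, 0, 603885, 0, 0, 0, 0, ⟨0, 0⟩, 0⟩ 0 0) (.cut .d (-2097152) (.pos 7 .mm ⟨0, 0, 0, 0, 0,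 0, 0, 0, 0, ⟨0, 0⟩, 0⟩ 0 0) (.pos 7 .mm ⟨0, 0, 0, 0, 0, 0, 0, 0, 0, ⟨0, 0⟩, 0⟩ 0 0)))))) (.cut .v 33554432 (.cut .v 25165824 (.cut .v 20971520 (.cut .v 18874368 (.cut .v 17825792 (.pos 19 .mp ⟨0, 0, 0, 0, 0, 0, 0, 0, 0, ⟨0, 0⟩, 0⟩ 0 0) (.pos 20 .mp ⟨0, 0, 0, 0, 0, 0, 0, 0, 0, ⟨0, 0⟩, 0⟩ 0 0)) (.pos 18 .mp ⟨381820, 0, 0, 0, 0, 0, 0, 0, 0, ⟨0, 0⟩, 0⟩ 0 0)) (.pos 16 .mp ⟨432450, 0, 0, 0, 0, 0, 0, 0, 0, ⟨0, 0⟩, 0⟩ 0 0)) (.pos 14 .mp ⟨536431, 0, 0, 0, 0, 0, 0, 0, 0, ⟨0, 0⟩, 0⟩ 0 0)) (.void 12 ⟨100000, 0, 0, 0, 0, 0, 0, 0, 0, ⟨0, 0⟩, 0⟩ 0 0))) (.cut .v 16777216 (.cut .v 8388608 (.cut .v 4194304 (.pos 4 .pm ⟨0, 0, 38343275, 0, 0, 0, 0, 0, 0, ⟨0, 0⟩, 0⟩ 0 0)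 (.pos 5 .pm ⟨0, 0, 0, 0, 2127325, 0, 0, 0, 0, ⟨0, 0⟩, 0⟩ 0 0)) (.pos 3 .pm ⟨0, 0, 0, 0, 0, 0, 0, 804088, 351123, ⟨(-1), 15442515⟩, 14107901⟩ 0 55)) (.cut .v 33554432 (.cut .d 9310486 (.cut .v 25165824 (.cut .v 20971520 (.cut .d 4655243 (.cut .v 18874368 (.cut .d 2327621 (.cut .v 17825792 (.cut .d 1163810 (.cut .d 581905 (.pos 19 .pp ⟨0, 0, 0, 0, 0, 0, 0, 0, 0, ⟨0, 0⟩, 0⟩ 0 0) (.pos 19 .pp ⟨0, 0, 0, 0, 0, 0, 0, 0, 0, ⟨0, 0⟩, 0⟩ 0 0)) (.pos 19 .pp ⟨0, 0, 0, 0, 0, 0, 0, 0, 0, ⟨0, 0⟩, 0⟩ 0 0)) (.cut .d 1163810 (.pos 20 .pp ⟨0, 0, 0, 0, 0, 0, 0, 0, 0, ⟨0, 0⟩, 0⟩ 0 0) (.pos 20 .pp ⟨0, 0, 0, 0, 0, 0, 0, 0, 0, ⟨0, 0⟩, 0⟩ 0 0))) (.pos 17 .pp ⟨0, 0, 0, 0, 0, 0,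 0, 0, 0, ⟨0, 0⟩, 0⟩ 0 0)) (.cut .d 2327621 (.pos 18 .pp ⟨381820, 0, 0, 0, 0, 0, 0, 0, 0, ⟨0, 0⟩, 0⟩ 0 0) (.pos 18 .pp ⟨381820, 0, 0, 0, 0, 0, 0, 0, 0, ⟨0, 0⟩, 0⟩ 0 0))) (.pos 15 .pp ⟨372531, 0, 0, 0, 0, 0, 0, 0, 0, ⟨0, 0⟩, 0⟩ 0 0)) (.cut .d 4655243 (.pos 16 .pp ⟨432450, 0, 0, 0, 0, 0, 0, 0, 0, ⟨0, 0⟩, 0⟩ 0 0) (.pos 16 .pp ⟨432450, 0, 0, 0, 0, 0, 0, 0, 0, ⟨0, 0⟩, 0⟩ 0 0))) (.pos 14 .pp ⟨536431, 0, 0, 0, 0, 0, 0, 0, 0, ⟨0, 0⟩, 0⟩ 0 0)) (.cut .v 25165824 (.pos 13 .pp ⟨0, 0, 0, 0, 0, 0, 142922, 0, 0, ⟨0, 0⟩, 0⟩ 0 0) (.cut .d 13965729 (.pos 14 .pp ⟨0, 0, 0, 0, 0, 0, 1127337, 0, 0, ⟨0, 0⟩, 0⟩ 0 0) (.pos 14 .pp ⟨10764798, 0, 0, 0, 2117504, 0, 4276719, 0, 0,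 ⟨0, 0⟩, 0⟩ 0 0)))) (.cut .v 50331648 (.cut .v 41943040 (.cut .v 37748736 (.cut .d 9310486 (.pos 35 .pp ⟨59926924, 0, 0, 0, 0, 0, 0, 0, 0, ⟨0, 0⟩, 0⟩ 0 0) (.cut .v 35651584 (.pos 37 .pp ⟨51135867, 0, 0, 0, 0, 0, 0, 0, 0, ⟨0, 0⟩, 0⟩ 0 0) (.pos 38 .pp ⟨45410234, 0, 0, 0, 0, 0, 4120265, 15293896, 0, ⟨(-1), 15442515⟩, 0⟩ 0 55))) (.pos 36 .pp ⟨0, 0, 0, 0, 0, 0, 30381753, 13844399, 0, ⟨(-1), 15442515⟩, 0⟩ 0 55)) (.void 34 ⟨0, 0, 0, 0, 0, 0, 100000, 0, 0, ⟨0, 0⟩, 0⟩ 0 0)) (.void 32 ⟨0, 0, 0, 0, 0, 0, 100000, 0, 0, ⟨0, 0⟩, 0⟩ 0 0))))),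
    by decide +kernel⟩

def covers1 : cell.Covers table row1.1 :=
  ⟨(.cut .d 0 (.cut .v 16777216 (.cut .v 8388608 (.cut .v 4194304 (.void 4 ⟨0, 0, 100000, 0, 0, 0, 0, 0, 0, ⟨0, 0⟩, 0⟩ 0 0) (.pos 5 .mm ⟨0, 0, 0, 0, 0, 343118, 0, 0, 0, ⟨0, 0⟩, 0⟩ 0 0)) (.cut .d (-8388608) (.pos 3 .mm ⟨0, 0, 0, 0, 0, 325107, 0, 0, 0, ⟨0, 0⟩, 0⟩ 0 0) (.cut .v 12582912 (.pos 6 .mm ⟨0, 0, 0, 0, 0, 368795, 0, 0, 0, ⟨0, 0⟩, 0⟩ 0 0) (.cut .v 14680064 (.pos 8 .mm ⟨0, 0, 0, 0, 0, 0, 0, 0, 0, ⟨0, 0⟩, 0⟩ 0 0) (.pos 9 .mm ⟨0, 0, 0, 0, 0, 0, 0, 0, 0, ⟨0, 0⟩, 0⟩ 0 0))))) (.cut .v 33554432 (.cut .v 25165824 (.cut .v 20971520 (.cut .v 18874368 (.pos 17 .mp ⟨0, 0, 0, 0, 0, 0, 0, 0, 0,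 ⟨0, 0⟩, 0⟩ 0 0) (.pos 18 .mp ⟨934517, 0, 0, 0, 0, 0, 0, 0, 0, ⟨0, 0⟩, 0⟩ 0 0)) (.pos 16 .mp ⟨1058435, 0, 0, 0, 0, 0, 0, 0, 0, ⟨0, 0⟩, 0⟩ 0 0)) (.pos 14 .mp ⟨1312932, 0, 0, 0, 0, 0, 0, 0, 0, ⟨0, 0⟩, 0⟩ 0 0)) (.void 12 ⟨100000, 0, 0, 0, 0, 0, 0, 0, 0, ⟨0, 0⟩, 0⟩ 0 0))) (.cut .v 16777216 (.cut .v 8388608 (.void 2 ⟨0, 0, 0, 0, 100000, 0, 0, 0, 0, ⟨0, 0⟩, 0⟩ 0 0) (.pos 3 .pm ⟨0, 0, 0, 0, 0, 0, 0, 0, 877931, ⟨0, 0⟩, 14107901⟩ 0 0)) (.cut .v 33554432 (.cut .d 15557108 (.cut .v 25165824 (.cut .d 7778554 (.cut .v 20971520 (.cut .d 3889277 (.cut .v 18874368 (.cut .d 1944638 (.cut .v 17825792 (.pos 19 .pp ⟨0, 0, 0, 0, 0, 0, 0, 0, 0, ⟨0, 0⟩, 0⟩ 0 0) (.pos 20 .pp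 ⟨0, 0, 0, 0, 0, 0, 0, 0, 0, ⟨0, 0⟩, 0⟩ 0 0)) (.pos 17 .pp ⟨0, 0, 0, 0, 0, 0, 0, 0, 1386589, ⟨0, 0⟩, 17278579⟩ 0 0)) (.pos 18 .pp ⟨0, 0, 0, 0, 0, 0, 0, 0, 0, ⟨0, 0⟩, 0⟩ 0 0)) (.pos 15 .pp ⟨0, 0, 0, 0, 4947302, 0, 0, 0, 1681149, ⟨0, 0⟩, 17739746⟩ 0 0)) (.pos 16 .pp ⟨1058435, 0, 0, 0, 0, 0, 0, 0, 0, ⟨0, 0⟩, 0⟩ 0 0)) (.pos 13 .pp ⟨0, 0, 0, 0, 18232395, 0, 0, 0, 2218530, ⟨0, 0⟩, 18567042⟩ 0 0)) (.cut .d 7778554 (.pos 14 .pp ⟨1312932, 0, 0, 0, 0, 0, 0, 0, 0, ⟨0, 0⟩, 0⟩ 0 0) (.pos 14 .pp ⟨0, 0, 0, 0, 0, 0, 0, 0, 1231904, ⟨0, 0⟩, 22080058⟩ 0 0))) (.pos 11 .pp ⟨0, 0, 0, 0, 0, 0, 0, 220796, 1317639, ⟨1477506, 8097476⟩, 19951585⟩ 50 132)) (.cut .v 50331648 (.cut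 .d 15557108 (.pos 31 .pp ⟨0, 0, 0, 0, 0, 0, 12946510, 0, 0, ⟨0, 0⟩, 0⟩ 0 0) (.cut .l 6501171 (.void 31 ⟨0, 0, 0, 0, 0, 0, 50690, 0, 49310, ⟨0, 0⟩, 26257762⟩ 0 0) (.cut .d 23335662 (.cut .l 8842991 (.pos 31 .pp ⟨0, 0, 0, 0, 0, 0, 37068741, 0, 35970957, ⟨0, 0⟩, 26257762⟩ 0 0) (.cut .v 41943040 (.cut .v 37748736 (.pos 35 .pp ⟨0, 0, 0, 0, 0, 0, 0, 0, 16112910, ⟨0, 0⟩, 24435601⟩ 0 0) (.cut .d 19446385 (.pos 36 .pp ⟨0, 0, 0, 0, 0, 0, 28682211, 3906813, 0, ⟨1064806, 10210503⟩, 0⟩ 50 100) (.cut .s 2359296 (.pos 36 .pp ⟨0, 0, 0, 0, 0, 0, 21827728, 72215415, 0, ⟨1024287, 10714194⟩, 0⟩ 56 87) (.pos 36 .pp ⟨0, 0, 0, 0, 0, 0, 0, 0, 10382456, ⟨0, 0⟩, 25837502⟩ 0 0))))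 (.cut .v 46137344 (.cut .d 19446385 (.pos 41 .pp ⟨0, 0, 0, 0, 0, 0, 37389692, 0, 0, ⟨0, 0⟩, 0⟩ 0 0) (.cut .s 2359296 (.pos 41 .pp ⟨0, 0, 0, 0, 0, 0, 41808037, 50075020, 0, ⟨1024287, 10714194⟩, 0⟩ 56 87) (.cut .v 44040192 (.pos 43 .pp ⟨0, 0, 0, 0, 0, 0, 35561072, 0, 5117016, ⟨0, 0⟩, 26852655⟩ 0 0) (.cut .d 21391023 (.pos 44 .pp ⟨0, 0, 0, 0, 0, 0, 39093026, 0, 0, ⟨0, 0⟩, 0⟩ 0 0) (.cut .s 2686976 (.pos 44 .pp ⟨0, 0, 0, 0, 0, 0, 50868355, 0, 8918359, ⟨0, 0⟩, 27500171⟩ 0 0) (.cut .v 45088768 (.cut .d 22363342 (.pos 45 .pp ⟨0, 0, 0, 0, 0, 0, 37166886, 0, 0, ⟨0, 0⟩, 0⟩ 0 0) (.pos 45 .pp ⟨0, 8420347, 0, 0, 0, 0, 38421086, 0, 6637239, ⟨0, 0⟩, 27342571⟩ 0 0)) (.pos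 46 .pp ⟨0, 34345056, 0, 0, 0, 0, 54880095, 0, 0, ⟨0, 0⟩, 0⟩ 0 0))))))) (.pos 42 .pp ⟨0, 29322878, 0, 0, 0, 0, 59085992, 0, 0, ⟨0, 0⟩, 0⟩ 0 0)))) (.cut .s 2359296 (.void 31 ⟨0, 0, 0, 0, 0, 0, 44707, 0, 55293, ⟨0, 0⟩, 26257762⟩ 0 0) (.void 31 ⟨0, 45921, 0, 0, 0, 0, 0, 0, 54079, ⟨0, 0⟩, 26257762⟩ 0 0))))) (.void 32 ⟨0, 0, 0, 0, 0, 0, 100000, 0, 0, ⟨0, 0⟩, 0⟩ 0 0))))),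
    by decide +kernel⟩

def covers2 : cell.Covers table row2.1 :=
  ⟨(.cut .d 0 (.cut .v 16777216 (.cut .v 8388608 (.cut .v 4194304 (.void 4 ⟨0, 0, 100000, 0, 0, 0, 0, 0, 0, ⟨0, 0⟩, 0⟩ 0 0) (.pos 5 .mm ⟨0, 0, 0, 0, 0, 113674, 0, 0, 0, ⟨0, 0⟩, 0⟩ 0 0)) (.cut .v 12582912 (.pos 6 .mm ⟨0, 0, 0, 0, 0, 170510, 0, 0, 0, ⟨0, 0⟩, 0⟩ 0 0) (.cut .v 14680064 (.pos 8 .mm ⟨0, 0, 0, 0, 0, 198929, 0, 0, 0, ⟨0, 0⟩, 0⟩ 0 0) (.cut .d (-8388608) (.pos 9 .mm ⟨0, 0, 0, 0, 0, 208402, 0, 0, 0, ⟨0, 0⟩, 0⟩ 0 0) (.pos 9 .mm ⟨0, 0, 0, 0, 0, 0, 0, 0, 0, ⟨0, 0⟩, 0⟩ 0 0))))) (.cut .v 33554432 (.cut .v 25165824 (.cut .v 20971520 (.cut .v 18874368 (.pos 17 .mp ⟨0, 0, 0, 0, 0, 0, 0, 0,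 0, ⟨0, 0⟩, 0⟩ 0 0) (.pos 18 .mp ⟨553313, 0, 0, 0, 0, 0, 0, 0, 0, ⟨0, 0⟩, 0⟩ 0 0)) (.pos 16 .mp ⟨908347, 0, 0, 0, 0, 0, 0, 0, 0, ⟨0, 0⟩, 0⟩ 0 0)) (.pos 14 .mp ⟨1427081, 0, 0, 0, 0, 0, 0, 0, 0, ⟨0, 0⟩, 0⟩ 0 0)) (.void 12 ⟨100000, 0, 0, 0, 0, 0, 0, 0, 0, ⟨0, 0⟩, 0⟩ 0 0))) (.cut .v 16777216 (.cut .v 8388608 (.void 2 ⟨0, 0, 0, 0, 100000, 0, 0, 0, 0, ⟨0, 0⟩, 0⟩ 0 0) (.cut .d 38295820 (.cut .d 19147910 (.cut .d 9573955 (.cut .d 4786977 (.cut .d 2393488 (.cut .v 12582912 (.void 6 ⟨0, 0, 0, 0, 100000, 0, 0, 0, 0, ⟨0, 0⟩, 0⟩ 0 0) (.cut .d 1196744 (.cut .v 14680064 (.pos 8 .pm ⟨0, 0, 0, 0, 0, 0, 0, 0, 0, ⟨0, 0⟩, 0⟩ 0 0) (.pos 9 .pm ⟨0, 0, 0, 0, 0, 0, 0, 0, 0, ⟨0,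 0⟩, 0⟩ 0 0)) (.pos 7 .pm ⟨0, 0, 0, 0, 0, 0, 0, 0, 0, ⟨0, 0⟩, 0⟩ 0 0))) (.pos 3 .pm ⟨0, 0, 0, 0, 0, 0, 0, 0, 269736, ⟨0, 0⟩, 14107901⟩ 0 0)) (.void 3 ⟨0, 0, 0, 0, 100000, 0, 0, 0, 0, ⟨0, 0⟩, 0⟩ 0 0)) (.void 3 ⟨0, 0, 0, 0, 100000, 0, 0, 0, 0, ⟨0, 0⟩, 0⟩ 0 0)) (.void 3 ⟨0, 0, 0, 0, 0, 0, 0, 0, 100000, ⟨0, 0⟩, 14107901⟩ 0 0)) (.void 3 ⟨0, 0, 0, 0, 0, 0, 0, 0, 100000, ⟨0, 0⟩, 14107901⟩ 0 0))) (.cut .d 38295820 (.cut .v 33554432 (.cut .d 19147910 (.cut .v 25165824 (.cut .d 9573955 (.cut .v 20971520 (.cut .d 4786977 (.cut .v 18874368 (.cut .d 2393488 (.cut .v 17825792 (.cut .d 1196744 (.pos 19 .pp ⟨0, 0, 0, 0, 0, 0, 0, 0, 0, ⟨0, 0⟩, 0⟩ 0 0) (.pos 19 .pp ⟨0,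 0, 0, 0, 0, 0, 0, 0, 0, ⟨0, 0⟩, 0⟩ 0 0)) (.pos 20 .pp ⟨0, 0, 0, 0, 0, 0, 0, 0, 0, ⟨0, 0⟩, 0⟩ 0 0)) (.pos 17 .pp ⟨0, 0, 0, 0, 0, 0, 0, 0, 228154, ⟨0, 0⟩, 17278579⟩ 0 0)) (.pos 18 .pp ⟨0, 0, 0, 0, 0, 0, 0, 0, 0, ⟨0, 0⟩, 0⟩ 0 0)) (.pos 15 .pp ⟨0, 0, 0, 0, 0, 0, 0, 0, 226605, ⟨0, 0⟩, 17739746⟩ 0 0)) (.pos 16 .pp ⟨0, 0, 0, 0, 0, 0, 0, 0, 835011, ⟨0, 0⟩, 19632256⟩ 0 0)) (.pos 13 .pp ⟨0, 0, 0, 0, 9297357, 0, 0, 0, 240007, ⟨0, 0⟩, 18567042⟩ 0 0)) (.cut .d 9573955 (.pos 14 .pp ⟨2986088, 0, 0, 0, 0, 0, 0, 0, 0, ⟨0, 0⟩, 0⟩ 0 0) (.pos 14 .pp ⟨0, 0, 0, 0, 0, 0, 0, 0, 548445, ⟨0, 0⟩, 22080058⟩ 0 0))) (.void 11 ⟨0, 0, 0, 0, 0, 0, 0, 0, 100000, ⟨0, 0⟩, 19951585⟩ 0 0))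 (.cut .v 50331648 (.cut .d 19147910 (.pos 31 .pp ⟨0, 169181, 0, 0, 0, 0, 6128400, 0, 0, ⟨0, 0⟩, 0⟩ 0 0) (.cut .v 41943040 (.pos 33 .pp ⟨0, 10914643, 0, 0, 0, 0, 0, 0, 6485413, ⟨0, 0⟩, 25087789⟩ 0 0) (.cut .v 46137344 (.pos 41 .pp ⟨0, 26701792, 0, 0, 0, 0, 0, 0, 8815286, ⟨0, 0⟩, 27166774⟩ 0 0) (.pos 42 .pp ⟨0, 63606058, 0, 0, 0, 0, 4290042, 0, 0, ⟨0, 0⟩, 0⟩ 0 0)))) (.cut .d 19147910 (.pos 32 .pp ⟨0, 83455941, 0, 0, 0, 0, 26583290, 0, 0, ⟨0, 0⟩, 0⟩ 0 0) (.void 32 ⟨0, 100000, 0, 0, 0, 0, 0, 0, 0, ⟨0, 0⟩, 0⟩ 0 0)))) (.void 10 ⟨0, 53911, 0, 0, 0, 0, 0, 0, 46089, ⟨0, 0⟩, 23726566⟩ 0 0)))),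
    by decide +kernel⟩

def covers3 : cell.Covers table row3.1 :=
  ⟨(.cut .d 0 (.cut .v 16777216 (.cut .v 8388608 (.cut .v 4194304 (.void 4 ⟨0, 0, 100000, 0, 0, 0, 0, 0, 0, ⟨0, 0⟩, 0⟩ 0 0) (.pos 5 .mm ⟨0, 0, 0, 0, 0, 146642, 0, 0, 0, ⟨0, 0⟩, 0⟩ 0 0)) (.cut .v 12582912 (.pos 6 .mm ⟨0, 0, 0, 0, 0, 219963, 0, 0, 0, ⟨0, 0⟩, 0⟩ 0 0) (.cut .v 14680064 (.pos 8 .mm ⟨0, 0, 0, 0, 0, 223259, 0, 0, 0, ⟨0, 0⟩, 0⟩ 0 0) (.cut .d (-8388608) (.pos 9 .mm ⟨0, 0, 0, 0, 0, 268844, 0, 0, 0, ⟨0, 0⟩, 0⟩ 0 0) (.cut .v 15728640 (.pos 49 .mm ⟨0, 0, 0, 0, 0, 256002, 0, 0, 0, ⟨0, 0⟩, 0⟩ 0 0) (.pos 50 .mm ⟨0, 0, 0, 0, 0, 0, 0, 0, 0, ⟨0, 0⟩, 0⟩ 0 0)))))) (.cut .v 33554432 (.cut .v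 25165824 (.cut .v 20971520 (.pos 15 .mp ⟨0, 0, 0, 0, 0, 0, 0, 0, 0, ⟨0, 0⟩, 0⟩ 0 0) (.pos 16 .mp ⟨470883, 0, 0, 0, 0, 0, 0, 0, 0, ⟨0, 0⟩, 0⟩ 0 0)) (.pos 14 .mp ⟨584105, 0, 0, 0, 0, 0, 0, 0, 0, ⟨0, 0⟩, 0⟩ 0 0)) (.void 12 ⟨100000, 0, 0, 0, 0, 0, 0, 0, 0, ⟨0, 0⟩, 0⟩ 0 0))) (.cut .v 16777216 (.cut .v 8388608 (.void 2 ⟨0, 0, 0, 0, 100000, 0, 0, 0, 0, ⟨0, 0⟩, 0⟩ 0 0) (.cut .v 12582912 (.void 6 ⟨0, 0, 0, 0, 100000, 0, 0, 0, 0, ⟨0, 0⟩, 0⟩ 0 0) (.cut .v 14680064 (.pos 8 .pm ⟨0, 0, 0, 0, 0, 0, 0, 0, 0, ⟨0, 0⟩, 0⟩ 0 0) (.cut .d 28636973 (.cut .d 14318486 (.cut .d 7159243 (.cut .d 3579621 (.cut .d 1789810 (.cut .v 15728640 (.pos 49 .pm ⟨0, 0, 0, 0, 0, 0, 0, 0, 0,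 ⟨0, 0⟩, 0⟩ 0 0) (.cut .d 894905 (.pos 50 .pm ⟨0, 0, 0, 0, 0, 0, 0, 0, 0, ⟨0, 0⟩, 0⟩ 0 0) (.pos 50 .pm ⟨0, 0, 0, 0, 0, 0, 0, 0, 0, ⟨0, 0⟩, 0⟩ 0 0))) (.pos 9 .pm ⟨0, 0, 0, 0, 0, 0, 0, 0, 0, ⟨0, 0⟩, 0⟩ 0 0)) (.pos 9 .pm ⟨0, 0, 0, 0, 0, 0, 0, 0, 226517, ⟨0, 0⟩, 16226390⟩ 0 0)) (.void 9 ⟨0, 0, 0, 0, 100000, 0, 0, 0, 0, ⟨0, 0⟩, 0⟩ 0 0)) (.void 9 ⟨0, 0, 0, 0, 0, 0, 0, 0, 100000, ⟨0, 0⟩, 16226390⟩ 0 0)) (.void 9 ⟨0, 0, 0, 0, 0, 0, 0, 0, 100000, ⟨0, 0⟩, 16226390⟩ 0 0))))) (.cut .d 28636973 (.cut .v 33554432 (.cut .d 14318486 (.cut .v 25165824 (.cut .v 20971520 (.cut .d 7159243 (.cut .d 3579621 (.cut .v 18874368 (.cut .d 1789810 (.cut .v 17825792 (.cut .d 894905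 (.pos 19 .pp ⟨0, 0, 0, 0, 0, 0, 0, 0, 0, ⟨0, 0⟩, 0⟩ 0 0) (.pos 19 .pp ⟨0, 0, 0, 0, 0, 0, 0, 0, 0, ⟨0, 0⟩, 0⟩ 0 0)) (.pos 20 .pp ⟨0, 0, 0, 0, 0, 0, 0, 0, 0, ⟨0, 0⟩, 0⟩ 0 0)) (.pos 17 .pp ⟨0, 0, 0, 0, 0, 0, 0, 0, 0, ⟨0, 0⟩, 0⟩ 0 0)) (.pos 18 .pp ⟨0, 0, 0, 0, 0, 0, 0, 0, 0, ⟨0, 0⟩, 0⟩ 0 0)) (.pos 15 .pp ⟨0, 0, 0, 0, 0, 0, 0, 0, 193314, ⟨0, 0⟩, 17739746⟩ 0 0)) (.pos 15 .pp ⟨0, 0, 0, 0, 0, 0, 0, 0, 215746, ⟨0, 0⟩, 17739746⟩ 0 0)) (.cut .d 7159243 (.pos 16 .pp ⟨0, 0, 0, 0, 0, 0, 0, 271428, 0, ⟨1260917, 9737678⟩, 0⟩ 58 99) (.pos 16 .pp ⟨0, 0, 0, 0, 0, 0, 0, 0, 209217, ⟨0, 0⟩, 19632256⟩ 0 0))) (.pos 14 .pp ⟨0, 0, 0, 0, 0, 0, 0, 0, 213689, ⟨0, 0⟩, 22080058⟩ 0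 0)) (.pos 11 .pp ⟨0, 0, 0, 0, 0, 0, 0, 0, 14264815, ⟨0, 0⟩, 19951585⟩ 0 0)) (.cut .v 50331648 (.cut .d 14318486 (.pos 31 .pp ⟨0, 0, 0, 0, 0, 0, 0, 0, 206961, ⟨0, 0⟩, 26257762⟩ 0 0) (.cut .d 21477729 (.pos 31 .pp ⟨0, 10881185, 0, 0, 0, 0, 204016, 0, 71584, ⟨0, 0⟩, 26257762⟩ 0 0) (.pos 31 .pp ⟨0, 33220002, 0, 0, 0, 0, 0, 0, 10374126, ⟨0, 0⟩, 26257762⟩ 0 0))) (.pos 32 .pp ⟨1325115, 132521687, 0, 0, 0, 0, 0, 0, 0, ⟨0, 0⟩, 0⟩ 0 0))) (.void 10 ⟨0, 63847, 0, 0, 0, 0, 0, 0, 36153, ⟨0, 0⟩, 23726566⟩ 0 0)))),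
    by decide +kernel⟩

def covers4 : cell.Covers table row4.1 :=
  ⟨(.cut .d 0 (.cut .v 16777216 (.cut .v 8388608 (.cut .v 4194304 (.void 4 ⟨0, 0, 100000, 0, 0, 0, 0, 0, 0, ⟨0, 0⟩, 0⟩ 0 0) (.pos 5 .mm ⟨0, 0, 0, 0, 0, 2650066, 0, 0, 0, ⟨0, 0⟩, 0⟩ 0 0)) (.cut .v 12582912 (.pos 6 .mm ⟨0, 0, 0, 0, 0, 193642, 0, 0, 0, ⟨0, 0⟩, 0⟩ 0 0) (.cut .d (-8388608) (.pos 7 .mm ⟨0, 0, 0, 0, 0, 5727075, 0, 0, 0, ⟨0, 0⟩, 0⟩ 0 0) (.cut .v 14680064 (.pos 8 .mm ⟨0, 0, 0, 0, 0, 237135, 0, 0, 0, ⟨0, 0⟩, 0⟩ 0 0) (.cut .v 15728640 (.pos 49 .mm ⟨0, 0, 0, 0, 0, 210770, 0, 0, 0, ⟨0, 0⟩, 0⟩ 0 0) (.pos 50 .mm ⟨0, 0, 0, 0, 0, 32372, 0, 0, 0, ⟨0, 0⟩, 0⟩ 0 0)))))) (.cut .v 67108864 (.cut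 .v 33554432 (.cut .v 25165824 (.cut .v 20971520 (.pos 15 .mp ⟨0, 0, 0, 0, 0, 0, 0, 0, 0, ⟨0, 0⟩, 0⟩ 0 0) (.pos 16 .mp ⟨558906, 0, 0, 0, 0, 0, 0, 0, 0, ⟨0, 0⟩, 0⟩ 0 0)) (.pos 14 .mp ⟨693292, 0, 0, 0, 0, 0, 0, 0, 0, ⟨0, 0⟩, 0⟩ 0 0)) (.void 12 ⟨100000, 0, 0, 0, 0, 0, 0, 0, 0, ⟨0, 0⟩, 0⟩ 0 0)) (.void 57 ⟨100000, 0, 0, 0, 0, 0, 0, 0, 0, ⟨0, 0⟩, 0⟩ 0 0))) (.cut .v 16777216 (.cut .v 8388608 (.void 2 ⟨0, 0, 0, 0, 100000, 0, 0, 0, 0, ⟨0, 0⟩, 0⟩ 0 0) (.cut .v 12582912 (.pos 6 .pm ⟨0, 0, 0, 0, 0, 0, 0, 0, 0, ⟨0, 0⟩, 0⟩ 0 0) (.cut .v 14680064 (.pos 8 .pm ⟨0, 0, 0, 0, 0, 0, 0, 0, 0, ⟨0, 0⟩, 0⟩ 0 0) (.cut .d 22734344 (.cut .d 11367172 (.cut .d 5683586 (.cut .d 2841793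 (.cut .v 15728640 (.pos 49 .pm ⟨0, 0, 0, 0, 0, 0, 0, 0, 0, ⟨0, 0⟩, 0⟩ 0 0) (.cut .d 1420896 (.cut .d 710448 (.pos 50 .pm ⟨0, 0, 0, 0, 0, 0, 0, 0, 0, ⟨0, 0⟩, 0⟩ 0 0) (.pos 50 .pm ⟨0, 0, 0, 0, 0, 0, 0, 0, 0, ⟨0, 0⟩, 0⟩ 0 0)) (.pos 50 .pm ⟨0, 0, 0, 0, 0, 0, 0, 0, 0, ⟨0, 0⟩, 0⟩ 0 0))) (.pos 9 .pm ⟨0, 0, 0, 0, 0, 0, 0, 0, 180644, ⟨0, 0⟩, 16226390⟩ 0 0)) (.pos 9 .pm ⟨0, 0, 0, 0, 0, 0, 0, 0, 184440, ⟨0, 0⟩, 16226390⟩ 0 0)) (.void 9 ⟨0, 0, 0, 0, 0, 0, 0, 0, 100000, ⟨0, 0⟩, 16226390⟩ 0 0)) (.void 9 ⟨0, 0, 0, 0, 0, 0, 0, 0, 100000, ⟨0, 0⟩, 16226390⟩ 0 0))))) (.cut .v 67108864 (.cut .d 22734344 (.cut .v 33554432 (.cut .v 25165824 (.cut .d 11367172 (.cut .v 20971520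 (.cut .d 5683586 (.cut .v 18874368 (.cut .d 2841793 (.cut .d 1420896 (.pos 17 .pp ⟨0, 0, 0, 0, 0, 0, 0, 0, 0, ⟨0, 0⟩, 0⟩ 0 0) (.pos 17 .pp ⟨0, 0, 0, 0, 0, 0, 0, 0, 0, ⟨0, 0⟩, 0⟩ 0 0)) (.pos 17 .pp ⟨0, 0, 0, 0, 0, 0, 0, 0, 144421, ⟨0, 0⟩, 17278579⟩ 0 0)) (.pos 18 .pp ⟨0, 0, 0, 0, 0, 0, 0, 0, 0, ⟨0, 0⟩, 0⟩ 0 0)) (.pos 15 .pp ⟨0, 0, 0, 0, 0, 0, 0, 0, 175671, ⟨0, 0⟩, 17739746⟩ 0 0)) (.pos 16 .pp ⟨0, 0, 0, 0, 0, 0, 0, 0, 208885, ⟨0, 0⟩, 19632256⟩ 0 0)) (.cut .v 20971520 (.pos 15 .pp ⟨0, 0, 0, 0, 0, 0, 0, 0, 1127976, ⟨0, 0⟩, 17739746⟩ 0 0) (.pos 16 .pp ⟨0, 0, 0, 0, 0, 0, 0, 0, 1335420, ⟨0, 0⟩, 19632256⟩ 0 0))) (.pos 14 .pp ⟨0, 0, 0, 0, 0, 0, 0, 0, 2464938,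 ⟨0, 0⟩, 22080058⟩ 0 0)) (.cut .v 50331648 (.pos 31 .pp ⟨0, 9410815, 0, 0, 0, 0, 0, 0, 2186396, ⟨0, 0⟩, 26257762⟩ 0 0) (.pos 32 .pp ⟨0, 69235367, 0, 0, 0, 0, 291095, 0, 0, ⟨0, 0⟩, 0⟩ 0 0))) (.void 10 ⟨0, 71557, 0, 0, 0, 0, 0, 0, 28443, ⟨0, 0⟩, 23726566⟩ 0 0)) (.void 57 ⟨40454, 59546, 0, 0, 0, 0, 0, 0, 0, ⟨0, 0⟩, 0⟩ 0 0)))),
    by decide +kernel⟩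

def covers5 : cell.Covers table row5.1 :=
  ⟨(.cut .d 0 (.cut .v 16777216 (.cut .d (-8388608) (.void 1 ⟨0, 0, 0, 0, 0, 100000, 0, 0, 0, ⟨0, 0⟩, 0⟩ 0 0) (.cut .v 8388608 (.cut .v 4194304 (.void 4 ⟨0, 0, 100000, 0, 0, 0, 0, 0, 0, ⟨0, 0⟩, 0⟩ 0 0) (.pos 5 .mm ⟨0, 0, 0, 0, 0, 721159, 0, 0, 0, ⟨0, 0⟩, 0⟩ 0 0)) (.cut .v 12582912 (.pos 6 .mm ⟨0, 0, 0, 0, 0, 533498, 0, 0, 0, ⟨0, 0⟩, 0⟩ 0 0) (.cut .v 14680064 (.pos 8 .mm ⟨0, 0, 0, 0, 0, 339590, 0, 0, 0, ⟨0, 0⟩, 0⟩ 0 0) (.cut .v 15728640 (.pos 49 .mm ⟨0, 0, 0, 0, 0, 212801, 0, 0, 0, ⟨0, 0⟩, 0⟩ 0 0) (.cut .d (-4194304) (.pos 50 .mm ⟨0, 0, 0, 0, 0, 572508, 0, 0, 0, ⟨0, 0⟩, 0⟩ 0 0) (.pos 50 .mm ⟨0, 0, 0, 0, 0, 0,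 0, 0, 0, ⟨0, 0⟩, 0⟩ 0 0))))))) (.cut .v 67108864 (.cut .v 33554432 (.cut .v 25165824 (.pos 13 .mp ⟨0, 0, 0, 0, 0, 5443, 0, 0, 0, ⟨0, 0⟩, 0⟩ 0 0) (.pos 14 .mp ⟨1457802, 0, 0, 0, 0, 0, 0, 0, 0, ⟨0, 0⟩, 0⟩ 0 0)) (.void 12 ⟨100000, 0, 0, 0, 0, 0, 0, 0, 0, ⟨0, 0⟩, 0⟩ 0 0)) (.void 57 ⟨100000, 0, 0, 0, 0, 0, 0, 0, 0, ⟨0, 0⟩, 0⟩ 0 0))) (.cut .v 16777216 (.cut .v 8388608 (.void 2 ⟨0, 0, 0, 0, 100000, 0, 0, 0, 0, ⟨0, 0⟩, 0⟩ 0 0) (.cut .v 12582912 (.pos 6 .pm ⟨0, 0, 0, 0, 0, 0, 0, 0, 0, ⟨0, 0⟩, 0⟩ 0 0) (.cut .v 14680064 (.pos 8 .pm ⟨0, 0, 0, 0, 0, 0, 0, 0, 0, ⟨0, 0⟩, 0⟩ 0 0) (.cut .d 18454939 (.cut .d 9227469 (.cut .v 15728640 (.pos 49 .pm ⟨0, 0, 0, 0, 0, 0, 0,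 0, 0, ⟨0, 0⟩, 0⟩ 0 0) (.cut .d 4613734 (.cut .v 16252928 (.pos 53 .pm ⟨0, 0, 0, 0, 0, 0, 0, 0, 0, ⟨0, 0⟩, 0⟩ 0 0) (.cut .d 2306867 (.pos 54 .pm ⟨0, 0, 0, 0, 0, 0, 0, 0, 0, ⟨0, 0⟩, 0⟩ 0 0) (.pos 54 .pm ⟨0, 0, 0, 0, 0, 0, 0, 0, 0, ⟨0, 0⟩, 0⟩ 0 0))) (.pos 50 .pm ⟨0, 0, 0, 0, 0, 0, 0, 0, 383334, ⟨0, 0⟩, 16508694⟩ 0 0))) (.pos 9 .pm ⟨0, 0, 0, 0, 0, 0, 0, 0, 620067, ⟨0, 0⟩, 16226390⟩ 0 0)) (.void 9 ⟨0, 0, 0, 0, 0, 0, 0, 0, 100000, ⟨0, 0⟩, 16226390⟩ 0 0))))) (.cut .v 67108864 (.cut .v 33554432 (.cut .d 18454939 (.cut .v 25165824 (.cut .v 20971520 (.cut .d 9227469 (.cut .d 4613734 (.pos 15 .pp ⟨0, 0, 0, 0, 0, 0, 0, 0, 0, ⟨0, 0⟩, 0⟩ 0 0) (.pos 15 .pp ⟨0, 0, 0,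 0, 0, 0, 0, 0, 305301, ⟨0, 0⟩, 17739746⟩ 0 0)) (.cut .d 13841204 (.pos 15 .pp ⟨0, 0, 0, 0, 0, 0, 0, 0, 557021, ⟨0, 0⟩, 17739746⟩ 0 0) (.pos 15 .pp ⟨0, 0, 0, 0, 0, 0, 0, 0, 3464584, ⟨0, 0⟩, 17739746⟩ 0 0))) (.cut .d 9227469 (.pos 16 .pp ⟨0, 0, 0, 0, 0, 0, 0, 0, 297886, ⟨0, 0⟩, 19632256⟩ 0 0) (.pos 16 .pp ⟨0, 0, 0, 0, 0, 0, 0, 0, 2521627, ⟨0, 0⟩, 19632256⟩ 0 0))) (.pos 14 .pp ⟨0, 0, 0, 0, 0, 0, 0, 0, 3320439, ⟨0, 0⟩, 22080058⟩ 0 0)) (.cut .v 25165824 (.void 13 ⟨0, 0, 0, 0, 0, 0, 0, 0, 100000, ⟨0, 0⟩, 18567042⟩ 0 0) (.cut .s 5636096 (.pos 14 .pp ⟨0, 7202603, 0, 0, 0, 0, 0, 0, 10195791, ⟨0, 0⟩, 22080058⟩ 0 0) (.pos 14 .pp ⟨0, 8554938, 0, 0, 0, 0, 0, 0, 11068264,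 ⟨0, 0⟩, 22080058⟩ 0 0)))) (.cut .d 18454939 (.pos 12 .pp ⟨0, 9854091, 0, 0, 0, 0, 0, 0, 258553, ⟨0, 0⟩, 28215802⟩ 0 0) (.pos 12 .pp ⟨0, 65850256, 0, 0, 0, 0, 0, 0, 147166, ⟨0, 0⟩, 28215802⟩ 0 0))) (.void 57 ⟨39851, 60149, 0, 0, 0, 0, 0, 0, 0, ⟨0, 0⟩, 0⟩ 0 0)))),
    by decide +kernel⟩

def covers6 : cell.Covers table row6.1 :=
  ⟨(.cut .d 0 (.cut .v 16777216 (.cut .d (-8388608) (.void 1 ⟨0, 0, 0, 0, 0, 100000, 0, 0, 0, ⟨0, 0⟩, 0⟩ 0 0) (.cut .v 8388608 (.cut .v 4194304 (.void 4 ⟨0, 0, 100000, 0, 0, 0, 0, 0, 0, ⟨0, 0⟩, 0⟩ 0 0) (.pos 5 .mm ⟨0, 0, 0, 0, 0, 132709, 0, 0, 205285, ⟨0, 0⟩, 9975792⟩ 0 0)) (.cut .v 12582912 (.pos 6 .mm ⟨0, 0, 0, 0, 0, 0, 0, 0,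 0, ⟨0, 0⟩, 0⟩ 0 0) (.cut .v 14680064 (.pos 8 .mm ⟨0, 0, 0, 0, 0, 43183, 0, 0, 0, ⟨0, 0⟩, 0⟩ 0 0) (.cut .v 15728640 (.cut .s 6422528 (.pos 49 .mm ⟨0, 0, 0, 0, 0, 51481, 0, 0, 0, ⟨0, 0⟩, 0⟩ 0 0) (.pos 49 .mm ⟨0, 0, 0, 0, 0, 0, 0, 0, 0, ⟨0, 0⟩, 0⟩ 0 0)) (.pos 50 .mm ⟨0, 0, 0, 0, 0, 0, 0, 0, 0, ⟨0, 0⟩, 0⟩ 0 0)))))) (.cut .v 67108864 (.cut .v 33554432 (.cut .v 25165824 (.cut .d (-8388608) (.void 13 ⟨0, 0, 0, 0, 0, 100000, 0, 0, 0, ⟨0, 0⟩, 0⟩ 0 0) (.pos 13 .mp ⟨0, 0, 0, 0, 0, 735096, 0, 0, 0, ⟨0, 0⟩, 0⟩ 0 0)) (.pos 14 .mp ⟨19439716, 0, 0, 0, 0, 0, 0, 0, 0, ⟨0, 0⟩, 0⟩ 0 0)) (.void 12 ⟨100000, 0, 0, 0, 0, 0, 0, 0, 0, ⟨0, 0⟩, 0⟩ 0 0)) (.void 57 ⟨100000, 0, 0,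 0, 0, 0, 0, 0, 0, ⟨0, 0⟩, 0⟩ 0 0))) (.cut .v 16777216 (.cut .v 8388608 (.pos 2 .pm ⟨0, 0, 0, 0, 259633701, 0, 0, 0, 0, ⟨0, 0⟩, 0⟩ 0 0) (.cut .d 14953607 (.cut .v 12582912 (.pos 6 .pm ⟨0, 0, 0, 0, 0, 0, 0, 0, 162629, ⟨0, 0⟩, 13128881⟩ 0 0) (.cut .v 14680064 (.pos 8 .pm ⟨0, 0, 0, 0, 0, 0, 0, 0, 79040, ⟨0, 0⟩, 15100357⟩ 0 0) (.cut .s 6422528 (.cut .d 7476803 (.cut .l 6501171 (.cut .l 4159351 (.cut .v 15728640 (.cut .d 3738401 (.pos 49 .pm ⟨0, 0, 0, 0, 0, 0, 0, 0, 0, ⟨0, 0⟩, 0⟩ 0 0) (.pos 49 .pm ⟨0, 0, 0, 0, 0, 0, 0, 0, 1813, ⟨0, 0⟩, 15966684⟩ 0 0)) (.cut .d 3738401 (.pos 50 .pm ⟨0, 0, 0, 0, 0, 0, 0, 0, 0, ⟨0, 0⟩, 0⟩ 0 0) (.pos 50 .pm ⟨0, 0, 0, 0, 0, 0, 0,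 0, 72594, ⟨0, 0⟩, 16508694⟩ 0 0))) (.pos 9 .pm ⟨0, 0, 0, 0, 0, 0, 0, 0, 0, ⟨0, 0⟩, 0⟩ 0 0)) (.pos 9 .pm ⟨0, 0, 0, 0, 0, 0, 0, 0, 0, ⟨0, 0⟩, 0⟩ 0 0)) (.pos 9 .pm ⟨0, 0, 0, 0, 0, 0, 0, 0, 356457, ⟨0, 0⟩, 16226390⟩ 0 0)) (.cut .d 7476803 (.cut .v 15728640 (.cut .d 3738401 (.cut .v 15204352 (.pos 60 .pm ⟨0, 0, 0, 0, 0, 0, 0, 0, 0, ⟨0, 0⟩, 0⟩ 0 0) (.pos 61 .pm ⟨0, 0, 0, 0, 0, 0, 0, 0, 0, ⟨0, 0⟩, 0⟩ 0 0)) (.pos 49 .pm ⟨0, 0, 0, 0, 0, 0, 0, 0, 0, ⟨0, 0⟩, 0⟩ 0 0)) (.pos 50 .pm ⟨0, 0, 0, 0, 0, 0, 0, 0, 21958, ⟨0, 0⟩, 16508694⟩ 0 0)) (.pos 9 .pm ⟨0, 0, 0, 0, 0, 0, 0, 0, 285009, ⟨0, 0⟩, 16226390⟩ 0 0))))) (.void 3 ⟨0, 0, 0, 0, 0, 0, 0, 0, 100000, ⟨0, 0⟩, 14107901⟩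 0 0))) (.cut .v 67108864 (.cut .v 33554432 (.cut .d 14953607 (.cut .v 25165824 (.cut .v 20971520 (.cut .d 7476803 (.pos 15 .pp ⟨0, 0, 0, 0, 0, 0, 0, 0, 267471, ⟨0, 0⟩, 17739746⟩ 0 0) (.cut .s 6422528 (.cut .l 6501171 (.pos 15 .pp ⟨0, 0, 0, 0, 0, 0, 0, 0, 1050926, ⟨0, 0⟩, 17739746⟩ 0 0) (.cut .v 18874368 (.cut .d 11215205 (.pos 17 .pp ⟨0, 0, 0, 0, 0, 0, 0, 0, 428714, ⟨0, 0⟩, 17278579⟩ 0 0) (.cut .d 13084406 (.pos 17 .pp ⟨0, 0, 0, 0, 0, 0, 0, 0, 979826, ⟨0, 0⟩, 17278579⟩ 0 0) (.pos 17 .pp ⟨0, 0, 0, 0, 0, 0, 0, 0, 2170475, ⟨0, 0⟩, 17278579⟩ 0 0))) (.cut .d 11215205 (.pos 18 .pp ⟨0, 0, 0, 0, 0, 0, 0, 0, 427033, ⟨0, 0⟩, 18269873⟩ 0 0) (.cut .d 13084406 (.pos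 18 .pp ⟨0, 0, 0, 0, 0, 0, 0, 0, 992310, ⟨0, 0⟩, 18269873⟩ 0 0) (.pos 18 .pp ⟨0, 0, 0, 0, 0, 0, 0, 0, 2046705, ⟨0, 0⟩, 18269873⟩ 0 0))))) (.cut .l 6501171 (.pos 15 .pp ⟨0, 0, 0, 0, 0, 0, 0, 0, 931552, ⟨0, 0⟩, 17739746⟩ 0 0) (.cut .v 18874368 (.cut .d 11215205 (.pos 17 .pp ⟨0, 0, 0, 0, 0, 0, 0, 0, 349013, ⟨0, 0⟩, 17278579⟩ 0 0) (.cut .d 13084406 (.pos 17 .pp ⟨0, 0, 0, 0, 0, 0, 0, 0, 753282, ⟨0, 0⟩, 17278579⟩ 0 0) (.pos 17 .pp ⟨0, 0, 0, 0, 0, 0, 0, 0, 2454360, ⟨0, 0⟩, 17278579⟩ 0 0))) (.cut .d 11215205 (.pos 18 .pp ⟨0, 0, 0, 0, 0, 0, 0, 0, 342920, ⟨0, 0⟩, 18269873⟩ 0 0) (.pos 18 .pp ⟨0, 0, 0, 0, 0, 0, 0, 0, 1536381, ⟨0, 0⟩, 18269873⟩ 0 0)))))) (.cut .s 6422528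 (.pos 16 .pp ⟨0, 0, 0, 0, 0, 0, 0, 0, 1484963, ⟨0, 0⟩, 19632256⟩ 0 0) (.pos 16 .pp ⟨0, 0, 0, 0, 0, 0, 0, 0, 1222391, ⟨0, 0⟩, 19632256⟩ 0 0))) (.pos 14 .pp ⟨0, 0, 0, 0, 0, 0, 0, 0, 466444, ⟨0, 0⟩, 22080058⟩ 0 0)) (.cut .d 22430410 (.cut .l 6501171 (.pos 11 .pp ⟨0, 0, 0, 0, 0, 0, 0, 0, 17374212, ⟨0, 0⟩, 19951585⟩ 0 0) (.cut .v 25165824 (.cut .v 20971520 (.pos 15 .pp ⟨0, 0, 0, 0, 0, 0, 0, 0, 11909031, ⟨0, 0⟩, 17739746⟩ 0 0) (.cut .s 6422528 (.pos 16 .pp ⟨0, 0, 0, 0, 0, 0, 0, 0, 5675781, ⟨0, 0⟩, 19632256⟩ 0 0) (.pos 16 .pp ⟨0, 0, 0, 0, 0, 0, 0, 0, 4900023, ⟨0, 0⟩, 19632256⟩ 0 0))) (.cut .d 18692008 (.cut .s 6422528 (.pos 14 .pp ⟨0, 1570347, 0, 0, 0, 0, 0,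 0, 4381805, ⟨0, 0⟩, 22080058⟩ 0 0) (.pos 14 .pp ⟨0, 0, 0, 0, 0, 0, 0, 0, 4657463, ⟨0, 0⟩, 22080058⟩ 0 0)) (.pos 14 .pp ⟨0, 21020121, 0, 0, 0, 0, 0, 0, 14622669, ⟨0, 0⟩, 22080058⟩ 0 0)))) (.void 11 ⟨0, 80446, 0, 0, 0, 0, 0, 0, 19554, ⟨0, 0⟩, 19951585⟩ 0 0))) (.cut .d 14953607 (.pos 12 .pp ⟨0, 0, 0, 0, 0, 0, 0, 0, 496593, ⟨0, 0⟩, 28215802⟩ 0 0) (.pos 12 .pp ⟨0, 32958822, 0, 0, 0, 0, 0, 0, 496593, ⟨0, 0⟩, 28215802⟩ 0 0))) (.pos 57 .pp ⟨83425468, 190413913, 0, 0, 0, 0, 0, 0, 0, ⟨0, 0⟩, 0⟩ 0 0)))),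
    by decide +kernel⟩

def covers7 : cell.Covers table row7.1 :=
  ⟨(.cut .d 0 (.cut .v 16777216 (.cut .d (-8388608) (.void 1 ⟨0, 0, 0, 0, 0, 100000, 0, 0, 0, ⟨0, 0⟩, 0⟩ 0 0) (.cut .v 8388608 (.cut .v 4194304 (.void 4 ⟨0, 0, 100000, 0, 0, 0, 0, 0, 0, ⟨0, 0⟩, 0⟩ 0 0) (.pos 5 .mm ⟨0, 0, 0, 0, 0, 0, 0, 0, 0, ⟨0, 0⟩, 0⟩ 0 0)) (.cut .v 12582912 (.pos 6 .mm ⟨0, 0, 0, 0, 0, 0, 0, 0, 0, ⟨0, 0⟩, 0⟩ 0 0) (.cut .v 14680064 (.pos 8 .mm ⟨0, 0, 0, 0, 0, 135693, 0, 0, 0, ⟨0, 0⟩, 0⟩ 0 0) (.cut .d (-4194304) (.pos 9 .mm ⟨0, 0, 0, 0, 0, 1331283, 0, 0, 0, ⟨0, 0⟩, 0⟩ 0 0) (.cut .v 15728640 (.cut .s 7176192 (.pos 49 .mm ⟨0, 0, 0, 0, 0, 97531, 0, 0, 0, ⟨0, 0⟩, 0⟩ 0 0) (.cut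 .d (-2097152) (.pos 49 .mm ⟨0, 0, 0, 0, 0, 516294, 0, 0, 0, ⟨0, 0⟩, 0⟩ 0 0) (.cut .d (-1048576) (.pos 49 .mm ⟨0, 0, 0, 0, 0, 454241, 0, 0, 0, ⟨0, 0⟩, 0⟩ 0 0) (.pos 49 .mm ⟨0, 0, 0, 0, 0, 190483, 0, 0, 0, ⟨0, 0⟩, 0⟩ 0 0)))) (.cut .d (-2097152) (.pos 50 .mm ⟨0, 0, 0, 0, 0, 492112, 0, 0, 0, ⟨0, 0⟩, 0⟩ 0 0) (.pos 50 .mm ⟨0, 0, 0, 0, 0, 277305, 0, 0, 0, ⟨0, 0⟩, 0⟩ 0 0)))))))) (.cut .v 67108864 (.cut .v 33554432 (.cut .d (-8388608) (.void 11 ⟨0, 0, 0, 0, 0, 100000, 0, 0, 0, ⟨0, 0⟩, 0⟩ 0 0) (.cut .v 25165824 (.cut .v 20971520 (.cut .d (-4194304) (.pos 15 .mp ⟨0, 0, 0, 0, 0, 4586271, 0, 0, 0, ⟨0, 0⟩, 0⟩ 0 0) (.pos 15 .mp ⟨0, 0, 0, 0, 0, 731804, 0, 0, 0, ⟨0, 0⟩,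 0⟩ 0 0)) (.pos 16 .mp ⟨8421877, 0, 0, 0, 0, 0, 0, 0, 0, ⟨0, 0⟩, 0⟩ 0 0)) (.pos 14 .mp ⟨18247529, 0, 0, 0, 0, 0, 0, 0, 0, ⟨0, 0⟩, 0⟩ 0 0))) (.void 12 ⟨100000, 0, 0, 0, 0, 0, 0, 0, 0, ⟨0, 0⟩, 0⟩ 0 0)) (.void 57 ⟨100000, 0, 0, 0, 0, 0, 0, 0, 0, ⟨0, 0⟩, 0⟩ 0 0))) (.cut .v 16777216 (.cut .v 8388608 (.cut .v 4194304 (.void 4 ⟨0, 0, 50000, 0, 50000, 0, 0, 0, 0, ⟨0, 0⟩, 0⟩ 0 0) (.pos 5 .pm ⟨0, 0, 0, 0, 1208594, 0, 0, 0, 191096, ⟨0, 0⟩, 9975792⟩ 0 0)) (.cut .v 12582912 (.pos 6 .pm ⟨0, 0, 0, 0, 0, 0, 0, 0, 463646, ⟨0, 0⟩, 13128881⟩ 0 0) (.cut .d 12260274 (.cut .v 14680064 (.cut .s 7176192 (.cut .d 6130137 (.pos 8 .pm ⟨0, 0, 0, 0, 0, 0, 0, 0, 0, ⟨0, 0⟩, 0⟩ 0 0)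 (.pos 8 .pm ⟨0, 0, 0, 0, 0, 0, 0, 0, 172152, ⟨0, 0⟩, 15100357⟩ 0 0)) (.pos 8 .pm ⟨0, 0, 0, 0, 0, 0, 0, 0, 73998, ⟨0, 0⟩, 15100357⟩ 0 0)) (.cut .d 6130137 (.cut .v 15728640 (.cut .s 7176192 (.cut .d 3065068 (.cut .v 15204352 (.pos 60 .pm ⟨0, 0, 0, 0, 0, 0, 0, 0, 0, ⟨0, 0⟩, 0⟩ 0 0) (.pos 61 .pm ⟨0, 0, 0, 0, 0, 0, 0, 0, 0, ⟨0, 0⟩, 0⟩ 0 0)) (.pos 49 .pm ⟨0, 0, 0, 0, 0, 0, 0, 0, 0, ⟨0, 0⟩, 0⟩ 0 0)) (.pos 49 .pm ⟨0, 0, 0, 0, 0, 0, 0, 0, 0, ⟨0, 0⟩, 0⟩ 0 0)) (.pos 50 .pm ⟨0, 0, 0, 0, 0, 0, 0, 0, 0, ⟨0, 0⟩, 0⟩ 0 0)) (.pos 9 .pm ⟨0, 0, 0, 0, 0, 0, 0, 0, 109534, ⟨0, 0⟩, 16226390⟩ 0 0))) (.pos 7 .pm ⟨0, 0, 0, 0, 0, 0, 0, 0, 275570, ⟨0, 0⟩, 15612959⟩ 0 0)))) (.cut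 .v 67108864 (.cut .v 33554432 (.cut .v 25165824 (.cut .s 7176192 (.cut .d 12260274 (.cut .v 20971520 (.pos 15 .pp ⟨0, 0, 0, 0, 0, 0, 0, 0, 91188, ⟨0, 0⟩, 17739746⟩ 0 0) (.pos 16 .pp ⟨0, 0, 0, 0, 0, 0, 0, 0, 245399, ⟨0, 0⟩, 19632256⟩ 0 0)) (.cut .v 20971520 (.cut .v 18874368 (.pos 17 .pp ⟨0, 0, 0, 0, 0, 0, 0, 0, 1363836, ⟨0, 0⟩, 17278579⟩ 0 0) (.pos 18 .pp ⟨0, 0, 0, 0, 0, 0, 0, 0, 2185952, ⟨0, 0⟩, 18269873⟩ 0 0)) (.pos 16 .pp ⟨0, 0, 0, 0, 0, 0, 0, 0, 2912723, ⟨0, 0⟩, 19632256⟩ 0 0))) (.pos 13 .pp ⟨0, 0, 0, 0, 0, 0, 0, 0, 69002, ⟨0, 0⟩, 18567042⟩ 0 0)) (.pos 14 .pp ⟨0, 5337277, 0, 0, 0, 0, 0, 0, 238651, ⟨0, 0⟩, 22080058⟩ 0 0)) (.pos 12 .pp ⟨0, 9070506,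 0, 0, 0, 0, 0, 0, 0, ⟨0, 0⟩, 0⟩ 0 0)) (.pos 57 .pp ⟨106648053, 138829456, 0, 0, 0, 0, 0, 0, 0, ⟨0, 0⟩, 0⟩ 0 0)))),
    by decide +kernel⟩

def covers8 : cell.Covers table row8.1 :=
  ⟨(.cut .d 0 (.cut .v 16777216 (.cut .d (-8388608) (.void 1 ⟨0, 0, 0, 0, 0, 100000, 0, 0, 0, ⟨0, 0⟩, 0⟩ 0 0) (.cut .d (-4194304) (.void 1 ⟨0, 0, 0, 0, 0, 100000, 0, 0, 0, ⟨0, 0⟩, 0⟩ 0 0) (.cut .v 8388608 (.cut .v 4194304 (.void 4 ⟨0, 0, 100000, 0, 0, 0, 0, 0, 0, ⟨0, 0⟩, 0⟩ 0 0) (.pos 5 .mm ⟨0, 0, 0, 0, 0, 0, 0, 0, 0, ⟨0, 0⟩, 0⟩ 0 0)) (.cut .v 12582912 (.pos 6 .mm ⟨0, 0, 0, 0, 0, 0, 0, 0, 0, ⟨0, 0⟩, 0⟩ 0 0) (.cut .v 14680064 (.cut .s 7798784 (.pos 8 .mm ⟨0, 0, 0, 0, 0, 651173,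 0, 0, 0, ⟨0, 0⟩, 0⟩ 0 0) (.pos 8 .mm ⟨0, 0, 0, 0, 0, 1447588, 0, 0, 0, ⟨0, 0⟩, 0⟩ 0 0)) (.cut .s 7798784 (.cut .d (-2097152) (.cut .s 7667712 (.cut .v 15728640 (.pos 49 .mm ⟨0, 0, 0, 0, 0, 798700, 0, 0, 0, ⟨0, 0⟩, 0⟩ 0 0) (.pos 50 .mm ⟨0, 0, 0, 0, 0, 850463, 0, 0, 0, ⟨0, 0⟩, 0⟩ 0 0)) (.pos 9 .mm ⟨0, 0, 0, 0, 0, 1323804, 0, 0, 0, ⟨0, 0⟩, 0⟩ 0 0)) (.cut .l 6501171 (.cut .v 15728640 (.cut .l 4159351 (.cut .d (-1048576) (.pos 49 .mm ⟨0, 0, 0, 0, 0, 1168665, 0, 0, 0, ⟨0, 0⟩, 0⟩ 0 0) (.cut .v 15204352 (.pos 60 .mm ⟨0, 0, 0, 0, 0, 718369, 0, 0, 0, ⟨0, 0⟩, 0⟩ 0 0) (.pos 61 .mm ⟨0, 0, 0, 0, 0, 809830, 0, 0, 0, ⟨0, 0⟩, 0⟩ 0 0))) (.pos 49 .mm ⟨0, 0, 0, 0, 0, 443268,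 0, 0, 0, ⟨0, 0⟩, 0⟩ 0 0)) (.cut .s 7667712 (.pos 50 .mm ⟨0, 0, 0, 0, 0, 825407, 0, 0, 0, ⟨0, 0⟩, 0⟩ 0 0) (.pos 50 .mm ⟨0, 0, 0, 0, 0, 1270583, 0, 0, 0, ⟨0, 0⟩, 0⟩ 0 0))) (.pos 9 .mm ⟨0, 0, 0, 0, 0, 0, 0, 0, 0, ⟨0, 0⟩, 0⟩ 0 0))) (.cut .d (-2097152) (.cut .s 7929856 (.pos 9 .mm ⟨0, 0, 0, 0, 0, 2039162, 0, 0, 0, ⟨0, 0⟩, 0⟩ 0 0) (.pos 9 .mm ⟨0, 0, 0, 0, 0, 2920994, 0, 0, 0, ⟨0, 0⟩, 0⟩ 0 0)) (.cut .l 6501171 (.cut .v 15728640 (.cut .l 4159351 (.cut .d (-1048576) (.pos 49 .mm ⟨0, 0, 0, 0, 0, 2386632, 0, 0, 0, ⟨0, 0⟩, 0⟩ 0 0) (.cut .d (-524288) (.cut .s 7929856 (.pos 49 .mm ⟨0, 0, 0, 0, 0, 1693583, 0, 0, 0, ⟨0, 0⟩, 0⟩ 0 0) (.pos 49 .mm ⟨0, 0, 0, 0, 0, 2349833,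 0, 0, 0, ⟨0, 0⟩, 0⟩ 0 0)) (.pos 49 .mm ⟨0, 0, 0, 0, 0, 1142691, 0, 0, 0, ⟨0, 0⟩, 0⟩ 0 0))) (.pos 49 .mm ⟨0, 0, 0, 0, 0, 1362195, 0, 0, 0, ⟨0, 0⟩, 0⟩ 0 0)) (.cut .s 7929856 (.pos 50 .mm ⟨0, 0, 0, 0, 0, 1818168, 0, 0, 0, ⟨0, 0⟩, 0⟩ 0 0) (.pos 50 .mm ⟨0, 0, 0, 0, 0, 2517895, 0, 0, 0, ⟨0, 0⟩, 0⟩ 0 0))) (.pos 9 .mm ⟨0, 0, 0, 0, 0, 565393, 0, 0, 0, ⟨0, 0⟩, 0⟩ 0 0))))))))) (.cut .v 67108864 (.cut .v 33554432 (.cut .d (-8388608) (.void 11 ⟨0, 0, 0, 0, 0, 100000, 0, 0, 0, ⟨0, 0⟩, 0⟩ 0 0) (.cut .d (-4194304) (.void 11 ⟨0, 0, 0, 0, 0, 100000, 0, 0, 0, ⟨0, 0⟩, 0⟩ 0 0) (.cut .v 25165824 (.cut .v 20971520 (.cut .v 18874368 (.cut .s 7798784 (.pos 17 .mp ⟨0, 0, 0, 0,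 0, 1541441, 0, 0, 0, ⟨0, 0⟩, 0⟩ 0 0) (.cut .s 7929856 (.pos 17 .mp ⟨0, 0, 0, 0, 0, 2487146, 0, 0, 0, ⟨0, 0⟩, 0⟩ 0 0) (.cut .d (-2097152) (.pos 17 .mp ⟨0, 0, 0, 0, 0, 3739664, 0, 0, 0, ⟨0, 0⟩, 0⟩ 0 0) (.pos 17 .mp ⟨0, 0, 0, 0, 0, 2962537, 0, 0, 0, ⟨0, 0⟩, 0⟩ 0 0)))) (.pos 18 .mp ⟨5733005, 0, 0, 0, 0, 0, 0, 0, 0, ⟨0, 0⟩, 0⟩ 0 0)) (.pos 16 .mp ⟨10901421, 0, 0, 0, 0, 0, 0, 0, 0, ⟨0, 0⟩, 0⟩ 0 0)) (.pos 14 .mp ⟨24605750, 0, 0, 0, 0, 0, 0, 0, 0, ⟨0, 0⟩, 0⟩ 0 0)))) (.void 12 ⟨100000, 0, 0, 0, 0, 0, 0, 0, 0, ⟨0, 0⟩, 0⟩ 0 0)) (.void 57 ⟨100000, 0, 0, 0, 0, 0, 0, 0, 0, ⟨0, 0⟩, 0⟩ 0 0))) (.cut .v 16777216 (.cut .v 8388608 (.cut .v 4194304 (.void 4 ⟨0, 0, 50000, 0,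 50000, 0, 0, 0, 0, ⟨0, 0⟩, 0⟩ 0 0) (.pos 5 .pm ⟨0, 0, 0, 0, 0, 0, 0, 0, 1729823, ⟨0, 0⟩, 9975792⟩ 0 0)) (.cut .v 12582912 (.pos 6 .pm ⟨0, 0, 0, 0, 0, 0, 0, 0, 312705, ⟨0, 0⟩, 13128881⟩ 0 0) (.cut .v 14680064 (.pos 8 .pm ⟨0, 0, 0, 0, 0, 0, 0, 0, 53153, ⟨0, 0⟩, 15100357⟩ 0 0) (.cut .v 15728640 (.pos 49 .pm ⟨0, 0, 0, 0, 0, 0, 0, 0, 0, ⟨0, 0⟩, 0⟩ 0 0) (.pos 50 .pm ⟨0, 0, 0, 0, 0, 0, 0, 0, 0, ⟨0, 0⟩, 0⟩ 0 0))))) (.cut .v 67108864 (.cut .v 33554432 (.cut .v 25165824 (.pos 13 .pp ⟨0, 0, 0, 0, 0, 0, 0, 0, 0, ⟨0, 0⟩, 0⟩ 0 0) (.pos 14 .pp ⟨4104983, 0, 0, 0, 0, 0, 0, 0, 0, ⟨0, 0⟩, 0⟩ 0 0)) (.pos 12 .pp ⟨10754098, 0, 0, 0, 0, 0, 0, 0, 0, ⟨0, 0⟩, 0⟩ 0 0)) (.pos 57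 .pp ⟨323838284, 339000504, 0, 0, 0, 0, 0, 0, 0, ⟨0, 0⟩, 0⟩ 0 0)))),
    by decide +kernel⟩

def covers9 : cell.Covers table row9.1 :=
  ⟨(.cut .d 0 (.cut .v 16777216 (.cut .d (-8388608) (.void 1 ⟨0, 0, 0, 0, 0, 100000, 0, 0, 0, ⟨0, 0⟩, 0⟩ 0 0) (.cut .d (-4194304) (.void 1 ⟨0, 0, 0, 0, 0, 100000, 0, 0, 0, ⟨0, 0⟩, 0⟩ 0 0) (.cut .v 8388608 (.cut .v 4194304 (.void 4 ⟨0, 0, 100000, 0, 0, 0, 0, 0, 0, ⟨0, 0⟩, 0⟩ 0 0) (.pos 5 .mm ⟨0, 0, 0, 0, 0, 0, 0, 0, 0, ⟨0, 0⟩, 0⟩ 0 0)) (.cut .v 12582912 (.pos 6 .mm ⟨0, 0, 0, 0, 0, 1302446, 0, 0, 0, ⟨0, 0⟩, 0⟩ 0 0) (.cut .v 14680064 (.cut .s 8323072 (.pos 8 .mm ⟨0, 0, 0, 0, 0, 2849211, 0, 0, 0, ⟨0, 0⟩, 0⟩ 0 0) (.pos 8 .mm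 ⟨0, 0, 0, 0, 0, 4757071, 0, 0, 0, ⟨0, 0⟩, 0⟩ 0 0)) (.cut .s 8323072 (.cut .d (-2097152) (.cut .s 8192000 (.pos 9 .mm ⟨0, 0, 0, 0, 0, 4016103, 0, 0, 0, ⟨0, 0⟩, 0⟩ 0 0) (.pos 9 .mm ⟨0, 0, 0, 0, 0, 5648698, 0, 0, 0, ⟨0, 0⟩, 0⟩ 0 0)) (.cut .l 6501171 (.cut .s 8192000 (.cut .v 15728640 (.cut .d (-1048576) (.pos 49 .mm ⟨0, 0, 0, 0, 0, 3540422, 0, 0, 0, ⟨0, 0⟩, 0⟩ 0 0) (.cut .d (-524288) (.pos 49 .mm ⟨0, 0, 0, 0, 0, 3219741, 0, 0, 0, ⟨0, 0⟩, 0⟩ 0 0) (.pos 49 .mm ⟨0, 0, 0, 0, 0, 2471576, 0, 0, 0, ⟨0, 0⟩, 0⟩ 0 0))) (.cut .s 8126464 (.pos 50 .mm ⟨0, 0, 0, 0, 0, 3219688, 0, 0, 0, ⟨0, 0⟩, 0⟩ 0 0) (.pos 50 .mm ⟨0, 0, 0, 0, 0, 3718071, 0, 0, 0, ⟨0, 0⟩, 0⟩ 0 0))) (.cut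 .d (-1048576) (.pos 9 .mm ⟨0, 0, 0, 0, 0, 5140088, 0, 0, 0, ⟨0, 0⟩, 0⟩ 0 0) (.cut .l 4159351 (.cut .l 2988441 (.cut .v 15728640 (.cut .d (-524288) (.pos 49 .mm ⟨0, 0, 0, 0, 0, 4803035, 0, 0, 0, ⟨0, 0⟩, 0⟩ 0 0) (.pos 49 .mm ⟨0, 0, 0, 0, 0, 3245440, 0, 0, 0, ⟨0, 0⟩, 0⟩ 0 0)) (.cut .s 8257536 (.pos 50 .mm ⟨0, 0, 0, 0, 0, 4003480, 0, 0, 0, ⟨0, 0⟩, 0⟩ 0 0) (.pos 50 .mm ⟨0, 0, 0, 0, 0, 4577536, 0, 0, 0, ⟨0, 0⟩, 0⟩ 0 0))) (.pos 9 .mm ⟨0, 0, 0, 0, 0, 3106746, 0, 0, 0, ⟨0, 0⟩, 0⟩ 0 0)) (.pos 9 .mm ⟨0, 0, 0, 0, 0, 0, 0, 0, 0, ⟨0, 0⟩, 0⟩ 0 0)))) (.pos 9 .mm ⟨0, 0, 0, 0, 0, 2015482, 0, 0, 0, ⟨0, 0⟩, 0⟩ 0 0))) (.cut .d (-2097152) (.cut .s 8454144 (.pos 9 .mm ⟨0, 0,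 0, 0, 0, 7579627, 0, 0, 0, ⟨0, 0⟩, 0⟩ 0 0) (.pos 9 .mm ⟨0, 0, 0, 0, 0, 9682520, 0, 0, 0, ⟨0, 0⟩, 0⟩ 0 0)) (.cut .l 6501171 (.cut .d (-1048576) (.cut .s 8454144 (.pos 9 .mm ⟨0, 0, 0, 0, 0, 6984806, 0, 0, 0, ⟨0, 0⟩, 0⟩ 0 0) (.pos 9 .mm ⟨0, 0, 0, 0, 0, 9071367, 0, 0, 0, ⟨0, 0⟩, 0⟩ 0 0)) (.cut .l 4159351 (.cut .d (-524288) (.cut .s 8454144 (.cut .v 15728640 (.pos 49 .mm ⟨0, 0, 0, 0, 0, 6224566, 0, 0, 0, ⟨0, 0⟩, 0⟩ 0 0) (.pos 50 .mm ⟨0, 0, 0, 0, 0, 6519300, 0, 0, 0, ⟨0, 0⟩, 0⟩ 0 0)) (.cut .v 15728640 (.pos 49 .mm ⟨0, 0, 0, 0, 0, 8082698, 0, 0, 0, ⟨0, 0⟩, 0⟩ 0 0) (.pos 50 .mm ⟨0, 0, 0, 0, 0, 8439699, 0, 0, 0, ⟨0, 0⟩, 0⟩ 0 0))) (.cut .d (-262144) (.cut .l 2988441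 (.cut .l 2402986 (.cut .v 15728640 (.cut .d (-393216) (.pos 49 .mm ⟨0, 0, 0, 0, 0, 6266834, 0, 0, 0, ⟨0, 0⟩, 0⟩ 0 0) (.pos 49 .mm ⟨0, 0, 0, 0, 0, 4000026, 0, 0, 0, ⟨0, 0⟩, 0⟩ 0 0)) (.cut .d (-393216) (.pos 50 .mm ⟨0, 0, 0, 0, 0, 7218361, 0, 0, 0, ⟨0, 0⟩, 0⟩ 0 0) (.pos 50 .mm ⟨0, 0, 0, 0, 0, 5605546, 0, 0, 0, ⟨0, 0⟩, 0⟩ 0 0))) (.pos 9 .mm ⟨0, 0, 0, 0, 0, 0, 0, 0, 0, ⟨0, 0⟩, 0⟩ 0 0)) (.pos 9 .mm ⟨0, 0, 0, 0, 0, 0, 0, 0, 0, ⟨0, 0⟩, 0⟩ 0 0)) (.pos 9 .mm ⟨0, 0, 0, 0, 0, 0, 0, 0, 0, ⟨0, 0⟩, 0⟩ 0 0))) (.pos 9 .mm ⟨0, 0, 0, 0, 0, 86033, 0, 0, 0, ⟨0, 0⟩, 0⟩ 0 0))) (.pos 9 .mm ⟨0, 0, 0, 0, 0, 4912502, 0, 0, 0, ⟨0, 0⟩, 0⟩ 0 0))))))))) (.cut .v 268435456 (.cut .v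 67108864 (.cut .v 33554432 (.cut .d (-8388608) (.void 11 ⟨0, 0, 0, 0, 0, 100000, 0, 0, 0, ⟨0, 0⟩, 0⟩ 0 0) (.cut .d (-4194304) (.void 11 ⟨0, 0, 0, 0, 0, 100000, 0, 0, 0, ⟨0, 0⟩, 0⟩ 0 0) (.cut .v 25165824 (.cut .v 20971520 (.cut .d (-2097152) (.cut .l 6501171 (.void 15 ⟨0, 0, 0, 0, 0, 100000, 0, 0, 0, ⟨0, 0⟩, 0⟩ 0 0) (.cut .v 18874368 (.cut .s 8323072 (.cut .d (-3145728) (.cut .s 8192000 (.pos 17 .mp ⟨0, 0, 0, 0, 0, 5891022, 0, 0, 0, ⟨0, 0⟩, 0⟩ 0 0) (.pos 17 .mp ⟨0, 0, 0, 0, 0, 9231911, 0, 0, 0, ⟨0, 0⟩, 0⟩ 0 0)) (.cut .s 8192000 (.pos 17 .mp ⟨0, 0, 0, 0, 0, 4211895, 0, 0, 0, ⟨0, 0⟩, 0⟩ 0 0) (.pos 17 .mp ⟨0, 0, 0, 0, 0, 6364247, 0, 0, 0, ⟨0, 0⟩, 0⟩ 0 0)))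 (.cut .d (-3145728) (.pos 17 .mp ⟨1829532, 0, 0, 0, 0, 19001979, 0, 0, 0, ⟨0, 0⟩, 0⟩ 0 0) (.cut .s 8454144 (.cut .v 17825792 (.pos 19 .mp ⟨0, 0, 0, 0, 0, 8172761, 0, 0, 0, ⟨0, 0⟩, 0⟩ 0 0) (.pos 20 .mp ⟨9141161, 0, 0, 0, 0, 83222, 0, 0, 0, ⟨0, 0⟩, 0⟩ 0 0)) (.cut .v 17825792 (.pos 19 .mp ⟨0, 0, 0, 0, 0, 10573408, 0, 0, 0, ⟨0, 0⟩, 0⟩ 0 0) (.pos 20 .mp ⟨11676549, 0, 0, 0, 0, 0, 0, 0, 0, ⟨0, 0⟩, 0⟩ 0 0))))) (.cut .d (-3145728) (.pos 18 .mp ⟨18800877, 0, 0, 0, 0, 0, 0, 0, 0, ⟨0, 0⟩, 0⟩ 0 0) (.pos 18 .mp ⟨11797622, 0, 0, 0, 0, 0, 0, 0, 0, ⟨0, 0⟩, 0⟩ 0 0)))) (.cut .v 18874368 (.cut .s 8323072 (.cut .s 8192000 (.pos 17 .mp ⟨0, 0, 0, 0, 0, 4015414, 0, 0, 0, ⟨0,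 0⟩, 0⟩ 0 0) (.cut .s 8257536 (.pos 17 .mp ⟨0, 0, 0, 0, 0, 5239642, 0, 0, 0, ⟨0, 0⟩, 0⟩ 0 0) (.pos 17 .mp ⟨0, 0, 0, 0, 0, 6041792, 0, 0, 0, ⟨0, 0⟩, 0⟩ 0 0))) (.cut .l 6501171 (.cut .v 17825792 (.cut .d (-1048576) (.cut .s 8454144 (.pos 19 .mp ⟨0, 0, 0, 0, 0, 7996428, 0, 0, 0, ⟨0, 0⟩, 0⟩ 0 0) (.pos 19 .mp ⟨0, 0, 0, 0, 0, 10333496, 0, 0, 0, ⟨0, 0⟩, 0⟩ 0 0)) (.cut .s 8454144 (.pos 19 .mp ⟨0, 0, 0, 0, 0, 7002824, 0, 0, 0, ⟨0, 0⟩, 0⟩ 0 0) (.pos 19 .mp ⟨0, 0, 0, 0, 0, 8806583, 0, 0, 0, ⟨0, 0⟩, 0⟩ 0 0))) (.pos 20 .mp ⟨10412313, 0, 0, 0, 0, 0, 0, 0, 0, ⟨0, 0⟩, 0⟩ 0 0)) (.pos 17 .mp ⟨2159348, 0, 0, 0, 0, 4813076, 0, 0, 0, ⟨0, 0⟩, 0⟩ 0 0))) (.pos 18 .mp ⟨9336230,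 0, 0, 0, 0, 0, 0, 0, 0, ⟨0, 0⟩, 0⟩ 0 0))) (.cut .d (-2097152) (.pos 16 .mp ⟨25682632, 0, 0, 0, 0, 0, 0, 0, 0, ⟨0, 0⟩, 0⟩ 0 0) (.pos 16 .mp ⟨13487712, 0, 0, 0, 0, 0, 0, 0, 0, ⟨0, 0⟩, 0⟩ 0 0))) (.pos 14 .mp ⟨44160307, 0, 0, 0, 0, 0, 0, 0, 0, ⟨0, 0⟩, 0⟩ 0 0)))) (.void 12 ⟨100000, 0, 0, 0, 0, 0, 0, 0, 0, ⟨0, 0⟩, 0⟩ 0 0)) (.void 57 ⟨100000, 0, 0, 0, 0, 0, 0, 0, 0, ⟨0, 0⟩, 0⟩ 0 0)) (.void 66 ⟨0, 100000, 0, 0, 0, 0, 0, 0, 0, ⟨0, 0⟩, 0⟩ 0 0))) (.cut .v 16777216 (.cut .v 8388608 (.cut .v 4194304 (.void 4 ⟨0, 0, 50000, 0, 50000, 0, 0, 0, 0, ⟨0, 0⟩, 0⟩ 0 0) (.pos 5 .pm ⟨0, 0, 0, 0, 0, 0, 0, 0, 1908319, ⟨0, 0⟩, 9975792⟩ 0 0)) (.cut .v 12582912 (.pos 6 .pm ⟨0, 0,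 0, 0, 0, 0, 0, 0, 123818, ⟨0, 0⟩, 13128881⟩ 0 0) (.cut .v 14680064 (.pos 8 .pm ⟨0, 0, 0, 0, 0, 0, 0, 0, 0, ⟨0, 0⟩, 0⟩ 0 0) (.pos 9 .pm ⟨0, 0, 0, 0, 0, 0, 0, 0, 0, ⟨0, 0⟩, 0⟩ 0 0)))) (.cut .v 268435456 (.cut .v 67108864 (.cut .v 33554432 (.cut .v 25165824 (.pos 13 .pp ⟨0, 0, 0, 0, 0, 0, 0, 0, 0, ⟨0, 0⟩, 0⟩ 0 0) (.pos 14 .pp ⟨12220282, 0, 0, 0, 0, 0, 0, 0, 0, ⟨0, 0⟩, 0⟩ 0 0)) (.pos 12 .pp ⟨27163577, 0, 0, 0, 0, 0, 0, 0, 0, ⟨0, 0⟩, 0⟩ 0 0)) (.pos 57 .pp ⟨599274773, 633364916, 0, 0, 0, 0, 0, 0, 0, ⟨0, 0⟩, 0⟩ 0 0)) (.void 66 ⟨0, 0, 0, 100000, 0, 0, 0, 0, 0, ⟨0, 0⟩, 0⟩ 0 0)))),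
    by decide +kernel⟩

def covers10 : cell.Covers table row10.1 :=
  ⟨(.cut .d 0 (.cut .v 16777216 (.cut .d (-8388608) (.void 1 ⟨0, 0, 0, 0, 0, 100000, 0, 0, 0, ⟨0, 0⟩, 0⟩ 0 0) (.cut .d (-4194304) (.void 1 ⟨0, 0, 0, 0, 0, 100000, 0, 0, 0, ⟨0, 0⟩, 0⟩ 0 0) (.cut .v 8388608 (.cut .v 4194304 (.void 4 ⟨0, 0, 100000, 0, 0, 0, 0, 0, 0, ⟨0, 0⟩, 0⟩ 0 0) (.pos 5 .mm ⟨0, 0, 0, 0, 0, 0, 0, 0, 0, ⟨0, 0⟩, 0⟩ 0 0)) (.cut .v 12582912 (.pos 6 .mm ⟨0, 0, 0, 0, 0, 4860286, 0, 0, 0, ⟨0, 0⟩, 0⟩ 0 0) (.cut .d (-2097152) (.cut .s 8814592 (.pos 7 .mm ⟨0, 0, 0, 0, 0, 13304917, 0, 0, 0, ⟨0, 0⟩, 0⟩ 0 0) (.pos 7 .mm ⟨0, 0, 0, 0, 0, 19230000, 0, 0, 0, ⟨0, 0⟩, 0⟩ 0 0)) (.cut .v 14680064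 (.cut .s 8814592 (.pos 8 .mm ⟨0, 0, 0, 0, 0, 6923568, 0, 0, 0, ⟨0, 0⟩, 0⟩ 0 0) (.pos 8 .mm ⟨0, 0, 0, 0, 0, 10525448, 0, 0, 0, ⟨0, 0⟩, 0⟩ 0 0)) (.cut .s 8814592 (.cut .l 6501171 (.cut .d (-1048576) (.cut .s 8699904 (.pos 9 .mm ⟨0, 0, 0, 0, 0, 11238559, 0, 0, 0, ⟨0, 0⟩, 0⟩ 0 0) (.pos 9 .mm ⟨0, 0, 0, 0, 0, 13964414, 0, 0, 0, ⟨0, 0⟩, 0⟩ 0 0)) (.cut .l 4159351 (.cut .d (-524288) (.cut .s 8699904 (.pos 9 .mm ⟨0, 0, 0, 0, 0, 10120202, 0, 0, 0, ⟨0, 0⟩, 0⟩ 0 0) (.pos 9 .mm ⟨0, 0, 0, 0, 0, 12707706, 0, 0, 0, ⟨0, 0⟩, 0⟩ 0 0)) (.cut .d (-262144) (.cut .v 15728640 (.pos 49 .mm ⟨0, 0, 0, 0, 0, 8351234, 0, 0, 0, ⟨0, 0⟩, 0⟩ 0 0) (.cut .s 8699904 (.pos 50 .mm ⟨0, 0, 0,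 0, 0, 8730803, 0, 0, 0, ⟨0, 0⟩, 0⟩ 0 0) (.pos 50 .mm ⟨0, 0, 0, 0, 0, 10956627, 0, 0, 0, ⟨0, 0⟩, 0⟩ 0 0))) (.pos 9 .mm ⟨0, 0, 0, 0, 0, 0, 0, 0, 0, ⟨0, 0⟩, 0⟩ 0 0))) (.pos 9 .mm ⟨0, 0, 0, 0, 0, 6970426, 0, 0, 0, ⟨0, 0⟩, 0⟩ 0 0))) (.pos 9 .mm ⟨0, 0, 0, 0, 0, 8416542, 0, 0, 0, ⟨0, 0⟩, 0⟩ 0 0)) (.cut .l 6501171 (.cut .d (-1048576) (.pos 9 .mm ⟨0, 0, 0, 0, 0, 18577495, 0, 0, 0, ⟨0, 0⟩, 0⟩ 0 0) (.cut .l 4159351 (.cut .d (-524288) (.cut .s 8929280 (.pos 9 .mm ⟨0, 0, 0, 0, 0, 15539311, 0, 0, 0, ⟨0, 0⟩, 0⟩ 0 0) (.pos 9 .mm ⟨0, 0, 0, 0, 0, 18764889, 0, 0, 0, ⟨0, 0⟩, 0⟩ 0 0)) (.cut .d (-262144) (.cut .v 15728640 (.pos 49 .mm ⟨0, 0, 0, 0, 0, 12375550, 0, 0, 0, ⟨0,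 0⟩, 0⟩ 0 0) (.cut .s 8929280 (.pos 50 .mm ⟨0, 0, 0, 0, 0, 13778854, 0, 0, 0, ⟨0, 0⟩, 0⟩ 0 0) (.pos 50 .mm ⟨0, 0, 0, 0, 0, 17292107, 0, 0, 0, ⟨0, 0⟩, 0⟩ 0 0))) (.pos 9 .mm ⟨0, 0, 0, 0, 0, 0, 0, 0, 0, ⟨0, 0⟩, 0⟩ 0 0))) (.pos 9 .mm ⟨0, 0, 0, 0, 0, 11724950, 0, 0, 0, ⟨0, 0⟩, 0⟩ 0 0))) (.pos 9 .mm ⟨0, 0, 0, 0, 0, 13207483, 0, 0, 0, ⟨0, 0⟩, 0⟩ 0 0))))))))) (.cut .v 268435456 (.cut .v 67108864 (.cut .v 33554432 (.cut .d (-8388608) (.void 11 ⟨0, 0, 0, 0, 0, 100000, 0, 0, 0, ⟨0, 0⟩, 0⟩ 0 0) (.cut .d (-4194304) (.void 11 ⟨0, 0, 0, 0, 0, 100000, 0, 0, 0, ⟨0, 0⟩, 0⟩ 0 0) (.cut .v 25165824 (.cut .d (-2097152) (.cut .v 20971520 (.cut .d (-3145728) (.void 15 ⟨0, 0,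 0, 0, 0, 100000, 0, 0, 0, ⟨0, 0⟩, 0⟩ 0 0) (.cut .l 6501171 (.void 15 ⟨0, 0, 0, 0, 0, 100000, 0, 0, 0, ⟨0, 0⟩, 0⟩ 0 0) (.cut .v 18874368 (.cut .s 8814592 (.cut .v 17825792 (.cut .s 8699904 (.pos 19 .mp ⟨56954, 0, 0, 0, 0, 12823205, 0, 0, 0, ⟨0, 0⟩, 0⟩ 0 0) (.pos 19 .mp ⟨2517674, 0, 0, 0, 0, 13258473, 0, 0, 0, ⟨0, 0⟩, 0⟩ 0 0)) (.cut .s 8699904 (.pos 20 .mp ⟨14164771, 0, 0, 0, 0, 0, 0, 0, 0, ⟨0, 0⟩, 0⟩ 0 0) (.pos 20 .mp ⟨17265646, 0, 0, 0, 0, 0, 0, 0, 0, ⟨0, 0⟩, 0⟩ 0 0))) (.cut .l 8842991 (.pos 17 .mp ⟨11481696, 0, 0, 0, 0, 17179889, 0, 0, 0, ⟨0, 0⟩, 0⟩ 0 0) (.cut .v 17825792 (.cut .s 8929280 (.pos 19 .mp ⟨5380437, 0, 0, 0, 0, 13500071, 0, 0, 0, ⟨0, 0⟩,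 0⟩ 0 0) (.cut .d (-2621440) (.pos 19 .mp ⟨16705345, 0, 0, 0, 0, 8330881, 0, 0, 0, ⟨0, 0⟩, 0⟩ 0 0) (.pos 19 .mp ⟨9224613, 0, 0, 0, 0, 12459907, 0, 0, 0, ⟨0, 0⟩, 0⟩ 0 0))) (.cut .d (-2621440) (.pos 20 .mp ⟨26660509, 0, 0, 0, 0, 0, 0, 0, 0, ⟨0, 0⟩, 0⟩ 0 0) (.pos 20 .mp ⟨21368520, 0, 0, 0, 0, 0, 0, 0, 0, ⟨0, 0⟩, 0⟩ 0 0))))) (.cut .s 8814592 (.pos 18 .mp ⟨19947781, 0, 0, 0, 0, 0, 0, 0, 0, ⟨0, 0⟩, 0⟩ 0 0) (.pos 18 .mp ⟨30725577, 0, 0, 0, 0, 0, 0, 0, 0, ⟨0, 0⟩, 0⟩ 0 0))))) (.pos 16 .mp ⟨54520992, 0, 0, 0, 0, 0, 0, 0, 0, ⟨0, 0⟩, 0⟩ 0 0)) (.cut .v 20971520 (.cut .s 8814592 (.cut .v 18874368 (.cut .s 8699904 (.cut .d (-1048576) (.cut .l 6501171 (.cut .s 8642560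 (.pos 17 .mp ⟨0, 0, 0, 0, 0, 12576251, 0, 0, 0, ⟨0, 0⟩, 0⟩ 0 0) (.pos 17 .mp ⟨0, 0, 0, 0, 0, 14119212, 0, 0, 0, ⟨0, 0⟩, 0⟩ 0 0)) (.pos 17 .mp ⟨5461330, 0, 0, 0, 0, 5190177, 0, 0, 0, ⟨0, 0⟩, 0⟩ 0 0)) (.pos 17 .mp ⟨3438946, 0, 0, 0, 0, 7199227, 0, 0, 0, ⟨0, 0⟩, 0⟩ 0 0)) (.cut .l 6501171 (.cut .v 17825792 (.cut .d (-1048576) (.pos 19 .mp ⟨0, 0, 0, 0, 0, 15557463, 0, 0, 0, ⟨0, 0⟩, 0⟩ 0 0) (.cut .d (-524288) (.pos 19 .mp ⟨1247091, 0, 0, 0, 0, 12298517, 0, 0, 0, ⟨0, 0⟩, 0⟩ 0 0) (.pos 19 .mp ⟨0, 0, 0, 0, 0, 12357757, 0, 0, 0, ⟨0, 0⟩, 0⟩ 0 0))) (.pos 20 .mp ⟨15562714, 0, 0, 0, 0, 0, 0, 0, 0, ⟨0, 0⟩, 0⟩ 0 0)) (.pos 17 .mp ⟨9251936, 0, 0, 0, 0, 2870235, 0, 0, 0,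 ⟨0, 0⟩, 0⟩ 0 0))) (.pos 18 .mp ⟨15967339, 0, 0, 0, 0, 0, 0, 0, 0, ⟨0, 0⟩, 0⟩ 0 0)) (.cut .v 18874368 (.cut .d (-1048576) (.cut .l 6501171 (.cut .v 17825792 (.cut .s 8929280 (.pos 19 .mp ⟨661848, 0, 0, 0, 0, 17977457, 0, 0, 0, ⟨0, 0⟩, 0⟩ 0 0) (.pos 19 .mp ⟨2602931, 0, 0, 0, 0, 19275436, 0, 0, 0, ⟨0, 0⟩, 0⟩ 0 0)) (.pos 20 .mp ⟨22091343, 0, 0, 0, 0, 0, 0, 0, 0, ⟨0, 0⟩, 0⟩ 0 0)) (.cut .s 8929280 (.pos 17 .mp ⟨13544543, 0, 0, 0, 0, 1741747, 0, 0, 0, ⟨0, 0⟩, 0⟩ 0 0) (.cut .s 8986624 (.pos 17 .mp ⟨15957042, 0, 0, 0, 0, 1519958, 0, 0, 0, ⟨0, 0⟩, 0⟩ 0 0) (.pos 17 .mp ⟨18602674, 0, 0, 0, 0, 213346, 0, 0, 0, ⟨0, 0⟩, 0⟩ 0 0)))) (.cut .l 6501171 (.cut .v 17825792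 (.cut .l 4159351 (.cut .d (-524288) (.cut .s 8929280 (.pos 19 .mp ⟨0, 0, 0, 0, 0, 17401944, 0, 0, 0, ⟨0, 0⟩, 0⟩ 0 0) (.cut .s 8986624 (.pos 19 .mp ⟨0, 0, 0, 0, 0, 19602755, 0, 0, 0, ⟨0, 0⟩, 0⟩ 0 0) (.pos 19 .mp ⟨0, 0, 0, 0, 0, 21411573, 0, 0, 0, ⟨0, 0⟩, 0⟩ 0 0))) (.cut .s 8929280 (.pos 19 .mp ⟨0, 0, 0, 0, 0, 14683569, 0, 0, 0, ⟨0, 0⟩, 0⟩ 0 0) (.cut .d (-262144) (.cut .s 8986624 (.pos 19 .mp ⟨0, 0, 0, 0, 0, 17523753, 0, 0, 0, ⟨0, 0⟩, 0⟩ 0 0) (.pos 19 .mp ⟨0, 0, 0, 0, 0, 19459931, 0, 0, 0, ⟨0, 0⟩, 0⟩ 0 0)) (.pos 19 .mp ⟨0, 0, 0, 0, 0, 0, 0, 0, 0, ⟨0, 0⟩, 0⟩ 0 0)))) (.pos 19 .mp ⟨5950969, 0, 0, 0, 0, 8023443, 0, 0, 0, ⟨0, 0⟩, 0⟩ 0 0)) (.pos 20 .mp ⟨18423120,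 0, 0, 0, 0, 0, 0, 0, 0, ⟨0, 0⟩, 0⟩ 0 0)) (.pos 17 .mp ⟨0, 0, 0, 0, 0, 0, 0, 0, 0, ⟨0, 0⟩, 0⟩ 0 0))) (.cut .s 8929280 (.pos 18 .mp ⟨20201682, 0, 0, 0, 0, 0, 0, 0, 0, ⟨0, 0⟩, 0⟩ 0 0) (.pos 18 .mp ⟨23773575, 0, 0, 0, 0, 0, 0, 0, 0, ⟨0, 0⟩, 0⟩ 0 0)))) (.pos 16 .mp ⟨27453223, 0, 0, 0, 0, 0, 0, 0, 0, ⟨0, 0⟩, 0⟩ 0 0))) (.pos 14 .mp ⟨85485001, 0, 0, 0, 0, 0, 0, 0, 0, ⟨0, 0⟩, 0⟩ 0 0)))) (.void 12 ⟨100000, 0, 0, 0, 0, 0, 0, 0, 0, ⟨0, 0⟩, 0⟩ 0 0)) (.void 57 ⟨100000, 0, 0, 0, 0, 0, 0, 0, 0, ⟨0, 0⟩, 0⟩ 0 0)) (.void 66 ⟨64975, 35025, 0, 0, 0, 0, 0, 0, 0, ⟨0, 0⟩, 0⟩ 0 0))) (.cut .v 16777216 (.cut .v 8388608 (.cut .v 4194304 (.void 4 ⟨0, 0, 50000, 0, 50000, 0, 0, 0,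 0, ⟨0, 0⟩, 0⟩ 0 0) (.pos 5 .pm ⟨0, 0, 0, 0, 0, 0, 0, 0, 1304103, ⟨0, 0⟩, 9975792⟩ 0 0)) (.cut .v 12582912 (.pos 6 .pm ⟨0, 0, 0, 0, 0, 0, 0, 0, 0, ⟨0, 0⟩, 0⟩ 0 0) (.pos 7 .pm ⟨0, 0, 0, 0, 0, 0, 0, 0, 0, ⟨0, 0⟩, 0⟩ 0 0))) (.cut .v 268435456 (.cut .v 67108864 (.cut .v 33554432 (.cut .v 25165824 (.pos 13 .pp ⟨935020, 0, 0, 0, 0, 0, 0, 0, 0, ⟨0, 0⟩, 0⟩ 0 0) (.pos 14 .pp ⟨22130772, 0, 0, 0, 0, 0, 0, 0, 0, ⟨0, 0⟩, 0⟩ 0 0)) (.pos 12 .pp ⟨54621992, 0, 0, 0, 0, 0, 0, 0, 0, ⟨0, 0⟩, 0⟩ 0 0)) (.cut .v 134217728 (.pos 67 .pp ⟨485409358, 332657841, 0, 0, 0, 0, 0, 0, 0, ⟨0, 0⟩, 0⟩ 0 0) (.void 68 ⟨0, 100000, 0, 0, 0, 0, 0, 0, 0, ⟨0, 0⟩, 0⟩ 0 0))) (.void 66 ⟨0, 0, 0, 100000,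 0, 0, 0, 0, 0, ⟨0, 0⟩, 0⟩ 0 0)))),
    by decide +kernel⟩

def covers11 : cell.Covers table row11.1 :=
  ⟨(.cut .d 0 (.cut .v 16777216 (.cut .d (-8388608) (.void 1 ⟨0, 0, 0, 0, 0, 100000, 0, 0, 0, ⟨0, 0⟩, 0⟩ 0 0) (.cut .d (-4194304) (.void 1 ⟨0, 0, 0, 0, 0, 100000, 0, 0, 0, ⟨0, 0⟩, 0⟩ 0 0) (.cut .v 8388608 (.cut .v 4194304 (.void 4 ⟨0, 0, 100000, 0, 0, 0, 0, 0, 0, ⟨0, 0⟩, 0⟩ 0 0) (.pos 5 .mm ⟨0, 0, 0, 0, 0, 2891009, 0, 0, 0, ⟨0, 0⟩, 0⟩ 0 0)) (.cut .v 12582912 (.pos 6 .mm ⟨0, 0, 0, 0, 0, 15610958, 0, 0, 0, ⟨0, 0⟩, 0⟩ 0 0) (.cut .d (-2097152) (.cut .s 9306112 (.pos 7 .mm ⟨0, 0, 0, 0, 0, 27707892, 0, 0, 0, ⟨0, 0⟩, 0⟩ 0 0) (.pos 7 .mm ⟨0, 0, 0, 0, 0, 39769904,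 0, 0, 0, ⟨0, 0⟩, 0⟩ 0 0)) (.cut .s 9306112 (.cut .v 14680064 (.pos 8 .mm ⟨0, 0, 0, 0, 0, 15712263, 0, 0, 0, ⟨0, 0⟩, 0⟩ 0 0) (.cut .d (-1048576) (.cut .s 9175040 (.pos 9 .mm ⟨0, 0, 0, 0, 0, 22101046, 0, 0, 0, ⟨0, 0⟩, 0⟩ 0 0) (.pos 9 .mm ⟨0, 0, 0, 0, 0, 26546825, 0, 0, 0, ⟨0, 0⟩, 0⟩ 0 0)) (.cut .l 6501171 (.cut .l 4159351 (.cut .d (-524288) (.cut .s 9175040 (.pos 9 .mm ⟨0, 0, 0, 0, 0, 21864575, 0, 0, 0, ⟨0, 0⟩, 0⟩ 0 0) (.pos 9 .mm ⟨0, 0, 0, 0, 0, 26328047, 0, 0, 0, ⟨0, 0⟩, 0⟩ 0 0)) (.cut .d (-262144) (.cut .s 9175040 (.cut .d (-393216) (.pos 9 .mm ⟨0, 0, 0, 0, 0, 20757509, 0, 0, 0, ⟨0, 0⟩, 0⟩ 0 0) (.pos 9 .mm ⟨0, 0, 0, 0, 0, 17541696, 0, 0, 0, ⟨0, 0⟩, 0⟩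 0 0)) (.pos 9 .mm ⟨0, 0, 0, 0, 0, 24163606, 0, 0, 0, ⟨0, 0⟩, 0⟩ 0 0)) (.pos 9 .mm ⟨0, 0, 0, 0, 0, 0, 0, 0, 0, ⟨0, 0⟩, 0⟩ 0 0))) (.pos 9 .mm ⟨0, 0, 0, 0, 0, 17115700, 0, 0, 0, ⟨0, 0⟩, 0⟩ 0 0)) (.pos 9 .mm ⟨0, 0, 0, 0, 0, 0, 0, 0, 0, ⟨0, 0⟩, 0⟩ 0 0)))) (.cut .v 14680064 (.pos 8 .mm ⟨0, 0, 0, 0, 0, 23464923, 0, 0, 0, ⟨0, 0⟩, 0⟩ 0 0) (.cut .d (-1048576) (.cut .s 9437184 (.pos 9 .mm ⟨0, 0, 0, 0, 0, 31437921, 0, 0, 0, ⟨0, 0⟩, 0⟩ 0 0) (.pos 9 .mm ⟨0, 0, 0, 0, 0, 36852506, 0, 0, 0, ⟨0, 0⟩, 0⟩ 0 0)) (.cut .l 6501171 (.cut .l 4159351 (.cut .d (-524288) (.pos 9 .mm ⟨0, 0, 0, 0, 0, 34540575, 0, 0, 0, ⟨0, 0⟩, 0⟩ 0 0) (.cut .s 9437184 (.cut .d (-262144) (.pos 9 .mm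 ⟨0, 0, 0, 0, 0, 28835730, 0, 0, 0, ⟨0, 0⟩, 0⟩ 0 0) (.pos 9 .mm ⟨0, 0, 0, 0, 0, 0, 0, 0, 0, ⟨0, 0⟩, 0⟩ 0 0)) (.pos 9 .mm ⟨0, 0, 0, 0, 0, 31887987, 0, 0, 0, ⟨0, 0⟩, 0⟩ 0 0))) (.pos 9 .mm ⟨0, 0, 0, 0, 0, 26510347, 0, 0, 0, ⟨0, 0⟩, 0⟩ 0 0)) (.pos 9 .mm ⟨0, 0, 0, 0, 0, 0, 0, 0, 0, ⟨0, 0⟩, 0⟩ 0 0)))))))))) (.cut .v 268435456 (.cut .v 67108864 (.cut .v 33554432 (.cut .d (-8388608) (.void 11 ⟨0, 0, 0, 0, 0, 100000, 0, 0, 0, ⟨0, 0⟩, 0⟩ 0 0) (.cut .d (-4194304) (.void 11 ⟨0, 0, 0, 0, 0, 100000, 0, 0, 0, ⟨0, 0⟩, 0⟩ 0 0) (.cut .v 25165824 (.cut .d (-2097152) (.cut .v 20971520 (.cut .d (-3145728) (.void 15 ⟨0, 0, 0, 0, 0, 100000, 0, 0, 0, ⟨0, 0⟩, 0⟩ 0 0) (.cut .l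 6501171 (.void 15 ⟨0, 0, 0, 0, 0, 100000, 0, 0, 0, ⟨0, 0⟩, 0⟩ 0 0) (.cut .l 8842991 (.void 15 ⟨0, 0, 0, 0, 0, 100000, 0, 0, 0, ⟨0, 0⟩, 0⟩ 0 0) (.cut .v 18874368 (.cut .d (-2621440) (.pos 17 .mp ⟨20841699, 0, 0, 0, 0, 52510001, 0, 0, 0, ⟨0, 0⟩, 0⟩ 0 0) (.cut .s 9306112 (.cut .v 17825792 (.cut .s 9175040 (.pos 19 .mp ⟨12654299, 0, 0, 0, 0, 12469504, 0, 0, 0, ⟨0, 0⟩, 0⟩ 0 0) (.pos 19 .mp ⟨17413508, 0, 0, 0, 0, 13221447, 0, 0, 0, ⟨0, 0⟩, 0⟩ 0 0)) (.cut .s 9175040 (.pos 20 .mp ⟨26558383, 0, 0, 0, 0, 0, 0, 0, 0, ⟨0, 0⟩, 0⟩ 0 0) (.pos 20 .mp ⟨32742391, 0, 0, 0, 0, 0, 0, 0, 0, ⟨0, 0⟩, 0⟩ 0 0))) (.cut .v 17825792 (.cut .d (-2359296) (.pos 19 .mp ⟨27404833, 0,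 0, 0, 0, 24339451, 0, 0, 0, ⟨0, 0⟩, 0⟩ 0 0) (.cut .s 9437184 (.pos 19 .mp ⟨23429581, 0, 0, 0, 0, 11868683, 0, 0, 0, ⟨0, 0⟩, 0⟩ 0 0) (.cut .v 17301504 (.pos 21 .mp ⟨0, 0, 0, 0, 0, 40803598, 0, 0, 0, ⟨0, 0⟩, 0⟩ 0 0) (.pos 22 .mp ⟨40278704, 0, 0, 0, 0, 0, 0, 0, 0, ⟨0, 0⟩, 0⟩ 0 0)))) (.cut .s 9437184 (.pos 20 .mp ⟨40310515, 0, 0, 0, 0, 0, 0, 0, 0, ⟨0, 0⟩, 0⟩ 0 0) (.pos 20 .mp ⟨48545087, 0, 0, 0, 0, 0, 0, 0, 0, ⟨0, 0⟩, 0⟩ 0 0))))) (.cut .s 9306112 (.pos 18 .mp ⟨44260017, 0, 0, 0, 0, 0, 0, 0, 0, ⟨0, 0⟩, 0⟩ 0 0) (.pos 18 .mp ⟨64199141, 0, 0, 0, 0, 0, 0, 0, 0, ⟨0, 0⟩, 0⟩ 0 0)))))) (.void 16 ⟨100000, 0, 0, 0, 0, 0, 0, 0, 0, ⟨0, 0⟩, 0⟩ 0 0)) (.cut .v 20971520 (.cut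 .d (-1048576) (.cut .s 9306112 (.cut .v 18874368 (.cut .l 6501171 (.cut .v 17825792 (.cut .s 9175040 (.cut .s 9109504 (.pos 19 .mp ⟨4817194, 0, 0, 0, 0, 19128610, 0, 0, 0, ⟨0, 0⟩, 0⟩ 0 0) (.pos 19 .mp ⟨6098447, 0, 0, 0, 0, 20065638, 0, 0, 0, ⟨0, 0⟩, 0⟩ 0 0)) (.pos 19 .mp ⟨7495537, 0, 0, 0, 0, 23161337, 0, 0, 0, ⟨0, 0⟩, 0⟩ 0 0)) (.pos 20 .mp ⟨30707571, 0, 0, 0, 0, 0, 0, 0, 0, ⟨0, 0⟩, 0⟩ 0 0)) (.cut .d (-1572864) (.cut .s 9175040 (.cut .s 9109504 (.pos 17 .mp ⟨20835462, 0, 0, 0, 0, 0, 0, 0, 0, ⟨0, 0⟩, 0⟩ 0 0) (.pos 17 .mp ⟨23020934, 0, 0, 0, 0, 0, 0, 0, 0, ⟨0, 0⟩, 0⟩ 0 0)) (.cut .s 9240576 (.pos 17 .mp ⟨25336615, 0, 0, 0, 0, 0, 0, 0, 0, ⟨0, 0⟩, 0⟩ 0 0)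 (.cut .v 17825792 (.pos 19 .mp ⟨27026293, 0, 0, 0, 0, 0, 0, 0, 0, ⟨0, 0⟩, 0⟩ 0 0) (.pos 20 .mp ⟨30223673, 0, 0, 0, 0, 0, 0, 0, 0, ⟨0, 0⟩, 0⟩ 0 0)))) (.pos 17 .mp ⟨19550616, 0, 0, 0, 0, 0, 0, 0, 0, ⟨0, 0⟩, 0⟩ 0 0))) (.cut .s 9175040 (.pos 18 .mp ⟨28644888, 0, 0, 0, 0, 0, 0, 0, 0, ⟨0, 0⟩, 0⟩ 0 0) (.pos 18 .mp ⟨34193260, 0, 0, 0, 0, 0, 0, 0, 0, ⟨0, 0⟩, 0⟩ 0 0))) (.cut .v 18874368 (.cut .l 6501171 (.cut .v 17825792 (.cut .s 9437184 (.pos 19 .mp ⟨10646545, 0, 0, 0, 0, 25494141, 0, 0, 0, ⟨0, 0⟩, 0⟩ 0 0) (.pos 19 .mp ⟨14289758, 0, 0, 0, 0, 28383440, 0, 0, 0, ⟨0, 0⟩, 0⟩ 0 0)) (.pos 20 .mp ⟨42499076, 0, 0, 0, 0, 0, 0, 0, 0, ⟨0, 0⟩, 0⟩ 0 0)) (.cut .d (-1572864)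 (.cut .s 9437184 (.cut .v 17825792 (.cut .l 8842991 (.pos 19 .mp ⟨16948212, 0, 0, 0, 0, 18736592, 0, 0, 0, ⟨0, 0⟩, 0⟩ 0 0) (.pos 19 .mp ⟨29182005, 0, 0, 0, 0, 0, 0, 0, 0, ⟨0, 0⟩, 0⟩ 0 0)) (.pos 20 .mp ⟨34663898, 0, 0, 0, 0, 0, 0, 0, 0, ⟨0, 0⟩, 0⟩ 0 0)) (.cut .v 17825792 (.cut .v 17301504 (.pos 21 .mp ⟨15559557, 0, 0, 0, 0, 22408283, 0, 0, 0, ⟨0, 0⟩, 0⟩ 0 0) (.pos 22 .mp ⟨37530846, 0, 0, 0, 0, 0, 0, 0, 0, ⟨0, 0⟩, 0⟩ 0 0)) (.pos 20 .mp ⟨40678020, 0, 0, 0, 0, 0, 0, 0, 0, ⟨0, 0⟩, 0⟩ 0 0))) (.cut .s 9437184 (.pos 17 .mp ⟨27015251, 0, 0, 0, 0, 212547, 0, 0, 0, ⟨0, 0⟩, 0⟩ 0 0) (.pos 17 .mp ⟨32691853, 0, 0, 0, 0, 0, 0, 0, 0, ⟨0, 0⟩, 0⟩ 0 0)))) (.cut .s 9437184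 (.pos 18 .mp ⟨40302490, 0, 0, 0, 0, 0, 0, 0, 0, ⟨0, 0⟩, 0⟩ 0 0) (.pos 18 .mp ⟨46973890, 0, 0, 0, 0, 0, 0, 0, 0, ⟨0, 0⟩, 0⟩ 0 0)))) (.cut .l 6501171 (.cut .v 18874368 (.cut .s 9306112 (.cut .v 17825792 (.cut .l 4159351 (.cut .d (-524288) (.cut .d (-786432) (.pos 19 .mp ⟨4038102, 0, 0, 0, 0, 25921345, 0, 0, 0, ⟨0, 0⟩, 0⟩ 0 0) (.cut .v 17301504 (.cut .s 9175040 (.pos 21 .mp ⟨0, 0, 0, 0, 0, 23203836, 0, 0, 0, ⟨0, 0⟩, 0⟩ 0 0) (.pos 21 .mp ⟨1143286, 0, 0, 0, 0, 26665077, 0, 0, 0, ⟨0, 0⟩, 0⟩ 0 0)) (.pos 22 .mp ⟨24573681, 0, 0, 0, 0, 0, 0, 0, 0, ⟨0, 0⟩, 0⟩ 0 0))) (.cut .d (-262144) (.cut .l 2988441 (.cut .v 17301504 (.cut .s 9175040 (.cut .s 9109504 (.pos 21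 .mp ⟨0, 0, 0, 0, 0, 20598864, 0, 0, 0, ⟨0, 0⟩, 0⟩ 0 0) (.pos 21 .mp ⟨0, 0, 0, 0, 0, 23018591, 0, 0, 0, ⟨0, 0⟩, 0⟩ 0 0)) (.cut .s 9240576 (.pos 21 .mp ⟨0, 0, 0, 0, 0, 25409459, 0, 0, 0, ⟨0, 0⟩, 0⟩ 0 0) (.pos 21 .mp ⟨524679, 0, 0, 0, 0, 27218906, 0, 0, 0, ⟨0, 0⟩, 0⟩ 0 0))) (.pos 22 .mp ⟨22936970, 0, 0, 0, 0, 0, 0, 0, 0, ⟨0, 0⟩, 0⟩ 0 0)) (.pos 19 .mp ⟨3513094, 0, 0, 0, 0, 0, 0, 0, 0, ⟨0, 0⟩, 0⟩ 0 0)) (.pos 19 .mp ⟨819935, 0, 0, 0, 0, 0, 0, 0, 0, ⟨0, 0⟩, 0⟩ 0 0))) (.cut .s 9175040 (.pos 19 .mp ⟨9555694, 0, 0, 0, 0, 8419853, 0, 0, 0, ⟨0, 0⟩, 0⟩ 0 0) (.pos 19 .mp ⟨13707739, 0, 0, 0, 0, 7604274, 0, 0, 0, ⟨0, 0⟩, 0⟩ 0 0))) (.cut .s 9175040 (.pos 20 .mp ⟨22835130,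 0, 0, 0, 0, 0, 0, 0, 0, ⟨0, 0⟩, 0⟩ 0 0) (.pos 20 .mp ⟨26750819, 0, 0, 0, 0, 0, 0, 0, 0, ⟨0, 0⟩, 0⟩ 0 0))) (.cut .d (-524288) (.cut .v 17825792 (.cut .l 4159351 (.cut .v 17301504 (.cut .s 9437184 (.pos 21 .mp ⟨3681644, 0, 0, 0, 0, 29171410, 0, 0, 0, ⟨0, 0⟩, 0⟩ 0 0) (.pos 21 .mp ⟨6584043, 0, 0, 0, 0, 31590004, 0, 0, 0, ⟨0, 0⟩, 0⟩ 0 0)) (.pos 22 .mp ⟨34496365, 0, 0, 0, 0, 0, 0, 0, 0, ⟨0, 0⟩, 0⟩ 0 0)) (.cut .s 9437184 (.pos 19 .mp ⟨18476049, 0, 0, 0, 0, 7864541, 0, 0, 0, ⟨0, 0⟩, 0⟩ 0 0) (.pos 19 .mp ⟨24030892, 0, 0, 0, 0, 6829919, 0, 0, 0, ⟨0, 0⟩, 0⟩ 0 0))) (.pos 20 .mp ⟨34970852, 0, 0, 0, 0, 0, 0, 0, 0, ⟨0, 0⟩, 0⟩ 0 0)) (.cut .d (-262144) (.cut .v 17825792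 (.cut .l 4159351 (.cut .l 2988441 (.cut .v 17301504 (.cut .s 9437184 (.cut .s 9371648 (.pos 21 .mp ⟨1664109, 0, 0, 0, 0, 28366023, 0, 0, 0, ⟨0, 0⟩, 0⟩ 0 0) (.pos 21 .mp ⟨2818301, 0, 0, 0, 0, 29622915, 0, 0, 0, ⟨0, 0⟩, 0⟩ 0 0)) (.cut .s 9502720 (.pos 21 .mp ⟨4181553, 0, 0, 0, 0, 30735596, 0, 0, 0, ⟨0, 0⟩, 0⟩ 0 0) (.pos 21 .mp ⟨5663176, 0, 0, 0, 0, 31820353, 0, 0, 0, ⟨0, 0⟩, 0⟩ 0 0))) (.pos 22 .mp ⟨31606652, 0, 0, 0, 0, 0, 0, 0, 0, ⟨0, 0⟩, 0⟩ 0 0)) (.pos 19 .mp ⟨12371151, 0, 0, 0, 0, 0, 0, 0, 0, ⟨0, 0⟩, 0⟩ 0 0)) (.pos 19 .mp ⟨0, 0, 0, 0, 0, 0, 0, 0, 0, ⟨0, 0⟩, 0⟩ 0 0)) (.pos 20 .mp ⟨32053119, 0, 0, 0, 0, 0, 0, 0, 0, ⟨0, 0⟩, 0⟩ 0 0)) (.pos 17 .mp ⟨9113430,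 0, 0, 0, 0, 0, 0, 0, 0, ⟨0, 0⟩, 0⟩ 0 0)))) (.cut .s 9306112 (.pos 18 .mp ⟨28238623, 0, 0, 0, 0, 0, 0, 0, 0, ⟨0, 0⟩, 0⟩ 0 0) (.pos 18 .mp ⟨38075838, 0, 0, 0, 0, 0, 0, 0, 0, ⟨0, 0⟩, 0⟩ 0 0))) (.pos 15 .mp ⟨14915999, 0, 0, 0, 0, 0, 0, 0, 0, ⟨0, 0⟩, 0⟩ 0 0))) (.cut .d (-1048576) (.cut .s 9306112 (.pos 16 .mp ⟨44047326, 0, 0, 0, 0, 0, 0, 0, 0, ⟨0, 0⟩, 0⟩ 0 0) (.pos 16 .mp ⟨64434092, 0, 0, 0, 0, 0, 0, 0, 0, ⟨0, 0⟩, 0⟩ 0 0)) (.pos 16 .mp ⟨41942723, 0, 0, 0, 0, 0, 0, 0, 0, ⟨0, 0⟩, 0⟩ 0 0)))) (.cut .d (-2097152) (.void 14 ⟨100000, 0, 0, 0, 0, 0, 0, 0, 0, ⟨0, 0⟩, 0⟩ 0 0) (.cut .d (-1048576) (.void 14 ⟨100000, 0, 0, 0, 0, 0, 0, 0, 0, ⟨0, 0⟩, 0⟩ 0 0) (.pos 14 .mp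 ⟨76486628, 0, 0, 0, 0, 0, 0, 0, 0, ⟨0, 0⟩, 0⟩ 0 0)))))) (.void 12 ⟨100000, 0, 0, 0, 0, 0, 0, 0, 0, ⟨0, 0⟩, 0⟩ 0 0)) (.void 57 ⟨100000, 0, 0, 0, 0, 0, 0, 0, 0, ⟨0, 0⟩, 0⟩ 0 0)) (.void 66 ⟨63682, 36318, 0, 0, 0, 0, 0, 0, 0, ⟨0, 0⟩, 0⟩ 0 0))) (.cut .v 16777216 (.cut .v 8388608 (.cut .v 4194304 (.void 4 ⟨0, 0, 50000, 0, 50000, 0, 0, 0, 0, ⟨0, 0⟩, 0⟩ 0 0) (.pos 5 .pm ⟨0, 0, 0, 0, 0, 0, 0, 0, 592813, ⟨0, 0⟩, 9975792⟩ 0 0)) (.cut .v 12582912 (.pos 6 .pm ⟨0, 0, 0, 0, 0, 0, 0, 0, 0, ⟨0, 0⟩, 0⟩ 0 0) (.pos 7 .pm ⟨0, 0, 0, 0, 0, 0, 0, 0, 0, ⟨0, 0⟩, 0⟩ 0 0))) (.cut .v 268435456 (.cut .v 67108864 (.cut .d 7172869 (.cut .d 3586434 (.cut .v 33554432 (.cut .v 25165824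 (.pos 13 .pp ⟨4107456, 0, 0, 0, 0, 0, 0, 0, 0, ⟨0, 0⟩, 0⟩ 0 0) (.pos 14 .pp ⟨45858431, 0, 0, 0, 0, 0, 0, 0, 0, ⟨0, 0⟩, 0⟩ 0 0)) (.cut .v 50331648 (.pos 31 .pp ⟨115099099, 0, 0, 0, 0, 0, 0, 0, 0, ⟨0, 0⟩, 0⟩ 0 0) (.pos 32 .pp ⟨366961950, 0, 0, 0, 0, 0, 0, 0, 0, ⟨0, 0⟩, 0⟩ 0 0))) (.pos 10 .pp ⟨0, 0, 0, 0, 0, 0, 0, 0, 0, ⟨0, 0⟩, 0⟩ 0 0)) (.pos 10 .pp ⟨0, 0, 0, 0, 0, 0, 0, 0, 0, ⟨0, 0⟩, 0⟩ 0 0)) (.cut .v 134217728 (.cut .d 7172869 (.cut .d 3586434 (.pos 67 .pp ⟨1072944358, 536420713, 0, 0, 0, 0, 0, 0, 0, ⟨0, 0⟩, 0⟩ 0 0) (.void 67 ⟨0, 100000, 0, 0, 0, 0, 0, 0, 0, ⟨0, 0⟩, 0⟩ 0 0)) (.void 67 ⟨0, 100000, 0, 0, 0, 0, 0, 0, 0, ⟨0, 0⟩, 0⟩ 0 0)) (.void 68 ⟨0, 100000,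 0, 0, 0, 0, 0, 0, 0, ⟨0, 0⟩, 0⟩ 0 0))) (.void 66 ⟨0, 0, 0, 100000, 0, 0, 0, 0, 0, ⟨0, 0⟩, 0⟩ 0 0)))),
    by decide +kernel⟩

def covers12 : cell.Covers table row12.1 :=
  ⟨(.cut .d 0 (.cut .v 16777216 (.cut .d (-8388608) (.void 1 ⟨0, 0, 0, 0, 0, 100000, 0, 0, 0, ⟨0, 0⟩, 0⟩ 0 0) (.cut .d (-4194304) (.void 1 ⟨0, 0, 0, 0, 0, 100000, 0, 0, 0, ⟨0, 0⟩, 0⟩ 0 0) (.cut .v 8388608 (.cut .v 4194304 (.void 4 ⟨0, 0, 100000, 0, 0, 0, 0, 0, 0, ⟨0, 0⟩, 0⟩ 0 0) (.pos 5 .mm ⟨0, 0, 0, 0, 0, 14176969, 0, 0, 0, ⟨0, 0⟩, 0⟩ 0 0)) (.cut .d (-2097152) (.cut .s 9830400 (.pos 3 .mm ⟨0, 0, 0, 0, 0, 56900625, 0, 0, 0, ⟨0, 0⟩, 0⟩ 0 0) (.pos 3 .mm ⟨0, 0, 0, 0, 0, 81587215, 0, 0, 0,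 ⟨0, 0⟩, 0⟩ 0 0)) (.cut .v 12582912 (.pos 6 .mm ⟨0, 0, 0, 0, 0, 29830046, 0, 0, 0, ⟨0, 0⟩, 0⟩ 0 0) (.cut .d (-1048576) (.cut .v 14680064 (.pos 8 .mm ⟨0, 0, 0, 0, 0, 45468113, 0, 0, 0, ⟨0, 0⟩, 0⟩ 0 0) (.cut .s 9830400 (.cut .s 9699328 (.pos 9 .mm ⟨0, 0, 0, 0, 0, 42904401, 0, 0, 0, ⟨0, 0⟩, 0⟩ 0 0) (.pos 9 .mm ⟨0, 0, 0, 0, 0, 50320298, 0, 0, 0, ⟨0, 0⟩, 0⟩ 0 0)) (.cut .s 9961472 (.pos 9 .mm ⟨0, 0, 0, 0, 0, 58554860, 0, 0, 0, ⟨0, 0⟩, 0⟩ 0 0) (.cut .s 10027008 (.pos 9 .mm ⟨0, 0, 0, 0, 0, 64500565, 0, 0, 0, ⟨0, 0⟩, 0⟩ 0 0) (.pos 9 .mm ⟨0, 0, 0, 0, 0, 69160707, 0, 0, 0, ⟨0, 0⟩, 0⟩ 0 0))))) (.cut .l 6501171 (.cut .v 14680064 (.pos 8 .mm ⟨0, 0, 0, 0, 0, 36015155,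 0, 0, 0, ⟨0, 0⟩, 0⟩ 0 0) (.cut .s 9830400 (.cut .l 4159351 (.cut .d (-524288) (.pos 9 .mm ⟨0, 0, 0, 0, 0, 47187309, 0, 0, 0, ⟨0, 0⟩, 0⟩ 0 0) (.cut .s 9699328 (.pos 9 .mm ⟨0, 0, 0, 0, 0, 37139173, 0, 0, 0, ⟨0, 0⟩, 0⟩ 0 0) (.pos 9 .mm ⟨0, 0, 0, 0, 0, 43457596, 0, 0, 0, ⟨0, 0⟩, 0⟩ 0 0))) (.pos 9 .mm ⟨0, 0, 0, 0, 0, 37487754, 0, 0, 0, ⟨0, 0⟩, 0⟩ 0 0)) (.cut .v 15728640 (.pos 49 .mm ⟨0, 0, 0, 0, 0, 50155116, 0, 0, 0, ⟨0, 0⟩, 0⟩ 0 0) (.cut .s 9961472 (.cut .d (-524288) (.pos 50 .mm ⟨0, 0, 0, 0, 0, 56250180, 0, 0, 0, ⟨0, 0⟩, 0⟩ 0 0) (.pos 50 .mm ⟨0, 0, 0, 0, 0, 50625373, 0, 0, 0, ⟨0, 0⟩, 0⟩ 0 0)) (.cut .d (-524288) (.pos 50 .mm ⟨0, 0, 0, 0, 0, 64810376, 0, 0,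 0, ⟨0, 0⟩, 0⟩ 0 0) (.pos 50 .mm ⟨0, 0, 0, 0, 0, 58610094, 0, 0, 0, ⟨0, 0⟩, 0⟩ 0 0)))))) (.pos 7 .mm ⟨0, 0, 0, 0, 0, 0, 0, 0, 0, ⟨0, 0⟩, 0⟩ 0 0)))))))) (.cut .v 268435456 (.cut .v 67108864 (.cut .v 33554432 (.cut .d (-8388608) (.void 11 ⟨0, 0, 0, 0, 0, 100000, 0, 0, 0, ⟨0, 0⟩, 0⟩ 0 0) (.cut .d (-4194304) (.void 11 ⟨0, 0, 0, 0, 0, 100000, 0, 0, 0, ⟨0, 0⟩, 0⟩ 0 0) (.cut .v 25165824 (.cut .d (-2097152) (.cut .v 20971520 (.cut .v 18874368 (.cut .s 9830400 (.cut .d (-3145728) (.void 17 ⟨0, 0, 0, 0, 0, 100000, 0, 0, 0, ⟨0, 0⟩, 0⟩ 0 0) (.cut .v 17825792 (.cut .s 9699328 (.cut .s 9633792 (.cut .d (-2621440) (.void 19 ⟨0, 0, 0, 0, 0, 100000, 0, 0, 0, ⟨0, 0⟩, 0⟩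 0 0) (.cut .d (-2359296) (.void 19 ⟨0, 0, 0, 0, 0, 100000, 0, 0, 0, ⟨0, 0⟩, 0⟩ 0 0) (.pos 19 .mp ⟨39943702, 0, 0, 0, 0, 2861792, 0, 0, 0, ⟨0, 0⟩, 0⟩ 0 0))) (.pos 19 .mp ⟨38020384, 0, 0, 0, 0, 17620262, 0, 0, 0, ⟨0, 0⟩, 0⟩ 0 0)) (.pos 19 .mp ⟨41786555, 0, 0, 0, 0, 23401947, 0, 0, 0, ⟨0, 0⟩, 0⟩ 0 0)) (.pos 20 .mp ⟨68931135, 0, 0, 0, 0, 0, 0, 0, 0, ⟨0, 0⟩, 0⟩ 0 0))) (.pos 17 .mp ⟨54346414, 0, 0, 0, 0, 78313095, 0, 0, 0, ⟨0, 0⟩, 0⟩ 0 0)) (.void 18 ⟨100000, 0, 0, 0, 0, 0, 0, 0, 0, ⟨0, 0⟩, 0⟩ 0 0)) (.void 16 ⟨100000, 0, 0, 0, 0, 0, 0, 0, 0, ⟨0, 0⟩, 0⟩ 0 0)) (.cut .v 20971520 (.cut .d (-1048576) (.cut .l 6501171 (.cut .v 18874368 (.cut .v 17825792 (.cut .s 9830400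 (.cut .s 9699328 (.pos 19 .mp ⟨18455179, 0, 0, 0, 0, 30866482, 0, 0, 0, ⟨0, 0⟩, 0⟩ 0 0) (.pos 19 .mp ⟨23168451, 0, 0, 0, 0, 34830619, 0, 0, 0, ⟨0, 0⟩, 0⟩ 0 0)) (.pos 19 .mp ⟨28881046, 0, 0, 0, 0, 48821262, 0, 0, 0, ⟨0, 0⟩, 0⟩ 0 0)) (.pos 20 .mp ⟨74798538, 0, 0, 0, 0, 0, 0, 0, 0, ⟨0, 0⟩, 0⟩ 0 0)) (.void 18 ⟨100000, 0, 0, 0, 0, 0, 0, 0, 0, ⟨0, 0⟩, 0⟩ 0 0)) (.cut .v 18874368 (.cut .s 9830400 (.cut .d (-1572864) (.cut .s 9699328 (.cut .v 17825792 (.cut .l 8842991 (.pos 19 .mp ⟨26442463, 0, 0, 0, 0, 22759924, 0, 0, 0, ⟨0, 0⟩, 0⟩ 0 0) (.cut .s 9633792 (.pos 19 .mp ⟨38865342, 0, 0, 0, 0, 0, 0, 0, 0, ⟨0, 0⟩, 0⟩ 0 0) (.pos 19 .mp ⟨42253225, 0, 0, 0, 0, 0, 0, 0,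 0, ⟨0, 0⟩, 0⟩ 0 0))) (.pos 20 .mp ⟨46923988, 0, 0, 0, 0, 0, 0, 0, 0, ⟨0, 0⟩, 0⟩ 0 0)) (.cut .v 17825792 (.cut .v 17301504 (.pos 21 .mp ⟨24963120, 0, 0, 0, 0, 26329104, 0, 0, 0, ⟨0, 0⟩, 0⟩ 0 0) (.pos 22 .mp ⟨50593210, 0, 0, 0, 0, 0, 0, 0, 0, ⟨0, 0⟩, 0⟩ 0 0)) (.pos 20 .mp ⟨55021838, 0, 0, 0, 0, 0, 0, 0, 0, ⟨0, 0⟩, 0⟩ 0 0))) (.cut .l 8842991 (.cut .s 9699328 (.pos 17 .mp ⟨38373939, 0, 0, 0, 0, 0, 0, 0, 0, ⟨0, 0⟩, 0⟩ 0 0) (.cut .s 9764864 (.pos 17 .mp ⟨43597513, 0, 0, 0, 0, 0, 0, 0, 0, ⟨0, 0⟩, 0⟩ 0 0) (.pos 17 .mp ⟨47252244, 0, 0, 0, 0, 0, 0, 0, 0, ⟨0, 0⟩, 0⟩ 0 0))) (.pos 17 .mp ⟨35809776, 0, 0, 0, 0, 0, 0, 0, 0, ⟨0, 0⟩, 0⟩ 0 0))) (.cut .d (-1572864) (.cut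 .l 8842991 (.pos 17 .mp ⟨50521547, 0, 0, 0, 0, 39852500, 0, 0, 0, ⟨0, 0⟩, 0⟩ 0 0) (.cut .v 17825792 (.cut .s 9961472 (.cut .v 17301504 (.cut .s 9895936 (.pos 21 .mp ⟨35008516, 0, 0, 0, 0, 20827963, 0, 0, 0, ⟨0, 0⟩, 0⟩ 0 0) (.pos 21 .mp ⟨45657683, 0, 0, 0, 0, 12999758, 0, 0, 0, ⟨0, 0⟩, 0⟩ 0 0)) (.pos 22 .mp ⟨58407502, 0, 0, 0, 0, 0, 0, 0, 0, ⟨0, 0⟩, 0⟩ 0 0)) (.cut .d (-1835008) (.cut .v 17301504 (.cut .d (-1966080) (.pos 21 .mp ⟨53366396, 0, 0, 0, 0, 22934222, 0, 0, 0, ⟨0, 0⟩, 0⟩ 0 0) (.pos 21 .mp ⟨53192012, 0, 0, 0, 0, 12952930, 0, 0, 0, ⟨0, 0⟩, 0⟩ 0 0)) (.pos 22 .mp ⟨71369973, 0, 0, 0, 0, 0, 0, 0, 0, ⟨0, 0⟩, 0⟩ 0 0)) (.cut .s 10027008 (.pos 19 .mp ⟨58966604,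 0, 0, 0, 0, 0, 0, 0, 0, ⟨0, 0⟩, 0⟩ 0 0) (.pos 19 .mp ⟨63334674, 0, 0, 0, 0, 0, 0, 0, 0, ⟨0, 0⟩, 0⟩ 0 0)))) (.cut .s 9961472 (.pos 20 .mp ⟨64203344, 0, 0, 0, 0, 0, 0, 0, 0, ⟨0, 0⟩, 0⟩ 0 0) (.cut .d (-1835008) (.pos 20 .mp ⟨79740151, 0, 0, 0, 0, 0, 0, 0, 0, ⟨0, 0⟩, 0⟩ 0 0) (.pos 20 .mp ⟨70019169, 0, 0, 0, 0, 0, 0, 0, 0, ⟨0, 0⟩, 0⟩ 0 0))))) (.cut .s 9961472 (.cut .v 17825792 (.pos 19 .mp ⟨50809657, 0, 0, 0, 0, 0, 0, 0, 0, ⟨0, 0⟩, 0⟩ 0 0) (.pos 20 .mp ⟨57109288, 0, 0, 0, 0, 0, 0, 0, 0, ⟨0, 0⟩, 0⟩ 0 0)) (.cut .v 17825792 (.cut .s 10027008 (.pos 19 .mp ⟨56865563, 0, 0, 0, 0, 0, 0, 0, 0, ⟨0, 0⟩, 0⟩ 0 0) (.pos 19 .mp ⟨60827632, 0, 0, 0, 0, 0, 0, 0, 0, ⟨0, 0⟩,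 0⟩ 0 0)) (.pos 20 .mp ⟨65702214, 0, 0, 0, 0, 0, 0, 0, 0, ⟨0, 0⟩, 0⟩ 0 0))))) (.cut .s 9830400 (.cut .d (-1572864) (.cut .s 9699328 (.pos 18 .mp ⟨55609685, 0, 0, 0, 0, 0, 0, 0, 0, ⟨0, 0⟩, 0⟩ 0 0) (.pos 18 .mp ⟨66919112, 0, 0, 0, 0, 0, 0, 0, 0, ⟨0, 0⟩, 0⟩ 0 0)) (.pos 18 .mp ⟨53180668, 0, 0, 0, 0, 0, 0, 0, 0, ⟨0, 0⟩, 0⟩ 0 0)) (.cut .d (-1572864) (.pos 18 .mp ⟨89707239, 0, 0, 0, 0, 0, 0, 0, 0, ⟨0, 0⟩, 0⟩ 0 0) (.cut .s 9961472 (.pos 18 .mp ⟨66127287, 0, 0, 0, 0, 0, 0, 0, 0, ⟨0, 0⟩, 0⟩ 0 0) (.pos 18 .mp ⟨76288863, 0, 0, 0, 0, 0, 0, 0, 0, ⟨0, 0⟩, 0⟩ 0 0)))))) (.cut .l 6501171 (.cut .v 18874368 (.cut .s 9830400 (.cut .d (-524288) (.cut .v 17825792 (.cut .l 4159351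 (.cut .v 17301504 (.cut .s 9699328 (.pos 21 .mp ⟨9869697, 0, 0, 0, 0, 34115827, 0, 0, 0, ⟨0, 0⟩, 0⟩ 0 0) (.pos 21 .mp ⟨13453215, 0, 0, 0, 0, 37619645, 0, 0, 0, ⟨0, 0⟩, 0⟩ 0 0)) (.pos 22 .mp ⟨45803442, 0, 0, 0, 0, 0, 0, 0, 0, ⟨0, 0⟩, 0⟩ 0 0)) (.cut .s 9699328 (.pos 19 .mp ⟨30084878, 0, 0, 0, 0, 5077147, 0, 0, 0, ⟨0, 0⟩, 0⟩ 0 0) (.pos 19 .mp ⟨36858360, 0, 0, 0, 0, 4376611, 0, 0, 0, ⟨0, 0⟩, 0⟩ 0 0))) (.pos 20 .mp ⟨46718006, 0, 0, 0, 0, 0, 0, 0, 0, ⟨0, 0⟩, 0⟩ 0 0)) (.cut .v 17825792 (.cut .l 4159351 (.cut .l 2988441 (.cut .d (-262144) (.cut .v 17301504 (.cut .s 9699328 (.cut .s 9633792 (.pos 21 .mp ⟨6926783, 0, 0, 0, 0, 33237635, 0, 0, 0, ⟨0, 0⟩, 0⟩ 0 0)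 (.pos 21 .mp ⟨8866055, 0, 0, 0, 0, 34264118, 0, 0, 0, ⟨0, 0⟩, 0⟩ 0 0)) (.cut .s 9764864 (.pos 21 .mp ⟨11166213, 0, 0, 0, 0, 35000423, 0, 0, 0, ⟨0, 0⟩, 0⟩ 0 0) (.pos 21 .mp ⟨13410495, 0, 0, 0, 0, 35999073, 0, 0, 0, ⟨0, 0⟩, 0⟩ 0 0))) (.pos 22 .mp ⟨41801106, 0, 0, 0, 0, 0, 0, 0, 0, ⟨0, 0⟩, 0⟩ 0 0)) (.cut .s 9699328 (.pos 19 .mp ⟨11722286, 0, 0, 0, 0, 0, 0, 0, 0, ⟨0, 0⟩, 0⟩ 0 0) (.cut .s 9764864 (.pos 19 .mp ⟨14038081, 0, 0, 0, 0, 8858369, 0, 0, 0, ⟨0, 0⟩, 0⟩ 0 0) (.pos 19 .mp ⟨15952378, 0, 0, 0, 0, 24819408, 0, 0, 0, ⟨0, 0⟩, 0⟩ 0 0)))) (.pos 19 .mp ⟨19659275, 0, 0, 0, 0, 12789889, 0, 0, 0, ⟨0, 0⟩, 0⟩ 0 0)) (.pos 19 .mp ⟨0, 0, 0, 0, 0, 0, 0, 0, 0, ⟨0, 0⟩,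 0⟩ 0 0)) (.pos 20 .mp ⟨41146038, 0, 0, 0, 0, 0, 0, 0, 0, ⟨0, 0⟩, 0⟩ 0 0))) (.cut .d (-524288) (.cut .v 17825792 (.cut .l 4159351 (.cut .s 9961472 (.cut .s 9895936 (.pos 19 .mp ⟨18092354, 0, 0, 0, 0, 40619096, 0, 0, 0, ⟨0, 0⟩, 0⟩ 0 0) (.pos 19 .mp ⟨20444595, 0, 0, 0, 0, 42368514, 0, 0, 0, ⟨0, 0⟩, 0⟩ 0 0)) (.pos 19 .mp ⟨22970620, 0, 0, 0, 0, 48402901, 0, 0, 0, ⟨0, 0⟩, 0⟩ 0 0)) (.cut .s 9961472 (.pos 19 .mp ⟨44516044, 0, 0, 0, 0, 3375691, 0, 0, 0, ⟨0, 0⟩, 0⟩ 0 0) (.pos 19 .mp ⟨53100635, 0, 0, 0, 0, 1951690, 0, 0, 0, ⟨0, 0⟩, 0⟩ 0 0))) (.pos 20 .mp ⟨62261694, 0, 0, 0, 0, 0, 0, 0, 0, ⟨0, 0⟩, 0⟩ 0 0)) (.cut .v 17825792 (.cut .l 4159351 (.cut .l 2988441 (.cut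 .d (-262144) (.cut .v 17301504 (.cut .s 9961472 (.cut .s 9895936 (.pos 21 .mp ⟨15626460, 0, 0, 0, 0, 37224957, 0, 0, 0, ⟨0, 0⟩, 0⟩ 0 0) (.pos 21 .mp ⟨17841932, 0, 0, 0, 0, 38641942, 0, 0, 0, ⟨0, 0⟩, 0⟩ 0 0)) (.cut .s 10027008 (.pos 21 .mp ⟨20085020, 0, 0, 0, 0, 40212826, 0, 0, 0, ⟨0, 0⟩, 0⟩ 0 0) (.pos 21 .mp ⟨22384156, 0, 0, 0, 0, 41899289, 0, 0, 0, ⟨0, 0⟩, 0⟩ 0 0))) (.pos 22 .mp ⟨55405829, 0, 0, 0, 0, 0, 0, 0, 0, ⟨0, 0⟩, 0⟩ 0 0)) (.cut .v 17301504 (.cut .v 17039360 (.pos 69 .mp ⟨0, 0, 0, 0, 0, 49646173, 0, 0, 0, ⟨0, 0⟩, 0⟩ 0 0) (.cut .s 9961472 (.pos 70 .mp ⟨20892850, 0, 0, 0, 0, 24305432, 0, 0, 0, ⟨0, 0⟩, 0⟩ 0 0) (.cut .s 10027008 (.pos 70 .mp ⟨23343876,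 0, 0, 0, 0, 28548285, 0, 0, 0, ⟨0, 0⟩, 0⟩ 0 0) (.pos 70 .mp ⟨25919108, 0, 0, 0, 0, 29427008, 0, 0, 0, ⟨0, 0⟩, 0⟩ 0 0)))) (.pos 22 .mp ⟨45350158, 0, 0, 0, 0, 0, 0, 0, 0, ⟨0, 0⟩, 0⟩ 0 0))) (.pos 19 .mp ⟨33527203, 0, 0, 0, 0, 9103172, 0, 0, 0, ⟨0, 0⟩, 0⟩ 0 0)) (.pos 19 .mp ⟨0, 0, 0, 0, 0, 0, 0, 0, 0, ⟨0, 0⟩, 0⟩ 0 0)) (.pos 20 .mp ⟨54115792, 0, 0, 0, 0, 0, 0, 0, 0, ⟨0, 0⟩, 0⟩ 0 0)))) (.cut .s 9830400 (.pos 18 .mp ⟨51352322, 0, 0, 0, 0, 0, 0, 0, 0, ⟨0, 0⟩, 0⟩ 0 0) (.pos 18 .mp ⟨68167081, 0, 0, 0, 0, 0, 0, 0, 0, ⟨0, 0⟩, 0⟩ 0 0))) (.cut .v 18874368 (.pos 17 .mp ⟨33465295, 0, 0, 0, 0, 0, 0, 0, 0, ⟨0, 0⟩, 0⟩ 0 0) (.cut .s 9830400 (.pos 18 .mp ⟨43377845, 0, 0,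 0, 0, 0, 0, 0, 0, ⟨0, 0⟩, 0⟩ 0 0) (.pos 18 .mp ⟨58821532, 0, 0, 0, 0, 0, 0, 0, 0, ⟨0, 0⟩, 0⟩ 0 0))))) (.cut .d (-1048576) (.cut .d (-1572864) (.void 16 ⟨100000, 0, 0, 0, 0, 0, 0, 0, 0, ⟨0, 0⟩, 0⟩ 0 0) (.cut .s 9830400 (.pos 16 .mp ⟨76019397, 0, 0, 0, 0, 0, 0, 0, 0, ⟨0, 0⟩, 0⟩ 0 0) (.pos 16 .mp ⟨103534464, 0, 0, 0, 0, 0, 0, 0, 0, ⟨0, 0⟩, 0⟩ 0 0))) (.cut .s 9830400 (.pos 16 .mp ⟨63705039, 0, 0, 0, 0, 0, 0, 0, 0, ⟨0, 0⟩, 0⟩ 0 0) (.cut .s 9961472 (.pos 16 .mp ⟨77677036, 0, 0, 0, 0, 0, 0, 0, 0, ⟨0, 0⟩, 0⟩ 0 0) (.pos 16 .mp ⟨89015280, 0, 0, 0, 0, 0, 0, 0, 0, ⟨0, 0⟩, 0⟩ 0 0)))))) (.cut .d (-2097152) (.void 14 ⟨100000, 0, 0, 0, 0, 0, 0, 0, 0, ⟨0, 0⟩, 0⟩ 0 0)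 (.cut .d (-1048576) (.void 14 ⟨100000, 0, 0, 0, 0, 0, 0, 0, 0, ⟨0, 0⟩, 0⟩ 0 0) (.cut .v 29360128 (.pos 29 .mp ⟨117254169, 0, 0, 0, 0, 0, 0, 0, 0, ⟨0, 0⟩, 0⟩ 0 0) (.pos 30 .mp ⟨192401237, 0, 0, 0, 0, 0, 0, 0, 0, ⟨0, 0⟩, 0⟩ 0 0))))))) (.void 12 ⟨100000, 0, 0, 0, 0, 0, 0, 0, 0, ⟨0, 0⟩, 0⟩ 0 0)) (.void 57 ⟨100000, 0, 0, 0, 0, 0, 0, 0, 0, ⟨0, 0⟩, 0⟩ 0 0)) (.void 66 ⟨62439, 37561, 0, 0, 0, 0, 0, 0, 0, ⟨0, 0⟩, 0⟩ 0 0))) (.cut .v 16777216 (.cut .v 8388608 (.cut .v 4194304 (.cut .v 2097152 (.void 75 ⟨0, 0, 50000, 0, 50000, 0, 0, 0, 0, ⟨0, 0⟩, 0⟩ 0 0) (.pos 76 .pm ⟨0, 0, 5210584, 0, 0, 0, 0, 0, 6249031, ⟨0, 0⟩, 7053950⟩ 0 0)) (.pos 5 .pm ⟨0, 0, 0, 0, 0, 0, 0, 0,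 3292777, ⟨0, 0⟩, 9975792⟩ 0 0)) (.cut .v 12582912 (.pos 6 .pm ⟨0, 1643807, 0, 0, 0, 0, 0, 0, 0, ⟨0, 0⟩, 0⟩ 0 0) (.pos 7 .pm ⟨0, 0, 0, 0, 0, 0, 0, 0, 0, ⟨0, 0⟩, 0⟩ 0 0))) (.cut .v 268435456 (.cut .d 6320185 (.cut .v 67108864 (.cut .d 3160092 (.cut .v 33554432 (.cut .v 25165824 (.pos 13 .pp ⟨22572653, 0, 0, 0, 0, 0, 0, 0, 0, ⟨0, 0⟩, 0⟩ 0 0) (.pos 14 .pp ⟨79005754, 0, 0, 0, 0, 0, 0, 0, 0, ⟨0, 0⟩, 0⟩ 0 0)) (.cut .v 50331648 (.cut .v 41943040 (.pos 33 .pp ⟨162340047, 0, 0, 0, 0, 0, 0, 0, 0, ⟨0, 0⟩, 0⟩ 0 0) (.pos 34 .pp ⟨294900861, 0, 0, 0, 0, 0, 0, 0, 0, ⟨0, 0⟩, 0⟩ 0 0)) (.pos 32 .pp ⟨557215191, 0, 0, 0, 0, 0, 0, 0, 0, ⟨0, 0⟩, 0⟩ 0 0))) (.pos 10 .pp ⟨0, 0,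 0, 0, 0, 0, 0, 0, 0, ⟨0, 0⟩, 0⟩ 0 0)) (.cut .v 134217728 (.cut .d 3160092 (.cut .d 1580046 (.void 67 ⟨100000, 0, 0, 0, 0, 0, 0, 0, 0, ⟨0, 0⟩, 0⟩ 0 0) (.pos 67 .pp ⟨985541796, 281098170, 0, 0, 0, 0, 0, 0, 0, ⟨0, 0⟩, 0⟩ 0 0)) (.void 67 ⟨0, 100000, 0, 0, 0, 0, 0, 0, 0, ⟨0, 0⟩, 0⟩ 0 0)) (.void 68 ⟨0, 100000, 0, 0, 0, 0, 0, 0, 0, ⟨0, 0⟩, 0⟩ 0 0))) (.pos 56 .pp ⟨0, 13331308, 0, 0, 0, 0, 0, 0, 0, ⟨0, 0⟩, 0⟩ 0 0)) (.void 66 ⟨0, 0, 0, 100000, 0, 0, 0, 0, 0, ⟨0, 0⟩, 0⟩ 0 0)))),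
    by decide +kernel⟩

def covers13 : cell.Covers table row13.1 :=
  ⟨(.cut .d 0 (.cut .v 16777216 (.cut .d (-8388608) (.void 1 ⟨0, 0, 0, 0, 0, 100000, 0, 0, 0, ⟨0, 0⟩, 0⟩ 0 0) (.cut .d (-4194304) (.void 1 ⟨0, 0, 0, 0, 0, 100000, 0, 0, 0, ⟨0, 0⟩, 0⟩ 0 0) (.cut .d (-2097152) (.void 1 ⟨0, 0, 0, 0, 0, 100000, 0, 0, 0, ⟨0, 0⟩, 0⟩ 0 0) (.cut .v 8388608 (.cut .v 4194304 (.void 4 ⟨0, 0, 100000, 0, 0, 0, 0, 0, 0, ⟨0, 0⟩, 0⟩ 0 0) (.pos 5 .mm ⟨0, 0, 0, 0, 0, 22549928, 0, 0, 0, ⟨0, 0⟩, 0⟩ 0 0)) (.cut .v 12582912 (.pos 6 .mm ⟨0, 0, 0, 0, 0, 50759217, 0, 0, 0, ⟨0, 0⟩, 0⟩ 0 0) (.cut .d (-1048576) (.cut .l 6501171 (.pos 7 .mm ⟨0, 0, 0, 0, 0, 107399624, 0, 0, 0, ⟨0,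 0⟩, 0⟩ 0 0) (.cut .v 14680064 (.pos 8 .mm ⟨0, 0, 0, 0, 0, 71103809, 0, 0, 0, ⟨0, 0⟩, 0⟩ 0 0) (.cut .v 15728640 (.pos 49 .mm ⟨0, 0, 0, 0, 0, 81147804, 0, 0, 0, ⟨0, 0⟩, 0⟩ 0 0) (.cut .s 10289152 (.cut .s 10190848 (.pos 50 .mm ⟨0, 0, 0, 0, 0, 75027367, 0, 0, 0, ⟨0, 0⟩, 0⟩ 0 0) (.pos 50 .mm ⟨0, 0, 0, 0, 0, 83880047, 0, 0, 0, ⟨0, 0⟩, 0⟩ 0 0)) (.cut .s 10387456 (.pos 50 .mm ⟨0, 0, 0, 0, 0, 93481105, 0, 0, 0, ⟨0, 0⟩, 0⟩ 0 0) (.pos 50 .mm ⟨0, 0, 0, 0, 0, 103835100, 0, 0, 0, ⟨0, 0⟩, 0⟩ 0 0)))))) (.cut .l 6501171 (.cut .v 14680064 (.pos 8 .mm ⟨0, 0, 0, 0, 0, 62562699, 0, 0, 0, ⟨0, 0⟩, 0⟩ 0 0) (.cut .s 10289152 (.cut .v 15728640 (.pos 49 .mm ⟨0, 0, 0, 0, 0, 64895983,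 0, 0, 0, ⟨0, 0⟩, 0⟩ 0 0) (.cut .v 16252928 (.pos 53 .mm ⟨0, 0, 0, 0, 0, 69082626, 0, 0, 0, ⟨0, 0⟩, 0⟩ 0 0) (.cut .l 4159351 (.cut .d (-524288) (.pos 54 .mm ⟨0, 0, 0, 0, 0, 80570075, 0, 0, 0, ⟨0, 0⟩, 0⟩ 0 0) (.cut .s 10190848 (.pos 54 .mm ⟨0, 0, 0, 0, 0, 66155300, 0, 0, 0, ⟨0, 0⟩, 0⟩ 0 0) (.pos 54 .mm ⟨0, 0, 0, 0, 0, 73541039, 0, 0, 0, ⟨0, 0⟩, 0⟩ 0 0))) (.pos 54 .mm ⟨0, 0, 0, 0, 0, 69699942, 0, 0, 0, ⟨0, 0⟩, 0⟩ 0 0)))) (.cut .v 15728640 (.pos 49 .mm ⟨0, 0, 0, 0, 0, 80217839, 0, 0, 0, ⟨0, 0⟩, 0⟩ 0 0) (.cut .v 16252928 (.pos 53 .mm ⟨0, 0, 0, 0, 0, 85210175, 0, 0, 0, ⟨0, 0⟩, 0⟩ 0 0) (.cut .d (-524288) (.cut .s 10387456 (.pos 54 .mm ⟨0, 0, 0, 0, 0, 89648725,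 0, 0, 0, ⟨0, 0⟩, 0⟩ 0 0) (.pos 54 .mm ⟨0, 0, 0, 0, 0, 99005501, 0, 0, 0, ⟨0, 0⟩, 0⟩ 0 0)) (.cut .s 10387456 (.pos 54 .mm ⟨0, 0, 0, 0, 0, 81600206, 0, 0, 0, ⟨0, 0⟩, 0⟩ 0 0) (.pos 54 .mm ⟨0, 0, 0, 0, 0, 90314133, 0, 0, 0, ⟨0, 0⟩, 0⟩ 0 0))))))) (.pos 7 .mm ⟨0, 0, 0, 0, 0, 59391785, 0, 0, 0, ⟨0, 0⟩, 0⟩ 0 0)))))))) (.cut .v 268435456 (.cut .v 67108864 (.cut .v 33554432 (.cut .d (-8388608) (.void 11 ⟨0, 0, 0, 0, 0, 100000, 0, 0, 0, ⟨0, 0⟩, 0⟩ 0 0) (.cut .d (-4194304) (.void 11 ⟨0, 0, 0, 0, 0, 100000, 0, 0, 0, ⟨0, 0⟩, 0⟩ 0 0) (.cut .d (-2097152) (.void 11 ⟨0, 0, 0, 0, 0, 100000, 0, 0, 0, ⟨0, 0⟩, 0⟩ 0 0) (.cut .v 25165824 (.cut .v 20971520 (.cut .d (-1048576)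 (.cut .l 6501171 (.cut .v 18874368 (.pos 17 .mp ⟨55794726, 0, 0, 0, 0, 75736315, 0, 0, 0, ⟨0, 0⟩, 0⟩ 0 0) (.void 18 ⟨100000, 0, 0, 0, 0, 0, 0, 0, 0, ⟨0, 0⟩, 0⟩ 0 0)) (.cut .v 18874368 (.cut .d (-1572864) (.cut .l 8842991 (.void 17 ⟨0, 0, 0, 0, 0, 100000, 0, 0, 0, ⟨0, 0⟩, 0⟩ 0 0) (.cut .s 10289152 (.cut .v 17825792 (.cut .s 10190848 (.cut .d (-1835008) (.cut .v 17301504 (.pos 21 .mp ⟨56470201, 0, 0, 0, 0, 23760074, 0, 0, 0, ⟨0, 0⟩, 0⟩ 0 0) (.pos 22 .mp ⟨79446111, 0, 0, 0, 0, 0, 0, 0, 0, ⟨0, 0⟩, 0⟩ 0 0)) (.cut .s 10141696 (.pos 19 .mp ⟨66825485, 0, 0, 0, 0, 0, 0, 0, 0, ⟨0, 0⟩, 0⟩ 0 0) (.pos 19 .mp ⟨70589325, 0, 0, 0, 0, 0, 0, 0, 0, ⟨0, 0⟩, 0⟩ 0 0))) (.cut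 .l 10013901 (.pos 19 .mp ⟨58883240, 0, 0, 0, 0, 38205811, 0, 0, 0, ⟨0, 0⟩, 0⟩ 0 0) (.cut .d (-1835008) (.cut .v 17301504 (.pos 21 .mp ⟨63863959, 0, 0, 0, 0, 28023497, 0, 0, 0, ⟨0, 0⟩, 0⟩ 0 0) (.pos 22 .mp ⟨90354068, 0, 0, 0, 0, 0, 0, 0, 0, ⟨0, 0⟩, 0⟩ 0 0)) (.pos 19 .mp ⟨75809903, 0, 0, 0, 0, 0, 0, 0, 0, ⟨0, 0⟩, 0⟩ 0 0)))) (.cut .s 10190848 (.pos 20 .mp ⟨84355753, 0, 0, 0, 0, 0, 0, 0, 0, ⟨0, 0⟩, 0⟩ 0 0) (.pos 20 .mp ⟨94733750, 0, 0, 0, 0, 0, 0, 0, 0, ⟨0, 0⟩, 0⟩ 0 0))) (.cut .v 17825792 (.cut .d (-1835008) (.pos 19 .mp ⟨75444394, 0, 0, 0, 0, 65990406, 0, 0, 0, ⟨0, 0⟩, 0⟩ 0 0) (.cut .v 17301504 (.cut .s 10387456 (.pos 21 .mp ⟨71764279, 0, 0, 0, 0, 15552172,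 0, 0, 0, ⟨0, 0⟩, 0⟩ 0 0) (.cut .s 10436608 (.pos 21 .mp ⟨86274362, 0, 0, 0, 0, 5849115, 0, 0, 0, ⟨0, 0⟩, 0⟩ 0 0) (.pos 21 .mp ⟨91464253, 0, 0, 0, 0, 5682638, 0, 0, 0, ⟨0, 0⟩, 0⟩ 0 0))) (.pos 22 .mp ⟨96041729, 0, 0, 0, 0, 0, 0, 0, 0, ⟨0, 0⟩, 0⟩ 0 0))) (.pos 20 .mp ⟨114859021, 0, 0, 0, 0, 0, 0, 0, 0, ⟨0, 0⟩, 0⟩ 0 0)))) (.cut .s 10289152 (.cut .v 17825792 (.cut .l 8842991 (.cut .s 10190848 (.pos 19 .mp ⟨66905189, 0, 0, 0, 0, 0, 0, 0, 0, ⟨0, 0⟩, 0⟩ 0 0) (.pos 19 .mp ⟨74454865, 0, 0, 0, 0, 0, 0, 0, 0, ⟨0, 0⟩, 0⟩ 0 0)) (.pos 19 .mp ⟨64813210, 0, 0, 0, 0, 0, 0, 0, 0, ⟨0, 0⟩, 0⟩ 0 0)) (.cut .s 10190848 (.pos 20 .mp ⟨73447076, 0, 0, 0, 0, 0, 0, 0, 0, ⟨0, 0⟩, 0⟩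 0 0) (.pos 20 .mp ⟨81428366, 0, 0, 0, 0, 0, 0, 0, 0, ⟨0, 0⟩, 0⟩ 0 0))) (.cut .v 17825792 (.cut .s 10387456 (.cut .s 10338304 (.pos 19 .mp ⟨78742001, 0, 0, 0, 0, 0, 0, 0, 0, ⟨0, 0⟩, 0⟩ 0 0) (.pos 19 .mp ⟨82663634, 0, 0, 0, 0, 0, 0, 0, 0, ⟨0, 0⟩, 0⟩ 0 0)) (.cut .l 8842991 (.pos 19 .mp ⟨91197080, 0, 0, 0, 0, 0, 0, 0, 0, ⟨0, 0⟩, 0⟩ 0 0) (.pos 19 .mp ⟨86354616, 0, 0, 0, 0, 0, 0, 0, 0, ⟨0, 0⟩, 0⟩ 0 0))) (.cut .s 10387456 (.pos 20 .mp ⟨89960725, 0, 0, 0, 0, 0, 0, 0, 0, ⟨0, 0⟩, 0⟩ 0 0) (.pos 20 .mp ⟨99045290, 0, 0, 0, 0, 0, 0, 0, 0, ⟨0, 0⟩, 0⟩ 0 0))))) (.cut .d (-1572864) (.pos 18 .mp ⟨135024899, 0, 0, 0, 0, 0, 0, 0, 0, ⟨0, 0⟩, 0⟩ 0 0) (.cut .s 10289152 (.cut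 .s 10190848 (.pos 18 .mp ⟨85114859, 0, 0, 0, 0, 0, 0, 0, 0, ⟨0, 0⟩, 0⟩ 0 0) (.pos 18 .mp ⟨94449531, 0, 0, 0, 0, 0, 0, 0, 0, ⟨0, 0⟩, 0⟩ 0 0)) (.pos 18 .mp ⟨111988307, 0, 0, 0, 0, 0, 0, 0, 0, ⟨0, 0⟩, 0⟩ 0 0))))) (.cut .l 6501171 (.cut .v 18874368 (.cut .d (-524288) (.cut .s 10289152 (.cut .v 17825792 (.cut .l 4159351 (.cut .s 10190848 (.pos 19 .mp ⟨28447628, 0, 0, 0, 0, 50133055, 0, 0, 0, ⟨0, 0⟩, 0⟩ 0 0) (.pos 19 .mp ⟨32894274, 0, 0, 0, 0, 53824110, 0, 0, 0, ⟨0, 0⟩, 0⟩ 0 0)) (.cut .s 10190848 (.pos 19 .mp ⟨60129597, 0, 0, 0, 0, 1079709, 0, 0, 0, ⟨0, 0⟩, 0⟩ 0 0) (.pos 19 .mp ⟨65114991, 0, 0, 0, 0, 4078573, 0, 0, 0, ⟨0, 0⟩, 0⟩ 0 0))) (.pos 20 .mp ⟨77207798,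 0, 0, 0, 0, 0, 0, 0, 0, ⟨0, 0⟩, 0⟩ 0 0)) (.cut .v 17825792 (.cut .l 4159351 (.pos 19 .mp ⟨37747694, 0, 0, 0, 0, 67180656, 0, 0, 0, ⟨0, 0⟩, 0⟩ 0 0) (.cut .s 10387456 (.pos 19 .mp ⟨75023415, 0, 0, 0, 0, 345428, 0, 0, 0, ⟨0, 0⟩, 0⟩ 0 0) (.pos 19 .mp ⟨82912434, 0, 0, 0, 0, 0, 0, 0, 0, ⟨0, 0⟩, 0⟩ 0 0))) (.pos 20 .mp ⟨93632182, 0, 0, 0, 0, 0, 0, 0, 0, ⟨0, 0⟩, 0⟩ 0 0))) (.cut .l 4159351 (.cut .d (-262144) (.cut .v 17825792 (.cut .s 10289152 (.cut .l 2988441 (.cut .v 17301504 (.cut .s 10190848 (.cut .s 10141696 (.pos 21 .mp ⟨26685949, 0, 0, 0, 0, 40265884, 0, 0, 0, ⟨0, 0⟩, 0⟩ 0 0) (.pos 21 .mp ⟨28899966, 0, 0, 0, 0, 41395333, 0, 0, 0, ⟨0, 0⟩, 0⟩ 0 0)) (.pos 21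 .mp ⟨24122054, 0, 0, 0, 0, 54799348, 0, 0, 0, ⟨0, 0⟩, 0⟩ 0 0)) (.pos 22 .mp ⟨68585297, 0, 0, 0, 0, 0, 0, 0, 0, ⟨0, 0⟩, 0⟩ 0 0)) (.pos 19 .mp ⟨43905495, 0, 0, 0, 0, 13882464, 0, 0, 0, ⟨0, 0⟩, 0⟩ 0 0)) (.cut .l 2988441 (.cut .v 17301504 (.cut .s 10387456 (.pos 21 .mp ⟨28752559, 0, 0, 0, 0, 57789129, 0, 0, 0, ⟨0, 0⟩, 0⟩ 0 0) (.pos 21 .mp ⟨33416596, 0, 0, 0, 0, 61338741, 0, 0, 0, ⟨0, 0⟩, 0⟩ 0 0)) (.pos 22 .mp ⟨82879095, 0, 0, 0, 0, 0, 0, 0, 0, ⟨0, 0⟩, 0⟩ 0 0)) (.pos 19 .mp ⟨56120750, 0, 0, 0, 0, 15639392, 0, 0, 0, ⟨0, 0⟩, 0⟩ 0 0))) (.pos 20 .mp ⟨80154104, 0, 0, 0, 0, 0, 0, 0, 0, ⟨0, 0⟩, 0⟩ 0 0)) (.cut .v 17825792 (.cut .d (-131072) (.cut .d (-196608) (.cut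 .v 17301504 (.cut .l 2988441 (.cut .l 2402986 (.cut .l 2110258 (.cut .s 10289152 (.cut .v 17039360 (.pos 69 .mp ⟨0, 0, 0, 0, 0, 70584020, 0, 0, 0, ⟨0, 0⟩, 0⟩ 0 0) (.cut .d (-229376) (.cut .s 10190848 (.pos 70 .mp ⟨25906656, 0, 0, 0, 0, 42323750, 0, 0, 0, ⟨0, 0⟩, 0⟩ 0 0) (.pos 70 .mp ⟨31223288, 0, 0, 0, 0, 43824497, 0, 0, 0, ⟨0, 0⟩, 0⟩ 0 0)) (.pos 70 .mp ⟨32610343, 0, 0, 0, 0, 18645411, 0, 0, 0, ⟨0, 0⟩, 0⟩ 0 0))) (.cut .v 17039360 (.pos 69 .mp ⟨0, 0, 0, 0, 0, 89099263, 0, 0, 0, ⟨0, 0⟩, 0⟩ 0 0) (.cut .v 17170432 (.cut .s 10387456 (.pos 73 .mp ⟨30480922, 0, 0, 0, 0, 49586500, 0, 0, 0, ⟨0, 0⟩, 0⟩ 0 0) (.pos 73 .mp ⟨34807481, 0, 0, 0, 0, 53644038, 0, 0, 0,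 ⟨0, 0⟩, 0⟩ 0 0)) (.pos 74 .mp ⟨75790574, 0, 0, 0, 0, 0, 0, 0, 0, ⟨0, 0⟩, 0⟩ 0 0)))) (.pos 21 .mp ⟨36525448, 0, 0, 0, 0, 0, 0, 0, 0, ⟨0, 0⟩, 0⟩ 0 0)) (.pos 21 .mp ⟨0, 0, 0, 0, 0, 0, 0, 0, 0, ⟨0, 0⟩, 0⟩ 0 0)) (.pos 21 .mp ⟨0, 0, 0, 0, 0, 0, 0, 0, 0, ⟨0, 0⟩, 0⟩ 0 0)) (.pos 22 .mp ⟨66658682, 0, 0, 0, 0, 0, 0, 0, 0, ⟨0, 0⟩, 0⟩ 0 0)) (.pos 19 .mp ⟨35445554, 0, 0, 0, 0, 0, 0, 0, 0, ⟨0, 0⟩, 0⟩ 0 0)) (.pos 19 .mp ⟨22151328, 0, 0, 0, 0, 0, 0, 0, 0, ⟨0, 0⟩, 0⟩ 0 0)) (.pos 20 .mp ⟨68766151, 0, 0, 0, 0, 0, 0, 0, 0, ⟨0, 0⟩, 0⟩ 0 0))) (.pos 17 .mp ⟨45008317, 0, 0, 0, 0, 0, 0, 0, 0, ⟨0, 0⟩, 0⟩ 0 0))) (.cut .d (-524288) (.pos 18 .mp ⟨104883302, 0, 0, 0, 0, 0, 0, 0, 0,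 ⟨0, 0⟩, 0⟩ 0 0) (.pos 18 .mp ⟨84129756, 0, 0, 0, 0, 0, 0, 0, 0, ⟨0, 0⟩, 0⟩ 0 0))) (.cut .d (-524288) (.cut .d (-786432) (.cut .v 18874368 (.cut .s 10289152 (.pos 17 .mp ⟨57771486, 0, 0, 0, 0, 0, 0, 0, 0, ⟨0, 0⟩, 0⟩ 0 0) (.pos 17 .mp ⟨74928084, 0, 0, 0, 0, 0, 0, 0, 0, ⟨0, 0⟩, 0⟩ 0 0)) (.pos 18 .mp ⟨86067138, 0, 0, 0, 0, 0, 0, 0, 0, ⟨0, 0⟩, 0⟩ 0 0)) (.pos 15 .mp ⟨57929439, 0, 0, 0, 0, 0, 0, 0, 0, ⟨0, 0⟩, 0⟩ 0 0)) (.pos 15 .mp ⟨29696524, 0, 0, 0, 0, 0, 0, 0, 0, ⟨0, 0⟩, 0⟩ 0 0)))) (.cut .d (-1048576) (.cut .s 10289152 (.pos 16 .mp ⟨149271147, 0, 0, 0, 0, 0, 0, 0, 0, ⟨0, 0⟩, 0⟩ 0 0) (.pos 16 .mp ⟨182245275, 0, 0, 0, 0, 0, 0, 0, 0, ⟨0, 0⟩, 0⟩ 0 0)) (.cut .v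 23068672 (.cut .s 10289152 (.pos 27 .mp ⟨98450839, 0, 0, 0, 0, 0, 0, 0, 0, ⟨0, 0⟩, 0⟩ 0 0) (.pos 27 .mp ⟨118519633, 0, 0, 0, 0, 0, 0, 0, 0, ⟨0, 0⟩, 0⟩ 0 0)) (.pos 28 .mp ⟨133537151, 0, 0, 0, 0, 0, 0, 0, 0, ⟨0, 0⟩, 0⟩ 0 0)))) (.cut .d (-1048576) (.void 14 ⟨100000, 0, 0, 0, 0, 0, 0, 0, 0, ⟨0, 0⟩, 0⟩ 0 0) (.cut .v 29360128 (.pos 29 .mp ⟨173842560, 0, 0, 0, 0, 0, 0, 0, 0, ⟨0, 0⟩, 0⟩ 0 0) (.pos 30 .mp ⟨271314148, 0, 0, 0, 0, 0, 0, 0, 0, ⟨0, 0⟩, 0⟩ 0 0))))))) (.void 12 ⟨100000, 0, 0, 0, 0, 0, 0, 0, 0, ⟨0, 0⟩, 0⟩ 0 0)) (.void 57 ⟨100000, 0, 0, 0, 0, 0, 0, 0, 0, ⟨0, 0⟩, 0⟩ 0 0)) (.void 66 ⟨95413, 0, 0, 4587, 0, 0, 0, 0, 0, ⟨0, 0⟩, 0⟩ 0 0))) (.cut .v 16777216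 (.cut .v 8388608 (.cut .v 4194304 (.cut .v 2097152 (.void 75 ⟨0, 0, 50000, 0, 50000, 0, 0, 0, 0, ⟨0, 0⟩, 0⟩ 0 0) (.pos 76 .pm ⟨0, 0, 2288730, 0, 0, 0, 0, 0, 7512337, ⟨0, 0⟩, 7053950⟩ 0 0)) (.cut .d 5556092 (.pos 5 .pm ⟨0, 0, 0, 0, 0, 0, 0, 0, 0, ⟨0, 0⟩, 0⟩ 0 0) (.pos 5 .pm ⟨0, 16562879, 0, 0, 0, 0, 0, 0, 0, ⟨0, 0⟩, 0⟩ 0 0))) (.cut .d 5556092 (.pos 3 .pm ⟨0, 0, 0, 0, 0, 0, 0, 0, 0, ⟨0, 0⟩, 0⟩ 0 0) (.cut .d 8334138 (.pos 3 .pm ⟨0, 0, 0, 0, 0, 0, 0, 0, 0, ⟨0, 0⟩, 0⟩ 0 0) (.pos 3 .pm ⟨0, 28764621, 0, 0, 0, 0, 0, 0, 0, ⟨0, 0⟩, 0⟩ 0 0)))) (.cut .v 268435456 (.cut .d 5556092 (.cut .v 67108864 (.cut .d 2778046 (.cut .v 33554432 (.cut .d 1389023 (.cut .v 25165824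 (.cut .v 20971520 (.pos 15 .pp ⟨27337747, 0, 0, 0, 0, 0, 0, 0, 0, ⟨0, 0⟩, 0⟩ 0 0) (.pos 16 .pp ⟨80758911, 0, 0, 0, 0, 0, 0, 0, 0, ⟨0, 0⟩, 0⟩ 0 0)) (.pos 14 .pp ⟨134248441, 0, 0, 0, 0, 0, 0, 0, 0, ⟨0, 0⟩, 0⟩ 0 0)) (.pos 11 .pp ⟨0, 0, 0, 0, 0, 0, 0, 0, 0, ⟨0, 0⟩, 0⟩ 0 0)) (.cut .d 1389023 (.cut .v 50331648 (.cut .v 41943040 (.pos 33 .pp ⟨257833592, 0, 0, 0, 0, 0, 0, 0, 0, ⟨0, 0⟩, 0⟩ 0 0) (.pos 34 .pp ⟨486646971, 0, 0, 0, 0, 0, 0, 0, 0, ⟨0, 0⟩, 0⟩ 0 0)) (.pos 32 .pp ⟨944393002, 0, 0, 0, 0, 0, 0, 0, 0, ⟨0, 0⟩, 0⟩ 0 0)) (.pos 12 .pp ⟨198270825, 0, 0, 0, 0, 0, 0, 0, 0, ⟨0, 0⟩, 0⟩ 0 0))) (.pos 10 .pp ⟨0, 0, 0, 0, 0, 0, 0, 0, 0, ⟨0, 0⟩, 0⟩ 0 0)) (.cut .v 134217728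 (.cut .d 2778046 (.cut .d 1389023 (.void 67 ⟨100000, 0, 0, 0, 0, 0, 0, 0, 0, ⟨0, 0⟩, 0⟩ 0 0) (.pos 67 .pp ⟨1340808029, 479355099, 0, 0, 0, 0, 0, 0, 0, ⟨0, 0⟩, 0⟩ 0 0)) (.pos 67 .pp ⟨321438797, 0, 0, 0, 0, 0, 0, 0, 0, ⟨0, 0⟩, 0⟩ 0 0)) (.void 68 ⟨0, 100000, 0, 0, 0, 0, 0, 0, 0, ⟨0, 0⟩, 0⟩ 0 0))) (.pos 56 .pp ⟨0, 0, 0, 0, 0, 0, 0, 0, 0, ⟨0, 0⟩, 0⟩ 0 0)) (.void 66 ⟨0, 0, 0, 100000, 0, 0, 0, 0, 0, ⟨0, 0⟩, 0⟩ 0 0)))),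
    by decide +kernel⟩

def covers14 : cell.Covers table row14.1 :=
  ⟨(.cut .d 0 (.cut .v 16777216 (.cut .d (-8388608) (.void 1 ⟨0, 0, 0, 0, 0, 100000, 0, 0, 0, ⟨0, 0⟩, 0⟩ 0 0) (.cut .d (-4194304) (.void 1 ⟨0, 0, 0, 0, 0, 100000, 0, 0, 0, ⟨0, 0⟩, 0⟩ 0 0) (.cut .d (-2097152) (.void 1 ⟨0, 0, 0, 0, 0, 100000, 0, 0, 0, ⟨0, 0⟩, 0⟩ 0 0) (.cut .v 8388608 (.cut .v 4194304 (.void 4 ⟨0, 0, 100000, 0, 0, 0, 0, 0, 0, ⟨0, 0⟩, 0⟩ 0 0) (.pos 5 .mm ⟨0, 0, 0, 0, 0, 40839438, 0, 0, 0, ⟨0, 0⟩, 0⟩ 0 0)) (.cut .v 12582912 (.pos 6 .mm ⟨0, 0, 0, 0, 0, 78033527, 0, 0, 0, ⟨0, 0⟩, 0⟩ 0 0) (.cut .d (-1048576) (.cut .l 6501171 (.void 7 ⟨0, 0, 0, 0, 0, 100000, 0, 0, 0, ⟨0, 0⟩, 0⟩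 0 0) (.cut .v 14680064 (.pos 8 .mm ⟨0, 0, 0, 0, 0, 112804676, 0, 0, 0, ⟨0, 0⟩, 0⟩ 0 0) (.cut .s 10682368 (.cut .v 15728640 (.pos 49 .mm ⟨0, 0, 0, 0, 0, 110460321, 0, 0, 0, ⟨0, 0⟩, 0⟩ 0 0) (.cut .v 16252928 (.pos 53 .mm ⟨0, 0, 0, 0, 0, 116713766, 0, 0, 0, ⟨0, 0⟩, 0⟩ 0 0) (.cut .d (-1572864) (.cut .s 10584064 (.pos 54 .mm ⟨0, 0, 0, 0, 0, 122610788, 0, 0, 0, ⟨0, 0⟩, 0⟩ 0 0) (.pos 54 .mm ⟨0, 0, 0, 0, 0, 138056495, 0, 0, 0, ⟨0, 0⟩, 0⟩ 0 0)) (.cut .s 10584064 (.pos 54 .mm ⟨0, 0, 0, 0, 0, 110313659, 0, 0, 0, ⟨0, 0⟩, 0⟩ 0 0) (.pos 54 .mm ⟨0, 0, 0, 0, 0, 122318842, 0, 0, 0, ⟨0, 0⟩, 0⟩ 0 0))))) (.cut .d (-1572864) (.pos 9 .mm ⟨0, 0, 0, 0, 0, 170356053, 0, 0, 0,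 ⟨0, 0⟩, 0⟩ 0 0) (.cut .s 10780672 (.pos 9 .mm ⟨0, 0, 0, 0, 0, 135244267, 0, 0, 0, ⟨0, 0⟩, 0⟩ 0 0) (.pos 9 .mm ⟨0, 0, 0, 0, 0, 149107356, 0, 0, 0, ⟨0, 0⟩, 0⟩ 0 0)))))) (.cut .v 14680064 (.pos 8 .mm ⟨0, 0, 0, 0, 0, 90237118, 0, 0, 0, ⟨0, 0⟩, 0⟩ 0 0) (.cut .l 6501171 (.cut .s 10682368 (.cut .v 15728640 (.pos 49 .mm ⟨0, 0, 0, 0, 0, 98130587, 0, 0, 0, ⟨0, 0⟩, 0⟩ 0 0) (.cut .d (-524288) (.cut .s 10584064 (.pos 50 .mm ⟨0, 0, 0, 0, 0, 109090979, 0, 0, 0, ⟨0, 0⟩, 0⟩ 0 0) (.pos 50 .mm ⟨0, 0, 0, 0, 0, 120418665, 0, 0, 0, ⟨0, 0⟩, 0⟩ 0 0)) (.cut .s 10584064 (.pos 50 .mm ⟨0, 0, 0, 0, 0, 99718911, 0, 0, 0, ⟨0, 0⟩, 0⟩ 0 0) (.pos 50 .mm ⟨0, 0, 0, 0, 0, 110086672, 0, 0,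 0, ⟨0, 0⟩, 0⟩ 0 0)))) (.cut .v 15728640 (.pos 49 .mm ⟨0, 0, 0, 0, 0, 119580810, 0, 0, 0, ⟨0, 0⟩, 0⟩ 0 0) (.cut .d (-524288) (.cut .s 10780672 (.pos 50 .mm ⟨0, 0, 0, 0, 0, 132603171, 0, 0, 0, ⟨0, 0⟩, 0⟩ 0 0) (.pos 50 .mm ⟨0, 0, 0, 0, 0, 145660698, 0, 0, 0, ⟨0, 0⟩, 0⟩ 0 0)) (.cut .s 10780672 (.pos 50 .mm ⟨0, 0, 0, 0, 0, 121345401, 0, 0, 0, ⟨0, 0⟩, 0⟩ 0 0) (.pos 50 .mm ⟨0, 0, 0, 0, 0, 133471267, 0, 0, 0, ⟨0, 0⟩, 0⟩ 0 0))))) (.cut .s 10682368 (.pos 9 .mm ⟨0, 0, 0, 0, 0, 95378236, 0, 0, 0, ⟨0, 0⟩, 0⟩ 0 0) (.pos 9 .mm ⟨0, 0, 0, 0, 0, 117255346, 0, 0, 0, ⟨0, 0⟩, 0⟩ 0 0)))))))))) (.cut .v 268435456 (.cut .v 67108864 (.cut .v 33554432 (.cut .d (-8388608) (.void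 11 ⟨0, 0, 0, 0, 0, 100000, 0, 0, 0, ⟨0, 0⟩, 0⟩ 0 0) (.cut .d (-4194304) (.void 11 ⟨100000, 0, 0, 0, 0, 0, 0, 0, 0, ⟨0, 0⟩, 0⟩ 0 0) (.cut .d (-2097152) (.void 11 ⟨100000, 0, 0, 0, 0, 0, 0, 0, 0, ⟨0, 0⟩, 0⟩ 0 0) (.cut .v 25165824 (.cut .v 20971520 (.cut .d (-1048576) (.cut .l 6501171 (.void 15 ⟨0, 0, 0, 0, 0, 100000, 0, 0, 0, ⟨0, 0⟩, 0⟩ 0 0) (.cut .v 18874368 (.cut .d (-1572864) (.cut .d (-1835008) (.void 17 ⟨0, 0, 0, 0, 0, 100000, 0, 0, 0, ⟨0, 0⟩, 0⟩ 0 0) (.cut .v 17825792 (.cut .l 8842991 (.void 19 ⟨100000, 0, 0, 0, 0, 0, 0, 0, 0, ⟨0, 0⟩, 0⟩ 0 0) (.cut .l 10013901 (.void 19 ⟨0, 0, 0, 0, 0, 100000, 0, 0, 0, ⟨0, 0⟩, 0⟩ 0 0) (.cut .s 10682368 (.cut .v 17301504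 (.cut .s 10584064 (.cut .s 10534912 (.pos 21 .mp ⟨96795798, 0, 0, 0, 0, 4113264, 0, 0, 0, ⟨0, 0⟩, 0⟩ 0 0) (.pos 21 .mp ⟨102419940, 0, 0, 0, 0, 4289097, 0, 0, 0, ⟨0, 0⟩, 0⟩ 0 0)) (.cut .d (-1703936) (.void 21 ⟨0, 0, 0, 0, 0, 100000, 0, 0, 0, ⟨0, 0⟩, 0⟩ 0 0) (.pos 21 .mp ⟨104400171, 0, 0, 0, 0, 7038446, 0, 0, 0, ⟨0, 0⟩, 0⟩ 0 0))) (.pos 22 .mp ⟨119313594, 0, 0, 0, 0, 0, 0, 0, 0, ⟨0, 0⟩, 0⟩ 0 0)) (.cut .s 10780672 (.cut .d (-1703936) (.void 19 ⟨0, 0, 0, 0, 0, 100000, 0, 0, 0, ⟨0, 0⟩, 0⟩ 0 0) (.pos 19 .mp ⟨121695470, 0, 0, 0, 0, 4247691, 0, 0, 0, ⟨0, 0⟩, 0⟩ 0 0)) (.pos 19 .mp ⟨145425030, 0, 0, 0, 0, 0, 0, 0, 0, ⟨0, 0⟩, 0⟩ 0 0))))) (.pos 20 .mp ⟨157753049,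 0, 0, 0, 0, 0, 0, 0, 0, ⟨0, 0⟩, 0⟩ 0 0))) (.cut .s 10682368 (.cut .v 17825792 (.cut .s 10584064 (.cut .l 8842991 (.pos 19 .mp ⟨100178677, 0, 0, 0, 0, 0, 0, 0, 0, ⟨0, 0⟩, 0⟩ 0 0) (.pos 19 .mp ⟨94882444, 0, 0, 0, 0, 0, 0, 0, 0, ⟨0, 0⟩, 0⟩ 0 0)) (.cut .s 10633216 (.pos 19 .mp ⟨104576277, 0, 0, 0, 0, 0, 0, 0, 0, ⟨0, 0⟩, 0⟩ 0 0) (.cut .v 17301504 (.pos 21 .mp ⟨107889011, 0, 0, 0, 0, 0, 0, 0, 0, ⟨0, 0⟩, 0⟩ 0 0) (.pos 22 .mp ⟨113378979, 0, 0, 0, 0, 0, 0, 0, 0, ⟨0, 0⟩, 0⟩ 0 0)))) (.cut .s 10584064 (.pos 20 .mp ⟨108525853, 0, 0, 0, 0, 0, 0, 0, 0, ⟨0, 0⟩, 0⟩ 0 0) (.pos 20 .mp ⟨119397862, 0, 0, 0, 0, 0, 0, 0, 0, ⟨0, 0⟩, 0⟩ 0 0))) (.cut .v 17825792 (.cut .s 10780672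 (.cut .d (-1310720) (.cut .s 10731520 (.pos 19 .mp ⟨115968576, 0, 0, 0, 0, 0, 0, 0, 0, ⟨0, 0⟩, 0⟩ 0 0) (.pos 19 .mp ⟨121382624, 0, 0, 0, 0, 0, 0, 0, 0, ⟨0, 0⟩, 0⟩ 0 0)) (.pos 19 .mp ⟨112770947, 0, 0, 0, 0, 0, 0, 0, 0, ⟨0, 0⟩, 0⟩ 0 0)) (.cut .d (-1310720) (.cut .s 10829824 (.pos 19 .mp ⟨126970086, 0, 0, 0, 0, 0, 0, 0, 0, ⟨0, 0⟩, 0⟩ 0 0) (.pos 19 .mp ⟨132732561, 0, 0, 0, 0, 0, 0, 0, 0, ⟨0, 0⟩, 0⟩ 0 0)) (.pos 19 .mp ⟨123499768, 0, 0, 0, 0, 0, 0, 0, 0, ⟨0, 0⟩, 0⟩ 0 0))) (.cut .s 10780672 (.pos 20 .mp ⟨131011562, 0, 0, 0, 0, 0, 0, 0, 0, ⟨0, 0⟩, 0⟩ 0 0) (.pos 20 .mp ⟨143368557, 0, 0, 0, 0, 0, 0, 0, 0, ⟨0, 0⟩, 0⟩ 0 0))))) (.cut .d (-1572864) (.void 18 ⟨100000,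 0, 0, 0, 0, 0, 0, 0, 0, ⟨0, 0⟩, 0⟩ 0 0) (.cut .s 10682368 (.pos 18 .mp ⟨135360709, 0, 0, 0, 0, 0, 0, 0, 0, ⟨0, 0⟩, 0⟩ 0 0) (.pos 18 .mp ⟨163541950, 0, 0, 0, 0, 0, 0, 0, 0, ⟨0, 0⟩, 0⟩ 0 0))))) (.cut .v 18874368 (.cut .l 6501171 (.cut .d (-524288) (.cut .s 10682368 (.cut .v 17825792 (.cut .l 4159351 (.pos 19 .mp ⟨48743099, 0, 0, 0, 0, 77957536, 0, 0, 0, ⟨0, 0⟩, 0⟩ 0 0) (.cut .d (-786432) (.pos 19 .mp ⟨100253125, 0, 0, 0, 0, 0, 0, 0, 0, ⟨0, 0⟩, 0⟩ 0 0) (.pos 19 .mp ⟨83676026, 0, 0, 0, 0, 8193531, 0, 0, 0, ⟨0, 0⟩, 0⟩ 0 0))) (.pos 20 .mp ⟨112382802, 0, 0, 0, 0, 0, 0, 0, 0, ⟨0, 0⟩, 0⟩ 0 0)) (.cut .d (-786432) (.pos 17 .mp ⟨131128646, 0, 0, 0, 0, 0, 0, 0, 0,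 ⟨0, 0⟩, 0⟩ 0 0) (.cut .l 4159351 (.pos 17 .mp ⟨82450938, 0, 0, 0, 0, 72493428, 0, 0, 0, ⟨0, 0⟩, 0⟩ 0 0) (.pos 17 .mp ⟨110492942, 0, 0, 0, 0, 0, 0, 0, 0, ⟨0, 0⟩, 0⟩ 0 0)))) (.cut .l 4159351 (.cut .d (-262144) (.cut .v 17825792 (.cut .s 10682368 (.cut .v 17301504 (.cut .s 10584064 (.cut .s 10534912 (.pos 21 .mp ⟨45512637, 0, 0, 0, 0, 51402371, 0, 0, 0, ⟨0, 0⟩, 0⟩ 0 0) (.pos 21 .mp ⟨48755538, 0, 0, 0, 0, 52513556, 0, 0, 0, ⟨0, 0⟩, 0⟩ 0 0)) (.cut .s 10633216 (.pos 21 .mp ⟨51573993, 0, 0, 0, 0, 54390470, 0, 0, 0, ⟨0, 0⟩, 0⟩ 0 0) (.pos 21 .mp ⟨54494721, 0, 0, 0, 0, 56299178, 0, 0, 0, ⟨0, 0⟩, 0⟩ 0 0))) (.pos 22 .mp ⟨97392623, 0, 0, 0, 0, 0, 0, 0, 0, ⟨0, 0⟩,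 0⟩ 0 0)) (.cut .v 17301504 (.cut .s 10780672 (.cut .s 10731520 (.pos 21 .mp ⟨57519909, 0, 0, 0, 0, 58240322, 0, 0, 0, ⟨0, 0⟩, 0⟩ 0 0) (.pos 21 .mp ⟨60651820, 0, 0, 0, 0, 60214559, 0, 0, 0, ⟨0, 0⟩, 0⟩ 0 0)) (.cut .s 10829824 (.pos 21 .mp ⟨63592807, 0, 0, 0, 0, 62651635, 0, 0, 0, ⟨0, 0⟩, 0⟩ 0 0) (.pos 21 .mp ⟨66297007, 0, 0, 0, 0, 65626065, 0, 0, 0, ⟨0, 0⟩, 0⟩ 0 0))) (.pos 22 .mp ⟨116157376, 0, 0, 0, 0, 0, 0, 0, 0, ⟨0, 0⟩, 0⟩ 0 0))) (.pos 20 .mp ⟨115567190, 0, 0, 0, 0, 0, 0, 0, 0, ⟨0, 0⟩, 0⟩ 0 0)) (.cut .d (-131072) (.cut .v 17825792 (.cut .l 2988441 (.cut .l 2402986 (.cut .v 17301504 (.cut .s 10682368 (.cut .d (-196608) (.cut .v 17039360 (.pos 69 .mp ⟨0,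 0, 0, 0, 0, 108646137, 0, 0, 0, ⟨0, 0⟩, 0⟩ 0 0) (.cut .s 10584064 (.cut .s 10534912 (.pos 70 .mp ⟨39887371, 0, 0, 0, 0, 55382757, 0, 0, 0, ⟨0, 0⟩, 0⟩ 0 0) (.pos 70 .mp ⟨42548603, 0, 0, 0, 0, 57174451, 0, 0, 0, ⟨0, 0⟩, 0⟩ 0 0)) (.pos 70 .mp ⟨47317130, 0, 0, 0, 0, 61046681, 0, 0, 0, ⟨0, 0⟩, 0⟩ 0 0))) (.pos 21 .mp ⟨46673389, 0, 0, 0, 0, 0, 0, 0, 0, ⟨0, 0⟩, 0⟩ 0 0)) (.cut .v 17039360 (.cut .s 10780672 (.pos 69 .mp ⟨0, 0, 0, 0, 0, 122623365, 0, 0, 0, ⟨0, 0⟩, 0⟩ 0 0) (.pos 69 .mp ⟨0, 0, 0, 0, 0, 135109864, 0, 0, 0, ⟨0, 0⟩, 0⟩ 0 0)) (.cut .l 2110258 (.cut .d (-196608) (.cut .s 10780672 (.pos 70 .mp ⟨54128780, 0, 0, 0, 0, 63965167, 0, 0, 0, ⟨0, 0⟩, 0⟩ 0 0) (.pos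 70 .mp ⟨61338400, 0, 0, 0, 0, 67051968, 0, 0, 0, ⟨0, 0⟩, 0⟩ 0 0)) (.cut .s 10780672 (.pos 70 .mp ⟨56123509, 0, 0, 0, 0, 39929126, 0, 0, 0, ⟨0, 0⟩, 0⟩ 0 0) (.pos 70 .mp ⟨62306548, 0, 0, 0, 0, 48980558, 0, 0, 0, ⟨0, 0⟩, 0⟩ 0 0))) (.pos 70 .mp ⟨66281943, 0, 0, 0, 0, 37247118, 0, 0, 0, ⟨0, 0⟩, 0⟩ 0 0)))) (.cut .s 10682368 (.pos 22 .mp ⟨88936447, 0, 0, 0, 0, 0, 0, 0, 0, ⟨0, 0⟩, 0⟩ 0 0) (.pos 22 .mp ⟨106852042, 0, 0, 0, 0, 0, 0, 0, 0, ⟨0, 0⟩, 0⟩ 0 0))) (.pos 19 .mp ⟨58437460, 0, 0, 0, 0, 0, 0, 0, 0, ⟨0, 0⟩, 0⟩ 0 0)) (.pos 19 .mp ⟨38434755, 0, 0, 0, 0, 0, 0, 0, 0, ⟨0, 0⟩, 0⟩ 0 0)) (.pos 20 .mp ⟨102727275, 0, 0, 0, 0, 0, 0, 0, 0, ⟨0, 0⟩, 0⟩ 0 0)) (.pos 17 .mp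 ⟨54321966, 0, 0, 0, 0, 0, 0, 0, 0, ⟨0, 0⟩, 0⟩ 0 0))) (.pos 17 .mp ⟨77273556, 0, 0, 0, 0, 0, 0, 0, 0, ⟨0, 0⟩, 0⟩ 0 0))) (.cut .d (-524288) (.cut .s 10682368 (.pos 17 .mp ⟨89895576, 0, 0, 0, 0, 0, 0, 0, 0, ⟨0, 0⟩, 0⟩ 0 0) (.cut .s 10780672 (.pos 17 .mp ⟨104988078, 0, 0, 0, 0, 0, 0, 0, 0, ⟨0, 0⟩, 0⟩ 0 0) (.pos 17 .mp ⟨115817321, 0, 0, 0, 0, 0, 0, 0, 0, ⟨0, 0⟩, 0⟩ 0 0))) (.pos 17 .mp ⟨0, 0, 0, 0, 0, 0, 0, 0, 0, ⟨0, 0⟩, 0⟩ 0 0))) (.cut .s 10682368 (.cut .l 6501171 (.cut .d (-524288) (.pos 18 .mp ⟨130564240, 0, 0, 0, 0, 0, 0, 0, 0, ⟨0, 0⟩, 0⟩ 0 0) (.pos 18 .mp ⟨109992261, 0, 0, 0, 0, 0, 0, 0, 0, ⟨0, 0⟩, 0⟩ 0 0)) (.pos 18 .mp ⟨109971845, 0, 0, 0, 0, 0, 0, 0,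 0, ⟨0, 0⟩, 0⟩ 0 0)) (.cut .d (-524288) (.cut .l 6501171 (.pos 18 .mp ⟨156214514, 0, 0, 0, 0, 0, 0, 0, 0, ⟨0, 0⟩, 0⟩ 0 0) (.pos 18 .mp ⟨137754374, 0, 0, 0, 0, 0, 0, 0, 0, ⟨0, 0⟩, 0⟩ 0 0)) (.pos 18 .mp ⟨128597177, 0, 0, 0, 0, 0, 0, 0, 0, ⟨0, 0⟩, 0⟩ 0 0))))) (.cut .d (-1048576) (.pos 16 .mp ⟨255262275, 0, 0, 0, 0, 0, 0, 0, 0, ⟨0, 0⟩, 0⟩ 0 0) (.cut .v 23068672 (.cut .s 10682368 (.pos 27 .mp ⟨141255220, 0, 0, 0, 0, 0, 0, 0, 0, ⟨0, 0⟩, 0⟩ 0 0) (.pos 27 .mp ⟨167757067, 0, 0, 0, 0, 0, 0, 0, 0, ⟨0, 0⟩, 0⟩ 0 0)) (.cut .s 10682368 (.pos 28 .mp ⟨167727572, 0, 0, 0, 0, 0, 0, 0, 0, ⟨0, 0⟩, 0⟩ 0 0) (.pos 28 .mp ⟨198516069, 0, 0, 0, 0, 0, 0, 0, 0, ⟨0, 0⟩, 0⟩ 0 0)))))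 (.cut .d (-1048576) (.void 14 ⟨100000, 0, 0, 0, 0, 0, 0, 0, 0, ⟨0, 0⟩, 0⟩ 0 0) (.cut .v 29360128 (.cut .d (-524288) (.pos 29 .mp ⟨280565245, 0, 0, 0, 0, 0, 0, 0, 0, ⟨0, 0⟩, 0⟩ 0 0) (.pos 29 .mp ⟨218461470, 0, 0, 0, 0, 0, 0, 0, 0, ⟨0, 0⟩, 0⟩ 0 0)) (.pos 30 .mp ⟨367966107, 0, 0, 0, 0, 0, 0, 0, 0, ⟨0, 0⟩, 0⟩ 0 0))))))) (.void 12 ⟨100000, 0, 0, 0, 0, 0, 0, 0, 0, ⟨0, 0⟩, 0⟩ 0 0)) (.void 57 ⟨100000, 0, 0, 0, 0, 0, 0, 0, 0, ⟨0, 0⟩, 0⟩ 0 0)) (.void 66 ⟨95249, 0, 0, 4751, 0, 0, 0, 0, 0, ⟨0, 0⟩, 0⟩ 0 0))) (.cut .v 16777216 (.cut .v 8388608 (.cut .v 4194304 (.cut .v 2097152 (.void 75 ⟨0, 0, 50000, 0, 50000, 0, 0, 0, 0, ⟨0, 0⟩, 0⟩ 0 0) (.pos 76 .pm ⟨0, 1523784, 0,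 0, 0, 0, 0, 0, 8696561, ⟨0, 0⟩, 7053950⟩ 0 0)) (.cut .d 5033166 (.pos 5 .pm ⟨0, 0, 0, 0, 0, 0, 0, 0, 0, ⟨0, 0⟩, 0⟩ 0 0) (.cut .d 7549749 (.pos 5 .pm ⟨0, 0, 0, 0, 0, 0, 0, 0, 0, ⟨0, 0⟩, 0⟩ 0 0) (.cut .d 8808040 (.pos 5 .pm ⟨0, 33248754, 0, 0, 0, 0, 0, 0, 0, ⟨0, 0⟩, 0⟩ 0 0) (.pos 5 .pm ⟨0, 52405992, 0, 0, 0, 0, 0, 0, 0, ⟨0, 0⟩, 0⟩ 0 0))))) (.cut .d 5033166 (.pos 3 .pm ⟨0, 0, 0, 0, 0, 0, 0, 0, 0, ⟨0, 0⟩, 0⟩ 0 0) (.cut .d 7549749 (.pos 3 .pm ⟨0, 0, 0, 0, 0, 0, 0, 0, 0, ⟨0, 0⟩, 0⟩ 0 0) (.pos 3 .pm ⟨0, 42379851, 0, 0, 0, 0, 0, 0, 0, ⟨0, 0⟩, 0⟩ 0 0)))) (.cut .v 268435456 (.cut .d 5033166 (.cut .v 67108864 (.cut .d 2516583 (.cut .v 33554432 (.cut .d 1258291 (.cut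 .d 629145 (.cut .v 25165824 (.cut .v 20971520 (.pos 15 .pp ⟨48331108, 0, 0, 0, 0, 0, 0, 0, 0, ⟨0, 0⟩, 0⟩ 0 0) (.pos 16 .pp ⟨120568037, 0, 0, 0, 0, 0, 0, 0, 0, ⟨0, 0⟩, 0⟩ 0 0)) (.pos 14 .pp ⟨201875240, 0, 0, 0, 0, 0, 0, 0, 0, ⟨0, 0⟩, 0⟩ 0 0)) (.pos 11 .pp ⟨32723889, 0, 0, 0, 0, 0, 0, 0, 0, ⟨0, 0⟩, 0⟩ 0 0)) (.pos 11 .pp ⟨0, 0, 0, 0, 0, 0, 0, 0, 0, ⟨0, 0⟩, 0⟩ 0 0)) (.cut .v 50331648 (.cut .d 1258291 (.cut .v 41943040 (.pos 33 .pp ⟨353551050, 0, 0, 0, 0, 0, 0, 0, 0, ⟨0, 0⟩, 0⟩ 0 0) (.pos 34 .pp ⟨636903541, 0, 0, 0, 0, 0, 0, 0, 0, ⟨0, 0⟩, 0⟩ 0 0)) (.pos 31 .pp ⟨203460714, 0, 0, 0, 0, 0, 0, 0, 0, ⟨0, 0⟩, 0⟩ 0 0)) (.cut .d 1258291 (.pos 32 .pp ⟨1237486239, 0,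 0, 0, 0, 0, 0, 0, 0, ⟨0, 0⟩, 0⟩ 0 0) (.pos 32 .pp ⟨597264411, 0, 0, 0, 0, 0, 0, 0, 0, ⟨0, 0⟩, 0⟩ 0 0)))) (.pos 10 .pp ⟨0, 0, 0, 0, 0, 0, 0, 0, 0, ⟨0, 0⟩, 0⟩ 0 0)) (.cut .v 134217728 (.cut .v 100663296 (.cut .d 2516583 (.cut .d 1258291 (.void 71 ⟨100000, 0, 0, 0, 0, 0, 0, 0, 0, ⟨0, 0⟩, 0⟩ 0 0) (.pos 71 .pp ⟨1451720785, 347822177, 0, 0, 0, 0, 0, 0, 0, ⟨0, 0⟩, 0⟩ 0 0)) (.pos 71 .pp ⟨461575955, 0, 0, 0, 0, 0, 0, 0, 0, ⟨0, 0⟩, 0⟩ 0 0)) (.void 72 ⟨40138, 59862, 0, 0, 0, 0, 0, 0, 0, ⟨0, 0⟩, 0⟩ 0 0)) (.void 68 ⟨0, 100000, 0, 0, 0, 0, 0, 0, 0, ⟨0, 0⟩, 0⟩ 0 0))) (.pos 56 .pp ⟨0, 7494471, 0, 0, 0, 0, 0, 0, 0, ⟨0, 0⟩, 0⟩ 0 0)) (.void 66 ⟨0, 0, 0, 100000, 0, 0, 0,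 0, 0, ⟨0, 0⟩, 0⟩ 0 0)))),
    by decide +kernel⟩

def covers15 : cell.Covers table row15.1 :=
  ⟨(.cut .d 0 (.cut .v 16777216 (.cut .d (-8388608) (.void 1 ⟨0, 0, 0, 0, 0, 100000, 0, 0, 0, ⟨0, 0⟩, 0⟩ 0 0) (.cut .d (-4194304) (.void 1 ⟨0, 0, 0, 0, 0, 100000, 0, 0, 0, ⟨0, 0⟩, 0⟩ 0 0) (.cut .d (-2097152) (.void 1 ⟨0, 0, 0, 0, 0, 100000, 0, 0, 0, ⟨0, 0⟩, 0⟩ 0 0) (.cut .v 8388608 (.cut .v 4194304 (.void 4 ⟨0, 0, 100000, 0, 0, 0, 0, 0, 0, ⟨0, 0⟩, 0⟩ 0 0) (.pos 5 .mm ⟨0, 0, 3073966, 0, 0, 69644285, 0, 0, 0, ⟨0, 0⟩, 0⟩ 0 0)) (.cut .d (-1048576) (.cut .d (-1572864) (.void 3 ⟨0, 0, 0, 0, 0, 100000, 0, 0, 0, ⟨0, 0⟩, 0⟩ 0 0) (.cut .l 6501171 (.void 3 ⟨0, 0, 0, 0,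 0, 100000, 0, 0, 0, ⟨0, 0⟩, 0⟩ 0 0) (.cut .v 12582912 (.pos 6 .mm ⟨0, 0, 0, 0, 0, 131069154, 0, 0, 0, ⟨0, 0⟩, 0⟩ 0 0) (.cut .v 14680064 (.pos 8 .mm ⟨0, 0, 0, 0, 0, 167324469, 0, 0, 0, ⟨0, 0⟩, 0⟩ 0 0) (.cut .s 11108352 (.cut .v 15728640 (.pos 49 .mm ⟨0, 0, 0, 0, 0, 161264804, 0, 0, 0, ⟨0, 0⟩, 0⟩ 0 0) (.cut .v 16252928 (.pos 53 .mm ⟨0, 0, 0, 0, 0, 169634244, 0, 0, 0, ⟨0, 0⟩, 0⟩ 0 0) (.cut .s 10993664 (.cut .s 10936320 (.pos 54 .mm ⟨0, 0, 0, 0, 0, 162149030, 0, 0, 0, ⟨0, 0⟩, 0⟩ 0 0) (.pos 54 .mm ⟨61632365, 0, 0, 0, 0, 97881707, 0, 0, 0, ⟨0, 0⟩, 0⟩ 0 0)) (.cut .d (-1310720) (.cut .d (-1441792) (.pos 54 .mm ⟨106106074, 0, 0, 0, 0, 73326239, 0, 0, 0, ⟨0, 0⟩,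 0⟩ 0 0) (.pos 54 .mm ⟨92553680, 0, 0, 0, 0, 72034818, 0, 0, 0, ⟨0, 0⟩, 0⟩ 0 0)) (.pos 54 .mm ⟨65907665, 0, 0, 0, 0, 99686701, 0, 0, 0, ⟨0, 0⟩, 0⟩ 0 0))))) (.cut .v 15728640 (.pos 49 .mm ⟨0, 0, 0, 0, 0, 203467518, 0, 0, 0, ⟨0, 0⟩, 0⟩ 0 0) (.cut .v 16252928 (.pos 53 .mm ⟨0, 0, 0, 0, 0, 213693565, 0, 0, 0, ⟨0, 0⟩, 0⟩ 0 0) (.cut .l 8842991 (.pos 54 .mm ⟨97478726, 0, 0, 0, 0, 122321644, 0, 0, 0, ⟨0, 0⟩, 0⟩ 0 0) (.cut .d (-1310720) (.cut .d (-1441792) (.pos 54 .mm ⟨120512632, 0, 0, 0, 0, 109801483, 0, 0, 0, ⟨0, 0⟩, 0⟩ 0 0) (.cut .v 16515072 (.pos 58 .mm ⟨0, 0, 0, 0, 0, 224674788, 0, 0, 0, ⟨0, 0⟩, 0⟩ 0 0) (.cut .s 11223040 (.pos 59 .mm ⟨138954014, 0, 0, 0, 0,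 33821669, 0, 0, 0, ⟨0, 0⟩, 0⟩ 0 0) (.cut .d (-1376256) (.pos 59 .mm ⟨131533226, 0, 0, 0, 0, 88866111, 0, 0, 0, ⟨0, 0⟩, 0⟩ 0 0) (.pos 59 .mm ⟨147466590, 0, 0, 0, 0, 42745840, 0, 0, 0, ⟨0, 0⟩, 0⟩ 0 0))))) (.cut .s 11223040 (.pos 54 .mm ⟨75309386, 0, 0, 0, 0, 106733882, 0, 0, 0, ⟨0, 0⟩, 0⟩ 0 0) (.pos 54 .mm ⟨85896273, 0, 0, 0, 0, 116193094, 0, 0, 0, ⟨0, 0⟩, 0⟩ 0 0))))))))))) (.cut .v 12582912 (.pos 6 .mm ⟨0, 0, 0, 0, 0, 102192931, 0, 0, 0, ⟨0, 0⟩, 0⟩ 0 0) (.cut .d (-524288) (.cut .v 14680064 (.pos 8 .mm ⟨0, 0, 0, 0, 0, 152181511, 0, 0, 0, ⟨0, 0⟩, 0⟩ 0 0) (.cut .s 11108352 (.cut .v 15728640 (.pos 49 .mm ⟨0, 0, 0, 0, 0, 151987193, 0, 0, 0, ⟨0, 0⟩, 0⟩ 0 0)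 (.cut .l 6501171 (.cut .s 10993664 (.pos 50 .mm ⟨0, 0, 0, 0, 0, 161524251, 0, 0, 0, ⟨0, 0⟩, 0⟩ 0 0) (.pos 50 .mm ⟨0, 0, 0, 0, 0, 180117368, 0, 0, 0, ⟨0, 0⟩, 0⟩ 0 0)) (.cut .s 10993664 (.pos 50 .mm ⟨0, 0, 0, 0, 0, 152488238, 0, 0, 0, ⟨0, 0⟩, 0⟩ 0 0) (.pos 50 .mm ⟨11999804, 0, 0, 0, 0, 155742431, 0, 0, 0, ⟨0, 0⟩, 0⟩ 0 0)))) (.cut .v 15728640 (.pos 49 .mm ⟨0, 0, 0, 0, 0, 188499218, 0, 0, 0, ⟨0, 0⟩, 0⟩ 0 0) (.cut .s 11223040 (.cut .s 11165696 (.pos 50 .mm ⟨0, 0, 0, 0, 0, 189631954, 0, 0, 0, ⟨0, 0⟩, 0⟩ 0 0) (.pos 50 .mm ⟨0, 0, 0, 0, 0, 199654721, 0, 0, 0, ⟨0, 0⟩, 0⟩ 0 0)) (.cut .s 11280384 (.pos 50 .mm ⟨17887581, 0, 0, 0, 0, 187891905, 0, 0, 0, ⟨0, 0⟩, 0⟩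 0 0) (.pos 50 .mm ⟨19625273, 0, 0, 0, 0, 196469062, 0, 0, 0, ⟨0, 0⟩, 0⟩ 0 0)))))) (.cut .l 6501171 (.cut .l 4159351 (.cut .v 14680064 (.pos 8 .mm ⟨0, 0, 0, 0, 0, 133084283, 0, 0, 0, ⟨0, 0⟩, 0⟩ 0 0) (.cut .v 15728640 (.pos 49 .mm ⟨0, 0, 0, 0, 0, 151761077, 0, 0, 0, ⟨0, 0⟩, 0⟩ 0 0) (.cut .s 11108352 (.cut .s 10993664 (.pos 50 .mm ⟨0, 0, 0, 0, 0, 148114451, 0, 0, 0, ⟨0, 0⟩, 0⟩ 0 0) (.pos 50 .mm ⟨0, 0, 0, 0, 0, 165097249, 0, 0, 0, ⟨0, 0⟩, 0⟩ 0 0)) (.cut .s 11223040 (.pos 50 .mm ⟨0, 0, 0, 0, 0, 183701223, 0, 0, 0, ⟨0, 0⟩, 0⟩ 0 0) (.pos 50 .mm ⟨0, 0, 0, 0, 0, 203700007, 0, 0, 0, ⟨0, 0⟩, 0⟩ 0 0))))) (.pos 7 .mm ⟨0, 0, 0, 0, 0, 141635488, 0, 0, 0, ⟨0, 0⟩, 0⟩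 0 0)) (.pos 7 .mm ⟨0, 0, 0, 0, 0, 0, 0, 0, 0, ⟨0, 0⟩, 0⟩ 0 0))))))))) (.cut .v 268435456 (.cut .v 67108864 (.cut .v 33554432 (.cut .d (-8388608) (.void 11 ⟨0, 0, 0, 0, 0, 100000, 0, 0, 0, ⟨0, 0⟩, 0⟩ 0 0) (.cut .d (-4194304) (.void 11 ⟨100000, 0, 0, 0, 0, 0, 0, 0, 0, ⟨0, 0⟩, 0⟩ 0 0) (.cut .d (-2097152) (.void 11 ⟨100000, 0, 0, 0, 0, 0, 0, 0, 0, ⟨0, 0⟩, 0⟩ 0 0) (.cut .v 25165824 (.cut .d (-1048576) (.cut .v 20971520 (.cut .d (-1572864) (.void 15 ⟨0, 0, 0, 0, 0, 100000, 0, 0, 0, ⟨0, 0⟩, 0⟩ 0 0) (.cut .l 6501171 (.void 15 ⟨100000, 0, 0, 0, 0, 0, 0, 0, 0, ⟨0, 0⟩, 0⟩ 0 0) (.cut .v 18874368 (.cut .s 11108352 (.cut .v 17825792 (.cut .s 10993664 (.cut .v 17301504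 (.cut .s 10936320 (.pos 21 .mp ⟨135300683, 0, 0, 0, 0, 0, 0, 0, 0, ⟨0, 0⟩, 0⟩ 0 0) (.pos 21 .mp ⟨142608706, 0, 0, 0, 0, 0, 0, 0, 0, ⟨0, 0⟩, 0⟩ 0 0)) (.pos 22 .mp ⟨147010100, 0, 0, 0, 0, 0, 0, 0, 0, ⟨0, 0⟩, 0⟩ 0 0)) (.cut .v 17301504 (.cut .d (-1310720) (.cut .d (-1441792) (.pos 21 .mp ⟨165181139, 0, 0, 0, 0, 0, 0, 0, 0, ⟨0, 0⟩, 0⟩ 0 0) (.pos 21 .mp ⟨154242213, 0, 0, 0, 0, 0, 0, 0, 0, ⟨0, 0⟩, 0⟩ 0 0)) (.pos 21 .mp ⟨149060544, 0, 0, 0, 0, 0, 0, 0, 0, ⟨0, 0⟩, 0⟩ 0 0)) (.pos 22 .mp ⟨163254594, 0, 0, 0, 0, 0, 0, 0, 0, ⟨0, 0⟩, 0⟩ 0 0))) (.cut .s 10993664 (.pos 20 .mp ⟨158059195, 0, 0, 0, 0, 0, 0, 0, 0, ⟨0, 0⟩, 0⟩ 0 0) (.pos 20 .mp ⟨176118940, 0, 0, 0, 0, 0,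 0, 0, 0, ⟨0, 0⟩, 0⟩ 0 0))) (.cut .l 8842991 (.pos 17 .mp ⟨211550774, 0, 0, 0, 0, 0, 0, 0, 0, ⟨0, 0⟩, 0⟩ 0 0) (.cut .v 17825792 (.cut .d (-1310720) (.cut .s 11223040 (.cut .d (-1441792) (.pos 19 .mp ⟨188385561, 0, 0, 0, 0, 0, 0, 0, 0, ⟨0, 0⟩, 0⟩ 0 0) (.pos 19 .mp ⟨172569260, 0, 0, 0, 0, 0, 0, 0, 0, ⟨0, 0⟩, 0⟩ 0 0)) (.pos 19 .mp ⟨201287403, 0, 0, 0, 0, 0, 0, 0, 0, ⟨0, 0⟩, 0⟩ 0 0)) (.cut .s 11223040 (.pos 19 .mp ⟨162816512, 0, 0, 0, 0, 0, 0, 0, 0, ⟨0, 0⟩, 0⟩ 0 0) (.pos 19 .mp ⟨180811411, 0, 0, 0, 0, 0, 0, 0, 0, ⟨0, 0⟩, 0⟩ 0 0))) (.cut .d (-1310720) (.void 20 ⟨100000, 0, 0, 0, 0, 0, 0, 0, 0, ⟨0, 0⟩, 0⟩ 0 0) (.pos 20 .mp ⟨195819847, 0, 0, 0, 0, 0, 0, 0, 0,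 ⟨0, 0⟩, 0⟩ 0 0))))) (.cut .s 11108352 (.pos 18 .mp ⟨201835893, 0, 0, 0, 0, 0, 0, 0, 0, ⟨0, 0⟩, 0⟩ 0 0) (.pos 18 .mp ⟨252200538, 0, 0, 0, 0, 0, 0, 0, 0, ⟨0, 0⟩, 0⟩ 0 0))))) (.void 16 ⟨100000, 0, 0, 0, 0, 0, 0, 0, 0, ⟨0, 0⟩, 0⟩ 0 0)) (.cut .v 20971520 (.cut .d (-524288) (.cut .l 6501171 (.cut .v 18874368 (.cut .l 4159351 (.pos 17 .mp ⟨109958838, 0, 0, 0, 0, 141477490, 0, 0, 0, ⟨0, 0⟩, 0⟩ 0 0) (.cut .d (-786432) (.cut .s 11108352 (.pos 17 .mp ⟨155843650, 0, 0, 0, 0, 0, 0, 0, 0, ⟨0, 0⟩, 0⟩ 0 0) (.pos 17 .mp ⟨192608165, 0, 0, 0, 0, 0, 0, 0, 0, ⟨0, 0⟩, 0⟩ 0 0)) (.cut .v 17825792 (.cut .s 11108352 (.pos 19 .mp ⟨130814366, 0, 0, 0, 0, 1642653, 0, 0, 0, ⟨0, 0⟩,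 0⟩ 0 0) (.pos 19 .mp ⟨162649652, 0, 0, 0, 0, 0, 0, 0, 0, ⟨0, 0⟩, 0⟩ 0 0)) (.pos 20 .mp ⟨172672291, 0, 0, 0, 0, 0, 0, 0, 0, ⟨0, 0⟩, 0⟩ 0 0)))) (.pos 18 .mp ⟨225438005, 0, 0, 0, 0, 0, 0, 0, 0, ⟨0, 0⟩, 0⟩ 0 0)) (.cut .v 18874368 (.cut .d (-786432) (.cut .s 11108352 (.cut .s 10993664 (.pos 17 .mp ⟨129224209, 0, 0, 0, 0, 0, 0, 0, 0, ⟨0, 0⟩, 0⟩ 0 0) (.pos 17 .mp ⟨143762565, 0, 0, 0, 0, 0, 0, 0, 0, ⟨0, 0⟩, 0⟩ 0 0)) (.cut .s 11223040 (.pos 17 .mp ⟨159458881, 0, 0, 0, 0, 0, 0, 0, 0, ⟨0, 0⟩, 0⟩ 0 0) (.pos 17 .mp ⟨176341798, 0, 0, 0, 0, 0, 0, 0, 0, ⟨0, 0⟩, 0⟩ 0 0))) (.pos 17 .mp ⟨127829168, 0, 0, 0, 0, 0, 0, 0, 0, ⟨0, 0⟩, 0⟩ 0 0)) (.cut .s 11108352 (.pos 18 .mp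 ⟨166802385, 0, 0, 0, 0, 0, 0, 0, 0, ⟨0, 0⟩, 0⟩ 0 0) (.pos 18 .mp ⟨204523870, 0, 0, 0, 0, 0, 0, 0, 0, ⟨0, 0⟩, 0⟩ 0 0)))) (.cut .l 6501171 (.cut .v 18874368 (.cut .s 11108352 (.cut .v 17825792 (.cut .l 4159351 (.cut .d (-262144) (.cut .v 17301504 (.cut .s 10993664 (.cut .s 10936320 (.pos 21 .mp ⟨63476606, 0, 0, 0, 0, 77047253, 0, 0, 0, ⟨0, 0⟩, 0⟩ 0 0) (.pos 21 .mp ⟨68076556, 0, 0, 0, 0, 79403190, 0, 0, 0, ⟨0, 0⟩, 0⟩ 0 0)) (.cut .s 11051008 (.pos 21 .mp ⟨72237067, 0, 0, 0, 0, 82717217, 0, 0, 0, ⟨0, 0⟩, 0⟩ 0 0) (.pos 21 .mp ⟨76066495, 0, 0, 0, 0, 86850977, 0, 0, 0, ⟨0, 0⟩, 0⟩ 0 0))) (.pos 22 .mp ⟨139819875, 0, 0, 0, 0, 0, 0, 0, 0, ⟨0, 0⟩, 0⟩ 0 0)) (.cut .d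 (-131072) (.cut .v 17301504 (.cut .l 2988441 (.cut .l 2402986 (.cut .s 10993664 (.cut .v 17039360 (.pos 69 .mp ⟨0, 0, 0, 0, 0, 150110395, 0, 0, 0, ⟨0, 0⟩, 0⟩ 0 0) (.cut .d (-196608) (.pos 70 .mp ⟨73639722, 0, 0, 0, 0, 64840580, 0, 0, 0, ⟨0, 0⟩, 0⟩ 0 0) (.cut .s 10936320 (.pos 70 .mp ⟨66118477, 0, 0, 0, 0, 55964348, 0, 0, 0, ⟨0, 0⟩, 0⟩ 0 0) (.pos 70 .mp ⟨70067587, 0, 0, 0, 0, 58569791, 0, 0, 0, ⟨0, 0⟩, 0⟩ 0 0)))) (.cut .v 17039360 (.pos 69 .mp ⟨0, 0, 0, 0, 0, 167811203, 0, 0, 0, ⟨0, 0⟩, 0⟩ 0 0) (.cut .d (-196608) (.pos 70 .mp ⟨80148810, 0, 0, 0, 0, 74541169, 0, 0, 0, ⟨0, 0⟩, 0⟩ 0 0) (.cut .d (-163840) (.cut .s 11051008 (.pos 70 .mp ⟨74169208, 0, 0, 0,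 0, 63235516, 0, 0, 0, ⟨0, 0⟩, 0⟩ 0 0) (.pos 70 .mp ⟨78427510, 0, 0, 0, 0, 66586134, 0, 0, 0, ⟨0, 0⟩, 0⟩ 0 0)) (.pos 70 .mp ⟨74339841, 0, 0, 0, 0, 0, 0, 0, 0, ⟨0, 0⟩, 0⟩ 0 0))))) (.pos 21 .mp ⟨78277451, 0, 0, 0, 0, 0, 0, 0, 0, ⟨0, 0⟩, 0⟩ 0 0)) (.pos 21 .mp ⟨0, 0, 0, 0, 0, 0, 0, 0, 0, ⟨0, 0⟩, 0⟩ 0 0)) (.pos 22 .mp ⟨130127968, 0, 0, 0, 0, 0, 0, 0, 0, ⟨0, 0⟩, 0⟩ 0 0)) (.pos 19 .mp ⟨63174128, 0, 0, 0, 0, 0, 0, 0, 0, ⟨0, 0⟩, 0⟩ 0 0))) (.pos 19 .mp ⟨96968111, 0, 0, 0, 0, 12802827, 0, 0, 0, ⟨0, 0⟩, 0⟩ 0 0)) (.pos 20 .mp ⟨138775420, 0, 0, 0, 0, 0, 0, 0, 0, ⟨0, 0⟩, 0⟩ 0 0)) (.cut .l 4159351 (.cut .v 17825792 (.cut .d (-262144) (.cut .v 17301504 (.cut .d (-393216)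 (.pos 21 .mp ⟨76046990, 0, 0, 0, 0, 127404835, 0, 0, 0, ⟨0, 0⟩, 0⟩ 0 0) (.cut .s 11223040 (.cut .s 11165696 (.pos 21 .mp ⟨89274797, 0, 0, 0, 0, 77607848, 0, 0, 0, ⟨0, 0⟩, 0⟩ 0 0) (.pos 21 .mp ⟨94217319, 0, 0, 0, 0, 80769506, 0, 0, 0, ⟨0, 0⟩, 0⟩ 0 0)) (.pos 21 .mp ⟨114870383, 0, 0, 0, 0, 67009287, 0, 0, 0, ⟨0, 0⟩, 0⟩ 0 0))) (.pos 22 .mp ⟨169544539, 0, 0, 0, 0, 0, 0, 0, 0, ⟨0, 0⟩, 0⟩ 0 0)) (.cut .d (-131072) (.cut .v 17301504 (.cut .l 2988441 (.cut .l 2402986 (.cut .s 11223040 (.cut .v 17039360 (.pos 69 .mp ⟨0, 0, 0, 0, 0, 187064083, 0, 0, 0, ⟨0, 0⟩, 0⟩ 0 0) (.cut .d (-196608) (.pos 70 .mp ⟨87563171, 0, 0, 0, 0, 84328088, 0, 0, 0, ⟨0, 0⟩, 0⟩ 0 0) (.cut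 .d (-163840) (.cut .d (-180224) (.pos 70 .mp ⟨85080560, 0, 0, 0, 0, 84331962, 0, 0, 0, ⟨0, 0⟩, 0⟩ 0 0) (.cut .s 11165696 (.pos 70 .mp ⟨80684508, 0, 0, 0, 0, 69278029, 0, 0, 0, ⟨0, 0⟩, 0⟩ 0 0) (.pos 70 .mp ⟨85146269, 0, 0, 0, 0, 73348573, 0, 0, 0, ⟨0, 0⟩, 0⟩ 0 0))) (.pos 70 .mp ⟨82864668, 0, 0, 0, 0, 0, 0, 0, 0, ⟨0, 0⟩, 0⟩ 0 0)))) (.cut .d (-196608) (.pos 21 .mp ⟨86406453, 0, 0, 0, 0, 106065607, 0, 0, 0, ⟨0, 0⟩, 0⟩ 0 0) (.cut .d (-163840) (.cut .v 17039360 (.pos 69 .mp ⟨0, 0, 0, 0, 0, 207317628, 0, 0, 0, ⟨0, 0⟩, 0⟩ 0 0) (.cut .s 11280384 (.pos 70 .mp ⟨84132961, 0, 0, 0, 0, 96643461, 0, 0, 0, ⟨0, 0⟩, 0⟩ 0 0) (.pos 70 .mp ⟨89096608, 0, 0, 0, 0, 100154307,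 0, 0, 0, ⟨0, 0⟩, 0⟩ 0 0))) (.pos 21 .mp ⟨89174528, 0, 0, 0, 0, 0, 0, 0, 0, ⟨0, 0⟩, 0⟩ 0 0)))) (.pos 21 .mp ⟨96894686, 0, 0, 0, 0, 42530206, 0, 0, 0, ⟨0, 0⟩, 0⟩ 0 0)) (.pos 21 .mp ⟨0, 0, 0, 0, 0, 0, 0, 0, 0, ⟨0, 0⟩, 0⟩ 0 0)) (.pos 22 .mp ⟨158012491, 0, 0, 0, 0, 0, 0, 0, 0, ⟨0, 0⟩, 0⟩ 0 0)) (.pos 19 .mp ⟨80774265, 0, 0, 0, 0, 0, 0, 0, 0, ⟨0, 0⟩, 0⟩ 0 0))) (.pos 20 .mp ⟨169453025, 0, 0, 0, 0, 0, 0, 0, 0, ⟨0, 0⟩, 0⟩ 0 0)) (.pos 17 .mp ⟨133683339, 0, 0, 0, 0, 0, 0, 0, 0, ⟨0, 0⟩, 0⟩ 0 0))) (.cut .s 11108352 (.pos 18 .mp ⟨157938647, 0, 0, 0, 0, 0, 0, 0, 0, ⟨0, 0⟩, 0⟩ 0 0) (.pos 18 .mp ⟨191147965, 0, 0, 0, 0, 0, 0, 0, 0, ⟨0, 0⟩, 0⟩ 0 0))) (.pos 15 .mp ⟨100103289,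 0, 0, 0, 0, 0, 0, 0, 0, ⟨0, 0⟩, 0⟩ 0 0))) (.cut .d (-524288) (.cut .s 11108352 (.cut .v 23068672 (.pos 27 .mp ⟨210370550, 0, 0, 0, 0, 0, 0, 0, 0, ⟨0, 0⟩, 0⟩ 0 0) (.pos 28 .mp ⟨250962446, 0, 0, 0, 0, 0, 0, 0, 0, ⟨0, 0⟩, 0⟩ 0 0)) (.pos 16 .mp ⟨281037847, 0, 0, 0, 0, 0, 0, 0, 0, ⟨0, 0⟩, 0⟩ 0 0)) (.cut .l 6501171 (.pos 16 .mp ⟨242049680, 0, 0, 0, 0, 0, 0, 0, 0, ⟨0, 0⟩, 0⟩ 0 0) (.pos 16 .mp ⟨193123176, 0, 0, 0, 0, 0, 0, 0, 0, ⟨0, 0⟩, 0⟩ 0 0))))) (.cut .d (-1048576) (.void 14 ⟨100000, 0, 0, 0, 0, 0, 0, 0, 0, ⟨0, 0⟩, 0⟩ 0 0) (.cut .v 29360128 (.cut .s 11108352 (.pos 29 .mp ⟨309420567, 0, 0, 0, 0, 0, 0, 0, 0, ⟨0, 0⟩, 0⟩ 0 0) (.pos 29 .mp ⟨370308439, 0, 0, 0,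 0, 0, 0, 0, 0, ⟨0, 0⟩, 0⟩ 0 0)) (.pos 30 .mp ⟨508786221, 0, 0, 0, 0, 0, 0, 0, 0, ⟨0, 0⟩, 0⟩ 0 0))))))) (.void 12 ⟨100000, 0, 0, 0, 0, 0, 0, 0, 0, ⟨0, 0⟩, 0⟩ 0 0)) (.void 57 ⟨100000, 0, 0, 0, 0, 0, 0, 0, 0, ⟨0, 0⟩, 0⟩ 0 0)) (.void 66 ⟨95059, 0, 0, 4941, 0, 0, 0, 0, 0, ⟨0, 0⟩, 0⟩ 0 0))) (.cut .v 16777216 (.cut .v 8388608 (.cut .v 4194304 (.cut .v 2097152 (.pos 75 .pm ⟨0, 0, 19134892, 0, 14346807, 0, 0, 0, 13749016, ⟨0, 0⟩, 2804900⟩ 0 0) (.cut .d 4548041 (.pos 76 .pm ⟨0, 0, 2258375, 0, 0, 0, 0, 0, 0, ⟨0, 0⟩, 0⟩ 0 0) (.pos 76 .pm ⟨0, 27065312, 0, 0, 0, 0, 0, 0, 8694885, ⟨0, 0⟩, 7053950⟩ 0 0))) (.cut .d 4548041 (.pos 5 .pm ⟨0, 0, 0, 0, 0, 0, 0, 0, 0, ⟨0, 0⟩,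 0⟩ 0 0) (.cut .d 6822062 (.pos 5 .pm ⟨0, 0, 0, 0, 0, 0, 0, 0, 0, ⟨0, 0⟩, 0⟩ 0 0) (.cut .l 6501171 (.cut .d 7959072 (.cut .l 4159351 (.cut .v 6291456 (.cut .d 7390567 (.pos 81 .pm ⟨0, 0, 0, 0, 0, 0, 0, 0, 0, ⟨0, 0⟩, 0⟩ 0 0) (.cut .s 11108352 (.pos 81 .pm ⟨0, 0, 0, 0, 0, 0, 0, 0, 0, ⟨0, 0⟩, 0⟩ 0 0) (.pos 81 .pm ⟨0, 60277405, 0, 0, 0, 0, 0, 0, 0, ⟨0, 0⟩, 0⟩ 0 0))) (.cut .s 11108352 (.pos 82 .pm ⟨0, 39383701, 0, 0, 0, 0, 0, 0, 0, ⟨0, 0⟩, 0⟩ 0 0) (.cut .d 7390567 (.pos 82 .pm ⟨0, 0, 0, 0, 0, 0, 0, 0, 0, ⟨0, 0⟩, 0⟩ 0 0) (.cut .s 11223040 (.pos 82 .pm ⟨0, 57292381, 0, 0, 0, 0, 0, 0, 0, ⟨0, 0⟩, 0⟩ 0 0) (.pos 82 .pm ⟨0, 67653248, 0, 0, 0, 0, 0, 0, 0, ⟨0, 0⟩, 0⟩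 0 0))))) (.pos 5 .pm ⟨0, 42400998, 0, 0, 0, 0, 0, 0, 0, ⟨0, 0⟩, 0⟩ 0 0)) (.cut .v 6291456 (.pos 81 .pm ⟨0, 70819379, 0, 0, 0, 0, 0, 0, 0, ⟨0, 0⟩, 0⟩ 0 0) (.cut .s 11108352 (.pos 82 .pm ⟨0, 58300947, 0, 0, 0, 0, 0, 0, 0, ⟨0, 0⟩, 0⟩ 0 0) (.pos 82 .pm ⟨0, 117244533, 0, 0, 0, 0, 0, 0, 0, ⟨0, 0⟩, 0⟩ 0 0)))) (.pos 5 .pm ⟨0, 51948938, 0, 0, 0, 0, 0, 0, 0, ⟨0, 0⟩, 0⟩ 0 0))))) (.cut .d 4548041 (.pos 3 .pm ⟨0, 0, 0, 0, 0, 0, 0, 0, 0, ⟨0, 0⟩, 0⟩ 0 0) (.cut .d 6822062 (.pos 3 .pm ⟨0, 0, 0, 0, 0, 0, 0, 0, 0, ⟨0, 0⟩, 0⟩ 0 0) (.cut .d 7959072 (.pos 3 .pm ⟨0, 50500546, 0, 0, 0, 0, 0, 0, 0, ⟨0, 0⟩, 0⟩ 0 0) (.pos 3 .pm ⟨0, 82795064, 0, 0, 0, 0, 0, 0, 0, ⟨0, 0⟩, 0⟩ 0 0)))))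 (.cut .v 268435456 (.cut .d 4548041 (.cut .v 67108864 (.cut .d 2274020 (.cut .v 33554432 (.cut .d 1137010 (.cut .d 568505 (.cut .v 25165824 (.cut .v 20971520 (.pos 15 .pp ⟨76666873, 0, 0, 0, 0, 0, 0, 0, 0, ⟨0, 0⟩, 0⟩ 0 0) (.pos 16 .pp ⟨171251243, 0, 0, 0, 0, 0, 0, 0, 0, ⟨0, 0⟩, 0⟩ 0 0)) (.cut .v 29360128 (.pos 29 .pp ⟨250002992, 0, 0, 0, 0, 0, 0, 0, 0, ⟨0, 0⟩, 0⟩ 0 0) (.pos 30 .pp ⟨344662108, 0, 0, 0, 0, 0, 0, 0, 0, ⟨0, 0⟩, 0⟩ 0 0))) (.pos 11 .pp ⟨72163782, 0, 0, 0, 0, 0, 0, 0, 0, ⟨0, 0⟩, 0⟩ 0 0)) (.pos 11 .pp ⟨0, 0, 0, 0, 0, 0, 0, 0, 0, ⟨0, 0⟩, 0⟩ 0 0)) (.cut .v 50331648 (.cut .d 1137010 (.cut .v 41943040 (.cut .v 37748736 (.pos 35 .pp ⟨430319865, 0,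 0, 0, 0, 0, 0, 0, 0, ⟨0, 0⟩, 0⟩ 0 0) (.pos 36 .pp ⟨556648729, 0, 0, 0, 0, 0, 0, 0, 0, ⟨0, 0⟩, 0⟩ 0 0)) (.cut .d 568505 (.pos 34 .pp ⟨1014991549, 0, 0, 0, 0, 0, 0, 0, 0, ⟨0, 0⟩, 0⟩ 0 0) (.pos 34 .pp ⟨649756041, 0, 0, 0, 0, 0, 0, 0, 0, ⟨0, 0⟩, 0⟩ 0 0))) (.pos 31 .pp ⟨294577237, 0, 0, 0, 0, 0, 0, 0, 0, ⟨0, 0⟩, 0⟩ 0 0)) (.cut .d 1137010 (.cut .v 58720256 (.pos 51 .pp ⟨1317447233, 0, 0, 0, 0, 0, 0, 0, 0, ⟨0, 0⟩, 0⟩ 0 0) (.pos 52 .pp ⟨1829110210, 0, 0, 0, 0, 0, 0, 0, 0, ⟨0, 0⟩, 0⟩ 0 0)) (.pos 32 .pp ⟨822025745, 0, 0, 0, 0, 0, 0, 0, 0, ⟨0, 0⟩, 0⟩ 0 0)))) (.pos 10 .pp ⟨0, 0, 0, 0, 0, 0, 0, 0, 0, ⟨0, 0⟩, 0⟩ 0 0)) (.cut .v 134217728 (.cut .v 100663296 (.cut .d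 2274020 (.cut .d 1137010 (.void 71 ⟨100000, 0, 0, 0, 0, 0, 0, 0, 0, ⟨0, 0⟩, 0⟩ 0 0) (.cut .v 83886080 (.cut .v 75497472 (.pos 101 .pp ⟨1582115157, 0, 0, 0, 0, 0, 0, 0, 0, ⟨0, 0⟩, 0⟩ 0 0) (.pos 102 .pp ⟨2233517377, 309830845, 0, 0, 0, 0, 0, 0, 0, ⟨0, 0⟩, 0⟩ 0 0)) (.void 92 ⟨40177, 59823, 0, 0, 0, 0, 0, 0, 0, ⟨0, 0⟩, 0⟩ 0 0))) (.pos 71 .pp ⟨433220790, 0, 0, 0, 0, 0, 0, 0, 0, ⟨0, 0⟩, 0⟩ 0 0)) (.void 72 ⟨39452, 60548, 0, 0, 0, 0, 0, 0, 0, ⟨0, 0⟩, 0⟩ 0 0)) (.void 68 ⟨0, 100000, 0, 0, 0, 0, 0, 0, 0, ⟨0, 0⟩, 0⟩ 0 0))) (.pos 56 .pp ⟨0, 26239953, 0, 0, 0, 0, 0, 0, 0, ⟨0, 0⟩, 0⟩ 0 0)) (.void 66 ⟨0, 0, 0, 100000, 0, 0, 0, 0, 0, ⟨0, 0⟩, 0⟩ 0 0)))),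
    by decide +kernel⟩

def covers16 : cell.Covers table row16.1 :=
  ⟨(.cut .d 0 (.cut .v 16777216 (.cut .d (-8388608) (.void 1 ⟨0, 0, 0, 0, 0, 100000, 0, 0, 0, ⟨0, 0⟩, 0⟩ 0 0) (.cut .d (-4194304) (.void 1 ⟨0, 0, 0, 0, 0, 100834, 0, 0, 0, ⟨0, 0⟩, 0⟩ 0 0) (.cut .d (-2097152) (.void 1 ⟨0, 0, 0, 0, 0, 100000, 0, 0, 0, ⟨0, 0⟩, 0⟩ 0 0) (.cut .v 8388608 (.cut .v 4194304 (.void 4 ⟨0, 0, 100000, 0, 0, 0, 0, 0, 0, ⟨0, 0⟩, 0⟩ 0 0) (.pos 5 .mm ⟨0, 0, 8875017, 0, 0, 102847217, 0, 0, 0, ⟨0, 0⟩, 0⟩ 0 0)) (.cut .d (-1048576) (.cut .d (-1572864) (.void 3 ⟨0, 0, 0, 0, 0, 100000, 0, 0, 0, ⟨0, 0⟩, 0⟩ 0 0) (.cut .s 11534336 (.cut .v 12582912 (.pos 6 .mm ⟨0, 0, 0, 0, 0,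 184021865, 0, 0, 0, ⟨0, 0⟩, 0⟩ 0 0) (.cut .s 11436032 (.cut .v 14680064 (.pos 8 .mm ⟨0, 0, 0, 0, 0, 209895848, 0, 0, 0, ⟨0, 0⟩, 0⟩ 0 0) (.cut .v 15728640 (.pos 49 .mm ⟨0, 0, 0, 0, 0, 228757285, 0, 0, 0, ⟨0, 0⟩, 0⟩ 0 0) (.cut .d (-1310720) (.pos 50 .mm ⟨128318638, 0, 0, 0, 0, 99395606, 0, 0, 0, ⟨0, 0⟩, 0⟩ 0 0) (.pos 50 .mm ⟨97073468, 0, 0, 0, 0, 120687451, 0, 0, 0, ⟨0, 0⟩, 0⟩ 0 0)))) (.pos 7 .mm ⟨66117264, 0, 0, 0, 0, 197940526, 0, 0, 0, ⟨0, 0⟩, 0⟩ 0 0))) (.pos 3 .mm ⟨37543102, 0, 0, 0, 0, 275894168, 0, 0, 0, ⟨0, 0⟩, 0⟩ 0 0))) (.cut .v 12582912 (.pos 6 .mm ⟨0, 0, 0, 0, 0, 146173587, 0, 0, 0, ⟨0, 0⟩, 0⟩ 0 0) (.cut .d (-524288) (.cut .v 14680064 (.pos 8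 .mm ⟨0, 0, 0, 0, 0, 220315890, 0, 0, 0, ⟨0, 0⟩, 0⟩ 0 0) (.cut .s 11534336 (.cut .l 6501171 (.pos 9 .mm ⟨0, 0, 0, 0, 0, 254462436, 0, 0, 0, ⟨0, 0⟩, 0⟩ 0 0) (.pos 9 .mm ⟨14750844, 0, 0, 0, 0, 213864056, 0, 0, 0, ⟨0, 0⟩, 0⟩ 0 0)) (.cut .s 11632640 (.pos 9 .mm ⟨16380781, 0, 0, 0, 0, 260262187, 0, 0, 0, ⟨0, 0⟩, 0⟩ 0 0) (.pos 9 .mm ⟨17621130, 0, 0, 0, 0, 284277463, 0, 0, 0, ⟨0, 0⟩, 0⟩ 0 0)))) (.cut .l 6501171 (.cut .s 11534336 (.cut .d (-262144) (.pos 7 .mm ⟨0, 0, 0, 0, 0, 229594438, 0, 0, 0, ⟨0, 0⟩, 0⟩ 0 0) (.pos 7 .mm ⟨0, 0, 0, 0, 0, 205600629, 0, 0, 0, ⟨0, 0⟩, 0⟩ 0 0)) (.pos 7 .mm ⟨0, 0, 0, 0, 0, 258742805, 0, 0, 0, ⟨0, 0⟩, 0⟩ 0 0)) (.pos 7 .mm ⟨0, 0, 0,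 0, 0, 0, 0, 0, 0, ⟨0, 0⟩, 0⟩ 0 0))))))))) (.cut .v 268435456 (.cut .v 67108864 (.cut .v 33554432 (.cut .d (-8388608) (.void 11 ⟨0, 0, 0, 0, 0, 100000, 0, 0, 0, ⟨0, 0⟩, 0⟩ 0 0) (.cut .d (-4194304) (.void 11 ⟨100000, 0, 0, 0, 0, 0, 0, 0, 0, ⟨0, 0⟩, 0⟩ 0 0) (.cut .d (-2097152) (.void 11 ⟨100000, 0, 0, 0, 0, 0, 0, 0, 0, ⟨0, 0⟩, 0⟩ 0 0) (.cut .v 25165824 (.cut .d (-1048576) (.cut .v 20971520 (.cut .v 18874368 (.cut .d (-1572864) (.void 17 ⟨100000, 0, 0, 0, 0, 0, 0, 0, 0, ⟨0, 0⟩, 0⟩ 0 0) (.cut .s 11534336 (.cut .v 17825792 (.cut .s 11436032 (.cut .d (-1310720) (.pos 19 .mp ⟨212251635, 0, 0, 0, 0, 0, 0, 0, 0, ⟨0, 0⟩, 0⟩ 0 0) (.cut .s 11386880 (.pos 19 .mp ⟨197870286,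 0, 0, 0, 0, 0, 0, 0, 0, ⟨0, 0⟩, 0⟩ 0 0) (.pos 19 .mp ⟨206464060, 0, 0, 0, 0, 0, 0, 0, 0, ⟨0, 0⟩, 0⟩ 0 0))) (.pos 19 .mp ⟨228697137, 0, 0, 0, 0, 0, 0, 0, 0, ⟨0, 0⟩, 0⟩ 0 0)) (.pos 20 .mp ⟨244873675, 0, 0, 0, 0, 0, 0, 0, 0, ⟨0, 0⟩, 0⟩ 0 0)) (.pos 17 .mp ⟨280146594, 0, 0, 0, 0, 0, 0, 0, 0, ⟨0, 0⟩, 0⟩ 0 0))) (.pos 18 .mp ⟨369721807, 0, 0, 0, 0, 0, 0, 0, 0, ⟨0, 0⟩, 0⟩ 0 0)) (.void 16 ⟨100000, 0, 0, 0, 0, 0, 0, 0, 0, ⟨0, 0⟩, 0⟩ 0 0)) (.cut .v 20971520 (.cut .d (-524288) (.cut .v 18874368 (.cut .l 6501171 (.cut .s 11534336 (.cut .s 11436032 (.cut .d (-786432) (.void 17 ⟨100000, 0, 0, 0, 0, 0, 0, 0, 0, ⟨0, 0⟩, 0⟩ 0 0) (.pos 17 .mp ⟨195383808, 0, 0, 0, 0, 0, 0,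 0, 0, ⟨0, 0⟩, 0⟩ 0 0)) (.pos 17 .mp ⟨222935728, 0, 0, 0, 0, 0, 0, 0, 0, ⟨0, 0⟩, 0⟩ 0 0)) (.pos 17 .mp ⟨256130660, 0, 0, 0, 0, 0, 0, 0, 0, ⟨0, 0⟩, 0⟩ 0 0)) (.cut .s 11534336 (.cut .v 17825792 (.pos 19 .mp ⟨185716428, 0, 0, 0, 0, 0, 0, 0, 0, ⟨0, 0⟩, 0⟩ 0 0) (.pos 20 .mp ⟨206769324, 0, 0, 0, 0, 0, 0, 0, 0, ⟨0, 0⟩, 0⟩ 0 0)) (.pos 17 .mp ⟨227143548, 0, 0, 0, 0, 0, 0, 0, 0, ⟨0, 0⟩, 0⟩ 0 0))) (.cut .s 11534336 (.pos 18 .mp ⟨249536845, 0, 0, 0, 0, 0, 0, 0, 0, ⟨0, 0⟩, 0⟩ 0 0) (.pos 18 .mp ⟨294016165, 0, 0, 0, 0, 0, 0, 0, 0, ⟨0, 0⟩, 0⟩ 0 0))) (.cut .l 6501171 (.cut .v 18874368 (.cut .l 4159351 (.cut .d (-262144) (.cut .s 11534336 (.cut .d (-393216) (.pos 17 .mp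 ⟨188948403, 0, 0, 0, 0, 0, 0, 0, 0, ⟨0, 0⟩, 0⟩ 0 0) (.pos 17 .mp ⟨156330108, 0, 0, 0, 0, 31847656, 0, 0, 0, ⟨0, 0⟩, 0⟩ 0 0)) (.pos 17 .mp ⟨217586369, 0, 0, 0, 0, 0, 0, 0, 0, ⟨0, 0⟩, 0⟩ 0 0)) (.cut .v 17825792 (.cut .d (-131072) (.cut .v 17301504 (.cut .v 17039360 (.pos 69 .mp ⟨0, 0, 0, 0, 0, 213991792, 0, 0, 0, ⟨0, 0⟩, 0⟩ 0 0) (.cut .d (-196608) (.pos 70 .mp ⟨97116280, 0, 0, 0, 0, 108519438, 0, 0, 0, ⟨0, 0⟩, 0⟩ 0 0) (.pos 70 .mp ⟨97116280, 0, 0, 0, 0, 82721063, 0, 0, 0, ⟨0, 0⟩, 0⟩ 0 0))) (.pos 22 .mp ⟨164643323, 0, 0, 0, 0, 0, 0, 0, 0, ⟨0, 0⟩, 0⟩ 0 0)) (.pos 19 .mp ⟨89361666, 0, 0, 0, 0, 0, 0, 0, 0, ⟨0, 0⟩, 0⟩ 0 0)) (.pos 20 .mp ⟨170990742, 0, 0, 0, 0,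 0, 0, 0, 0, ⟨0, 0⟩, 0⟩ 0 0))) (.pos 17 .mp ⟨154076270, 0, 0, 0, 0, 5702113, 0, 0, 0, ⟨0, 0⟩, 0⟩ 0 0)) (.pos 18 .mp ⟨236654042, 0, 0, 0, 0, 0, 0, 0, 0, ⟨0, 0⟩, 0⟩ 0 0)) (.pos 15 .mp ⟨129219236, 0, 0, 0, 0, 0, 0, 0, 0, ⟨0, 0⟩, 0⟩ 0 0))) (.cut .d (-524288) (.cut .s 11534336 (.pos 16 .mp ⟨326993850, 0, 0, 0, 0, 0, 0, 0, 0, ⟨0, 0⟩, 0⟩ 0 0) (.pos 16 .mp ⟨383803265, 0, 0, 0, 0, 0, 0, 0, 0, ⟨0, 0⟩, 0⟩ 0 0)) (.cut .l 6501171 (.pos 16 .mp ⟨320866534, 0, 0, 0, 0, 0, 0, 0, 0, ⟨0, 0⟩, 0⟩ 0 0) (.pos 16 .mp ⟨261308877, 0, 0, 0, 0, 0, 0, 0, 0, ⟨0, 0⟩, 0⟩ 0 0))))) (.cut .d (-1048576) (.void 14 ⟨100000, 0, 0, 0, 0, 0, 0, 0, 0, ⟨0, 0⟩, 0⟩ 0 0) (.cut .v 29360128 (.cut .d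 (-524288) (.void 29 ⟨100000, 0, 0, 0, 0, 0, 0, 0, 0, ⟨0, 0⟩, 0⟩ 0 0) (.pos 29 .mp ⟨417950881, 0, 0, 0, 0, 0, 0, 0, 0, ⟨0, 0⟩, 0⟩ 0 0)) (.pos 30 .mp ⟨646406631, 0, 0, 0, 0, 0, 0, 0, 0, ⟨0, 0⟩, 0⟩ 0 0))))))) (.void 12 ⟨100000, 0, 0, 0, 0, 0, 0, 0, 0, ⟨0, 0⟩, 0⟩ 0 0)) (.void 57 ⟨100000, 0, 0, 0, 0, 0, 0, 0, 0, ⟨0, 0⟩, 0⟩ 0 0)) (.void 66 ⟨94896, 0, 0, 5104, 0, 0, 0, 0, 0, ⟨0, 0⟩, 0⟩ 0 0))) (.cut .v 16777216 (.cut .v 8388608 (.cut .v 4194304 (.cut .v 2097152 (.cut .v 1048576 (.void 103 ⟨0, 0, 50000, 0, 50000, 0, 0, 0, 0, ⟨0, 0⟩, 0⟩ 0 0) (.pos 104 .pm ⟨0, 1797724, 0, 0, 0, 0, 0, 0, 10779223, ⟨0, 0⟩, 4987896⟩ 0 0)) (.cut .d 4024593 (.pos 76 .pm ⟨0, 0, 4578932,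 0, 0, 0, 0, 0, 0, ⟨0, 0⟩, 0⟩ 0 0) (.cut .d 6036890 (.pos 76 .pm ⟨0, 0, 0, 0, 0, 0, 0, 0, 0, ⟨0, 0⟩, 0⟩ 0 0) (.pos 76 .pm ⟨0, 54305894, 0, 0, 0, 0, 0, 0, 0, ⟨0, 0⟩, 0⟩ 0 0)))) (.cut .d 4024593 (.pos 5 .pm ⟨0, 0, 0, 0, 0, 0, 0, 0, 0, ⟨0, 0⟩, 0⟩ 0 0) (.cut .d 6036890 (.pos 5 .pm ⟨0, 0, 0, 0, 0, 0, 0, 0, 0, ⟨0, 0⟩, 0⟩ 0 0) (.cut .l 6501171 (.cut .d 7043038 (.cut .d 6539964 (.pos 5 .pm ⟨0, 0, 0, 0, 0, 0, 0, 0, 0, ⟨0, 0⟩, 0⟩ 0 0) (.cut .l 4159351 (.cut .v 6291456 (.cut .s 11534336 (.pos 81 .pm ⟨0, 0, 0, 0, 0, 0, 0, 0, 0, ⟨0, 0⟩, 0⟩ 0 0) (.cut .v 5242880 (.pos 97 .pm ⟨0, 66177882, 0, 0, 0, 0, 0, 0, 0, ⟨0, 0⟩, 0⟩ 0 0) (.cut .s 11632640 (.pos 98 .pm ⟨0, 66406763,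 0, 0, 0, 0, 0, 0, 0, ⟨0, 0⟩, 0⟩ 0 0) (.cut .d 6791501 (.pos 98 .pm ⟨0, 69902890, 0, 0, 0, 0, 0, 0, 0, ⟨0, 0⟩, 0⟩ 0 0) (.pos 98 .pm ⟨0, 80130400, 0, 0, 0, 0, 0, 0, 0, ⟨0, 0⟩, 0⟩ 0 0))))) (.cut .s 11534336 (.pos 82 .pm ⟨0, 0, 0, 0, 0, 0, 0, 0, 0, ⟨0, 0⟩, 0⟩ 0 0) (.cut .s 11632640 (.pos 82 .pm ⟨0, 70233170, 0, 0, 0, 0, 0, 0, 0, ⟨0, 0⟩, 0⟩ 0 0) (.pos 82 .pm ⟨0, 80715601, 0, 0, 0, 0, 0, 0, 0, ⟨0, 0⟩, 0⟩ 0 0)))) (.pos 5 .pm ⟨0, 56200926, 0, 0, 0, 0, 0, 0, 0, ⟨0, 0⟩, 0⟩ 0 0))) (.cut .v 6291456 (.cut .d 7546112 (.cut .l 4159351 (.cut .l 2988441 (.cut .s 11534336 (.cut .d 7294575 (.pos 81 .pm ⟨0, 61058421, 0, 0, 0, 0, 0, 0, 0, ⟨0, 0⟩, 0⟩ 0 0) (.cut .s 11436032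 (.pos 81 .pm ⟨0, 64510481, 0, 0, 0, 0, 0, 0, 0, ⟨0, 0⟩, 0⟩ 0 0) (.pos 81 .pm ⟨0, 75048231, 0, 0, 0, 0, 0, 0, 0, ⟨0, 0⟩, 0⟩ 0 0))) (.cut .v 5242880 (.pos 97 .pm ⟨0, 81078035, 0, 0, 0, 0, 0, 0, 0, ⟨0, 0⟩, 0⟩ 0 0) (.cut .s 11632640 (.pos 98 .pm ⟨0, 82214040, 0, 0, 0, 0, 0, 0, 0, ⟨0, 0⟩, 0⟩ 0 0) (.void 98 ⟨0, 100000, 0, 0, 0, 0, 0, 0, 0, ⟨0, 0⟩, 0⟩ 0 0)))) (.pos 81 .pm ⟨0, 75363401, 0, 0, 0, 0, 0, 0, 0, ⟨0, 0⟩, 0⟩ 0 0)) (.pos 81 .pm ⟨0, 71677577, 0, 0, 0, 0, 0, 0, 0, ⟨0, 0⟩, 0⟩ 0 0)) (.pos 81 .pm ⟨0, 100710513, 0, 0, 0, 0, 0, 0, 0, ⟨0, 0⟩, 0⟩ 0 0)) (.cut .s 11534336 (.cut .d 7546112 (.cut .s 11436032 (.cut .d 7294575 (.pos 82 .pm ⟨0, 59769672, 0, 0, 0, 0,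 0, 0, 0, ⟨0, 0⟩, 0⟩ 0 0) (.pos 82 .pm ⟨0, 69294177, 0, 0, 0, 0, 0, 0, 0, ⟨0, 0⟩, 0⟩ 0 0)) (.pos 82 .pm ⟨0, 75697634, 0, 0, 0, 0, 0, 0, 0, ⟨0, 0⟩, 0⟩ 0 0)) (.void 82 ⟨0, 100000, 0, 0, 0, 0, 0, 0, 0, ⟨0, 0⟩, 0⟩ 0 0)) (.pos 82 .pm ⟨0, 104513745, 0, 0, 0, 0, 0, 0, 0, ⟨0, 0⟩, 0⟩ 0 0)))) (.pos 5 .pm ⟨0, 65831716, 0, 0, 0, 0, 0, 0, 0, ⟨0, 0⟩, 0⟩ 0 0))))) (.cut .d 4024593 (.pos 3 .pm ⟨0, 0, 0, 0, 0, 0, 0, 0, 0, ⟨0, 0⟩, 0⟩ 0 0) (.cut .d 6036890 (.pos 3 .pm ⟨0, 0, 0, 0, 0, 0, 0, 0, 0, ⟨0, 0⟩, 0⟩ 0 0) (.cut .d 7043038 (.pos 3 .pm ⟨0, 62777794, 0, 0, 0, 0, 0, 0, 0, ⟨0, 0⟩, 0⟩ 0 0) (.pos 3 .pm ⟨0, 105431648, 0, 0, 0, 0, 0, 0, 0, ⟨0, 0⟩, 0⟩ 0 0))))) (.cut .v 268435456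 (.cut .d 4024593 (.cut .v 67108864 (.cut .d 2012296 (.cut .v 33554432 (.cut .d 1006148 (.cut .d 503074 (.cut .v 25165824 (.cut .v 20971520 (.pos 15 .pp ⟨97753120, 0, 0, 0, 0, 0, 0, 0, 0, ⟨0, 0⟩, 0⟩ 0 0) (.pos 16 .pp ⟨227749621, 0, 0, 0, 0, 0, 0, 0, 0, ⟨0, 0⟩, 0⟩ 0 0)) (.cut .v 29360128 (.pos 29 .pp ⟨334527640, 0, 0, 0, 0, 0, 0, 0, 0, ⟨0, 0⟩, 0⟩ 0 0) (.pos 30 .pp ⟨454136047, 0, 0, 0, 0, 0, 0, 0, 0, ⟨0, 0⟩, 0⟩ 0 0))) (.pos 11 .pp ⟨120566937, 0, 0, 0, 0, 0, 0, 0, 0, ⟨0, 0⟩, 0⟩ 0 0)) (.pos 11 .pp ⟨0, 0, 0, 0, 0, 0, 0, 0, 0, ⟨0, 0⟩, 0⟩ 0 0)) (.cut .v 50331648 (.cut .d 1006148 (.cut .v 41943040 (.cut .v 37748736 (.pos 35 .pp ⟨562366104, 0, 0, 0, 0, 0, 0, 0,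 0, ⟨0, 0⟩, 0⟩ 0 0) (.pos 36 .pp ⟨709342675, 0, 0, 0, 0, 0, 0, 0, 0, ⟨0, 0⟩, 0⟩ 0 0)) (.cut .d 503074 (.pos 34 .pp ⟨1241169998, 0, 0, 0, 0, 0, 0, 0, 0, ⟨0, 0⟩, 0⟩ 0 0) (.pos 34 .pp ⟨848341093, 0, 0, 0, 0, 0, 0, 0, 0, ⟨0, 0⟩, 0⟩ 0 0))) (.pos 31 .pp ⟨434029355, 0, 0, 0, 0, 0, 0, 0, 0, ⟨0, 0⟩, 0⟩ 0 0)) (.cut .d 1006148 (.cut .v 58720256 (.pos 51 .pp ⟨1625061570, 0, 0, 0, 0, 0, 0, 0, 0, ⟨0, 0⟩, 0⟩ 0 0) (.pos 52 .pp ⟨2287963066, 0, 0, 0, 0, 0, 0, 0, 0, ⟨0, 0⟩, 0⟩ 0 0)) (.pos 32 .pp ⟨1092469201, 0, 0, 0, 0, 0, 0, 0, 0, ⟨0, 0⟩, 0⟩ 0 0)))) (.pos 10 .pp ⟨0, 0, 0, 0, 0, 0, 0, 0, 0, ⟨0, 0⟩, 0⟩ 0 0)) (.cut .v 134217728 (.cut .v 100663296 (.cut .d 2012296 (.cut .d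 1006148 (.void 71 ⟨100000, 0, 0, 0, 0, 0, 0, 0, 0, ⟨0, 0⟩, 0⟩ 0 0) (.cut .v 83886080 (.cut .v 75497472 (.pos 101 .pp ⟨1942997473, 0, 0, 0, 0, 0, 0, 0, 0, ⟨0, 0⟩, 0⟩ 0 0) (.pos 102 .pp ⟨2745791759, 512000557, 0, 0, 0, 0, 0, 0, 0, ⟨0, 0⟩, 0⟩ 0 0)) (.void 92 ⟨39616, 60384, 0, 0, 0, 0, 0, 0, 0, ⟨0, 0⟩, 0⟩ 0 0))) (.pos 71 .pp ⟨0, 314595253, 0, 0, 0, 0, 0, 0, 0, ⟨0, 0⟩, 0⟩ 0 0)) (.void 72 ⟨38969, 61031, 0, 0, 0, 0, 0, 0, 0, ⟨0, 0⟩, 0⟩ 0 0)) (.void 68 ⟨0, 75286, 0, 24714, 0, 0, 0, 0, 0, ⟨0, 0⟩, 0⟩ 0 0))) (.pos 56 .pp ⟨0, 42916095, 0, 0, 0, 0, 0, 0, 0, ⟨0, 0⟩, 0⟩ 0 0)) (.void 66 ⟨0, 0, 0, 100000, 0, 0, 0, 0, 0, ⟨0, 0⟩, 0⟩ 0 0)))),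
    by decide +kernel⟩

def covers17 : cell.Covers table row17.1 :=
  ⟨(.cut .d 0 (.cut .v 16777216 (.cut .d (-8388608) (.void 1 ⟨0, 0, 0, 0, 0, 100000, 0, 0, 0, ⟨0, 0⟩, 0⟩ 0 0) (.cut .d (-4194304) (.pos 1 .mm ⟨0, 0, 0, 0, 0, 167772160000, 0, 0, 0, ⟨0, 0⟩, 0⟩ 0 0) (.cut .d (-2097152) (.void 1 ⟨0, 0, 0, 0, 0, 100000, 0, 0, 0, ⟨0, 0⟩, 0⟩ 0 0) (.cut .v 8388608 (.cut .v 4194304 (.void 4 ⟨0, 0, 100000, 0, 0, 0, 0, 0, 0, ⟨0, 0⟩, 0⟩ 0 0) (.pos 5 .mm ⟨0, 0, 37788361, 0, 0, 158612946, 0, 0, 0, ⟨0, 0⟩, 0⟩ 0 0)) (.cut .d (-1048576) (.cut .s 11993088 (.pos 3 .mm ⟨44944909, 0, 0, 0, 0, 395613732, 0, 0, 0, ⟨0, 0⟩, 0⟩ 0 0) (.pos 3 .mm ⟨59399495, 0, 0, 0, 0, 502643352,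 0, 0, 0, ⟨0, 0⟩, 0⟩ 0 0)) (.cut .v 12582912 (.cut .d (-524288) (.pos 6 .mm ⟨0, 0, 0, 0, 0, 273724598, 0, 0, 0, ⟨0, 0⟩, 0⟩ 0 0) (.pos 6 .mm ⟨0, 0, 0, 0, 0, 195644275, 0, 0, 0, ⟨0, 0⟩, 0⟩ 0 0)) (.cut .d (-524288) (.cut .l 6501171 (.pos 7 .mm ⟨62509282, 0, 0, 0, 0, 394177636, 0, 0, 0, ⟨0, 0⟩, 0⟩ 0 0) (.cut .s 11993088 (.pos 7 .mm ⟨3061445, 0, 0, 0, 0, 347394867, 0, 0, 0, ⟨0, 0⟩, 0⟩ 0 0) (.pos 7 .mm ⟨4792287, 0, 0, 0, 0, 444316722, 0, 0, 0, ⟨0, 0⟩, 0⟩ 0 0))) (.cut .l 6501171 (.cut .l 4159351 (.cut .s 11993088 (.pos 7 .mm ⟨0, 0, 0, 0, 0, 343238438, 0, 0, 0, ⟨0, 0⟩, 0⟩ 0 0) (.pos 7 .mm ⟨0, 0, 0, 0, 0, 430453411, 0, 0, 0, ⟨0, 0⟩, 0⟩ 0 0)) (.pos 7 .mm ⟨0, 0,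 0, 0, 0, 318391212, 0, 0, 0, ⟨0, 0⟩, 0⟩ 0 0)) (.pos 7 .mm ⟨0, 0, 0, 0, 0, 0, 0, 0, 0, ⟨0, 0⟩, 0⟩ 0 0))))))))) (.cut .v 268435456 (.cut .v 67108864 (.cut .v 33554432 (.cut .d (-8388608) (.void 11 ⟨100000, 0, 0, 0, 0, 0, 0, 0, 0, ⟨0, 0⟩, 0⟩ 0 0) (.cut .d (-4194304) (.void 11 ⟨100000, 0, 0, 0, 0, 0, 0, 0, 0, ⟨0, 0⟩, 0⟩ 0 0) (.cut .d (-2097152) (.void 11 ⟨100000, 0, 0, 0, 0, 0, 0, 0, 0, ⟨0, 0⟩, 0⟩ 0 0) (.cut .v 25165824 (.cut .d (-1048576) (.cut .v 20971520 (.cut .s 11993088 (.cut .v 18874368 (.pos 17 .mp ⟨386907539, 0, 0, 0, 0, 0, 0, 0, 0, ⟨0, 0⟩, 0⟩ 0 0) (.void 18 ⟨100000, 0, 0, 0, 0, 0, 0, 0, 0, ⟨0, 0⟩, 0⟩ 0 0)) (.pos 15 .mp ⟨544328978, 0, 0, 0, 0, 0,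 0, 0, 0, ⟨0, 0⟩, 0⟩ 0 0)) (.void 16 ⟨100000, 0, 0, 0, 0, 0, 0, 0, 0, ⟨0, 0⟩, 0⟩ 0 0)) (.cut .v 20971520 (.cut .d (-524288) (.cut .l 6501171 (.cut .s 11993088 (.pos 15 .mp ⟨357175084, 0, 0, 0, 0, 0, 0, 0, 0, ⟨0, 0⟩, 0⟩ 0 0) (.pos 15 .mp ⟨443161742, 0, 0, 0, 0, 0, 0, 0, 0, ⟨0, 0⟩, 0⟩ 0 0)) (.cut .v 18874368 (.cut .s 11993088 (.pos 17 .mp ⟨279626075, 0, 0, 0, 0, 0, 0, 0, 0, ⟨0, 0⟩, 0⟩ 0 0) (.pos 17 .mp ⟨351111386, 0, 0, 0, 0, 0, 0, 0, 0, ⟨0, 0⟩, 0⟩ 0 0)) (.cut .s 11993088 (.pos 18 .mp ⟨345689453, 0, 0, 0, 0, 0, 0, 0, 0, ⟨0, 0⟩, 0⟩ 0 0) (.pos 18 .mp ⟨430910188, 0, 0, 0, 0, 0, 0, 0, 0, ⟨0, 0⟩, 0⟩ 0 0)))) (.cut .l 6501171 (.cut .v 18874368 (.cut .s 11993088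 (.cut .d (-262144) (.pos 17 .mp ⟨271890987, 0, 0, 0, 0, 0, 0, 0, 0, ⟨0, 0⟩, 0⟩ 0 0) (.pos 17 .mp ⟨206467198, 0, 0, 0, 0, 40491705, 0, 0, 0, ⟨0, 0⟩, 0⟩ 0 0)) (.cut .d (-262144) (.pos 17 .mp ⟨338434357, 0, 0, 0, 0, 0, 0, 0, 0, ⟨0, 0⟩, 0⟩ 0 0) (.pos 17 .mp ⟨255784205, 0, 0, 0, 0, 41063780, 0, 0, 0, ⟨0, 0⟩, 0⟩ 0 0))) (.cut .s 11993088 (.pos 18 .mp ⟨318732045, 0, 0, 0, 0, 0, 0, 0, 0, ⟨0, 0⟩, 0⟩ 0 0) (.pos 18 .mp ⟨391582358, 0, 0, 0, 0, 0, 0, 0, 0, ⟨0, 0⟩, 0⟩ 0 0))) (.pos 15 .mp ⟨224858060, 0, 0, 0, 0, 0, 0, 0, 0, ⟨0, 0⟩, 0⟩ 0 0))) (.cut .d (-524288) (.pos 16 .mp ⟨558882436, 0, 0, 0, 0, 0, 0, 0, 0, ⟨0, 0⟩, 0⟩ 0 0) (.cut .l 6501171 (.pos 16 .mp ⟨484286718, 0,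 0, 0, 0, 0, 0, 0, 0, ⟨0, 0⟩, 0⟩ 0 0) (.pos 16 .mp ⟨382331556, 0, 0, 0, 0, 0, 0, 0, 0, ⟨0, 0⟩, 0⟩ 0 0))))) (.cut .v 29360128 (.cut .d (-1048576) (.void 29 ⟨100000, 0, 0, 0, 0, 0, 0, 0, 0, ⟨0, 0⟩, 0⟩ 0 0) (.cut .s 11993088 (.pos 29 .mp ⟨590858615, 0, 0, 0, 0, 0, 0, 0, 0, ⟨0, 0⟩, 0⟩ 0 0) (.pos 29 .mp ⟨718368751, 0, 0, 0, 0, 0, 0, 0, 0, ⟨0, 0⟩, 0⟩ 0 0))) (.pos 30 .mp ⟨1077485843, 0, 0, 0, 0, 0, 0, 0, 0, ⟨0, 0⟩, 0⟩ 0 0)))))) (.void 12 ⟨100000, 0, 0, 0, 0, 0, 0, 0, 0, ⟨0, 0⟩, 0⟩ 0 0)) (.void 57 ⟨100000, 0, 0, 0, 0, 0, 0, 0, 0, ⟨0, 0⟩, 0⟩ 0 0)) (.void 66 ⟨94680, 0, 0, 5320, 0, 0, 0, 0, 0, ⟨0, 0⟩, 0⟩ 0 0))) (.cut .v 16777216 (.cut .v 8388608 (.cut .v 4194304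 (.cut .v 2097152 (.cut .v 1048576 (.pos 103 .pm ⟨0, 0, 10984924, 0, 0, 0, 0, 0, 41756585, ⟨0, 0⟩, 1983364⟩ 0 0) (.pos 104 .pm ⟨0, 15527020, 0, 0, 0, 0, 0, 0, 0, ⟨0, 0⟩, 0⟩ 0 0)) (.cut .d 3608508 (.pos 76 .pm ⟨0, 0, 10498091, 0, 0, 0, 0, 0, 0, ⟨0, 0⟩, 0⟩ 0 0) (.cut .d 5412762 (.pos 76 .pm ⟨0, 0, 0, 0, 0, 0, 0, 0, 0, ⟨0, 0⟩, 0⟩ 0 0) (.cut .v 3145728 (.pos 95 .pm ⟨0, 65411530, 0, 0, 0, 0, 0, 0, 0, ⟨0, 0⟩, 0⟩ 0 0) (.cut .l 6501171 (.cut .d 6314889 (.cut .s 11993088 (.pos 96 .pm ⟨0, 0, 0, 0, 0, 0, 0, 0, 0, ⟨0, 0⟩, 0⟩ 0 0) (.cut .d 5863825 (.pos 96 .pm ⟨0, 0, 0, 0, 0, 0, 0, 0, 0, ⟨0, 0⟩, 0⟩ 0 0) (.pos 96 .pm ⟨0, 87906052, 0, 0, 0, 0, 0, 0, 0, ⟨0, 0⟩, 0⟩ 0 0)))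 (.cut .s 11993088 (.pos 96 .pm ⟨0, 79333266, 0, 0, 0, 0, 0, 0, 0, ⟨0, 0⟩, 0⟩ 0 0) (.pos 96 .pm ⟨0, 111632994, 0, 0, 0, 0, 0, 0, 0, ⟨0, 0⟩, 0⟩ 0 0))) (.pos 96 .pm ⟨0, 76934554, 0, 0, 0, 0, 0, 0, 0, ⟨0, 0⟩, 0⟩ 0 0)))))) (.cut .d 3608508 (.pos 5 .pm ⟨0, 0, 733169, 0, 0, 0, 0, 0, 0, ⟨0, 0⟩, 0⟩ 0 0) (.cut .d 5412762 (.pos 5 .pm ⟨0, 0, 0, 0, 0, 0, 0, 0, 0, ⟨0, 0⟩, 0⟩ 0 0) (.cut .l 6501171 (.cut .d 6314889 (.cut .v 6291456 (.cut .l 4159351 (.cut .s 11993088 (.cut .v 5242880 (.pos 97 .pm ⟨0, 0, 0, 0, 0, 0, 0, 0, 0, ⟨0, 0⟩, 0⟩ 0 0) (.cut .v 5767168 (.pos 105 .pm ⟨0, 65886127, 0, 0, 0, 0, 0, 0, 0, ⟨0, 0⟩, 0⟩ 0 0) (.pos 106 .pm ⟨0, 69410606, 0, 0, 0, 0, 0, 0, 0,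 ⟨0, 0⟩, 0⟩ 0 0))) (.cut .l 2988441 (.cut .d 5863825 (.cut .v 5242880 (.pos 97 .pm ⟨0, 53960103, 0, 0, 0, 0, 0, 0, 0, ⟨0, 0⟩, 0⟩ 0 0) (.pos 98 .pm ⟨0, 80909130, 0, 0, 0, 0, 0, 0, 0, ⟨0, 0⟩, 0⟩ 0 0)) (.cut .s 12124160 (.cut .l 2402986 (.cut .v 5242880 (.cut .d 6089357 (.pos 97 .pm ⟨0, 0, 0, 0, 0, 0, 0, 0, 0, ⟨0, 0⟩, 0⟩ 0 0) (.cut .v 4718592 (.pos 111 .pm ⟨0, 92248629, 0, 0, 0, 0, 0, 0, 0, ⟨0, 0⟩, 0⟩ 0 0) (.cut .l 2110258 (.cut .l 1963894 (.cut .s 12058624 (.cut .d 6202123 (.pos 112 .pm ⟨0, 0, 0, 0, 0, 0, 0, 0, 0, ⟨0, 0⟩, 0⟩ 0 0) (.cut .s 12025856 (.pos 112 .pm ⟨0, 94775748, 0, 0, 0, 0, 0, 0, 0, ⟨0, 0⟩, 0⟩ 0 0) (.pos 112 .pm ⟨0, 99060987, 0, 0, 0, 0, 0,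 0, 0, ⟨0, 0⟩, 0⟩ 0 0))) (.cut .d 6202123 (.cut .v 4980736 (.pos 113 .pm ⟨0, 97218569, 0, 0, 0, 0, 0, 0, 0, ⟨0, 0⟩, 0⟩ 0 0) (.cut .l 1890712 (.cut .l 1854121 (.cut .s 12091392 (.cut .s 12075008 (.pos 114 .pm ⟨0, 97203133, 0, 0, 0, 0, 0, 0, 0, ⟨0, 0⟩, 0⟩ 0 0) (.pos 114 .pm ⟨0, 99331354, 0, 0, 0, 0, 0, 0, 0, ⟨0, 0⟩, 0⟩ 0 0)) (.cut .d 6145740 (.pos 114 .pm ⟨0, 100695712, 0, 0, 0, 0, 0, 0, 0, ⟨0, 0⟩, 0⟩ 0 0) (.pos 114 .pm ⟨0, 104108884, 0, 0, 0, 0, 0, 0, 0, ⟨0, 0⟩, 0⟩ 0 0))) (.pos 114 .pm ⟨0, 100044390, 0, 0, 0, 0, 0, 0, 0, ⟨0, 0⟩, 0⟩ 0 0)) (.pos 114 .pm ⟨0, 99915575, 0, 0, 0, 0, 0, 0, 0, ⟨0, 0⟩, 0⟩ 0 0))) (.pos 112 .pm ⟨0, 106279008, 0, 0, 0, 0, 0, 0, 0,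 ⟨0, 0⟩, 0⟩ 0 0))) (.pos 112 .pm ⟨0, 97971325, 0, 0, 0, 0, 0, 0, 0, ⟨0, 0⟩, 0⟩ 0 0)) (.pos 112 .pm ⟨0, 97465966, 0, 0, 0, 0, 0, 0, 0, ⟨0, 0⟩, 0⟩ 0 0)))) (.cut .d 6089357 (.pos 98 .pm ⟨0, 89036313, 0, 0, 0, 0, 0, 0, 0, ⟨0, 0⟩, 0⟩ 0 0) (.cut .l 2110258 (.cut .v 5767168 (.cut .l 1963894 (.cut .s 12058624 (.cut .l 1890712 (.cut .d 6202123 (.cut .v 5505024 (.pos 117 .pm ⟨0, 83097920, 0, 0, 0, 0, 0, 0, 0, ⟨0, 0⟩, 0⟩ 0 0) (.pos 118 .pm ⟨0, 95004423, 0, 0, 0, 0, 0, 0, 0, ⟨0, 0⟩, 0⟩ 0 0)) (.cut .l 1854121 (.cut .s 12025856 (.cut .v 5505024 (.cut .s 12009472 (.pos 117 .pm ⟨0, 95043651, 0, 0, 0, 0, 0, 0, 0, ⟨0, 0⟩, 0⟩ 0 0) (.pos 117 .pm ⟨0, 97191261, 0, 0, 0, 0,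 0, 0, 0, ⟨0, 0⟩, 0⟩ 0 0)) (.pos 118 .pm ⟨0, 98275868, 0, 0, 0, 0, 0, 0, 0, ⟨0, 0⟩, 0⟩ 0 0)) (.cut .d 6258506 (.cut .v 5505024 (.cut .s 12042240 (.pos 117 .pm ⟨0, 98053884, 0, 0, 0, 0, 0, 0, 0, ⟨0, 0⟩, 0⟩ 0 0) (.pos 117 .pm ⟨0, 100230089, 0, 0, 0, 0, 0, 0, 0, ⟨0, 0⟩, 0⟩ 0 0)) (.pos 118 .pm ⟨0, 101359858, 0, 0, 0, 0, 0, 0, 0, ⟨0, 0⟩, 0⟩ 0 0)) (.pos 105 .pm ⟨0, 117967417, 0, 0, 0, 0, 0, 0, 0, ⟨0, 0⟩, 0⟩ 0 0))) (.pos 105 .pm ⟨0, 99243351, 0, 0, 0, 0, 0, 0, 0, ⟨0, 0⟩, 0⟩ 0 0))) (.pos 105 .pm ⟨0, 96050120, 0, 0, 0, 0, 0, 0, 0, ⟨0, 0⟩, 0⟩ 0 0)) (.cut .d 6202123 (.cut .v 5505024 (.cut .l 1890712 (.cut .l 1854121 (.cut .s 12091392 (.cut .s 12075008 (.pos 117 .pm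 ⟨0, 98508460, 0, 0, 0, 0, 0, 0, 0, ⟨0, 0⟩, 0⟩ 0 0) (.cut .d 6145740 (.pos 117 .pm ⟨0, 98822694, 0, 0, 0, 0, 0, 0, 0, ⟨0, 0⟩, 0⟩ 0 0) (.pos 117 .pm ⟨0, 101998724, 0, 0, 0, 0, 0, 0, 0, ⟨0, 0⟩, 0⟩ 0 0))) (.cut .d 6145740 (.pos 117 .pm ⟨0, 101796064, 0, 0, 0, 0, 0, 0, 0, ⟨0, 0⟩, 0⟩ 0 0) (.pos 117 .pm ⟨0, 105254409, 0, 0, 0, 0, 0, 0, 0, ⟨0, 0⟩, 0⟩ 0 0))) (.pos 117 .pm ⟨0, 101151976, 0, 0, 0, 0, 0, 0, 0, ⟨0, 0⟩, 0⟩ 0 0)) (.pos 117 .pm ⟨0, 101021551, 0, 0, 0, 0, 0, 0, 0, ⟨0, 0⟩, 0⟩ 0 0)) (.pos 118 .pm ⟨0, 103981814, 0, 0, 0, 0, 0, 0, 0, ⟨0, 0⟩, 0⟩ 0 0)) (.pos 105 .pm ⟨0, 110751126, 0, 0, 0, 0, 0, 0, 0, ⟨0, 0⟩, 0⟩ 0 0))) (.pos 105 .pm ⟨0, 100160495, 0, 0, 0,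 0, 0, 0, 0, ⟨0, 0⟩, 0⟩ 0 0)) (.cut .s 12058624 (.pos 106 .pm ⟨0, 101582747, 0, 0, 0, 0, 0, 0, 0, ⟨0, 0⟩, 0⟩ 0 0) (.pos 106 .pm ⟨0, 110934095, 0, 0, 0, 0, 0, 0, 0, ⟨0, 0⟩, 0⟩ 0 0))) (.pos 98 .pm ⟨0, 100971207, 0, 0, 0, 0, 0, 0, 0, ⟨0, 0⟩, 0⟩ 0 0)))) (.pos 81 .pm ⟨0, 89991314, 0, 0, 0, 0, 0, 0, 0, ⟨0, 0⟩, 0⟩ 0 0)) (.cut .l 2402986 (.cut .v 5242880 (.cut .l 2110258 (.cut .d 6089357 (.cut .v 4718592 (.pos 111 .pm ⟨0, 97721899, 0, 0, 0, 0, 0, 0, 0, ⟨0, 0⟩, 0⟩ 0 0) (.cut .s 12189696 (.cut .s 12156928 (.pos 112 .pm ⟨0, 97857157, 0, 0, 0, 0, 0, 0, 0, ⟨0, 0⟩, 0⟩ 0 0) (.cut .d 5976591 (.pos 112 .pm ⟨0, 75016867, 0, 0, 0, 0, 0, 0, 0, ⟨0, 0⟩, 0⟩ 0 0) (.pos 112 .pm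 ⟨0, 104326449, 0, 0, 0, 0, 0, 0, 0, ⟨0, 0⟩, 0⟩ 0 0))) (.pos 112 .pm ⟨0, 108070261, 0, 0, 0, 0, 0, 0, 0, ⟨0, 0⟩, 0⟩ 0 0))) (.cut .v 4718592 (.pos 111 .pm ⟨0, 108684993, 0, 0, 0, 0, 0, 0, 0, ⟨0, 0⟩, 0⟩ 0 0) (.pos 112 .pm ⟨0, 116697554, 0, 0, 0, 0, 0, 0, 0, ⟨0, 0⟩, 0⟩ 0 0))) (.pos 97 .pm ⟨0, 108394033, 0, 0, 0, 0, 0, 0, 0, ⟨0, 0⟩, 0⟩ 0 0)) (.cut .d 6089357 (.cut .s 12189696 (.cut .s 12156928 (.pos 98 .pm ⟨0, 101489273, 0, 0, 0, 0, 0, 0, 0, ⟨0, 0⟩, 0⟩ 0 0) (.pos 98 .pm ⟨0, 105999170, 0, 0, 0, 0, 0, 0, 0, ⟨0, 0⟩, 0⟩ 0 0)) (.pos 98 .pm ⟨0, 112087694, 0, 0, 0, 0, 0, 0, 0, ⟨0, 0⟩, 0⟩ 0 0)) (.pos 98 .pm ⟨0, 121665882, 0, 0, 0, 0, 0, 0, 0, ⟨0, 0⟩, 0⟩ 0 0))) (.pos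 81 .pm ⟨0, 107820319, 0, 0, 0, 0, 0, 0, 0, ⟨0, 0⟩, 0⟩ 0 0)))) (.pos 81 .pm ⟨0, 89229105, 0, 0, 0, 0, 0, 0, 0, ⟨0, 0⟩, 0⟩ 0 0))) (.pos 81 .pm ⟨0, 70462695, 0, 0, 0, 0, 0, 0, 0, ⟨0, 0⟩, 0⟩ 0 0)) (.cut .s 11993088 (.pos 82 .pm ⟨0, 73031693, 0, 0, 0, 0, 0, 0, 0, ⟨0, 0⟩, 0⟩ 0 0) (.cut .s 12124160 (.pos 82 .pm ⟨0, 100755851, 0, 0, 0, 0, 0, 0, 0, ⟨0, 0⟩, 0⟩ 0 0) (.pos 82 .pm ⟨0, 119499953, 0, 0, 0, 0, 0, 0, 0, ⟨0, 0⟩, 0⟩ 0 0)))) (.cut .s 11993088 (.cut .l 4159351 (.cut .v 6291456 (.cut .d 6765953 (.cut .l 2988441 (.cut .s 11862016 (.cut .v 5242880 (.pos 97 .pm ⟨0, 77992339, 0, 0, 0, 0, 0, 0, 0, ⟨0, 0⟩, 0⟩ 0 0) (.cut .d 6540421 (.pos 98 .pm ⟨0, 47331537, 0, 0,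 0, 0, 0, 0, 0, ⟨0, 0⟩, 0⟩ 0 0) (.cut .s 11796480 (.pos 98 .pm ⟨0, 80964258, 0, 0, 0, 0, 0, 0, 0, ⟨0, 0⟩, 0⟩ 0 0) (.cut .v 5767168 (.pos 105 .pm ⟨0, 90074275, 0, 0, 0, 0, 0, 0, 0, ⟨0, 0⟩, 0⟩ 0 0) (.pos 106 .pm ⟨0, 92059086, 0, 0, 0, 0, 0, 0, 0, ⟨0, 0⟩, 0⟩ 0 0))))) (.cut .l 2402986 (.cut .v 5242880 (.cut .s 11927552 (.pos 97 .pm ⟨0, 89244365, 0, 0, 0, 0, 0, 0, 0, ⟨0, 0⟩, 0⟩ 0 0) (.cut .s 11960320 (.pos 97 .pm ⟨0, 94406391, 0, 0, 0, 0, 0, 0, 0, ⟨0, 0⟩, 0⟩ 0 0) (.pos 97 .pm ⟨0, 98570557, 0, 0, 0, 0, 0, 0, 0, ⟨0, 0⟩, 0⟩ 0 0))) (.cut .d 6540421 (.cut .l 2110258 (.cut .l 1963894 (.cut .s 11927552 (.cut .v 5767168 (.cut .d 6427655 (.pos 105 .pm ⟨0, 85518704,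 0, 0, 0, 0, 0, 0, 0, ⟨0, 0⟩, 0⟩ 0 0) (.pos 105 .pm ⟨0, 92223480, 0, 0, 0, 0, 0, 0, 0, ⟨0, 0⟩, 0⟩ 0 0)) (.pos 106 .pm ⟨0, 92540475, 0, 0, 0, 0, 0, 0, 0, ⟨0, 0⟩, 0⟩ 0 0)) (.cut .v 5767168 (.cut .d 6427655 (.cut .s 11960320 (.pos 105 .pm ⟨0, 92840091, 0, 0, 0, 0, 0, 0, 0, ⟨0, 0⟩, 0⟩ 0 0) (.cut .s 11976704 (.pos 105 .pm ⟨0, 95649034, 0, 0, 0, 0, 0, 0, 0, ⟨0, 0⟩, 0⟩ 0 0) (.pos 105 .pm ⟨0, 97853350, 0, 0, 0, 0, 0, 0, 0, ⟨0, 0⟩, 0⟩ 0 0))) (.pos 105 .pm ⟨0, 102024164, 0, 0, 0, 0, 0, 0, 0, ⟨0, 0⟩, 0⟩ 0 0)) (.pos 106 .pm ⟨0, 101828192, 0, 0, 0, 0, 0, 0, 0, ⟨0, 0⟩, 0⟩ 0 0))) (.pos 98 .pm ⟨0, 95274792, 0, 0, 0, 0, 0, 0, 0, ⟨0, 0⟩, 0⟩ 0 0)) (.pos 98 .pm ⟨0, 94884383,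 0, 0, 0, 0, 0, 0, 0, ⟨0, 0⟩, 0⟩ 0 0)) (.pos 98 .pm ⟨0, 107214857, 0, 0, 0, 0, 0, 0, 0, ⟨0, 0⟩, 0⟩ 0 0))) (.pos 81 .pm ⟨0, 95787480, 0, 0, 0, 0, 0, 0, 0, ⟨0, 0⟩, 0⟩ 0 0))) (.pos 81 .pm ⟨0, 85721634, 0, 0, 0, 0, 0, 0, 0, ⟨0, 0⟩, 0⟩ 0 0)) (.cut .v 5242880 (.pos 97 .pm ⟨0, 106411157, 0, 0, 0, 0, 0, 0, 0, ⟨0, 0⟩, 0⟩ 0 0) (.cut .v 5767168 (.pos 105 .pm ⟨0, 113342430, 0, 0, 0, 0, 0, 0, 0, ⟨0, 0⟩, 0⟩ 0 0) (.pos 106 .pm ⟨0, 117356752, 0, 0, 0, 0, 0, 0, 0, ⟨0, 0⟩, 0⟩ 0 0)))) (.cut .s 11862016 (.cut .d 6765953 (.pos 82 .pm ⟨0, 88476528, 0, 0, 0, 0, 0, 0, 0, ⟨0, 0⟩, 0⟩ 0 0) (.void 82 ⟨0, 100000, 0, 0, 0, 0, 0, 0, 0, ⟨0, 0⟩, 0⟩ 0 0)) (.pos 82 .pm ⟨0, 119288569, 0,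 0, 0, 0, 0, 0, 0, ⟨0, 0⟩, 0⟩ 0 0))) (.pos 5 .pm ⟨0, 97743150, 0, 0, 0, 0, 0, 0, 0, ⟨0, 0⟩, 0⟩ 0 0)) (.cut .v 6291456 (.cut .s 12124160 (.cut .v 5242880 (.pos 97 .pm ⟨0, 119823508, 0, 0, 0, 0, 0, 0, 0, ⟨0, 0⟩, 0⟩ 0 0) (.cut .s 12058624 (.cut .v 5767168 (.pos 105 .pm ⟨0, 120409960, 0, 0, 0, 0, 0, 0, 0, ⟨0, 0⟩, 0⟩ 0 0) (.void 106 ⟨0, 100000, 0, 0, 0, 0, 0, 0, 0, ⟨0, 0⟩, 0⟩ 0 0)) (.void 98 ⟨0, 0, 0, 100000, 0, 0, 0, 0, 0, ⟨0, 0⟩, 0⟩ 0 0))) (.void 81 ⟨0, 0, 0, 100000, 0, 0, 0, 0, 0, ⟨0, 0⟩, 0⟩ 0 0)) (.void 82 ⟨0, 100000, 0, 0, 0, 0, 0, 0, 0, ⟨0, 0⟩, 0⟩ 0 0)))) (.cut .d 6314889 (.pos 5 .pm ⟨0, 70200693, 0, 0, 0, 0, 0, 0, 0, ⟨0, 0⟩, 0⟩ 0 0) (.pos 5 .pm ⟨0, 115662461,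 0, 0, 0, 0, 0, 0, 0, ⟨0, 0⟩, 0⟩ 0 0)))))) (.cut .d 3608508 (.pos 3 .pm ⟨0, 0, 0, 0, 0, 0, 0, 0, 0, ⟨0, 0⟩, 0⟩ 0 0) (.cut .d 5412762 (.pos 3 .pm ⟨0, 0, 0, 0, 0, 0, 0, 0, 0, ⟨0, 0⟩, 0⟩ 0 0) (.cut .d 6314889 (.pos 3 .pm ⟨0, 97152619, 0, 0, 0, 0, 0, 0, 0, ⟨0, 0⟩, 0⟩ 0 0) (.pos 3 .pm ⟨0, 162716829, 0, 0, 0, 0, 0, 0, 0, ⟨0, 0⟩, 0⟩ 0 0))))) (.cut .v 268435456 (.cut .d 3608508 (.cut .v 67108864 (.cut .d 1804254 (.cut .v 33554432 (.cut .d 902127 (.cut .d 451063 (.cut .v 25165824 (.cut .v 20971520 (.pos 15 .pp ⟨163887719, 0, 0, 0, 0, 0, 0, 0, 0, ⟨0, 0⟩, 0⟩ 0 0) (.pos 16 .pp ⟨336513248, 0, 0, 0, 0, 0, 0, 0, 0, ⟨0, 0⟩, 0⟩ 0 0)) (.cut .v 29360128 (.pos 29 .pp ⟨481269628,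 0, 0, 0, 0, 0, 0, 0, 0, ⟨0, 0⟩, 0⟩ 0 0) (.pos 30 .pp ⟨651837947, 0, 0, 0, 0, 0, 0, 0, 0, ⟨0, 0⟩, 0⟩ 0 0))) (.pos 11 .pp ⟨176792745, 0, 0, 0, 0, 0, 0, 0, 0, ⟨0, 0⟩, 0⟩ 0 0)) (.pos 11 .pp ⟨0, 0, 0, 0, 0, 0, 0, 0, 0, ⟨0, 0⟩, 0⟩ 0 0)) (.cut .v 50331648 (.cut .d 902127 (.cut .v 41943040 (.cut .d 451063 (.pos 33 .pp ⟨982699874, 0, 0, 0, 0, 0, 0, 0, 0, ⟨0, 0⟩, 0⟩ 0 0) (.pos 33 .pp ⟨741546132, 0, 0, 0, 0, 0, 0, 0, 0, ⟨0, 0⟩, 0⟩ 0 0)) (.cut .d 451063 (.pos 34 .pp ⟨1621152003, 0, 0, 0, 0, 0, 0, 0, 0, ⟨0, 0⟩, 0⟩ 0 0) (.pos 34 .pp ⟨1195915175, 0, 0, 0, 0, 0, 0, 0, 0, ⟨0, 0⟩, 0⟩ 0 0))) (.pos 31 .pp ⟨599786514, 0, 0, 0, 0, 0, 0, 0, 0, ⟨0, 0⟩, 0⟩ 0 0)) (.cut .d 902127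 (.cut .v 58720256 (.pos 51 .pp ⟨2111441814, 0, 0, 0, 0, 0, 0, 0, 0, ⟨0, 0⟩, 0⟩ 0 0) (.pos 52 .pp ⟨2975663838, 0, 0, 0, 0, 0, 0, 0, 0, ⟨0, 0⟩, 0⟩ 0 0)) (.cut .v 58720256 (.pos 51 .pp ⟨1268766745, 0, 0, 0, 0, 0, 0, 0, 0, ⟨0, 0⟩, 0⟩ 0 0) (.pos 52 .pp ⟨1772751308, 0, 0, 0, 0, 0, 0, 0, 0, ⟨0, 0⟩, 0⟩ 0 0))))) (.pos 10 .pp ⟨0, 0, 0, 0, 0, 0, 0, 0, 0, ⟨0, 0⟩, 0⟩ 0 0)) (.cut .v 134217728 (.cut .v 100663296 (.cut .v 83886080 (.cut .d 1804254 (.cut .d 902127 (.pos 91 .pp ⟨4865806024, 0, 0, 0, 0, 0, 0, 0, 0, ⟨0, 0⟩, 0⟩ 0 0) (.cut .d 1353190 (.cut .v 75497472 (.pos 101 .pp ⟨2736709109, 0, 0, 0, 0, 0, 0, 0, 0, ⟨0, 0⟩, 0⟩ 0 0) (.cut .d 1127658 (.pos 102 .pp ⟨4331498794,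 0, 0, 0, 0, 0, 0, 0, 0, ⟨0, 0⟩, 0⟩ 0 0) (.pos 102 .pp ⟨3222033272, 288731670, 0, 0, 0, 0, 0, 0, 0, ⟨0, 0⟩, 0⟩ 0 0))) (.pos 91 .pp ⟨1999949370, 51163300, 0, 0, 0, 0, 0, 0, 0, ⟨0, 0⟩, 0⟩ 0 0))) (.pos 91 .pp ⟨0, 352311818, 0, 0, 0, 0, 0, 0, 0, ⟨0, 0⟩, 0⟩ 0 0)) (.void 92 ⟨38196, 61804, 0, 0, 0, 0, 0, 0, 0, ⟨0, 0⟩, 0⟩ 0 0)) (.void 72 ⟨38196, 61804, 0, 0, 0, 0, 0, 0, 0, ⟨0, 0⟩, 0⟩ 0 0)) (.void 68 ⟨0, 0, 0, 100000, 0, 0, 0, 0, 0, ⟨0, 0⟩, 0⟩ 0 0))) (.pos 56 .pp ⟨0, 85089020, 0, 0, 0, 0, 0, 0, 0, ⟨0, 0⟩, 0⟩ 0 0)) (.void 66 ⟨0, 0, 0, 100000, 0, 0, 0, 0, 0, ⟨0, 0⟩, 0⟩ 0 0)))),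
    by decide +kernel⟩

def covers18 : cell.Covers table row18.1 :=
  ⟨(.cut .d 0 (.cut .v 16777216 (.cut .d (-8388608) (.void 1 ⟨0, 0, 0, 0, 0, 100000, 0, 0, 0, ⟨0, 0⟩, 0⟩ 0 0) (.cut .d (-4194304) (.void 1 ⟨0, 0, 0, 0, 0, 100000, 0, 0, 0, ⟨0, 0⟩, 0⟩ 0 0) (.cut .d (-2097152) (.void 1 ⟨0, 0, 0, 0, 0, 100000, 0, 0, 0, ⟨0, 0⟩, 0⟩ 0 0) (.cut .d (-1048576) (.void 1 ⟨0, 0, 0, 0, 0, 100000, 0, 0, 0, ⟨0, 0⟩, 0⟩ 0 0) (.cut .v 8388608 (.cut .v 4194304 (.void 4 ⟨0, 0, 100000, 0, 0, 0, 0, 0, 0, ⟨0, 0⟩, 0⟩ 0 0) (.pos 5 .mm ⟨0, 0, 28146684, 0, 0, 227228167, 0, 0, 0, ⟨0, 0⟩, 0⟩ 0 0)) (.cut .d (-524288) (.cut .v 12582912 (.pos 6 .mm ⟨0, 0, 0, 0, 0, 435001250, 0, 0, 0,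 ⟨0, 0⟩, 0⟩ 0 0) (.cut .s 12484608 (.pos 7 .mm ⟨8540873, 0, 0, 0, 0, 572662307, 0, 0, 0, ⟨0, 0⟩, 0⟩ 0 0) (.pos 7 .mm ⟨13681306, 0, 0, 0, 0, 693726122, 0, 0, 0, ⟨0, 0⟩, 0⟩ 0 0))) (.cut .v 12582912 (.pos 6 .mm ⟨0, 0, 0, 0, 0, 312320714, 0, 0, 0, ⟨0, 0⟩, 0⟩ 0 0) (.cut .l 6501171 (.cut .v 14680064 (.pos 8 .mm ⟨0, 0, 0, 0, 0, 463669394, 0, 0, 0, ⟨0, 0⟩, 0⟩ 0 0) (.cut .s 12484608 (.cut .d (-262144) (.pos 9 .mm ⟨56793937, 0, 0, 0, 0, 479527161, 0, 0, 0, ⟨0, 0⟩, 0⟩ 0 0) (.pos 9 .mm ⟨0, 0, 0, 0, 0, 504069144, 0, 0, 0, ⟨0, 0⟩, 0⟩ 0 0)) (.cut .d (-262144) (.pos 9 .mm ⟨18002879, 0, 0, 0, 0, 651867821, 0, 0, 0, ⟨0, 0⟩, 0⟩ 0 0) (.pos 9 .mm ⟨0, 0, 0, 0, 0, 601750396,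 0, 0, 0, ⟨0, 0⟩, 0⟩ 0 0)))) (.pos 7 .mm ⟨26034896, 0, 0, 0, 0, 351120128, 0, 0, 0, ⟨0, 0⟩, 0⟩ 0 0))))))))) (.cut .v 268435456 (.cut .v 67108864 (.cut .v 33554432 (.cut .d (-8388608) (.void 11 ⟨100000, 0, 0, 0, 0, 0, 0, 0, 0, ⟨0, 0⟩, 0⟩ 0 0) (.cut .d (-4194304) (.void 11 ⟨100000, 0, 0, 0, 0, 0, 0, 0, 0, ⟨0, 0⟩, 0⟩ 0 0) (.cut .d (-2097152) (.void 11 ⟨100000, 0, 0, 0, 0, 0, 0, 0, 0, ⟨0, 0⟩, 0⟩ 0 0) (.cut .d (-1048576) (.void 11 ⟨100000, 0, 0, 0, 0, 0, 0, 0, 0, ⟨0, 0⟩, 0⟩ 0 0) (.cut .v 25165824 (.cut .v 20971520 (.cut .d (-524288) (.cut .v 18874368 (.cut .s 12484608 (.pos 17 .mp ⟨460039179, 0, 0, 0, 0, 0, 0, 0, 0, ⟨0, 0⟩, 0⟩ 0 0) (.pos 17 .mp ⟨551889934,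 0, 0, 0, 0, 0, 0, 0, 0, ⟨0, 0⟩, 0⟩ 0 0)) (.pos 18 .mp ⟨625068839, 0, 0, 0, 0, 0, 0, 0, 0, ⟨0, 0⟩, 0⟩ 0 0)) (.cut .l 6501171 (.cut .v 18874368 (.cut .d (-262144) (.cut .s 12484608 (.pos 17 .mp ⟨398361175, 0, 0, 0, 0, 24098098, 0, 0, 0, ⟨0, 0⟩, 0⟩ 0 0) (.pos 17 .mp ⟨458107544, 0, 0, 0, 0, 59294681, 0, 0, 0, ⟨0, 0⟩, 0⟩ 0 0)) (.cut .v 17825792 (.cut .l 4159351 (.cut .l 2988441 (.cut .d (-131072) (.cut .s 12484608 (.pos 19 .mp ⟨225568707, 0, 0, 0, 0, 252744258, 0, 0, 0, ⟨0, 0⟩, 0⟩ 0 0) (.pos 19 .mp ⟨255584286, 0, 0, 0, 0, 326731941, 0, 0, 0, ⟨0, 0⟩, 0⟩ 0 0)) (.cut .d (-65536) (.cut .s 12484608 (.pos 19 .mp ⟨216781671, 0, 0, 0, 0, 189621517, 0, 0, 0, ⟨0, 0⟩,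 0⟩ 0 0) (.cut .d (-98304) (.cut .v 17301504 (.pos 21 .mp ⟨223150778, 0, 0, 0, 0, 322569918, 0, 0, 0, ⟨0, 0⟩, 0⟩ 0 0) (.pos 22 .mp ⟨510120579, 0, 0, 0, 0, 0, 0, 0, 0, ⟨0, 0⟩, 0⟩ 0 0)) (.pos 19 .mp ⟨236699785, 0, 0, 0, 0, 0, 0, 0, 0, ⟨0, 0⟩, 0⟩ 0 0))) (.pos 19 .mp ⟨217931343, 0, 0, 0, 0, 0, 0, 0, 0, ⟨0, 0⟩, 0⟩ 0 0))) (.pos 19 .mp ⟨284904655, 0, 0, 0, 0, 70153518, 0, 0, 0, ⟨0, 0⟩, 0⟩ 0 0)) (.pos 19 .mp ⟨207724411, 0, 0, 0, 0, 0, 0, 0, 0, ⟨0, 0⟩, 0⟩ 0 0)) (.pos 20 .mp ⟨432526366, 0, 0, 0, 0, 0, 0, 0, 0, ⟨0, 0⟩, 0⟩ 0 0))) (.pos 18 .mp ⟨524301282, 0, 0, 0, 0, 0, 0, 0, 0, ⟨0, 0⟩, 0⟩ 0 0)) (.pos 15 .mp ⟨343840531, 0, 0, 0, 0, 0, 0, 0, 0, ⟨0, 0⟩, 0⟩ 0 0))) (.cut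 .d (-524288) (.pos 16 .mp ⟨811387137, 0, 0, 0, 0, 0, 0, 0, 0, ⟨0, 0⟩, 0⟩ 0 0) (.cut .l 6501171 (.pos 16 .mp ⟨685962014, 0, 0, 0, 0, 0, 0, 0, 0, ⟨0, 0⟩, 0⟩ 0 0) (.pos 16 .mp ⟨562077196, 0, 0, 0, 0, 0, 0, 0, 0, ⟨0, 0⟩, 0⟩ 0 0)))) (.cut .v 29360128 (.pos 29 .mp ⟨965431130, 0, 0, 0, 0, 0, 0, 0, 0, ⟨0, 0⟩, 0⟩ 0 0) (.pos 30 .mp ⟨1240395061, 0, 0, 0, 0, 0, 0, 0, 0, ⟨0, 0⟩, 0⟩ 0 0))))))) (.void 12 ⟨100000, 0, 0, 0, 0, 0, 0, 0, 0, ⟨0, 0⟩, 0⟩ 0 0)) (.void 57 ⟨100000, 0, 0, 0, 0, 0, 0, 0, 0, ⟨0, 0⟩, 0⟩ 0 0)) (.void 66 ⟨94492, 0, 0, 5508, 0, 0, 0, 0, 0, ⟨0, 0⟩, 0⟩ 0 0))) (.cut .v 16777216 (.cut .v 8388608 (.cut .v 4194304 (.cut .v 2097152 (.cut .v 1048576 (.pos 103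 .pm ⟨0, 0, 2434217, 0, 0, 0, 0, 0, 15772618, ⟨0, 0⟩, 1983364⟩ 0 0) (.pos 104 .pm ⟨0, 20362965, 0, 0, 0, 0, 0, 0, 0, ⟨0, 0⟩, 0⟩ 0 0)) (.cut .d 3095263 (.pos 76 .pm ⟨0, 0, 29157284, 0, 0, 0, 0, 0, 0, ⟨0, 0⟩, 0⟩ 0 0) (.cut .d 4642894 (.pos 76 .pm ⟨0, 0, 0, 0, 0, 0, 0, 0, 0, ⟨0, 0⟩, 0⟩ 0 0) (.cut .l 6501171 (.cut .d 5416710 (.cut .s 12484608 (.pos 76 .pm ⟨0, 0, 0, 0, 0, 0, 0, 0, 0, ⟨0, 0⟩, 0⟩ 0 0) (.cut .d 5029802 (.pos 76 .pm ⟨0, 0, 0, 0, 0, 0, 0, 0, 0, ⟨0, 0⟩, 0⟩ 0 0) (.pos 76 .pm ⟨0, 107940830, 0, 0, 0, 0, 0, 0, 0, ⟨0, 0⟩, 0⟩ 0 0))) (.cut .s 12484608 (.cut .d 5803618 (.pos 76 .pm ⟨0, 98457743, 0, 0, 0, 0, 0, 0, 0, ⟨0, 0⟩, 0⟩ 0 0) (.pos 76 .pm ⟨0, 118366927,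 0, 0, 0, 0, 0, 0, 0, ⟨0, 0⟩, 0⟩ 0 0)) (.pos 76 .pm ⟨0, 145374481, 0, 0, 0, 0, 0, 0, 0, ⟨0, 0⟩, 0⟩ 0 0))) (.pos 76 .pm ⟨0, 92128127, 0, 0, 0, 0, 0, 0, 0, ⟨0, 0⟩, 0⟩ 0 0))))) (.cut .d 3095263 (.pos 5 .pm ⟨0, 0, 5134368, 0, 0, 0, 0, 0, 0, ⟨0, 0⟩, 0⟩ 0 0) (.cut .d 4642894 (.pos 5 .pm ⟨0, 0, 0, 0, 0, 0, 0, 0, 0, ⟨0, 0⟩, 0⟩ 0 0) (.cut .l 6501171 (.cut .d 5416710 (.cut .v 6291456 (.cut .s 12484608 (.pos 81 .pm ⟨0, 0, 0, 0, 0, 0, 0, 0, 0, ⟨0, 0⟩, 0⟩ 0 0) (.cut .d 5029802 (.pos 81 .pm ⟨0, 0, 0, 0, 0, 0, 0, 0, 0, ⟨0, 0⟩, 0⟩ 0 0) (.cut .s 12599296 (.cut .v 5242880 (.pos 97 .pm ⟨0, 109651844, 0, 0, 0, 0, 0, 0, 0, ⟨0, 0⟩, 0⟩ 0 0) (.pos 98 .pm ⟨0, 124092623, 0, 0,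 0, 0, 0, 0, 0, ⟨0, 0⟩, 0⟩ 0 0)) (.pos 81 .pm ⟨0, 135119943, 0, 0, 0, 0, 0, 0, 0, ⟨0, 0⟩, 0⟩ 0 0)))) (.pos 82 .pm ⟨0, 111308606, 0, 0, 0, 0, 0, 0, 0, ⟨0, 0⟩, 0⟩ 0 0)) (.cut .l 4159351 (.cut .v 6291456 (.cut .s 12484608 (.cut .l 2988441 (.cut .d 5803618 (.cut .l 2402986 (.cut .v 5242880 (.cut .d 5610164 (.pos 97 .pm ⟨0, 98832831, 0, 0, 0, 0, 0, 0, 0, ⟨0, 0⟩, 0⟩ 0 0) (.cut .s 12369920 (.pos 97 .pm ⟨0, 103416837, 0, 0, 0, 0, 0, 0, 0, ⟨0, 0⟩, 0⟩ 0 0) (.pos 97 .pm ⟨0, 124465528, 0, 0, 0, 0, 0, 0, 0, ⟨0, 0⟩, 0⟩ 0 0))) (.cut .s 12369920 (.pos 98 .pm ⟨0, 107511253, 0, 0, 0, 0, 0, 0, 0, ⟨0, 0⟩, 0⟩ 0 0) (.pos 98 .pm ⟨0, 127431570, 0, 0, 0, 0, 0, 0, 0, ⟨0, 0⟩, 0⟩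 0 0))) (.pos 81 .pm ⟨0, 109013351, 0, 0, 0, 0, 0, 0, 0, ⟨0, 0⟩, 0⟩ 0 0)) (.cut .v 5242880 (.cut .s 12369920 (.cut .d 5997072 (.pos 97 .pm ⟨0, 116766238, 0, 0, 0, 0, 0, 0, 0, ⟨0, 0⟩, 0⟩ 0 0) (.void 97 ⟨0, 0, 0, 100000, 0, 0, 0, 0, 0, ⟨0, 0⟩, 0⟩ 0 0)) (.void 97 ⟨0, 0, 0, 100000, 0, 0, 0, 0, 0, ⟨0, 0⟩, 0⟩ 0 0)) (.pos 98 .pm ⟨0, 144382205, 0, 0, 0, 0, 0, 0, 0, ⟨0, 0⟩, 0⟩ 0 0))) (.pos 81 .pm ⟨0, 122646689, 0, 0, 0, 0, 0, 0, 0, ⟨0, 0⟩, 0⟩ 0 0)) (.cut .v 5242880 (.cut .d 5803618 (.pos 97 .pm ⟨0, 152621986, 0, 0, 0, 0, 0, 0, 0, ⟨0, 0⟩, 0⟩ 0 0) (.void 97 ⟨0, 0, 0, 100000, 0, 0, 0, 0, 0, ⟨0, 0⟩, 0⟩ 0 0)) (.pos 98 .pm ⟨0, 184225129, 0, 0, 0, 0, 0, 0, 0, ⟨0, 0⟩,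 0⟩ 0 0))) (.cut .s 12484608 (.pos 82 .pm ⟨0, 147983741, 0, 0, 0, 0, 0, 0, 0, ⟨0, 0⟩, 0⟩ 0 0) (.void 82 ⟨0, 100000, 0, 0, 0, 0, 0, 0, 0, ⟨0, 0⟩, 0⟩ 0 0))) (.pos 5 .pm ⟨0, 154097168, 0, 0, 0, 0, 0, 0, 0, ⟨0, 0⟩, 0⟩ 0 0))) (.pos 5 .pm ⟨0, 118867485, 0, 0, 0, 0, 0, 0, 0, ⟨0, 0⟩, 0⟩ 0 0))))) (.cut .d 3095263 (.pos 3 .pm ⟨0, 0, 0, 0, 0, 0, 0, 0, 0, ⟨0, 0⟩, 0⟩ 0 0) (.cut .d 4642894 (.pos 3 .pm ⟨0, 0, 0, 0, 0, 0, 0, 0, 0, ⟨0, 0⟩, 0⟩ 0 0) (.pos 3 .pm ⟨0, 182095289, 0, 0, 0, 0, 0, 0, 0, ⟨0, 0⟩, 0⟩ 0 0)))) (.cut .v 268435456 (.cut .d 3095263 (.cut .v 67108864 (.cut .d 1547631 (.cut .v 33554432 (.cut .d 773815 (.cut .d 386907 (.cut .v 25165824 (.cut .v 20971520 (.pos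 15 .pp ⟨233671089, 0, 0, 0, 0, 0, 0, 0, 0, ⟨0, 0⟩, 0⟩ 0 0) (.pos 16 .pp ⟨480590338, 0, 0, 0, 0, 0, 0, 0, 0, ⟨0, 0⟩, 0⟩ 0 0)) (.cut .v 29360128 (.pos 29 .pp ⟨697777455, 0, 0, 0, 0, 0, 0, 0, 0, ⟨0, 0⟩, 0⟩ 0 0) (.pos 30 .pp ⟨926842963, 0, 0, 0, 0, 0, 0, 0, 0, ⟨0, 0⟩, 0⟩ 0 0))) (.pos 11 .pp ⟨265613893, 0, 0, 0, 0, 0, 0, 0, 0, ⟨0, 0⟩, 0⟩ 0 0)) (.pos 11 .pp ⟨0, 0, 0, 0, 0, 0, 0, 0, 0, ⟨0, 0⟩, 0⟩ 0 0)) (.cut .v 50331648 (.cut .d 773815 (.cut .v 41943040 (.cut .d 386907 (.pos 33 .pp ⟨1356197951, 0, 0, 0, 0, 0, 0, 0, 0, ⟨0, 0⟩, 0⟩ 0 0) (.pos 33 .pp ⟨1061237326, 0, 0, 0, 0, 0, 0, 0, 0, ⟨0, 0⟩, 0⟩ 0 0)) (.cut .v 46137344 (.pos 41 .pp ⟨1647260947, 0, 0, 0, 0, 0,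 0, 0, 0, ⟨0, 0⟩, 0⟩ 0 0) (.pos 42 .pp ⟨1964913599, 0, 0, 0, 0, 0, 0, 0, 0, ⟨0, 0⟩, 0⟩ 0 0))) (.pos 31 .pp ⟨874737732, 0, 0, 0, 0, 0, 0, 0, 0, ⟨0, 0⟩, 0⟩ 0 0)) (.cut .d 773815 (.cut .v 58720256 (.pos 51 .pp ⟨2655528061, 0, 0, 0, 0, 0, 0, 0, 0, ⟨0, 0⟩, 0⟩ 0 0) (.pos 52 .pp ⟨3742464435, 0, 0, 0, 0, 0, 0, 0, 0, ⟨0, 0⟩, 0⟩ 0 0)) (.cut .v 58720256 (.pos 51 .pp ⟨1766350599, 0, 0, 0, 0, 0, 0, 0, 0, ⟨0, 0⟩, 0⟩ 0 0) (.cut .l 6501171 (.pos 52 .pp ⟨2617878724, 0, 0, 0, 0, 0, 0, 0, 0, ⟨0, 0⟩, 0⟩ 0 0) (.pos 52 .pp ⟨2302415719, 0, 0, 0, 0, 0, 0, 0, 0, ⟨0, 0⟩, 0⟩ 0 0)))))) (.pos 10 .pp ⟨0, 0, 0, 0, 0, 0, 0, 0, 0, ⟨0, 0⟩, 0⟩ 0 0)) (.cut .v 134217728 (.cut .v 100663296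 (.cut .d 1547631 (.cut .d 773815 (.pos 71 .pp ⟨9024394840, 0, 0, 0, 0, 0, 0, 0, 0, ⟨0, 0⟩, 0⟩ 0 0) (.cut .v 83886080 (.cut .d 1160723 (.cut .l 6501171 (.pos 91 .pp ⟨4914135868, 0, 0, 0, 0, 0, 0, 0, 0, ⟨0, 0⟩, 0⟩ 0 0) (.cut .v 75497472 (.cut .d 967269 (.pos 101 .pp ⟨3923259090, 0, 0, 0, 0, 0, 0, 0, 0, ⟨0, 0⟩, 0⟩ 0 0) (.pos 101 .pp ⟨3117677699, 0, 0, 0, 0, 0, 0, 0, 0, ⟨0, 0⟩, 0⟩ 0 0)) (.cut .l 8842991 (.pos 102 .pp ⟨5155035594, 0, 0, 0, 0, 0, 0, 0, 0, ⟨0, 0⟩, 0⟩ 0 0) (.cut .d 967269 (.cut .v 79691776 (.pos 123 .pp ⟨5191014414, 0, 0, 0, 0, 0, 0, 0, 0, ⟨0, 0⟩, 0⟩ 0 0) (.pos 124 .pp ⟨5621333869, 221564608, 0, 0, 0, 0, 0, 0, 0, ⟨0, 0⟩, 0⟩ 0 0)) (.cut .d 1063996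 (.cut .v 79691776 (.pos 123 .pp ⟨4356526498, 0, 0, 0, 0, 0, 0, 0, 0, ⟨0, 0⟩, 0⟩ 0 0) (.cut .s 12484608 (.pos 124 .pp ⟨4547455302, 520014626, 0, 0, 0, 0, 0, 0, 0, ⟨0, 0⟩, 0⟩ 0 0) (.pos 124 .pp ⟨4447486939, 590721827, 0, 0, 0, 0, 0, 0, 0, ⟨0, 0⟩, 0⟩ 0 0))) (.pos 102 .pp ⟨3483370360, 392524160, 0, 0, 0, 0, 0, 0, 0, ⟨0, 0⟩, 0⟩ 0 0)))))) (.pos 91 .pp ⟨2837236480, 244321034, 0, 0, 0, 0, 0, 0, 0, ⟨0, 0⟩, 0⟩ 0 0)) (.void 92 ⟨38161, 61839, 0, 0, 0, 0, 0, 0, 0, ⟨0, 0⟩, 0⟩ 0 0))) (.pos 71 .pp ⟨0, 971707408, 0, 0, 0, 0, 0, 0, 0, ⟨0, 0⟩, 0⟩ 0 0)) (.void 72 ⟨37659, 62341, 0, 0, 0, 0, 0, 0, 0, ⟨0, 0⟩, 0⟩ 0 0)) (.void 68 ⟨0, 0, 0, 100000, 0, 0, 0, 0, 0, ⟨0, 0⟩, 0⟩ 0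 0))) (.pos 56 .pp ⟨0, 120255992, 0, 0, 0, 0, 0, 0, 0, ⟨0, 0⟩, 0⟩ 0 0)) (.void 66 ⟨0, 0, 0, 100000, 0, 0, 0, 0, 0, ⟨0, 0⟩, 0⟩ 0 0)))),
    by decide +kernel⟩

def covers19 : cell.Covers table row19.1 :=
  ⟨(.cut .d 0 (.cut .v 16777216 (.cut .d (-8388608) (.void 1 ⟨0, 0, 0, 0, 0, 100000, 0, 0, 0, ⟨0, 0⟩, 0⟩ 0 0) (.cut .d (-4194304) (.void 1 ⟨0, 0, 0, 0, 0, 95036, 0, 0, 0, ⟨0, 0⟩, 0⟩ 0 0) (.cut .v 8388608 (.pos 2 .mm ⟨0, 0, 756942759, 0, 0, 0, 0, 0, 0, ⟨0, 0⟩, 0⟩ 0 0) (.cut .d (-2097152) (.void 3 ⟨0, 0, 0, 0, 0, 100000, 0, 0, 0, ⟨0, 0⟩, 0⟩ 0 0) (.cut .d (-1048576) (.void 3 ⟨0, 0, 0, 0, 0, 100000, 0, 0, 0, ⟨0, 0⟩, 0⟩ 0 0) (.cut .d (-524288) (.cut .s 12976128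 (.cut .v 12582912 (.pos 6 .mm ⟨0, 0, 0, 0, 0, 584639329, 0, 0, 0, ⟨0, 0⟩, 0⟩ 0 0) (.pos 7 .mm ⟨21040618, 0, 0, 0, 0, 848829492, 0, 0, 0, ⟨0, 0⟩, 0⟩ 0 0)) (.pos 3 .mm ⟨0, 0, 0, 0, 0, 1054208001, 0, 0, 0, ⟨0, 0⟩, 0⟩ 0 0)) (.cut .v 12582912 (.cut .s 12976128 (.pos 6 .mm ⟨0, 0, 0, 0, 0, 433294593, 0, 0, 0, ⟨0, 0⟩, 0⟩ 0 0) (.pos 6 .mm ⟨0, 0, 0, 0, 0, 531455707, 0, 0, 0, ⟨0, 0⟩, 0⟩ 0 0)) (.cut .l 6501171 (.cut .d (-262144) (.cut .s 12976128 (.pos 7 .mm ⟨46194306, 0, 0, 0, 0, 760284307, 0, 0, 0, ⟨0, 0⟩, 0⟩ 0 0) (.pos 7 .mm ⟨58562296, 0, 0, 0, 0, 925171230, 0, 0, 0, ⟨0, 0⟩, 0⟩ 0 0)) (.cut .l 4159351 (.cut .l 2988441 (.cut .d (-131072) (.pos 7 .mm ⟨0, 0, 0, 0,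 0, 895949595, 0, 0, 0, ⟨0, 0⟩, 0⟩ 0 0) (.cut .s 12976128 (.pos 7 .mm ⟨0, 0, 0, 0, 0, 648665889, 0, 0, 0, ⟨0, 0⟩, 0⟩ 0 0) (.pos 7 .mm ⟨0, 0, 0, 0, 0, 786215047, 0, 0, 0, ⟨0, 0⟩, 0⟩ 0 0))) (.pos 7 .mm ⟨0, 0, 0, 0, 0, 707578140, 0, 0, 0, ⟨0, 0⟩, 0⟩ 0 0)) (.pos 7 .mm ⟨68034295, 0, 0, 0, 0, 409367080, 0, 0, 0, ⟨0, 0⟩, 0⟩ 0 0))) (.pos 7 .mm ⟨0, 0, 0, 0, 0, 618288668, 0, 0, 0, ⟨0, 0⟩, 0⟩ 0 0))))))))) (.cut .v 268435456 (.cut .v 67108864 (.cut .v 33554432 (.cut .d (-8388608) (.void 11 ⟨100000, 0, 0, 0, 0, 0, 0, 0, 0, ⟨0, 0⟩, 0⟩ 0 0) (.cut .d (-4194304) (.void 11 ⟨100000, 0, 0, 0, 0, 0, 0, 0, 0, ⟨0, 0⟩, 0⟩ 0 0) (.cut .d (-2097152) (.void 11 ⟨100000, 0, 0, 0, 0,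 0, 0, 0, 0, ⟨0, 0⟩, 0⟩ 0 0) (.cut .d (-1048576) (.void 11 ⟨100000, 0, 0, 0, 0, 0, 0, 0, 0, ⟨0, 0⟩, 0⟩ 0 0) (.cut .v 25165824 (.cut .v 20971520 (.cut .d (-524288) (.cut .s 12976128 (.pos 15 .mp ⟨728654026, 0, 0, 0, 0, 0, 0, 0, 0, ⟨0, 0⟩, 0⟩ 0 0) (.pos 15 .mp ⟨881291345, 0, 0, 0, 0, 0, 0, 0, 0, ⟨0, 0⟩, 0⟩ 0 0)) (.cut .l 6501171 (.cut .v 18874368 (.cut .d (-262144) (.cut .s 12976128 (.pos 17 .mp ⟨600706872, 0, 0, 0, 0, 0, 0, 0, 0, ⟨0, 0⟩, 0⟩ 0 0) (.pos 17 .mp ⟨721063371, 0, 0, 0, 0, 0, 0, 0, 0, ⟨0, 0⟩, 0⟩ 0 0)) (.cut .v 17825792 (.cut .l 4159351 (.cut .l 2988441 (.cut .d (-131072) (.cut .s 12976128 (.pos 19 .mp ⟨327138350, 0, 0, 0, 0, 338433660, 0, 0, 0,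 ⟨0, 0⟩, 0⟩ 0 0) (.pos 19 .mp ⟨378446925, 0, 0, 0, 0, 429761432, 0, 0, 0, ⟨0, 0⟩, 0⟩ 0 0)) (.cut .d (-65536) (.cut .v 17301504 (.cut .l 2402986 (.cut .l 2110258 (.cut .d (-98304) (.cut .s 12976128 (.cut .s 12845056 (.pos 21 .mp ⟨223234144, 0, 0, 0, 0, 383912529, 0, 0, 0, ⟨0, 0⟩, 0⟩ 0 0) (.pos 21 .mp ⟨242629970, 0, 0, 0, 0, 421806987, 0, 0, 0, ⟨0, 0⟩, 0⟩ 0 0)) (.pos 21 .mp ⟨262753598, 0, 0, 0, 0, 578447698, 0, 0, 0, ⟨0, 0⟩, 0⟩ 0 0)) (.cut .s 12976128 (.pos 21 .mp ⟨262753598, 0, 0, 0, 0, 111050304, 0, 0, 0, ⟨0, 0⟩, 0⟩ 0 0) (.pos 21 .mp ⟨276940382, 0, 0, 0, 0, 329992904, 0, 0, 0, ⟨0, 0⟩, 0⟩ 0 0))) (.pos 21 .mp ⟨319279616, 0, 0, 0, 0, 156399337, 0, 0, 0, ⟨0,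 0⟩, 0⟩ 0 0)) (.pos 21 .mp ⟨291685023, 0, 0, 0, 0, 0, 0, 0, 0, ⟨0, 0⟩, 0⟩ 0 0)) (.pos 22 .mp ⟨526978211, 0, 0, 0, 0, 0, 0, 0, 0, ⟨0, 0⟩, 0⟩ 0 0)) (.pos 19 .mp ⟨232005111, 0, 0, 0, 0, 0, 0, 0, 0, ⟨0, 0⟩, 0⟩ 0 0))) (.pos 19 .mp ⟨413469455, 0, 0, 0, 0, 72028928, 0, 0, 0, ⟨0, 0⟩, 0⟩ 0 0)) (.pos 19 .mp ⟨337382396, 0, 0, 0, 0, 0, 0, 0, 0, ⟨0, 0⟩, 0⟩ 0 0)) (.pos 20 .mp ⟨594413276, 0, 0, 0, 0, 0, 0, 0, 0, ⟨0, 0⟩, 0⟩ 0 0))) (.pos 18 .mp ⟨740371036, 0, 0, 0, 0, 0, 0, 0, 0, ⟨0, 0⟩, 0⟩ 0 0)) (.pos 15 .mp ⟨507465610, 0, 0, 0, 0, 0, 0, 0, 0, ⟨0, 0⟩, 0⟩ 0 0))) (.cut .d (-524288) (.pos 16 .mp ⟨1181487992, 0, 0, 0, 0, 0, 0, 0, 0, ⟨0, 0⟩, 0⟩ 0 0) (.cut .s 12976128 (.pos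 16 .mp ⟨822422647, 0, 0, 0, 0, 0, 0, 0, 0, ⟨0, 0⟩, 0⟩ 0 0) (.pos 16 .mp ⟨975956617, 0, 0, 0, 0, 0, 0, 0, 0, ⟨0, 0⟩, 0⟩ 0 0)))) (.cut .v 29360128 (.pos 29 .mp ⟨1360077119, 0, 0, 0, 0, 0, 0, 0, 0, ⟨0, 0⟩, 0⟩ 0 0) (.pos 30 .mp ⟨1730710547, 0, 0, 0, 0, 0, 0, 0, 0, ⟨0, 0⟩, 0⟩ 0 0))))))) (.void 12 ⟨100000, 0, 0, 0, 0, 0, 0, 0, 0, ⟨0, 0⟩, 0⟩ 0 0)) (.void 57 ⟨100000, 0, 0, 0, 0, 0, 0, 0, 0, ⟨0, 0⟩, 0⟩ 0 0)) (.void 66 ⟨94278, 0, 0, 5722, 0, 0, 0, 0, 0, ⟨0, 0⟩, 0⟩ 0 0))) (.cut .v 16777216 (.cut .v 8388608 (.cut .v 4194304 (.cut .v 2097152 (.cut .d 2680896 (.void 75 ⟨0, 0, 100000, 0, 0, 0, 0, 0, 0, ⟨0, 0⟩, 0⟩ 0 0) (.cut .v 1048576 (.cut .v 524288 (.pos 131 .pm ⟨0,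 780313, 0, 0, 0, 0, 0, 0, 14448438, ⟨0, 0⟩, 1402450⟩ 0 0) (.pos 132 .pm ⟨0, 30810027, 0, 0, 0, 0, 0, 0, 0, ⟨0, 0⟩, 0⟩ 0 0)) (.cut .d 4021344 (.pos 104 .pm ⟨0, 0, 0, 0, 0, 0, 0, 0, 0, ⟨0, 0⟩, 0⟩ 0 0) (.pos 104 .pm ⟨0, 83016880, 0, 0, 0, 0, 0, 0, 0, ⟨0, 0⟩, 0⟩ 0 0)))) (.cut .d 2680896 (.pos 76 .pm ⟨0, 0, 71235031, 0, 0, 0, 0, 0, 0, ⟨0, 0⟩, 0⟩ 0 0) (.cut .d 4021344 (.pos 76 .pm ⟨0, 0, 0, 0, 0, 0, 0, 0, 0, ⟨0, 0⟩, 0⟩ 0 0) (.cut .l 6501171 (.cut .d 4691568 (.cut .s 12976128 (.pos 76 .pm ⟨0, 0, 0, 0, 0, 0, 0, 0, 0, ⟨0, 0⟩, 0⟩ 0 0) (.cut .d 4356456 (.pos 76 .pm ⟨0, 93738831, 0, 0, 0, 0, 0, 0, 0, ⟨0, 0⟩, 0⟩ 0 0) (.pos 76 .pm ⟨0, 132325606, 0, 0, 0, 0, 0, 0, 0,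 ⟨0, 0⟩, 0⟩ 0 0))) (.cut .s 12976128 (.cut .d 5026680 (.pos 76 .pm ⟨0, 117896763, 0, 0, 0, 0, 0, 0, 0, ⟨0, 0⟩, 0⟩ 0 0) (.pos 76 .pm ⟨0, 151753794, 0, 0, 0, 0, 0, 0, 0, ⟨0, 0⟩, 0⟩ 0 0)) (.pos 76 .pm ⟨0, 198658696, 0, 0, 0, 0, 0, 0, 0, ⟨0, 0⟩, 0⟩ 0 0))) (.pos 76 .pm ⟨0, 118713249, 0, 0, 0, 0, 0, 0, 0, ⟨0, 0⟩, 0⟩ 0 0))))) (.cut .d 2680896 (.pos 5 .pm ⟨0, 0, 10145528, 0, 0, 0, 0, 0, 0, ⟨0, 0⟩, 0⟩ 0 0) (.cut .d 4021344 (.pos 5 .pm ⟨0, 0, 0, 0, 0, 0, 0, 0, 0, ⟨0, 0⟩, 0⟩ 0 0) (.cut .l 6501171 (.cut .d 4691568 (.cut .s 12976128 (.pos 5 .pm ⟨0, 97283637, 0, 0, 0, 0, 0, 0, 0, ⟨0, 0⟩, 0⟩ 0 0) (.pos 5 .pm ⟨0, 152214324, 0, 0, 0, 0, 0, 0, 0, ⟨0, 0⟩, 0⟩ 0 0)) (.cut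 .s 12976128 (.cut .d 5026680 (.cut .s 12845056 (.pos 5 .pm ⟨0, 131989835, 0, 0, 0, 0, 0, 0, 0, ⟨0, 0⟩, 0⟩ 0 0) (.pos 5 .pm ⟨0, 166153281, 0, 0, 0, 0, 0, 0, 0, ⟨0, 0⟩, 0⟩ 0 0)) (.pos 5 .pm ⟨0, 193309702, 0, 0, 0, 0, 0, 0, 0, ⟨0, 0⟩, 0⟩ 0 0)) (.pos 5 .pm ⟨0, 253650999, 0, 0, 0, 0, 0, 0, 0, ⟨0, 0⟩, 0⟩ 0 0))) (.pos 5 .pm ⟨0, 155779137, 0, 0, 0, 0, 0, 0, 0, ⟨0, 0⟩, 0⟩ 0 0))))) (.cut .d 2680896 (.pos 3 .pm ⟨0, 0, 0, 0, 0, 0, 0, 0, 0, ⟨0, 0⟩, 0⟩ 0 0) (.cut .d 4021344 (.pos 3 .pm ⟨0, 0, 0, 0, 0, 0, 0, 0, 0, ⟨0, 0⟩, 0⟩ 0 0) (.pos 3 .pm ⟨0, 249374001, 0, 0, 0, 0, 0, 0, 0, ⟨0, 0⟩, 0⟩ 0 0)))) (.cut .v 268435456 (.cut .d 2680896 (.cut .v 67108864 (.cut .d 1340448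 (.cut .v 33554432 (.cut .d 670224 (.cut .l 6501171 (.cut .v 25165824 (.cut .v 20971520 (.pos 15 .pp ⟨273438288, 0, 0, 0, 0, 0, 0, 0, 0, ⟨0, 0⟩, 0⟩ 0 0) (.pos 16 .pp ⟨560712904, 0, 0, 0, 0, 0, 0, 0, 0, ⟨0, 0⟩, 0⟩ 0 0)) (.cut .d 335112 (.pos 14 .pp ⟨1122093266, 0, 0, 0, 0, 0, 0, 0, 0, ⟨0, 0⟩, 0⟩ 0 0) (.pos 14 .pp ⟨702097808, 0, 0, 0, 0, 0, 0, 0, 0, ⟨0, 0⟩, 0⟩ 0 0))) (.pos 11 .pp ⟨411203131, 0, 0, 0, 0, 0, 0, 0, 0, ⟨0, 0⟩, 0⟩ 0 0)) (.pos 11 .pp ⟨0, 0, 0, 0, 0, 0, 0, 0, 0, ⟨0, 0⟩, 0⟩ 0 0)) (.cut .v 50331648 (.cut .d 670224 (.cut .v 41943040 (.cut .d 335112 (.pos 33 .pp ⟨1835778735, 0, 0, 0, 0, 0, 0, 0, 0, ⟨0, 0⟩, 0⟩ 0 0) (.pos 33 .pp ⟨1426661877, 0, 0, 0,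 0, 0, 0, 0, 0, ⟨0, 0⟩, 0⟩ 0 0)) (.pos 34 .pp ⟨2476641488, 0, 0, 0, 0, 0, 0, 0, 0, ⟨0, 0⟩, 0⟩ 0 0)) (.pos 31 .pp ⟨1144090336, 0, 0, 0, 0, 0, 0, 0, 0, ⟨0, 0⟩, 0⟩ 0 0)) (.cut .d 670224 (.cut .v 58720256 (.pos 51 .pp ⟨3455760509, 0, 0, 0, 0, 0, 0, 0, 0, ⟨0, 0⟩, 0⟩ 0 0) (.pos 52 .pp ⟨4727125711, 0, 0, 0, 0, 0, 0, 0, 0, ⟨0, 0⟩, 0⟩ 0 0)) (.cut .v 58720256 (.pos 51 .pp ⟨2325360669, 0, 0, 0, 0, 0, 0, 0, 0, ⟨0, 0⟩, 0⟩ 0 0) (.cut .d 1005336 (.pos 52 .pp ⟨3402143254, 0, 0, 0, 0, 0, 0, 0, 0, ⟨0, 0⟩, 0⟩ 0 0) (.pos 52 .pp ⟨2741390605, 0, 0, 0, 0, 0, 0, 0, 0, ⟨0, 0⟩, 0⟩ 0 0)))))) (.pos 10 .pp ⟨0, 0, 0, 0, 0, 0, 0, 0, 0, ⟨0, 0⟩, 0⟩ 0 0)) (.cut .v 134217728 (.cut .v 100663296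 (.cut .d 1340448 (.cut .v 83886080 (.cut .d 670224 (.pos 91 .pp ⟨8148002304, 0, 0, 0, 0, 0, 0, 0, 0, ⟨0, 0⟩, 0⟩ 0 0) (.cut .d 1005336 (.cut .l 6501171 (.pos 91 .pp ⟨6257780578, 0, 0, 0, 0, 0, 0, 0, 0, ⟨0, 0⟩, 0⟩ 0 0) (.cut .v 75497472 (.cut .d 837780 (.pos 101 .pp ⟨5021509472, 0, 0, 0, 0, 0, 0, 0, 0, ⟨0, 0⟩, 0⟩ 0 0) (.pos 101 .pp ⟨4021555950, 0, 0, 0, 0, 0, 0, 0, 0, ⟨0, 0⟩, 0⟩ 0 0)) (.cut .l 8842991 (.pos 102 .pp ⟨6284562546, 0, 0, 0, 0, 0, 0, 0, 0, ⟨0, 0⟩, 0⟩ 0 0) (.cut .d 837780 (.cut .d 754002 (.pos 102 .pp ⟨8504624778, 0, 0, 0, 0, 0, 0, 0, 0, ⟨0, 0⟩, 0⟩ 0 0) (.cut .l 10013901 (.pos 102 .pp ⟨7562101189, 16988343, 0, 0, 0, 0, 0, 0, 0, ⟨0, 0⟩, 0⟩ 0 0)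 (.cut .l 10599356 (.pos 102 .pp ⟨7644546849, 0, 0, 0, 0, 0, 0, 0, 0, ⟨0, 0⟩, 0⟩ 0 0) (.cut .s 12976128 (.cut .v 79691776 (.pos 123 .pp ⟨6152277149, 0, 0, 0, 0, 0, 0, 0, 0, ⟨0, 0⟩, 0⟩ 0 0) (.pos 124 .pp ⟨7997582981, 0, 0, 0, 0, 0, 0, 0, 0, ⟨0, 0⟩, 0⟩ 0 0)) (.cut .v 79691776 (.pos 123 .pp ⟨5748699981, 0, 0, 0, 0, 0, 0, 0, 0, ⟨0, 0⟩, 0⟩ 0 0) (.cut .s 13107200 (.cut .v 81788928 (.pos 129 .pp ⟨6155060989, 0, 0, 0, 0, 0, 0, 0, 0, ⟨0, 0⟩, 0⟩ 0 0) (.cut .s 13041664 (.pos 130 .pp ⟨6704044427, 546519294, 0, 0, 0, 0, 0, 0, 0, ⟨0, 0⟩, 0⟩ 0 0) (.pos 130 .pp ⟨6806272371, 515725314, 0, 0, 0, 0, 0, 0, 0, ⟨0, 0⟩, 0⟩ 0 0))) (.pos 124 .pp ⟨6859961509, 382127541, 0, 0, 0,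 0, 0, 0, 0, ⟨0, 0⟩, 0⟩ 0 0))))))) (.cut .s 12976128 (.cut .v 79691776 (.pos 123 .pp ⟨5089034123, 0, 0, 0, 0, 0, 0, 0, 0, ⟨0, 0⟩, 0⟩ 0 0) (.cut .d 921558 (.cut .l 10013901 (.pos 124 .pp ⟨6284509824, 344571571, 0, 0, 0, 0, 0, 0, 0, ⟨0, 0⟩, 0⟩ 0 0) (.cut .l 10599356 (.pos 124 .pp ⟨6034228666, 348527853, 0, 0, 0, 0, 0, 0, 0, ⟨0, 0⟩, 0⟩ 0 0) (.cut .s 12845056 (.cut .v 81788928 (.pos 129 .pp ⟨5659522288, 298353128, 0, 0, 0, 0, 0, 0, 0, ⟨0, 0⟩, 0⟩ 0 0) (.void 130 ⟨38292, 61708, 0, 0, 0, 0, 0, 0, 0, ⟨0, 0⟩, 0⟩ 0 0)) (.cut .l 10892083 (.pos 124 .pp ⟨5850699592, 718332710, 0, 0, 0, 0, 0, 0, 0, ⟨0, 0⟩, 0⟩ 0 0) (.cut .v 81788928 (.cut .s 12910592 (.pos 129 .pp ⟨5690688220,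 178465768, 0, 0, 0, 0, 0, 0, 0, ⟨0, 0⟩, 0⟩ 0 0) (.pos 129 .pp ⟨5675794911, 0, 0, 0, 0, 0, 0, 0, 0, ⟨0, 0⟩, 0⟩ 0 0)) (.cut .d 879669 (.cut .s 12910592 (.pos 130 .pp ⟨6116118487, 715247222, 0, 0, 0, 0, 0, 0, 0, ⟨0, 0⟩, 0⟩ 0 0) (.cut .s 12943360 (.pos 130 .pp ⟨6170652877, 706645330, 0, 0, 0, 0, 0, 0, 0, ⟨0, 0⟩, 0⟩ 0 0) (.pos 130 .pp ⟨6211423010, 697527291, 0, 0, 0, 0, 0, 0, 0, ⟨0, 0⟩, 0⟩ 0 0))) (.void 130 ⟨24392, 75608, 0, 0, 0, 0, 0, 0, 0, ⟨0, 0⟩, 0⟩ 0 0))))))) (.pos 124 .pp ⟨4774892304, 662749022, 0, 0, 0, 0, 0, 0, 0, ⟨0, 0⟩, 0⟩ 0 0))) (.cut .v 79691776 (.pos 123 .pp ⟨4320784748, 0, 0, 0, 0, 0, 0, 0, 0, ⟨0, 0⟩, 0⟩ 0 0) (.cut .v 81788928 (.pos 129 .pp ⟨5746806172,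 0, 0, 0, 0, 0, 0, 0, 0, ⟨0, 0⟩, 0⟩ 0 0) (.pos 130 .pp ⟨6215005963, 699620037, 0, 0, 0, 0, 0, 0, 0, ⟨0, 0⟩, 0⟩ 0 0)))))))) (.cut .v 75497472 (.pos 101 .pp ⟨3547422552, 0, 0, 0, 0, 0, 0, 0, 0, ⟨0, 0⟩, 0⟩ 0 0) (.pos 102 .pp ⟨4369989554, 324094961, 0, 0, 0, 0, 0, 0, 0, ⟨0, 0⟩, 0⟩ 0 0)))) (.void 92 ⟨37862, 62138, 0, 0, 0, 0, 0, 0, 0, ⟨0, 0⟩, 0⟩ 0 0)) (.pos 71 .pp ⟨0, 1475527183, 0, 0, 0, 0, 0, 0, 0, ⟨0, 0⟩, 0⟩ 0 0)) (.void 72 ⟨36979, 63021, 0, 0, 0, 0, 0, 0, 0, ⟨0, 0⟩, 0⟩ 0 0)) (.void 68 ⟨0, 0, 0, 100000, 0, 0, 0, 0, 0, ⟨0, 0⟩, 0⟩ 0 0))) (.pos 56 .pp ⟨0, 178317367, 0, 0, 0, 0, 0, 0, 0, ⟨0, 0⟩, 0⟩ 0 0)) (.void 66 ⟨0, 0, 0, 100000, 0, 0, 0, 0, 0, ⟨0, 0⟩, 0⟩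 0 0)))),
    by decide +kernel⟩

def covers20 : cell.Covers table row20.1 :=
  ⟨(.cut .d 0 (.cut .v 16777216 (.cut .v 8388608 (.pos 2 .mm ⟨0, 0, 2690877994, 0, 0, 0, 0, 0, 0, ⟨0, 0⟩, 0⟩ 0 0) (.cut .d (-8388608) (.void 3 ⟨78807, 0, 21193, 0, 0, 0, 0, 0, 0, ⟨0, 0⟩, 0⟩ 0 0) (.cut .d (-4194304) (.void 3 ⟨78807, 0, 21193, 0, 0, 0, 0, 0, 0, ⟨0, 0⟩, 0⟩ 0 0) (.cut .d (-2097152) (.void 3 ⟨0, 0, 0, 0, 0, 100000, 0, 0, 0, ⟨0, 0⟩, 0⟩ 0 0) (.cut .d (-1048576) (.void 3 ⟨0, 0, 0, 0, 0, 100000, 0, 0, 0, ⟨0, 0⟩, 0⟩ 0 0) (.cut .d (-524288) (.cut .s 13500416 (.pos 3 .mm ⟨0, 0, 0, 0, 0, 1314784904, 0, 0, 0, ⟨0, 0⟩, 0⟩ 0 0) (.pos 3 .mm ⟨14399380, 0, 0, 0, 0, 1586695960, 0,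 0, 0, ⟨0, 0⟩, 0⟩ 0 0)) (.cut .v 12582912 (.cut .d (-262144) (.pos 6 .mm ⟨0, 0, 0, 0, 0, 827829928, 0, 0, 0, ⟨0, 0⟩, 0⟩ 0 0) (.pos 6 .mm ⟨0, 0, 0, 0, 0, 639437611, 0, 0, 0, ⟨0, 0⟩, 0⟩ 0 0)) (.cut .d (-262144) (.cut .l 6501171 (.pos 7 .mm ⟨71936363, 0, 0, 0, 0, 1314698004, 0, 0, 0, ⟨0, 0⟩, 0⟩ 0 0) (.cut .s 13500416 (.pos 7 .mm ⟨0, 0, 0, 0, 0, 1055875795, 0, 0, 0, ⟨0, 0⟩, 0⟩ 0 0) (.pos 7 .mm ⟨0, 0, 0, 0, 0, 1271787165, 0, 0, 0, ⟨0, 0⟩, 0⟩ 0 0))) (.cut .v 14680064 (.pos 8 .mm ⟨0, 0, 0, 0, 0, 921383577, 0, 0, 0, ⟨0, 0⟩, 0⟩ 0 0) (.cut .l 6501171 (.cut .l 4159351 (.cut .d (-131072) (.pos 9 .mm ⟨0, 0, 0, 0, 0, 1315511511, 0, 0, 0, ⟨0, 0⟩, 0⟩ 0 0) (.cut .s 13500416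 (.pos 9 .mm ⟨0, 0, 0, 0, 0, 991841786, 0, 0, 0, ⟨0, 0⟩, 0⟩ 0 0) (.pos 9 .mm ⟨0, 0, 0, 0, 0, 1179826167, 0, 0, 0, ⟨0, 0⟩, 0⟩ 0 0))) (.pos 9 .mm ⟨15412395, 0, 0, 0, 0, 1002450754, 0, 0, 0, ⟨0, 0⟩, 0⟩ 0 0)) (.pos 9 .mm ⟨0, 0, 0, 0, 0, 0, 0, 0, 0, ⟨0, 0⟩, 0⟩ 0 0))))))))))) (.cut .v 268435456 (.cut .v 67108864 (.cut .v 33554432 (.cut .d (-8388608) (.void 11 ⟨100000, 0, 0, 0, 0, 0, 0, 0, 0, ⟨0, 0⟩, 0⟩ 0 0) (.cut .d (-4194304) (.void 11 ⟨100000, 0, 0, 0, 0, 0, 0, 0, 0, ⟨0, 0⟩, 0⟩ 0 0) (.cut .d (-2097152) (.void 11 ⟨100000, 0, 0, 0, 0, 0, 0, 0, 0, ⟨0, 0⟩, 0⟩ 0 0) (.cut .d (-1048576) (.void 11 ⟨100000, 0, 0, 0, 0, 0, 0, 0, 0, ⟨0, 0⟩, 0⟩ 0 0) (.cut .v 25165824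 (.cut .d (-524288) (.cut .v 20971520 (.pos 15 .mp ⟨1241423008, 0, 0, 0, 0, 0, 0, 0, 0, ⟨0, 0⟩, 0⟩ 0 0) (.void 16 ⟨100000, 0, 0, 0, 0, 0, 0, 0, 0, ⟨0, 0⟩, 0⟩ 0 0)) (.cut .v 20971520 (.cut .d (-262144) (.cut .l 6501171 (.pos 15 .mp ⟨1048331364, 0, 0, 0, 0, 0, 0, 0, 0, ⟨0, 0⟩, 0⟩ 0 0) (.pos 15 .mp ⟨860006547, 0, 0, 0, 0, 0, 0, 0, 0, ⟨0, 0⟩, 0⟩ 0 0)) (.cut .v 18874368 (.cut .v 17825792 (.cut .l 6501171 (.cut .l 4159351 (.cut .d (-131072) (.pos 19 .mp ⟨685372880, 0, 0, 0, 0, 270205354, 0, 0, 0, ⟨0, 0⟩, 0⟩ 0 0) (.cut .d (-65536) (.cut .v 17301504 (.cut .l 2988441 (.cut .d (-98304) (.pos 21 .mp ⟨457389431, 0, 0, 0, 0, 558070853, 0, 0, 0, ⟨0, 0⟩, 0⟩ 0 0) (.cut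 .l 2402986 (.cut .l 2110258 (.cut .l 1963894 (.cut .d (-81920) (.pos 21 .mp ⟨282415840, 0, 0, 0, 0, 878412997, 0, 0, 0, ⟨0, 0⟩, 0⟩ 0 0) (.cut .s 13500416 (.pos 21 .mp ⟨336144909, 0, 0, 0, 0, 442871167, 0, 0, 0, ⟨0, 0⟩, 0⟩ 0 0) (.pos 21 .mp ⟨316897398, 0, 0, 0, 0, 708319429, 0, 0, 0, ⟨0, 0⟩, 0⟩ 0 0))) (.pos 21 .mp ⟨396124962, 0, 0, 0, 0, 415424574, 0, 0, 0, ⟨0, 0⟩, 0⟩ 0 0)) (.pos 21 .mp ⟨385129737, 0, 0, 0, 0, 373169394, 0, 0, 0, ⟨0, 0⟩, 0⟩ 0 0)) (.pos 21 .mp ⟨363248694, 0, 0, 0, 0, 0, 0, 0, 0, ⟨0, 0⟩, 0⟩ 0 0))) (.pos 21 .mp ⟨369489816, 0, 0, 0, 0, 0, 0, 0, 0, ⟨0, 0⟩, 0⟩ 0 0)) (.pos 22 .mp ⟨808891497, 0, 0, 0, 0, 0, 0, 0, 0, ⟨0, 0⟩, 0⟩ 0 0)) (.pos 19 .mp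 ⟨380754100, 0, 0, 0, 0, 0, 0, 0, 0, ⟨0, 0⟩, 0⟩ 0 0))) (.pos 19 .mp ⟨647627639, 0, 0, 0, 0, 0, 0, 0, 0, ⟨0, 0⟩, 0⟩ 0 0)) (.pos 19 .mp ⟨338592171, 0, 0, 0, 0, 0, 0, 0, 0, ⟨0, 0⟩, 0⟩ 0 0)) (.pos 20 .mp ⟨845567323, 0, 0, 0, 0, 0, 0, 0, 0, ⟨0, 0⟩, 0⟩ 0 0)) (.pos 18 .mp ⟨957411459, 0, 0, 0, 0, 0, 0, 0, 0, ⟨0, 0⟩, 0⟩ 0 0))) (.pos 16 .mp ⟨1283891234, 0, 0, 0, 0, 0, 0, 0, 0, ⟨0, 0⟩, 0⟩ 0 0))) (.cut .v 29360128 (.pos 29 .mp ⟨1905908891, 0, 0, 0, 0, 0, 0, 0, 0, ⟨0, 0⟩, 0⟩ 0 0) (.pos 30 .mp ⟨2396380567, 0, 0, 0, 0, 0, 0, 0, 0, ⟨0, 0⟩, 0⟩ 0 0))))))) (.void 12 ⟨100000, 0, 0, 0, 0, 0, 0, 0, 0, ⟨0, 0⟩, 0⟩ 0 0)) (.void 57 ⟨100000, 0, 0, 0, 0, 0, 0, 0, 0, ⟨0, 0⟩, 0⟩ 0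 0)) (.void 66 ⟨94064, 0, 0, 5936, 0, 0, 0, 0, 0, ⟨0, 0⟩, 0⟩ 0 0))) (.cut .v 16777216 (.cut .v 8388608 (.cut .v 4194304 (.cut .v 2097152 (.cut .d 2242500 (.void 75 ⟨0, 0, 100000, 0, 0, 0, 0, 0, 0, ⟨0, 0⟩, 0⟩ 0 0) (.cut .v 1048576 (.cut .v 524288 (.pos 131 .pm ⟨0, 9552666, 0, 0, 0, 0, 0, 0, 0, ⟨0, 0⟩, 0⟩ 0 0) (.pos 132 .pm ⟨0, 43686862, 0, 0, 0, 0, 0, 0, 0, ⟨0, 0⟩, 0⟩ 0 0)) (.cut .d 3363750 (.pos 104 .pm ⟨0, 0, 0, 0, 0, 0, 0, 0, 0, ⟨0, 0⟩, 0⟩ 0 0) (.pos 104 .pm ⟨0, 112084477, 0, 0, 0, 0, 0, 0, 0, ⟨0, 0⟩, 0⟩ 0 0)))) (.cut .d 2242500 (.pos 76 .pm ⟨0, 0, 128594575, 0, 0, 0, 0, 0, 0, ⟨0, 0⟩, 0⟩ 0 0) (.cut .d 3363750 (.pos 76 .pm ⟨0, 0, 0, 0, 0, 0, 0, 0, 0,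 ⟨0, 0⟩, 0⟩ 0 0) (.cut .l 6501171 (.cut .d 3924375 (.cut .s 13500416 (.pos 76 .pm ⟨0, 0, 0, 0, 0, 0, 0, 0, 0, ⟨0, 0⟩, 0⟩ 0 0) (.pos 76 .pm ⟨0, 145431980, 0, 0, 0, 0, 0, 0, 0, ⟨0, 0⟩, 0⟩ 0 0)) (.cut .s 13500416 (.cut .d 4204688 (.pos 76 .pm ⟨0, 131162995, 0, 0, 0, 0, 0, 0, 0, ⟨0, 0⟩, 0⟩ 0 0) (.pos 76 .pm ⟨0, 178549188, 0, 0, 0, 0, 0, 0, 0, ⟨0, 0⟩, 0⟩ 0 0)) (.pos 76 .pm ⟨0, 252642268, 0, 0, 0, 0, 0, 0, 0, ⟨0, 0⟩, 0⟩ 0 0))) (.pos 76 .pm ⟨0, 145915058, 0, 0, 0, 0, 0, 0, 0, ⟨0, 0⟩, 0⟩ 0 0))))) (.cut .d 2242500 (.pos 5 .pm ⟨0, 0, 27448061, 0, 0, 0, 0, 0, 0, ⟨0, 0⟩, 0⟩ 0 0) (.cut .d 3363750 (.pos 5 .pm ⟨0, 0, 0, 0, 0, 0, 0, 0, 0, ⟨0, 0⟩, 0⟩ 0 0) (.cut .d 3924375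 (.pos 5 .pm ⟨0, 153692577, 0, 0, 0, 0, 0, 0, 0, ⟨0, 0⟩, 0⟩ 0 0) (.cut .s 13500416 (.pos 5 .pm ⟨0, 206274129, 0, 0, 0, 0, 0, 0, 0, ⟨0, 0⟩, 0⟩ 0 0) (.void 5 ⟨0, 100000, 0, 0, 0, 0, 0, 0, 0, ⟨0, 0⟩, 0⟩ 0 0)))))) (.cut .d 2242500 (.pos 3 .pm ⟨0, 0, 0, 0, 0, 0, 0, 0, 0, ⟨0, 0⟩, 0⟩ 0 0) (.pos 3 .pm ⟨0, 246660915, 0, 0, 0, 0, 0, 0, 0, ⟨0, 0⟩, 0⟩ 0 0))) (.cut .v 268435456 (.cut .d 2242500 (.cut .v 67108864 (.cut .d 1121250 (.cut .v 33554432 (.cut .d 560625 (.cut .v 25165824 (.cut .v 20971520 (.pos 15 .pp ⟨359171824, 0, 0, 0, 0, 0, 0, 0, 0, ⟨0, 0⟩, 0⟩ 0 0) (.pos 16 .pp ⟨756444813, 0, 0, 0, 0, 0, 0, 0, 0, ⟨0, 0⟩, 0⟩ 0 0)) (.pos 14 .pp ⟨1324078480, 0, 0, 0, 0, 0,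 0, 0, 0, ⟨0, 0⟩, 0⟩ 0 0)) (.pos 11 .pp ⟨0, 0, 0, 0, 0, 0, 0, 0, 0, ⟨0, 0⟩, 0⟩ 0 0)) (.cut .v 50331648 (.cut .d 560625 (.cut .v 41943040 (.pos 33 .pp ⟨2209383191, 0, 0, 0, 0, 0, 0, 0, 0, ⟨0, 0⟩, 0⟩ 0 0) (.pos 34 .pp ⟨3281615222, 0, 0, 0, 0, 0, 0, 0, 0, ⟨0, 0⟩, 0⟩ 0 0)) (.pos 31 .pp ⟨1529668608, 0, 0, 0, 0, 0, 0, 0, 0, ⟨0, 0⟩, 0⟩ 0 0)) (.cut .d 560625 (.cut .v 58720256 (.pos 51 .pp ⟨4540373848, 0, 0, 0, 0, 0, 0, 0, 0, ⟨0, 0⟩, 0⟩ 0 0) (.pos 52 .pp ⟨6003923466, 0, 0, 0, 0, 0, 0, 0, 0, ⟨0, 0⟩, 0⟩ 0 0)) (.cut .v 58720256 (.pos 51 .pp ⟨3140898180, 0, 0, 0, 0, 0, 0, 0, 0, ⟨0, 0⟩, 0⟩ 0 0) (.pos 52 .pp ⟨4158216315, 0, 0, 0, 0, 0, 0, 0, 0, ⟨0, 0⟩, 0⟩ 0 0))))) (.pos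 10 .pp ⟨0, 0, 0, 0, 0, 0, 0, 0, 0, ⟨0, 0⟩, 0⟩ 0 0)) (.cut .v 134217728 (.cut .v 100663296 (.cut .d 1121250 (.cut .d 560625 (.cut .v 83886080 (.pos 91 .pp ⟨10227332433, 0, 0, 0, 0, 0, 0, 0, 0, ⟨0, 0⟩, 0⟩ 0 0) (.void 92 ⟨100000, 0, 0, 0, 0, 0, 0, 0, 0, ⟨0, 0⟩, 0⟩ 0 0)) (.cut .v 83886080 (.cut .d 840937 (.cut .v 75497472 (.pos 101 .pp ⟨5864316238, 0, 0, 0, 0, 0, 0, 0, 0, ⟨0, 0⟩, 0⟩ 0 0) (.cut .l 6501171 (.pos 102 .pp ⟨9006926595, 0, 0, 0, 0, 0, 0, 0, 0, ⟨0, 0⟩, 0⟩ 0 0) (.cut .s 13500416 (.cut .v 79691776 (.pos 123 .pp ⟨6716121458, 0, 0, 0, 0, 0, 0, 0, 0, ⟨0, 0⟩, 0⟩ 0 0) (.cut .l 8842991 (.pos 124 .pp ⟨7939965750, 285715061, 0, 0, 0, 0, 0, 0, 0, ⟨0, 0⟩, 0⟩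 0 0) (.cut .l 10013901 (.pos 124 .pp ⟨7773124921, 180450788, 0, 0, 0, 0, 0, 0, 0, ⟨0, 0⟩, 0⟩ 0 0) (.cut .d 700781 (.cut .v 81788928 (.pos 129 .pp ⟨8201136551, 0, 0, 0, 0, 0, 0, 0, 0, ⟨0, 0⟩, 0⟩ 0 0) (.pos 130 .pp ⟨8532997273, 781273654, 0, 0, 0, 0, 0, 0, 0, ⟨0, 0⟩, 0⟩ 0 0)) (.cut .d 770859 (.cut .v 81788928 (.pos 129 .pp ⟨7039735556, 0, 0, 0, 0, 0, 0, 0, 0, ⟨0, 0⟩, 0⟩ 0 0) (.cut .l 10599356 (.pos 130 .pp ⟨7788853835, 672842318, 0, 0, 0, 0, 0, 0, 0, ⟨0, 0⟩, 0⟩ 0 0) (.cut .s 13369344 (.cut .d 735820 (.pos 130 .pp ⟨7883185517, 760625941, 0, 0, 0, 0, 0, 0, 0, ⟨0, 0⟩, 0⟩ 0 0) (.pos 130 .pp ⟨7380019039, 928656087, 0, 0, 0, 0, 0, 0, 0, ⟨0, 0⟩, 0⟩ 0 0)) (.cut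 .v 82837504 (.pos 135 .pp ⟨7417820836, 0, 0, 0, 0, 0, 0, 0, 0, ⟨0, 0⟩, 0⟩ 0 0) (.cut .d 735820 (.cut .v 83361792 (.cut .s 13434880 (.pos 139 .pp ⟨7960743188, 773036096, 0, 0, 0, 0, 0, 0, 0, ⟨0, 0⟩, 0⟩ 0 0) (.cut .s 13467648 (.pos 139 .pp ⟨8025619568, 748481065, 0, 0, 0, 0, 0, 0, 0, ⟨0, 0⟩, 0⟩ 0 0) (.pos 139 .pp ⟨8073321166, 727908333, 0, 0, 0, 0, 0, 0, 0, ⟨0, 0⟩, 0⟩ 0 0))) (.void 140 ⟨26145, 73855, 0, 0, 0, 0, 0, 0, 0, ⟨0, 0⟩, 0⟩ 0 0)) (.pos 136 .pp ⟨5906261280, 1485194937, 0, 0, 0, 0, 0, 0, 0, ⟨0, 0⟩, 0⟩ 0 0)))))) (.pos 124 .pp ⟨6116790063, 986126096, 0, 0, 0, 0, 0, 0, 0, ⟨0, 0⟩, 0⟩ 0 0)))))) (.cut .v 79691776 (.pos 123 .pp ⟨7054122659, 0, 0, 0, 0, 0,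 0, 0, 0, ⟨0, 0⟩, 0⟩ 0 0) (.cut .d 700781 (.cut .s 13631488 (.cut .s 13565952 (.cut .v 81788928 (.pos 129 .pp ⟨7698987259, 0, 0, 0, 0, 0, 0, 0, 0, ⟨0, 0⟩, 0⟩ 0 0) (.pos 130 .pp ⟨8597041763, 756454358, 0, 0, 0, 0, 0, 0, 0, ⟨0, 0⟩, 0⟩ 0 0)) (.pos 124 .pp ⟨8624370863, 583035650, 0, 0, 0, 0, 0, 0, 0, ⟨0, 0⟩, 0⟩ 0 0)) (.pos 124 .pp ⟨8768191088, 503684013, 0, 0, 0, 0, 0, 0, 0, ⟨0, 0⟩, 0⟩ 0 0)) (.pos 124 .pp ⟨6346786195, 1377421162, 0, 0, 0, 0, 0, 0, 0, ⟨0, 0⟩, 0⟩ 0 0)))))) (.cut .v 75497472 (.pos 101 .pp ⟨4821090793, 0, 0, 0, 0, 0, 0, 0, 0, ⟨0, 0⟩, 0⟩ 0 0) (.pos 102 .pp ⟨5906653173, 745222865, 0, 0, 0, 0, 0, 0, 0, ⟨0, 0⟩, 0⟩ 0 0))) (.cut .d 840937 (.pos 92 .pp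 ⟨19067691027, 17681975196, 0, 0, 0, 0, 0, 0, 0, ⟨0, 0⟩, 0⟩ 0 0) (.void 92 ⟨0, 100000, 0, 0, 0, 0, 0, 0, 0, ⟨0, 0⟩, 0⟩ 0 0)))) (.pos 71 .pp ⟨0, 2187611397, 0, 0, 0, 0, 0, 0, 0, ⟨0, 0⟩, 0⟩ 0 0)) (.void 72 ⟨36360, 63640, 0, 0, 0, 0, 0, 0, 0, ⟨0, 0⟩, 0⟩ 0 0)) (.void 68 ⟨0, 0, 0, 100000, 0, 0, 0, 0, 0, ⟨0, 0⟩, 0⟩ 0 0))) (.pos 56 .pp ⟨0, 256750930, 0, 0, 0, 0, 0, 0, 0, ⟨0, 0⟩, 0⟩ 0 0)) (.void 66 ⟨0, 0, 0, 100000, 0, 0, 0, 0, 0, ⟨0, 0⟩, 0⟩ 0 0)))),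
    by decide +kernel⟩

def covers21 : cell.Covers table row21.1 :=
  ⟨(.cut .d 0 (.cut .v 16777216 (.cut .v 8388608 (.void 2 ⟨0, 0, 100000, 0, 0, 0, 0, 0, 0, ⟨0, 0⟩, 0⟩ 0 0) (.cut .d (-8388608) (.void 3 ⟨100000, 0, 0, 0, 0, 0, 0, 0, 0, ⟨0, 0⟩, 0⟩ 0 0) (.cut .d (-4194304) (.void 3 ⟨78270, 0, 21730, 0, 0, 0, 0, 0, 0, ⟨0, 0⟩, 0⟩ 0 0) (.cut .d (-2097152) (.void 3 ⟨0, 0, 0, 0, 0, 100000, 0, 0, 0, ⟨0, 0⟩, 0⟩ 0 0) (.cut .d (-1048576) (.void 3 ⟨0, 0, 0, 0, 0, 100000, 0, 0, 0, ⟨0, 0⟩, 0⟩ 0 0) (.cut .d (-524288) (.pos 3 .mm ⟨51738678, 0, 0, 0, 0, 2429645326, 0, 0, 0, ⟨0, 0⟩, 0⟩ 0 0) (.cut .v 12582912 (.cut .d (-262144) (.pos 6 .mm ⟨0, 0, 0, 0, 0, 1168541991, 0,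 0, 0, ⟨0, 0⟩, 0⟩ 0 0) (.pos 6 .mm ⟨0, 0, 0, 0, 0, 897246715, 0, 0, 0, ⟨0, 0⟩, 0⟩ 0 0)) (.cut .d (-262144) (.cut .v 14680064 (.pos 8 .mm ⟨0, 0, 0, 0, 0, 1524401385, 0, 0, 0, ⟨0, 0⟩, 0⟩ 0 0) (.cut .s 13959168 (.pos 9 .mm ⟨0, 0, 0, 0, 0, 1661590273, 0, 0, 0, ⟨0, 0⟩, 0⟩ 0 0) (.cut .s 14057472 (.pos 9 .mm ⟨0, 0, 0, 0, 0, 1772148144, 0, 0, 0, ⟨0, 0⟩, 0⟩ 0 0) (.pos 9 .mm ⟨0, 0, 0, 0, 0, 1875362034, 0, 0, 0, ⟨0, 0⟩, 0⟩ 0 0)))) (.cut .v 14680064 (.pos 8 .mm ⟨0, 0, 0, 0, 0, 1278738860, 0, 0, 0, ⟨0, 0⟩, 0⟩ 0 0) (.cut .l 6501171 (.cut .d (-131072) (.pos 9 .mm ⟨35067231, 0, 0, 0, 0, 1676441756, 0, 0, 0, ⟨0, 0⟩, 0⟩ 0 0) (.cut .s 13959168 (.pos 9 .mm ⟨0, 0, 0, 0, 0,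 1414193043, 0, 0, 0, ⟨0, 0⟩, 0⟩ 0 0) (.cut .d (-65536) (.pos 9 .mm ⟨0, 0, 0, 0, 0, 1689919259, 0, 0, 0, ⟨0, 0⟩, 0⟩ 0 0) (.pos 9 .mm ⟨0, 0, 0, 0, 0, 1483285142, 0, 0, 0, ⟨0, 0⟩, 0⟩ 0 0)))) (.pos 9 .mm ⟨324786886, 0, 0, 0, 0, 0, 0, 0, 0, ⟨0, 0⟩, 0⟩ 0 0))))))))))) (.cut .v 268435456 (.cut .v 67108864 (.cut .v 33554432 (.cut .d (-8388608) (.void 11 ⟨100000, 0, 0, 0, 0, 0, 0, 0, 0, ⟨0, 0⟩, 0⟩ 0 0) (.cut .d (-4194304) (.void 11 ⟨100000, 0, 0, 0, 0, 0, 0, 0, 0, ⟨0, 0⟩, 0⟩ 0 0) (.cut .d (-2097152) (.void 11 ⟨100000, 0, 0, 0, 0, 0, 0, 0, 0, ⟨0, 0⟩, 0⟩ 0 0) (.cut .d (-1048576) (.void 11 ⟨100000, 0, 0, 0, 0, 0, 0, 0, 0, ⟨0, 0⟩, 0⟩ 0 0) (.cut .v 25165824 (.cut .d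 (-524288) (.pos 13 .mp ⟨2009110257, 0, 0, 0, 0, 0, 0, 0, 0, ⟨0, 0⟩, 0⟩ 0 0) (.cut .v 20971520 (.cut .v 18874368 (.cut .d (-262144) (.pos 17 .mp ⟨1239362172, 0, 0, 0, 0, 0, 0, 0, 0, ⟨0, 0⟩, 0⟩ 0 0) (.cut .d (-131072) (.pos 17 .mp ⟨1131915815, 0, 0, 0, 0, 0, 0, 0, 0, ⟨0, 0⟩, 0⟩ 0 0) (.cut .v 17825792 (.cut .l 6501171 (.cut .l 4159351 (.cut .l 2988441 (.cut .d (-65536) (.cut .s 13959168 (.pos 19 .mp ⟨411972502, 0, 0, 0, 0, 962608285, 0, 0, 0, ⟨0, 0⟩, 0⟩ 0 0) (.pos 19 .mp ⟨473987877, 0, 0, 0, 0, 1023724562, 0, 0, 0, ⟨0, 0⟩, 0⟩ 0 0)) (.cut .s 13959168 (.pos 19 .mp ⟨415678179, 0, 0, 0, 0, 633931255, 0, 0, 0, ⟨0, 0⟩, 0⟩ 0 0) (.pos 19 .mp ⟨447104901, 0, 0, 0,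 0, 731192403, 0, 0, 0, ⟨0, 0⟩, 0⟩ 0 0))) (.pos 19 .mp ⟨495208051, 0, 0, 0, 0, 607692724, 0, 0, 0, ⟨0, 0⟩, 0⟩ 0 0)) (.pos 19 .mp ⟨394181562, 0, 0, 0, 0, 0, 0, 0, 0, ⟨0, 0⟩, 0⟩ 0 0)) (.pos 19 .mp ⟨0, 0, 0, 0, 0, 0, 0, 0, 0, ⟨0, 0⟩, 0⟩ 0 0)) (.pos 20 .mp ⟨1021040878, 0, 0, 0, 0, 0, 0, 0, 0, ⟨0, 0⟩, 0⟩ 0 0)))) (.pos 18 .mp ⟨1346651694, 0, 0, 0, 0, 0, 0, 0, 0, ⟨0, 0⟩, 0⟩ 0 0)) (.pos 16 .mp ⟨1665523710, 0, 0, 0, 0, 0, 0, 0, 0, ⟨0, 0⟩, 0⟩ 0 0))) (.pos 14 .mp ⟨2855024577, 0, 0, 0, 0, 0, 0, 0, 0, ⟨0, 0⟩, 0⟩ 0 0)))))) (.void 12 ⟨100000, 0, 0, 0, 0, 0, 0, 0, 0, ⟨0, 0⟩, 0⟩ 0 0)) (.void 57 ⟨100000, 0, 0, 0, 0, 0, 0, 0, 0, ⟨0, 0⟩, 0⟩ 0 0)) (.void 66 ⟨93905, 0, 0, 6095,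 0, 0, 0, 0, 0, ⟨0, 0⟩, 0⟩ 0 0))) (.cut .v 16777216 (.cut .v 8388608 (.cut .v 4194304 (.cut .v 2097152 (.cut .d 1837506 (.void 75 ⟨0, 0, 100000, 0, 0, 0, 0, 0, 0, ⟨0, 0⟩, 0⟩ 0 0) (.cut .v 1048576 (.cut .v 524288 (.pos 131 .pm ⟨0, 13330804, 0, 0, 0, 0, 0, 0, 0, ⟨0, 0⟩, 0⟩ 0 0) (.pos 132 .pm ⟨0, 51162523, 0, 0, 0, 0, 0, 0, 0, ⟨0, 0⟩, 0⟩ 0 0)) (.cut .d 2756259 (.pos 104 .pm ⟨0, 0, 0, 0, 0, 0, 0, 0, 0, ⟨0, 0⟩, 0⟩ 0 0) (.pos 104 .pm ⟨0, 127058366, 0, 0, 0, 0, 0, 0, 0, ⟨0, 0⟩, 0⟩ 0 0)))) (.cut .d 1837506 (.pos 76 .pm ⟨0, 0, 189349971, 0, 0, 0, 0, 0, 0, ⟨0, 0⟩, 0⟩ 0 0) (.cut .d 2756259 (.pos 76 .pm ⟨0, 0, 0, 0, 0, 0, 0, 0, 0, ⟨0, 0⟩, 0⟩ 0 0) (.cut .d 3215635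 (.pos 76 .pm ⟨0, 127211949, 0, 0, 0, 0, 0, 0, 0, ⟨0, 0⟩, 0⟩ 0 0) (.cut .s 13959168 (.pos 76 .pm ⟨0, 175593929, 0, 0, 0, 0, 0, 0, 0, ⟨0, 0⟩, 0⟩ 0 0) (.pos 76 .pm ⟨0, 260900183, 0, 0, 0, 0, 0, 0, 0, ⟨0, 0⟩, 0⟩ 0 0)))))) (.cut .d 1837506 (.pos 5 .pm ⟨0, 0, 267448730, 0, 0, 0, 0, 0, 0, ⟨0, 0⟩, 0⟩ 0 0) (.cut .d 2756259 (.pos 5 .pm ⟨0, 0, 0, 0, 0, 0, 0, 0, 0, ⟨0, 0⟩, 0⟩ 0 0) (.pos 5 .pm ⟨0, 258222415, 0, 0, 0, 0, 0, 0, 0, ⟨0, 0⟩, 0⟩ 0 0)))) (.cut .d 1837506 (.pos 3 .pm ⟨0, 0, 0, 0, 0, 0, 0, 0, 0, ⟨0, 0⟩, 0⟩ 0 0) (.pos 3 .pm ⟨0, 289076484, 0, 0, 0, 0, 0, 0, 0, ⟨0, 0⟩, 0⟩ 0 0))) (.cut .v 268435456 (.cut .d 1837506 (.cut .v 67108864 (.cut .d 918753 (.cut .v 33554432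 (.cut .d 459376 (.cut .v 25165824 (.pos 13 .pp ⟨680820379, 0, 0, 0, 0, 0, 0, 0, 0, ⟨0, 0⟩, 0⟩ 0 0) (.pos 14 .pp ⟨1643678539, 0, 0, 0, 0, 0, 0, 0, 0, ⟨0, 0⟩, 0⟩ 0 0)) (.pos 11 .pp ⟨0, 0, 0, 0, 0, 0, 0, 0, 0, ⟨0, 0⟩, 0⟩ 0 0)) (.cut .v 50331648 (.cut .d 459376 (.cut .v 41943040 (.pos 33 .pp ⟨2779957021, 0, 0, 0, 0, 0, 0, 0, 0, ⟨0, 0⟩, 0⟩ 0 0) (.pos 34 .pp ⟨4061876049, 0, 0, 0, 0, 0, 0, 0, 0, ⟨0, 0⟩, 0⟩ 0 0)) (.pos 31 .pp ⟨1990530721, 0, 0, 0, 0, 0, 0, 0, 0, ⟨0, 0⟩, 0⟩ 0 0)) (.cut .d 459376 (.pos 32 .pp ⟨6806793413, 0, 0, 0, 0, 0, 0, 0, 0, ⟨0, 0⟩, 0⟩ 0 0) (.cut .v 58720256 (.pos 51 .pp ⟨4036871586, 0, 0, 0, 0, 0, 0, 0, 0, ⟨0, 0⟩, 0⟩ 0 0) (.pos 52 .pp ⟨5309921679,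 0, 0, 0, 0, 0, 0, 0, 0, ⟨0, 0⟩, 0⟩ 0 0))))) (.pos 10 .pp ⟨0, 0, 0, 0, 0, 0, 0, 0, 0, ⟨0, 0⟩, 0⟩ 0 0)) (.cut .v 134217728 (.cut .v 100663296 (.cut .d 918753 (.cut .d 459376 (.cut .v 83886080 (.pos 91 .pp ⟨12684663089, 0, 0, 0, 0, 0, 0, 0, 0, ⟨0, 0⟩, 0⟩ 0 0) (.void 92 ⟨100000, 0, 0, 0, 0, 0, 0, 0, 0, ⟨0, 0⟩, 0⟩ 0 0)) (.cut .v 83886080 (.cut .v 75497472 (.pos 101 .pp ⟨6712027169, 0, 0, 0, 0, 0, 0, 0, 0, ⟨0, 0⟩, 0⟩ 0 0) (.cut .d 689064 (.cut .v 79691776 (.pos 123 .pp ⟨8703799078, 0, 0, 0, 0, 0, 0, 0, 0, ⟨0, 0⟩, 0⟩ 0 0) (.cut .l 6501171 (.pos 124 .pp ⟨11451211303, 367847622, 0, 0, 0, 0, 0, 0, 0, ⟨0, 0⟩, 0⟩ 0 0) (.cut .l 8842991 (.pos 124 .pp ⟨9926453460, 439064431,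 0, 0, 0, 0, 0, 0, 0, ⟨0, 0⟩, 0⟩ 0 0) (.cut .s 13959168 (.cut .d 574220 (.pos 124 .pp ⟨13165089588, 0, 0, 0, 0, 0, 0, 0, 0, ⟨0, 0⟩, 0⟩ 0 0) (.pos 124 .pp ⟨9204797198, 0, 0, 0, 0, 0, 0, 0, 0, ⟨0, 0⟩, 0⟩ 0 0)) (.cut .d 574220 (.pos 124 .pp ⟨10223542754, 0, 0, 0, 0, 0, 0, 0, 0, ⟨0, 0⟩, 0⟩ 0 0) (.pos 124 .pp ⟨9568420020, 0, 0, 0, 0, 0, 0, 0, 0, ⟨0, 0⟩, 0⟩ 0 0)))))) (.pos 102 .pp ⟨7522103395, 928385436, 0, 0, 0, 0, 0, 0, 0, ⟨0, 0⟩, 0⟩ 0 0))) (.cut .d 689064 (.cut .v 92274688 (.cut .v 88080384 (.cut .v 85983232 (.cut .v 84934656 (.cut .l 6501171 (.void 149 ⟨36426, 63574, 0, 0, 0, 0, 0, 0, 0, ⟨0, 0⟩, 0⟩ 0 0) (.cut .l 8842991 (.void 149 ⟨36426, 63574, 0, 0, 0,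 0, 0, 0, 0, ⟨0, 0⟩, 0⟩ 0 0) (.cut .l 10013901 (.pos 149 .pp ⟨20249492296, 17081572111, 0, 0, 0, 0, 0, 0, 0, ⟨0, 0⟩, 0⟩ 0 0) (.cut .s 13959168 (.cut .d 574220 (.void 149 ⟨100000, 0, 0, 0, 0, 0, 0, 0, 0, ⟨0, 0⟩, 0⟩ 0 0) (.cut .s 13860864 (.pos 149 .pp ⟨10122514065, 1558851722, 0, 0, 0, 0, 0, 0, 0, ⟨0, 0⟩, 0⟩ 0 0) (.pos 149 .pp ⟨10267066045, 1501098588, 0, 0, 0, 0, 0, 0, 0, ⟨0, 0⟩, 0⟩ 0 0))) (.cut .d 574220 (.cut .s 14057472 (.cut .s 14008320 (.pos 149 .pp ⟨10987694010, 1233616674, 0, 0, 0, 0, 0, 0, 0, ⟨0, 0⟩, 0⟩ 0 0) (.pos 149 .pp ⟨11112290920, 1176086270, 0, 0, 0, 0, 0, 0, 0, ⟨0, 0⟩, 0⟩ 0 0)) (.pos 149 .pp ⟨11249435350, 1107741514, 0, 0, 0, 0, 0, 0, 0,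 ⟨0, 0⟩, 0⟩ 0 0)) (.pos 149 .pp ⟨10214563808, 1518866365, 0, 0, 0, 0, 0, 0, 0, ⟨0, 0⟩, 0⟩ 0 0)))))) (.void 150 ⟨36426, 63574, 0, 0, 0, 0, 0, 0, 0, ⟨0, 0⟩, 0⟩ 0 0)) (.void 148 ⟨36426, 63574, 0, 0, 0, 0, 0, 0, 0, ⟨0, 0⟩, 0⟩ 0 0)) (.void 146 ⟨36426, 63574, 0, 0, 0, 0, 0, 0, 0, ⟨0, 0⟩, 0⟩ 0 0)) (.void 144 ⟨36426, 63574, 0, 0, 0, 0, 0, 0, 0, ⟨0, 0⟩, 0⟩ 0 0)) (.void 92 ⟨0, 100000, 0, 0, 0, 0, 0, 0, 0, ⟨0, 0⟩, 0⟩ 0 0)))) (.pos 71 .pp ⟨0, 3033921941, 0, 0, 0, 0, 0, 0, 0, ⟨0, 0⟩, 0⟩ 0 0)) (.void 72 ⟨35972, 64028, 0, 0, 0, 0, 0, 0, 0, ⟨0, 0⟩, 0⟩ 0 0)) (.void 68 ⟨0, 0, 0, 100000, 0, 0, 0, 0, 0, ⟨0, 0⟩, 0⟩ 0 0))) (.pos 56 .pp ⟨0, 293511442, 0, 0, 0, 0, 0, 0, 0, ⟨0,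 0⟩, 0⟩ 0 0)) (.void 66 ⟨0, 0, 0, 100000, 0, 0, 0, 0, 0, ⟨0, 0⟩, 0⟩ 0 0)))),
    by decide +kernel⟩

def covers22 : cell.Covers table row22.1 :=
  ⟨(.cut .d 0 (.cut .v 16777216 (.cut .v 8388608 (.void 2 ⟨0, 0, 100000, 0, 0, 0, 0, 0, 0, ⟨0, 0⟩, 0⟩ 0 0) (.cut .d (-8388608) (.void 3 ⟨100000, 0, 0, 0, 0, 0, 0, 0, 0, ⟨0, 0⟩, 0⟩ 0 0) (.cut .d (-4194304) (.void 3 ⟨100000, 0, 0, 0, 0, 0, 0, 0, 0, ⟨0, 0⟩, 0⟩ 0 0) (.cut .d (-2097152) (.void 3 ⟨77871, 0, 22129, 0, 0, 0, 0, 0, 0, ⟨0, 0⟩, 0⟩ 0 0) (.cut .d (-1048576) (.void 3 ⟨0, 0, 0, 0, 0, 100000, 0, 0, 0, ⟨0, 0⟩, 0⟩ 0 0) (.cut .d (-524288) (.void 3 ⟨0, 0, 0, 0, 0, 100000, 0, 0, 0, ⟨0, 0⟩, 0⟩ 0 0) (.cut .d (-262144)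 (.cut .l 6501171 (.pos 3 .mm ⟨87957861, 0, 0, 0, 0, 2626993796, 0, 0, 0, ⟨0, 0⟩, 0⟩ 0 0) (.cut .v 12582912 (.pos 6 .mm ⟨0, 0, 0, 0, 0, 1428383450, 0, 0, 0, ⟨0, 0⟩, 0⟩ 0 0) (.cut .v 14680064 (.pos 8 .mm ⟨0, 0, 0, 0, 0, 1884322014, 0, 0, 0, ⟨0, 0⟩, 0⟩ 0 0) (.cut .d (-393216) (.cut .v 15728640 (.pos 49 .mm ⟨0, 0, 0, 0, 0, 2331071712, 0, 0, 0, ⟨0, 0⟩, 0⟩ 0 0) (.cut .d (-458752) (.pos 50 .mm ⟨703406462, 0, 0, 0, 0, 1550955055, 0, 0, 0, ⟨0, 0⟩, 0⟩ 0 0) (.pos 50 .mm ⟨696569923, 0, 0, 0, 0, 1127632284, 0, 0, 0, ⟨0, 0⟩, 0⟩ 0 0))) (.cut .v 15728640 (.pos 49 .mm ⟨0, 0, 0, 0, 0, 1991446305, 0, 0, 0, ⟨0, 0⟩, 0⟩ 0 0) (.cut .s 14319616 (.pos 50 .mm ⟨783175313, 0, 0,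 0, 0, 645119351, 0, 0, 0, ⟨0, 0⟩, 0⟩ 0 0) (.cut .d (-327680) (.cut .l 8842991 (.pos 50 .mm ⟨495168218, 0, 0, 0, 0, 1584773338, 0, 0, 0, ⟨0, 0⟩, 0⟩ 0 0) (.pos 50 .mm ⟨709861311, 0, 0, 0, 0, 936162378, 0, 0, 0, ⟨0, 0⟩, 0⟩ 0 0)) (.pos 50 .mm ⟨721401174, 0, 0, 0, 0, 858177323, 0, 0, 0, ⟨0, 0⟩, 0⟩ 0 0)))))))) (.cut .v 12582912 (.cut .v 10485760 (.pos 107 .mm ⟨0, 0, 0, 0, 0, 1011272572, 0, 0, 0, ⟨0, 0⟩, 0⟩ 0 0) (.pos 108 .mm ⟨0, 0, 0, 0, 0, 1278598126, 0, 0, 0, ⟨0, 0⟩, 0⟩ 0 0)) (.cut .l 6501171 (.cut .d (-131072) (.cut .s 14319616 (.pos 7 .mm ⟨5552823, 0, 0, 0, 0, 1962148304, 0, 0, 0, ⟨0, 0⟩, 0⟩ 0 0) (.cut .s 14401536 (.pos 7 .mm ⟨18562225, 0, 0, 0, 0, 2042928902,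 0, 0, 0, ⟨0, 0⟩, 0⟩ 0 0) (.pos 7 .mm ⟨22386470, 0, 0, 0, 0, 2133559075, 0, 0, 0, ⟨0, 0⟩, 0⟩ 0 0))) (.cut .d (-65536) (.cut .l 4159351 (.cut .s 14319616 (.pos 7 .mm ⟨0, 0, 0, 0, 0, 1907709496, 0, 0, 0, ⟨0, 0⟩, 0⟩ 0 0) (.pos 7 .mm ⟨0, 0, 0, 0, 0, 2061708318, 0, 0, 0, ⟨0, 0⟩, 0⟩ 0 0)) (.pos 7 .mm ⟨0, 0, 0, 0, 0, 0, 0, 0, 0, ⟨0, 0⟩, 0⟩ 0 0)) (.pos 7 .mm ⟨0, 0, 0, 0, 0, 1607555201, 0, 0, 0, ⟨0, 0⟩, 0⟩ 0 0))) (.cut .v 14680064 (.pos 8 .mm ⟨0, 0, 0, 0, 0, 1436779561, 0, 0, 0, ⟨0, 0⟩, 0⟩ 0 0) (.cut .v 15728640 (.pos 49 .mm ⟨0, 0, 0, 0, 0, 1670244349, 0, 0, 0, ⟨0, 0⟩, 0⟩ 0 0) (.pos 50 .mm ⟨525160173, 0, 0, 0, 0, 847159853, 0, 0, 0, ⟨0, 0⟩, 0⟩ 0 0)))))))))))) (.cut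 .v 268435456 (.cut .v 67108864 (.cut .v 33554432 (.cut .d (-8388608) (.void 11 ⟨100000, 0, 0, 0, 0, 0, 0, 0, 0, ⟨0, 0⟩, 0⟩ 0 0) (.cut .d (-4194304) (.void 11 ⟨100000, 0, 0, 0, 0, 0, 0, 0, 0, ⟨0, 0⟩, 0⟩ 0 0) (.cut .d (-2097152) (.void 11 ⟨100000, 0, 0, 0, 0, 0, 0, 0, 0, ⟨0, 0⟩, 0⟩ 0 0) (.cut .d (-1048576) (.void 11 ⟨100000, 0, 0, 0, 0, 0, 0, 0, 0, ⟨0, 0⟩, 0⟩ 0 0) (.cut .v 25165824 (.cut .d (-524288) (.void 13 ⟨100000, 0, 0, 0, 0, 0, 0, 0, 0, ⟨0, 0⟩, 0⟩ 0 0) (.cut .v 20971520 (.cut .d (-262144) (.cut .v 18874368 (.cut .d (-393216) (.pos 17 .mp ⟨1559419473, 0, 0, 0, 0, 0, 0, 0, 0, ⟨0, 0⟩, 0⟩ 0 0) (.pos 17 .mp ⟨1430562153, 0, 0, 0, 0, 0, 0, 0, 0, ⟨0, 0⟩,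 0⟩ 0 0)) (.pos 18 .mp ⟨1757941812, 0, 0, 0, 0, 0, 0, 0, 0, ⟨0, 0⟩, 0⟩ 0 0)) (.cut .v 18874368 (.cut .d (-131072) (.pos 17 .mp ⟨1310792538, 0, 0, 0, 0, 0, 0, 0, 0, ⟨0, 0⟩, 0⟩ 0 0) (.cut .v 17825792 (.cut .v 17301504 (.cut .l 6501171 (.cut .l 4159351 (.cut .d (-65536) (.cut .s 14319616 (.pos 21 .mp ⟨450556519, 0, 0, 0, 0, 1230147570, 0, 0, 0, ⟨0, 0⟩, 0⟩ 0 0) (.pos 21 .mp ⟨625734869, 0, 0, 0, 0, 1074191509, 0, 0, 0, ⟨0, 0⟩, 0⟩ 0 0)) (.cut .d (-32768) (.cut .d (-49152) (.cut .s 14319616 (.pos 21 .mp ⟨389781101, 0, 0, 0, 0, 1269798625, 0, 0, 0, ⟨0, 0⟩, 0⟩ 0 0) (.pos 21 .mp ⟨400249750, 0, 0, 0, 0, 1364650630, 0, 0, 0, ⟨0, 0⟩, 0⟩ 0 0)) (.pos 21 .mp ⟨410218284,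 0, 0, 0, 0, 0, 0, 0, 0, ⟨0, 0⟩, 0⟩ 0 0)) (.pos 21 .mp ⟨0, 0, 0, 0, 0, 0, 0, 0, 0, ⟨0, 0⟩, 0⟩ 0 0))) (.pos 21 .mp ⟨440328640, 0, 0, 0, 0, 0, 0, 0, 0, ⟨0, 0⟩, 0⟩ 0 0)) (.pos 21 .mp ⟨0, 0, 0, 0, 0, 0, 0, 0, 0, ⟨0, 0⟩, 0⟩ 0 0)) (.pos 22 .mp ⟨1188545923, 0, 0, 0, 0, 0, 0, 0, 0, ⟨0, 0⟩, 0⟩ 0 0)) (.pos 20 .mp ⟨1251309000, 0, 0, 0, 0, 0, 0, 0, 0, ⟨0, 0⟩, 0⟩ 0 0))) (.pos 18 .mp ⟨1482152209, 0, 0, 0, 0, 0, 0, 0, 0, ⟨0, 0⟩, 0⟩ 0 0))) (.pos 16 .mp ⟨1991083215, 0, 0, 0, 0, 0, 0, 0, 0, ⟨0, 0⟩, 0⟩ 0 0))) (.pos 14 .mp ⟨3488995719, 0, 0, 0, 0, 0, 0, 0, 0, ⟨0, 0⟩, 0⟩ 0 0)))))) (.void 12 ⟨100000, 0, 0, 0, 0, 0, 0, 0, 0, ⟨0, 0⟩, 0⟩ 0 0)) (.void 57 ⟨100000, 0, 0, 0, 0, 0,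 0, 0, 0, ⟨0, 0⟩, 0⟩ 0 0)) (.void 66 ⟨93773, 0, 0, 6227, 0, 0, 0, 0, 0, ⟨0, 0⟩, 0⟩ 0 0))) (.cut .v 16777216 (.cut .v 8388608 (.cut .v 4194304 (.cut .v 2097152 (.cut .d 1553447 (.void 75 ⟨0, 0, 100000, 0, 0, 0, 0, 0, 0, ⟨0, 0⟩, 0⟩ 0 0) (.cut .v 1048576 (.cut .v 524288 (.pos 131 .pm ⟨0, 16986838, 0, 0, 0, 0, 0, 0, 0, ⟨0, 0⟩, 0⟩ 0 0) (.pos 132 .pm ⟨0, 58301821, 0, 0, 0, 0, 0, 0, 0, ⟨0, 0⟩, 0⟩ 0 0)) (.cut .d 2330170 (.pos 104 .pm ⟨0, 0, 0, 0, 0, 0, 0, 0, 0, ⟨0, 0⟩, 0⟩ 0 0) (.cut .d 2718532 (.pos 104 .pm ⟨0, 107760135, 0, 0, 0, 0, 0, 0, 0, ⟨0, 0⟩, 0⟩ 0 0) (.pos 104 .pm ⟨0, 177621714, 0, 0, 0, 0, 0, 0, 0, ⟨0, 0⟩, 0⟩ 0 0))))) (.cut .d 1553447 (.pos 76 .pm ⟨0,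 0, 272372200, 0, 0, 0, 0, 0, 0, ⟨0, 0⟩, 0⟩ 0 0) (.cut .d 2330170 (.pos 76 .pm ⟨0, 0, 0, 0, 0, 0, 0, 0, 0, ⟨0, 0⟩, 0⟩ 0 0) (.cut .d 2718532 (.pos 76 .pm ⟨0, 142394917, 0, 0, 0, 0, 0, 0, 0, ⟨0, 0⟩, 0⟩ 0 0) (.pos 76 .pm ⟨0, 239462844, 0, 0, 0, 0, 0, 0, 0, ⟨0, 0⟩, 0⟩ 0 0))))) (.cut .d 1553447 (.pos 5 .pm ⟨0, 0, 372027160, 0, 0, 0, 0, 0, 0, ⟨0, 0⟩, 0⟩ 0 0) (.cut .d 2330170 (.pos 5 .pm ⟨0, 0, 0, 0, 0, 0, 0, 0, 0, ⟨0, 0⟩, 0⟩ 0 0) (.pos 5 .pm ⟨0, 291709712, 0, 0, 0, 0, 0, 0, 0, ⟨0, 0⟩, 0⟩ 0 0)))) (.pos 3 .pm ⟨0, 24455570, 0, 0, 0, 0, 0, 0, 0, ⟨0, 0⟩, 0⟩ 0 0)) (.cut .v 268435456 (.cut .d 1553447 (.cut .v 67108864 (.cut .d 776723 (.cut .v 33554432 (.cut .v 25165824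 (.pos 13 .pp ⟨742003383, 0, 0, 0, 0, 0, 0, 0, 0, ⟨0, 0⟩, 0⟩ 0 0) (.pos 14 .pp ⟨1639655319, 0, 0, 0, 0, 0, 0, 0, 0, ⟨0, 0⟩, 0⟩ 0 0)) (.cut .v 50331648 (.cut .v 41943040 (.pos 33 .pp ⟨2786183898, 0, 0, 0, 0, 0, 0, 0, 0, ⟨0, 0⟩, 0⟩ 0 0) (.cut .d 388361 (.pos 34 .pp ⟨4647559559, 0, 0, 0, 0, 0, 0, 0, 0, ⟨0, 0⟩, 0⟩ 0 0) (.pos 34 .pp ⟨3262319398, 0, 0, 0, 0, 0, 0, 0, 0, ⟨0, 0⟩, 0⟩ 0 0))) (.cut .d 388361 (.pos 32 .pp ⟨7799364948, 0, 0, 0, 0, 0, 0, 0, 0, ⟨0, 0⟩, 0⟩ 0 0) (.pos 32 .pp ⟨5301191314, 0, 0, 0, 0, 0, 0, 0, 0, ⟨0, 0⟩, 0⟩ 0 0)))) (.pos 10 .pp ⟨0, 0, 0, 0, 0, 0, 0, 0, 0, ⟨0, 0⟩, 0⟩ 0 0)) (.cut .v 134217728 (.cut .v 100663296 (.cut .d 776723 (.cut .d 388361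 (.pos 71 .pp ⟨20536409885, 0, 0, 0, 0, 0, 0, 0, 0, ⟨0, 0⟩, 0⟩ 0 0) (.cut .v 83886080 (.cut .d 582542 (.cut .d 485451 (.pos 91 .pp ⟨11612231956, 0, 0, 0, 0, 0, 0, 0, 0, ⟨0, 0⟩, 0⟩ 0 0) (.pos 91 .pp ⟨9642743146, 0, 0, 0, 0, 0, 0, 0, 0, ⟨0, 0⟩, 0⟩ 0 0)) (.pos 91 .pp ⟨7997616190, 0, 0, 0, 0, 0, 0, 0, 0, ⟨0, 0⟩, 0⟩ 0 0)) (.cut .d 582542 (.cut .v 92274688 (.cut .v 88080384 (.cut .d 485451 (.pos 145 .pp ⟨16983194368, 559301298, 0, 0, 0, 0, 0, 0, 0, ⟨0, 0⟩, 0⟩ 0 0) (.cut .s 14319616 (.cut .s 14237696 (.pos 145 .pp ⟨12013433004, 2245728249, 0, 0, 0, 0, 0, 0, 0, ⟨0, 0⟩, 0⟩ 0 0) (.pos 145 .pp ⟨12150042534, 2174632138, 0, 0, 0, 0, 0, 0, 0, ⟨0, 0⟩, 0⟩ 0 0)) (.pos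 145 .pp ⟨12387403682, 2016578093, 0, 0, 0, 0, 0, 0, 0, ⟨0, 0⟩, 0⟩ 0 0))) (.void 146 ⟨36016, 63984, 0, 0, 0, 0, 0, 0, 0, ⟨0, 0⟩, 0⟩ 0 0)) (.void 144 ⟨36016, 63984, 0, 0, 0, 0, 0, 0, 0, ⟨0, 0⟩, 0⟩ 0 0)) (.void 92 ⟨0, 100000, 0, 0, 0, 0, 0, 0, 0, ⟨0, 0⟩, 0⟩ 0 0)))) (.pos 71 .pp ⟨0, 3698183769, 0, 0, 0, 0, 0, 0, 0, ⟨0, 0⟩, 0⟩ 0 0)) (.void 72 ⟨35632, 64368, 0, 0, 0, 0, 0, 0, 0, ⟨0, 0⟩, 0⟩ 0 0)) (.void 68 ⟨0, 0, 0, 100000, 0, 0, 0, 0, 0, ⟨0, 0⟩, 0⟩ 0 0))) (.pos 56 .pp ⟨0, 338046790, 0, 0, 0, 0, 0, 0, 0, ⟨0, 0⟩, 0⟩ 0 0)) (.void 66 ⟨0, 0, 0, 100000, 0, 0, 0, 0, 0, ⟨0, 0⟩, 0⟩ 0 0)))),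
    by decide +kernel⟩

def covers23 : cell.Covers table row23.1 :=
  ⟨(.cut .d 0 (.cut .v 16777216 (.cut .d (-8388608) (.void 1 ⟨0, 0, 0, 0, 0, 100000, 0, 0, 0, ⟨0, 0⟩, 0⟩ 0 0) (.cut .v 8388608 (.void 2 ⟨0, 0, 100000, 0, 0, 0, 0, 0, 0, ⟨0, 0⟩, 0⟩ 0 0) (.cut .d (-4194304) (.void 3 ⟨100000, 0, 0, 0, 0, 0, 0, 0, 0, ⟨0, 0⟩, 0⟩ 0 0) (.cut .d (-2097152) (.void 3 ⟨77541, 0, 22459, 0, 0, 0, 0, 0, 0, ⟨0, 0⟩, 0⟩ 0 0) (.cut .d (-1048576) (.void 3 ⟨0, 0, 0, 0, 0, 100000, 0, 0, 0, ⟨0, 0⟩, 0⟩ 0 0) (.cut .d (-524288) (.void 3 ⟨0, 0, 0, 0, 0, 100000, 0, 0, 0, ⟨0, 0⟩, 0⟩ 0 0) (.cut .d (-262144) (.cut .l 6501171 (.void 3 ⟨0, 0, 0, 0, 0, 100000, 0, 0, 0, ⟨0, 0⟩, 0⟩ 0 0)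 (.cut .v 12582912 (.cut .v 10485760 (.pos 107 .mm ⟨0, 0, 74012048, 0, 0, 1586225445, 0, 0, 0, ⟨0, 0⟩, 0⟩ 0 0) (.pos 108 .mm ⟨0, 0, 0, 0, 0, 1932334629, 0, 0, 0, ⟨0, 0⟩, 0⟩ 0 0)) (.cut .d (-393216) (.cut .v 14680064 (.pos 8 .mm ⟨0, 0, 0, 0, 0, 2572424778, 0, 0, 0, ⟨0, 0⟩, 0⟩ 0 0) (.cut .s 14647296 (.cut .v 15728640 (.pos 49 .mm ⟨0, 0, 0, 0, 0, 2593888334, 0, 0, 0, ⟨0, 0⟩, 0⟩ 0 0) (.cut .s 14565376 (.cut .d (-458752) (.void 50 ⟨100000, 0, 0, 0, 0, 0, 0, 0, 0, ⟨0, 0⟩, 0⟩ 0 0) (.cut .d (-425984) (.void 50 ⟨100000, 0, 0, 0, 0, 0, 0, 0, 0, ⟨0, 0⟩, 0⟩ 0 0) (.cut .v 16252928 (.pos 53 .mm ⟨594495094, 0, 0, 0, 0, 1447159408, 0, 0, 0, ⟨0, 0⟩, 0⟩ 0 0) (.void 54 ⟨100000,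 0, 0, 0, 0, 0, 0, 0, 0, ⟨0, 0⟩, 0⟩ 0 0)))) (.void 50 ⟨0, 0, 0, 0, 0, 100000, 0, 0, 0, ⟨0, 0⟩, 0⟩ 0 0))) (.void 9 ⟨0, 0, 0, 0, 0, 100000, 0, 0, 0, ⟨0, 0⟩, 0⟩ 0 0))) (.cut .v 14680064 (.cut .s 14647296 (.pos 8 .mm ⟨0, 0, 0, 0, 0, 2058732009, 0, 0, 0, ⟨0, 0⟩, 0⟩ 0 0) (.pos 8 .mm ⟨0, 0, 0, 0, 0, 2295648054, 0, 0, 0, ⟨0, 0⟩, 0⟩ 0 0)) (.cut .s 14647296 (.cut .v 15728640 (.cut .s 14565376 (.pos 49 .mm ⟨0, 0, 0, 0, 0, 2233132196, 0, 0, 0, ⟨0, 0⟩, 0⟩ 0 0) (.pos 49 .mm ⟨0, 0, 0, 0, 0, 2339757864, 0, 0, 0, ⟨0, 0⟩, 0⟩ 0 0)) (.cut .v 16252928 (.cut .l 8842991 (.pos 53 .mm ⟨293596679, 0, 0, 0, 0, 1973730230, 0, 0, 0, ⟨0, 0⟩, 0⟩ 0 0) (.cut .d (-327680) (.cut .l 10013901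 (.pos 53 .mm ⟨382233159, 0, 0, 0, 0, 1863980211, 0, 0, 0, ⟨0, 0⟩, 0⟩ 0 0) (.cut .d (-360448) (.cut .s 14565376 (.pos 53 .mm ⟨530000858, 0, 0, 0, 0, 1434350123, 0, 0, 0, ⟨0, 0⟩, 0⟩ 0 0) (.cut .s 14606336 (.cut .d (-376832) (.cut .s 14585856 (.pos 53 .mm ⟨544335800, 0, 0, 0, 0, 1477549506, 0, 0, 0, ⟨0, 0⟩, 0⟩ 0 0) (.pos 53 .mm ⟨558725978, 0, 0, 0, 0, 1476230651, 0, 0, 0, ⟨0, 0⟩, 0⟩ 0 0)) (.pos 53 .mm ⟨601922810, 0, 0, 0, 0, 1277896111, 0, 0, 0, ⟨0, 0⟩, 0⟩ 0 0)) (.pos 53 .mm ⟨579542674, 0, 0, 0, 0, 1460828957, 0, 0, 0, ⟨0, 0⟩, 0⟩ 0 0))) (.pos 53 .mm ⟨581550570, 0, 0, 0, 0, 1278157980, 0, 0, 0, ⟨0, 0⟩, 0⟩ 0 0))) (.pos 53 .mm ⟨576741571, 0, 0, 0, 0, 1230991804,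 0, 0, 0, ⟨0, 0⟩, 0⟩ 0 0))) (.pos 54 .mm ⟨1454223297, 0, 0, 0, 0, 0, 0, 0, 0, ⟨0, 0⟩, 0⟩ 0 0))) (.cut .v 15728640 (.cut .s 14729216 (.pos 49 .mm ⟨0, 0, 0, 0, 0, 2457562187, 0, 0, 0, ⟨0, 0⟩, 0⟩ 0 0) (.pos 49 .mm ⟨0, 0, 0, 0, 0, 2600806537, 0, 0, 0, ⟨0, 0⟩, 0⟩ 0 0)) (.cut .l 8842991 (.pos 50 .mm ⟨384846701, 0, 0, 0, 0, 2139327454, 0, 0, 0, ⟨0, 0⟩, 0⟩ 0 0) (.cut .d (-327680) (.cut .l 10013901 (.pos 50 .mm ⟨504197478, 0, 0, 0, 0, 1929396492, 0, 0, 0, ⟨0, 0⟩, 0⟩ 0 0) (.cut .d (-360448) (.pos 50 .mm ⟨873386200, 0, 0, 0, 0, 1027872124, 0, 0, 0, ⟨0, 0⟩, 0⟩ 0 0) (.pos 50 .mm ⟨711037678, 0, 0, 0, 0, 1179445138, 0, 0, 0, ⟨0, 0⟩, 0⟩ 0 0))) (.pos 50 .mm ⟨711434532,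 0, 0, 0, 0, 1179327331, 0, 0, 0, ⟨0, 0⟩, 0⟩ 0 0))))))))) (.cut .v 12582912 (.cut .l 6501171 (.cut .d (-131072) (.pos 6 .mm ⟨0, 0, 0, 0, 0, 1713800142, 0, 0, 0, ⟨0, 0⟩, 0⟩ 0 0) (.cut .v 10485760 (.pos 107 .mm ⟨0, 0, 0, 0, 0, 1192882678, 0, 0, 0, ⟨0, 0⟩, 0⟩ 0 0) (.pos 108 .mm ⟨0, 0, 0, 0, 0, 1506248500, 0, 0, 0, ⟨0, 0⟩, 0⟩ 0 0))) (.pos 6 .mm ⟨0, 0, 0, 0, 0, 1146437838, 0, 0, 0, ⟨0, 0⟩, 0⟩ 0 0)) (.cut .l 6501171 (.cut .d (-131072) (.cut .l 4159351 (.pos 7 .mm ⟨200345326, 0, 0, 0, 0, 2372170737, 0, 0, 0, ⟨0, 0⟩, 0⟩ 0 0) (.cut .v 14680064 (.pos 8 .mm ⟨0, 0, 0, 0, 0, 2151447526, 0, 0, 0, ⟨0, 0⟩, 0⟩ 0 0) (.cut .d (-196608) (.pos 9 .mm ⟨278248871, 0, 0, 0, 0,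 2162136998, 0, 0, 0, ⟨0, 0⟩, 0⟩ 0 0) (.cut .s 14647296 (.pos 9 .mm ⟨101642899, 0, 0, 0, 0, 2133885985, 0, 0, 0, ⟨0, 0⟩, 0⟩ 0 0) (.pos 9 .mm ⟨107392949, 0, 0, 0, 0, 2341981310, 0, 0, 0, ⟨0, 0⟩, 0⟩ 0 0))))) (.cut .l 4159351 (.cut .v 14680064 (.pos 8 .mm ⟨0, 0, 0, 0, 0, 1917417482, 0, 0, 0, ⟨0, 0⟩, 0⟩ 0 0) (.cut .d (-65536) (.cut .s 14647296 (.pos 9 .mm ⟨0, 0, 0, 0, 0, 2290948690, 0, 0, 0, ⟨0, 0⟩, 0⟩ 0 0) (.pos 9 .mm ⟨109855738, 0, 0, 0, 0, 2345116728, 0, 0, 0, ⟨0, 0⟩, 0⟩ 0 0)) (.cut .s 14647296 (.pos 9 .mm ⟨0, 0, 0, 0, 0, 2123270865, 0, 0, 0, ⟨0, 0⟩, 0⟩ 0 0) (.pos 9 .mm ⟨0, 0, 0, 0, 0, 2303153447, 0, 0, 0, ⟨0, 0⟩, 0⟩ 0 0)))) (.pos 7 .mm ⟨0, 0, 0, 0, 0,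 1816574740, 0, 0, 0, ⟨0, 0⟩, 0⟩ 0 0))) (.cut .v 14680064 (.pos 8 .mm ⟨0, 0, 0, 0, 0, 1726033396, 0, 0, 0, ⟨0, 0⟩, 0⟩ 0 0) (.cut .d (-131072) (.cut .v 15728640 (.pos 49 .mm ⟨0, 0, 0, 0, 0, 2080426997, 0, 0, 0, ⟨0, 0⟩, 0⟩ 0 0) (.cut .s 14647296 (.pos 50 .mm ⟨607884017, 0, 0, 0, 0, 1114324077, 0, 0, 0, ⟨0, 0⟩, 0⟩ 0 0) (.pos 50 .mm ⟨613454084, 0, 0, 0, 0, 1314059307, 0, 0, 0, ⟨0, 0⟩, 0⟩ 0 0))) (.pos 9 .mm ⟨0, 0, 0, 0, 0, 0, 0, 0, 0, ⟨0, 0⟩, 0⟩ 0 0)))))))))))) (.cut .v 268435456 (.cut .v 67108864 (.cut .v 33554432 (.cut .d (-8388608) (.void 11 ⟨100000, 0, 0, 0, 0, 0, 0, 0, 0, ⟨0, 0⟩, 0⟩ 0 0) (.cut .d (-4194304) (.void 11 ⟨100000, 0, 0, 0, 0, 0, 0, 0, 0, ⟨0,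 0⟩, 0⟩ 0 0) (.cut .d (-2097152) (.void 11 ⟨100000, 0, 0, 0, 0, 0, 0, 0, 0, ⟨0, 0⟩, 0⟩ 0 0) (.cut .d (-1048576) (.void 11 ⟨100000, 0, 0, 0, 0, 0, 0, 0, 0, ⟨0, 0⟩, 0⟩ 0 0) (.cut .d (-524288) (.void 11 ⟨100000, 0, 0, 0, 0, 0, 0, 0, 0, ⟨0, 0⟩, 0⟩ 0 0) (.cut .v 25165824 (.cut .v 20971520 (.cut .d (-262144) (.cut .s 14647296 (.cut .v 18874368 (.pos 17 .mp ⟨1661841382, 0, 0, 0, 0, 0, 0, 0, 0, ⟨0, 0⟩, 0⟩ 0 0) (.pos 18 .mp ⟨1947018229, 0, 0, 0, 0, 0, 0, 0, 0, ⟨0, 0⟩, 0⟩ 0 0)) (.pos 15 .mp ⟨1984504396, 0, 0, 0, 0, 0, 0, 0, 0, ⟨0, 0⟩, 0⟩ 0 0)) (.cut .v 18874368 (.cut .v 17825792 (.cut .l 6501171 (.cut .d (-131072) (.pos 19 .mp ⟨1574559084, 0, 0, 0, 0, 0, 0, 0, 0,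 ⟨0, 0⟩, 0⟩ 0 0) (.cut .l 4159351 (.cut .v 17301504 (.cut .d (-65536) (.cut .s 14647296 (.cut .s 14565376 (.pos 21 .mp ⟨517527840, 0, 0, 0, 0, 1425459022, 0, 0, 0, ⟨0, 0⟩, 0⟩ 0 0) (.pos 21 .mp ⟨558952965, 0, 0, 0, 0, 1459919590, 0, 0, 0, ⟨0, 0⟩, 0⟩ 0 0)) (.pos 21 .mp ⟨797327106, 0, 0, 0, 0, 1221552072, 0, 0, 0, ⟨0, 0⟩, 0⟩ 0 0)) (.cut .d (-32768) (.cut .l 2988441 (.cut .l 2402986 (.cut .d (-49152) (.cut .s 14647296 (.pos 21 .mp ⟨454263033, 0, 0, 0, 0, 1556416317, 0, 0, 0, ⟨0, 0⟩, 0⟩ 0 0) (.pos 21 .mp ⟨467654737, 0, 0, 0, 0, 1695830184, 0, 0, 0, ⟨0, 0⟩, 0⟩ 0 0)) (.cut .s 14647296 (.pos 21 .mp ⟨416682913, 0, 0, 0, 0, 1479149490, 0, 0, 0, ⟨0, 0⟩, 0⟩ 0 0) (.pos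 21 .mp ⟨416437260, 0, 0, 0, 0, 1587486090, 0, 0, 0, ⟨0, 0⟩, 0⟩ 0 0))) (.pos 21 .mp ⟨422810499, 0, 0, 0, 0, 1102146069, 0, 0, 0, ⟨0, 0⟩, 0⟩ 0 0)) (.pos 21 .mp ⟨0, 0, 0, 0, 0, 0, 0, 0, 0, ⟨0, 0⟩, 0⟩ 0 0)) (.pos 21 .mp ⟨0, 0, 0, 0, 0, 0, 0, 0, 0, ⟨0, 0⟩, 0⟩ 0 0))) (.pos 22 .mp ⟨1440322843, 0, 0, 0, 0, 0, 0, 0, 0, ⟨0, 0⟩, 0⟩ 0 0)) (.pos 19 .mp ⟨1238714201, 0, 0, 0, 0, 0, 0, 0, 0, ⟨0, 0⟩, 0⟩ 0 0))) (.pos 19 .mp ⟨1325389689, 0, 0, 0, 0, 0, 0, 0, 0, ⟨0, 0⟩, 0⟩ 0 0)) (.pos 20 .mp ⟨1588689434, 0, 0, 0, 0, 0, 0, 0, 0, ⟨0, 0⟩, 0⟩ 0 0)) (.pos 18 .mp ⟨1738605624, 0, 0, 0, 0, 0, 0, 0, 0, ⟨0, 0⟩, 0⟩ 0 0))) (.pos 16 .mp ⟨2380835102, 0, 0, 0, 0, 0, 0, 0, 0, ⟨0, 0⟩, 0⟩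 0 0)) (.pos 14 .mp ⟨3522732504, 0, 0, 0, 0, 0, 0, 0, 0, ⟨0, 0⟩, 0⟩ 0 0))))))) (.void 12 ⟨100000, 0, 0, 0, 0, 0, 0, 0, 0, ⟨0, 0⟩, 0⟩ 0 0)) (.void 57 ⟨100000, 0, 0, 0, 0, 0, 0, 0, 0, ⟨0, 0⟩, 0⟩ 0 0)) (.void 66 ⟨93641, 0, 0, 6359, 0, 0, 0, 0, 0, ⟨0, 0⟩, 0⟩ 0 0))) (.cut .v 16777216 (.cut .v 8388608 (.cut .v 4194304 (.cut .v 2097152 (.cut .d 1328514 (.void 75 ⟨0, 0, 100000, 0, 0, 0, 0, 0, 0, ⟨0, 0⟩, 0⟩ 0 0) (.cut .v 1048576 (.cut .v 524288 (.cut .v 262144 (.pos 155 .pm ⟨0, 7006049, 0, 0, 0, 0, 0, 0, 0, ⟨0, 0⟩, 0⟩ 0 0) (.pos 156 .pm ⟨0, 37901954, 0, 0, 0, 0, 0, 0, 0, ⟨0, 0⟩, 0⟩ 0 0)) (.pos 132 .pm ⟨0, 70879228, 0, 0, 0, 0, 0, 0, 0, ⟨0, 0⟩, 0⟩ 0 0)) (.cut .d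 1992771 (.pos 104 .pm ⟨0, 0, 0, 0, 0, 0, 0, 0, 0, ⟨0, 0⟩, 0⟩ 0 0) (.cut .d 2324899 (.pos 104 .pm ⟨0, 129030700, 0, 0, 0, 0, 0, 0, 0, ⟨0, 0⟩, 0⟩ 0 0) (.cut .s 14647296 (.pos 104 .pm ⟨0, 167810740, 0, 0, 0, 0, 0, 0, 0, ⟨0, 0⟩, 0⟩ 0 0) (.pos 104 .pm ⟨0, 242717705, 0, 0, 0, 0, 0, 0, 0, ⟨0, 0⟩, 0⟩ 0 0)))))) (.cut .d 1328514 (.pos 76 .pm ⟨0, 0, 344707182, 0, 0, 0, 0, 0, 0, ⟨0, 0⟩, 0⟩ 0 0) (.cut .d 1992771 (.pos 76 .pm ⟨0, 0, 0, 0, 0, 0, 0, 0, 0, ⟨0, 0⟩, 0⟩ 0 0) (.cut .d 2324899 (.pos 76 .pm ⟨0, 174609221, 0, 0, 0, 0, 0, 0, 0, ⟨0, 0⟩, 0⟩ 0 0) (.cut .s 14647296 (.pos 76 .pm ⟨0, 223121032, 0, 0, 0, 0, 0, 0, 0, ⟨0, 0⟩, 0⟩ 0 0) (.pos 76 .pm ⟨0, 328058434, 0, 0,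 0, 0, 0, 0, 0, ⟨0, 0⟩, 0⟩ 0 0)))))) (.cut .d 1328514 (.pos 5 .pm ⟨0, 0, 484990854, 0, 0, 0, 0, 0, 0, ⟨0, 0⟩, 0⟩ 0 0) (.cut .d 1992771 (.pos 5 .pm ⟨0, 0, 0, 0, 0, 0, 0, 0, 0, ⟨0, 0⟩, 0⟩ 0 0) (.pos 5 .pm ⟨0, 357468728, 0, 0, 0, 0, 0, 0, 0, ⟨0, 0⟩, 0⟩ 0 0)))) (.pos 3 .pm ⟨0, 21521885, 0, 0, 0, 0, 0, 0, 0, ⟨0, 0⟩, 0⟩ 0 0)) (.cut .v 268435456 (.cut .d 1328514 (.cut .v 67108864 (.cut .d 664257 (.cut .v 33554432 (.cut .v 25165824 (.pos 13 .pp ⟨755923443, 0, 0, 0, 0, 0, 0, 0, 0, ⟨0, 0⟩, 0⟩ 0 0) (.pos 14 .pp ⟨1894238416, 0, 0, 0, 0, 0, 0, 0, 0, ⟨0, 0⟩, 0⟩ 0 0)) (.cut .v 50331648 (.cut .v 41943040 (.pos 33 .pp ⟨3181346371, 0, 0, 0, 0, 0, 0, 0, 0, ⟨0, 0⟩, 0⟩ 0 0)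 (.pos 34 .pp ⟨4631082039, 0, 0, 0, 0, 0, 0, 0, 0, ⟨0, 0⟩, 0⟩ 0 0)) (.cut .d 332128 (.pos 32 .pp ⟨8638773601, 0, 0, 0, 0, 0, 0, 0, 0, ⟨0, 0⟩, 0⟩ 0 0) (.pos 32 .pp ⟨6031304218, 0, 0, 0, 0, 0, 0, 0, 0, ⟨0, 0⟩, 0⟩ 0 0)))) (.pos 10 .pp ⟨0, 0, 0, 0, 0, 0, 0, 0, 0, ⟨0, 0⟩, 0⟩ 0 0)) (.cut .v 134217728 (.cut .v 100663296 (.cut .d 664257 (.cut .d 332128 (.pos 71 .pp ⟨22623965279, 0, 0, 0, 0, 0, 0, 0, 0, ⟨0, 0⟩, 0⟩ 0 0) (.cut .v 83886080 (.cut .d 498192 (.pos 91 .pp ⟨11441811459, 0, 0, 0, 0, 0, 0, 0, 0, ⟨0, 0⟩, 0⟩ 0 0) (.pos 91 .pp ⟨9090751602, 0, 0, 0, 0, 0, 0, 0, 0, ⟨0, 0⟩, 0⟩ 0 0)) (.cut .d 498192 (.pos 92 .pp ⟨15330155412, 5225959798, 0, 0, 0, 0, 0, 0, 0, ⟨0,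 0⟩, 0⟩ 0 0) (.pos 92 .pp ⟨9705828854, 5790502621, 0, 0, 0, 0, 0, 0, 0, ⟨0, 0⟩, 0⟩ 0 0)))) (.pos 71 .pp ⟨0, 4182441388, 0, 0, 0, 0, 0, 0, 0, ⟨0, 0⟩, 0⟩ 0 0)) (.void 72 ⟨35267, 64733, 0, 0, 0, 0, 0, 0, 0, ⟨0, 0⟩, 0⟩ 0 0)) (.void 68 ⟨0, 0, 0, 100000, 0, 0, 0, 0, 0, ⟨0, 0⟩, 0⟩ 0 0))) (.pos 56 .pp ⟨0, 435055063, 0, 0, 0, 0, 0, 0, 0, ⟨0, 0⟩, 0⟩ 0 0)) (.void 66 ⟨0, 0, 0, 100000, 0, 0, 0, 0, 0, ⟨0, 0⟩, 0⟩ 0 0)))),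
    by decide +kernel⟩

def covers24 : cell.Covers table row24.1 :=
  ⟨(.cut .d 0 (.cut .v 16777216 (.cut .d (-8388608) (.void 1 ⟨0, 0, 0, 0, 0, 100000, 0, 0, 0, ⟨0, 0⟩, 0⟩ 0 0) (.cut .v 8388608 (.void 2 ⟨0, 0, 100000, 0, 0, 0, 0, 0, 0, ⟨0, 0⟩, 0⟩ 0 0) (.cut .d (-4194304) (.void 3 ⟨100000, 0, 0, 0, 0, 0, 0, 0, 0, ⟨0, 0⟩, 0⟩ 0 0) (.cut .d (-2097152) (.void 3 ⟨100000, 0, 0, 0, 0, 0, 0, 0, 0, ⟨0, 0⟩, 0⟩ 0 0) (.cut .d (-1048576) (.void 3 ⟨77213, 0, 22787, 0, 0, 0, 0, 0, 0, ⟨0, 0⟩, 0⟩ 0 0) (.cut .d (-524288) (.void 3 ⟨0, 0, 0, 0, 0, 100000, 0, 0, 0, ⟨0, 0⟩, 0⟩ 0 0) (.cut .d (-262144) (.cut .d (-393216) (.void 3 ⟨0, 0, 0, 0, 0, 100000, 0, 0, 0, ⟨0, 0⟩, 0⟩ 0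 0) (.cut .v 12582912 (.pos 6 .mm ⟨0, 0, 56502980, 0, 0, 2400260781, 0, 0, 0, ⟨0, 0⟩, 0⟩ 0 0) (.cut .v 14680064 (.pos 8 .mm ⟨0, 0, 0, 0, 0, 2914983497, 0, 0, 0, ⟨0, 0⟩, 0⟩ 0 0) (.cut .d (-327680) (.pos 9 .mm ⟨400094465, 0, 0, 0, 0, 3259877867, 0, 0, 0, ⟨0, 0⟩, 0⟩ 0 0) (.cut .l 6501171 (.void 9 ⟨0, 0, 0, 0, 0, 100000, 0, 0, 0, ⟨0, 0⟩, 0⟩ 0 0) (.cut .l 8842991 (.pos 9 .mm ⟨371867541, 0, 0, 0, 0, 3151788505, 0, 0, 0, ⟨0, 0⟩, 0⟩ 0 0) (.cut .v 15728640 (.cut .d (-294912) (.cut .s 14942208 (.pos 49 .mm ⟨0, 0, 0, 0, 0, 2985165551, 0, 0, 0, ⟨0, 0⟩, 0⟩ 0 0) (.pos 49 .mm ⟨296518991, 0, 0, 0, 0, 2624741864, 0, 0, 0, ⟨0, 0⟩, 0⟩ 0 0)) (.pos 49 .mm ⟨0, 0, 0, 0, 0, 2857799971,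 0, 0, 0, ⟨0, 0⟩, 0⟩ 0 0)) (.cut .s 14942208 (.pos 50 .mm ⟨672026461, 0, 0, 0, 0, 1755948492, 0, 0, 0, ⟨0, 0⟩, 0⟩ 0 0) (.cut .d (-294912) (.pos 50 .mm ⟨1398392131, 0, 0, 0, 0, 665334283, 0, 0, 0, ⟨0, 0⟩, 0⟩ 0 0) (.pos 50 .mm ⟨793728083, 0, 0, 0, 0, 1580897245, 0, 0, 0, ⟨0, 0⟩, 0⟩ 0 0)))))))))) (.cut .v 12582912 (.cut .d (-131072) (.cut .l 6501171 (.pos 6 .mm ⟨0, 0, 55446886, 0, 0, 2231829874, 0, 0, 0, ⟨0, 0⟩, 0⟩ 0 0) (.cut .v 10485760 (.pos 107 .mm ⟨0, 0, 0, 0, 0, 1529960938, 0, 0, 0, ⟨0, 0⟩, 0⟩ 0 0) (.pos 108 .mm ⟨0, 0, 0, 0, 0, 1930254164, 0, 0, 0, ⟨0, 0⟩, 0⟩ 0 0))) (.cut .l 6501171 (.cut .v 10485760 (.cut .d (-65536) (.pos 107 .mm ⟨0, 0, 0, 0, 0, 1532936280,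 0, 0, 0, ⟨0, 0⟩, 0⟩ 0 0) (.cut .d (-32768) (.cut .v 9437184 (.pos 157 .mm ⟨0, 0, 53342075, 0, 0, 1403668801, 0, 0, 0, ⟨0, 0⟩, 0⟩ 0 0) (.pos 158 .mm ⟨0, 0, 0, 0, 0, 1457010876, 0, 0, 0, ⟨0, 0⟩, 0⟩ 0 0)) (.pos 107 .mm ⟨0, 0, 50566174, 0, 0, 0, 0, 0, 0, ⟨0, 0⟩, 0⟩ 0 0))) (.pos 108 .mm ⟨0, 0, 0, 0, 0, 1801234110, 0, 0, 0, ⟨0, 0⟩, 0⟩ 0 0)) (.pos 6 .mm ⟨0, 0, 60030050, 0, 0, 0, 0, 0, 0, ⟨0, 0⟩, 0⟩ 0 0))) (.cut .d (-131072) (.cut .l 6501171 (.cut .s 14942208 (.pos 7 .mm ⟨11569001, 0, 0, 0, 0, 2938545573, 0, 0, 0, ⟨0, 0⟩, 0⟩ 0 0) (.pos 7 .mm ⟨14290844, 0, 0, 0, 0, 3134162298, 0, 0, 0, ⟨0, 0⟩, 0⟩ 0 0)) (.cut .v 14680064 (.cut .d (-196608) (.pos 8 .mm ⟨0, 0, 0,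 0, 0, 2470318892, 0, 0, 0, ⟨0, 0⟩, 0⟩ 0 0) (.pos 8 .mm ⟨0, 0, 0, 0, 0, 2213034652, 0, 0, 0, ⟨0, 0⟩, 0⟩ 0 0)) (.cut .d (-196608) (.cut .v 15728640 (.pos 49 .mm ⟨0, 0, 0, 0, 0, 2746310199, 0, 0, 0, ⟨0, 0⟩, 0⟩ 0 0) (.cut .l 8842991 (.pos 50 .mm ⟨884582144, 0, 0, 0, 0, 1374121234, 0, 0, 0, ⟨0, 0⟩, 0⟩ 0 0) (.pos 50 .mm ⟨605119075, 0, 0, 0, 0, 1734124232, 0, 0, 0, ⟨0, 0⟩, 0⟩ 0 0))) (.pos 9 .mm ⟨435315575, 0, 0, 0, 0, 1717099228, 0, 0, 0, ⟨0, 0⟩, 0⟩ 0 0)))) (.cut .l 6501171 (.cut .v 14680064 (.cut .d (-65536) (.pos 8 .mm ⟨0, 0, 0, 0, 0, 2319468054, 0, 0, 0, ⟨0, 0⟩, 0⟩ 0 0) (.pos 8 .mm ⟨0, 0, 0, 0, 0, 2062556532, 0, 0, 0, ⟨0, 0⟩, 0⟩ 0 0)) (.cut .d (-65536) (.cut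 .l 4159351 (.pos 9 .mm ⟨82387708, 0, 0, 0, 0, 2704381759, 0, 0, 0, ⟨0, 0⟩, 0⟩ 0 0) (.pos 9 .mm ⟨0, 0, 0, 0, 0, 2601335398, 0, 0, 0, ⟨0, 0⟩, 0⟩ 0 0)) (.pos 9 .mm ⟨0, 0, 0, 0, 0, 2461255653, 0, 0, 0, ⟨0, 0⟩, 0⟩ 0 0))) (.pos 7 .mm ⟨0, 0, 0, 0, 0, 0, 0, 0, 0, ⟨0, 0⟩, 0⟩ 0 0))))))))))) (.cut .v 268435456 (.cut .v 67108864 (.cut .v 33554432 (.cut .d (-8388608) (.void 11 ⟨100000, 0, 0, 0, 0, 0, 0, 0, 0, ⟨0, 0⟩, 0⟩ 0 0) (.cut .d (-4194304) (.void 11 ⟨100000, 0, 0, 0, 0, 0, 0, 0, 0, ⟨0, 0⟩, 0⟩ 0 0) (.cut .d (-2097152) (.void 11 ⟨100000, 0, 0, 0, 0, 0, 0, 0, 0, ⟨0, 0⟩, 0⟩ 0 0) (.cut .d (-1048576) (.void 11 ⟨100000, 0, 0, 0, 0, 0, 0, 0, 0, ⟨0, 0⟩, 0⟩ 0 0) (.cut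 .v 25165824 (.cut .d (-524288) (.void 13 ⟨100000, 0, 0, 0, 0, 0, 0, 0, 0, ⟨0, 0⟩, 0⟩ 0 0) (.cut .d (-262144) (.pos 13 .mp ⟨2753433238, 0, 0, 0, 0, 0, 0, 0, 0, ⟨0, 0⟩, 0⟩ 0 0) (.cut .v 20971520 (.cut .d (-131072) (.pos 15 .mp ⟨1884804048, 0, 0, 0, 0, 0, 0, 0, 0, ⟨0, 0⟩, 0⟩ 0 0) (.cut .d (-65536) (.pos 15 .mp ⟨1131770586, 0, 0, 0, 0, 995550731, 0, 0, 0, ⟨0, 0⟩, 0⟩ 0 0) (.cut .v 18874368 (.cut .v 17825792 (.pos 19 .mp ⟨515174220, 0, 0, 0, 0, 1609088437, 0, 0, 0, ⟨0, 0⟩, 0⟩ 0 0) (.pos 20 .mp ⟨1547874690, 0, 0, 0, 0, 0, 0, 0, 0, ⟨0, 0⟩, 0⟩ 0 0)) (.pos 18 .mp ⟨2050025921, 0, 0, 0, 0, 0, 0, 0, 0, ⟨0, 0⟩, 0⟩ 0 0)))) (.pos 16 .mp ⟨2469658649, 0, 0, 0, 0, 0, 0,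 0, 0, ⟨0, 0⟩, 0⟩ 0 0)))) (.pos 14 .mp ⟨5044248189, 0, 0, 0, 0, 0, 0, 0, 0, ⟨0, 0⟩, 0⟩ 0 0)))))) (.void 12 ⟨100000, 0, 0, 0, 0, 0, 0, 0, 0, ⟨0, 0⟩, 0⟩ 0 0)) (.void 57 ⟨100000, 0, 0, 0, 0, 0, 0, 0, 0, ⟨0, 0⟩, 0⟩ 0 0)) (.void 66 ⟨93536, 0, 0, 6464, 0, 0, 0, 0, 0, ⟨0, 0⟩, 0⟩ 0 0))) (.cut .v 16777216 (.cut .v 8388608 (.cut .v 4194304 (.cut .v 2097152 (.cut .d 1113533 (.void 75 ⟨0, 0, 100000, 0, 0, 0, 0, 0, 0, ⟨0, 0⟩, 0⟩ 0 0) (.cut .v 1048576 (.cut .d 1670300 (.pos 103 .pm ⟨0, 0, 1962689902, 0, 0, 0, 0, 0, 0, ⟨0, 0⟩, 0⟩ 0 0) (.cut .v 524288 (.cut .v 262144 (.pos 155 .pm ⟨0, 14269614, 0, 0, 0, 0, 0, 0, 0, ⟨0, 0⟩, 0⟩ 0 0) (.pos 156 .pm ⟨0, 59685345, 0, 0, 0,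 0, 0, 0, 0, ⟨0, 0⟩, 0⟩ 0 0)) (.pos 132 .pm ⟨0, 117138469, 0, 0, 0, 0, 0, 0, 0, ⟨0, 0⟩, 0⟩ 0 0))) (.cut .d 1670300 (.pos 104 .pm ⟨0, 0, 0, 0, 0, 0, 0, 0, 0, ⟨0, 0⟩, 0⟩ 0 0) (.cut .l 6501171 (.cut .d 1948683 (.cut .d 1809491 (.pos 104 .pm ⟨0, 0, 0, 0, 0, 0, 0, 0, 0, ⟨0, 0⟩, 0⟩ 0 0) (.cut .v 1572864 (.pos 133 .pm ⟨0, 152487453, 0, 0, 0, 0, 0, 0, 0, ⟨0, 0⟩, 0⟩ 0 0) (.cut .s 14942208 (.pos 134 .pm ⟨0, 0, 0, 0, 0, 0, 0, 0, 0, ⟨0, 0⟩, 0⟩ 0 0) (.pos 134 .pm ⟨0, 192779865, 0, 0, 0, 0, 0, 0, 0, ⟨0, 0⟩, 0⟩ 0 0)))) (.cut .s 14942208 (.pos 104 .pm ⟨0, 183149546, 0, 0, 0, 0, 0, 0, 0, ⟨0, 0⟩, 0⟩ 0 0) (.cut .v 1572864 (.pos 133 .pm ⟨0, 217350824, 0, 0, 0, 0, 0, 0, 0,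 ⟨0, 0⟩, 0⟩ 0 0) (.pos 134 .pm ⟨0, 269334643, 0, 0, 0, 0, 0, 0, 0, ⟨0, 0⟩, 0⟩ 0 0)))) (.pos 104 .pm ⟨0, 159110070, 0, 0, 0, 0, 0, 0, 0, ⟨0, 0⟩, 0⟩ 0 0))))) (.cut .d 1113533 (.pos 76 .pm ⟨0, 0, 414732151, 0, 0, 0, 0, 0, 0, ⟨0, 0⟩, 0⟩ 0 0) (.cut .d 1670300 (.pos 76 .pm ⟨0, 0, 0, 0, 0, 0, 0, 0, 0, ⟨0, 0⟩, 0⟩ 0 0) (.cut .l 6501171 (.cut .d 1948683 (.cut .d 1809491 (.pos 76 .pm ⟨0, 0, 0, 0, 0, 0, 0, 0, 0, ⟨0, 0⟩, 0⟩ 0 0) (.pos 76 .pm ⟨0, 212425474, 0, 0, 0, 0, 0, 0, 0, ⟨0, 0⟩, 0⟩ 0 0)) (.cut .s 14942208 (.pos 76 .pm ⟨0, 247298987, 0, 0, 0, 0, 0, 0, 0, ⟨0, 0⟩, 0⟩ 0 0) (.pos 76 .pm ⟨0, 343284529, 0, 0, 0, 0, 0, 0, 0, ⟨0, 0⟩, 0⟩ 0 0))) (.pos 76 .pm ⟨0, 236810863,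 0, 0, 0, 0, 0, 0, 0, ⟨0, 0⟩, 0⟩ 0 0))))) (.cut .d 1113533 (.pos 5 .pm ⟨0, 0, 609612253, 0, 0, 0, 0, 0, 0, ⟨0, 0⟩, 0⟩ 0 0) (.cut .d 1670300 (.pos 5 .pm ⟨0, 0, 0, 0, 0, 0, 0, 0, 0, ⟨0, 0⟩, 0⟩ 0 0) (.pos 5 .pm ⟨0, 403247905, 0, 0, 0, 0, 0, 0, 0, ⟨0, 0⟩, 0⟩ 0 0)))) (.pos 3 .pm ⟨0, 0, 19809636, 0, 0, 0, 0, 0, 0, ⟨0, 0⟩, 0⟩ 0 0)) (.cut .v 268435456 (.cut .d 1113533 (.cut .v 67108864 (.cut .d 556766 (.cut .v 33554432 (.cut .v 25165824 (.pos 13 .pp ⟨717855128, 0, 0, 0, 0, 0, 0, 0, 0, ⟨0, 0⟩, 0⟩ 0 0) (.pos 14 .pp ⟨2156198701, 0, 0, 0, 0, 0, 0, 0, 0, ⟨0, 0⟩, 0⟩ 0 0)) (.cut .v 50331648 (.cut .v 41943040 (.pos 33 .pp ⟨3584043798, 0, 0, 0, 0, 0, 0, 0, 0, ⟨0, 0⟩, 0⟩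 0 0) (.pos 34 .pp ⟨5298515475, 0, 0, 0, 0, 0, 0, 0, 0, ⟨0, 0⟩, 0⟩ 0 0)) (.cut .d 278383 (.pos 32 .pp ⟨9554131668, 0, 0, 0, 0, 0, 0, 0, 0, ⟨0, 0⟩, 0⟩ 0 0) (.pos 32 .pp ⟨6969235145, 0, 0, 0, 0, 0, 0, 0, 0, ⟨0, 0⟩, 0⟩ 0 0)))) (.pos 10 .pp ⟨0, 0, 0, 0, 0, 0, 0, 0, 0, ⟨0, 0⟩, 0⟩ 0 0)) (.cut .v 134217728 (.cut .v 100663296 (.cut .d 556766 (.cut .d 278383 (.pos 71 .pp ⟨24066616321, 0, 0, 0, 0, 0, 0, 0, 0, ⟨0, 0⟩, 0⟩ 0 0) (.cut .v 83886080 (.pos 91 .pp ⟨11480851812, 0, 0, 0, 0, 0, 0, 0, 0, ⟨0, 0⟩, 0⟩ 0 0) (.pos 92 .pp ⟨17040757055, 5706473624, 0, 0, 0, 0, 0, 0, 0, ⟨0, 0⟩, 0⟩ 0 0))) (.pos 71 .pp ⟨0, 4460958637, 0, 0, 0, 0, 0, 0, 0, ⟨0, 0⟩, 0⟩ 0 0)) (.void 72 ⟨87227,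 343, 0, 12430, 0, 0, 0, 0, 0, ⟨0, 0⟩, 0⟩ 0 0)) (.void 68 ⟨0, 0, 0, 100000, 0, 0, 0, 0, 0, ⟨0, 0⟩, 0⟩ 0 0))) (.pos 56 .pp ⟨0, 462966104, 0, 0, 0, 0, 0, 0, 0, ⟨0, 0⟩, 0⟩ 0 0)) (.void 66 ⟨0, 0, 0, 100000, 0, 0, 0, 0, 0, ⟨0, 0⟩, 0⟩ 0 0)))),
    by decide +kernel⟩

def covers25 : cell.Covers table row25.1 :=
  ⟨(.cut .d 0 (.cut .v 16777216 (.cut .d (-8388608) (.void 1 ⟨0, 0, 0, 0, 0, 100000, 0, 0, 0, ⟨0, 0⟩, 0⟩ 0 0) (.cut .v 8388608 (.void 2 ⟨0, 0, 100000, 0, 0, 0, 0, 0, 0, ⟨0, 0⟩, 0⟩ 0 0) (.cut .d (-4194304) (.void 3 ⟨100000, 0, 0, 0, 0, 0, 0, 0, 0, ⟨0, 0⟩, 0⟩ 0 0) (.cut .d (-2097152) (.void 3 ⟨100000, 0, 0, 0, 0, 0, 0, 0, 0, ⟨0, 0⟩, 0⟩ 0 0) (.cut .d (-1048576)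 (.void 3 ⟨76952, 0, 23048, 0, 0, 0, 0, 0, 0, ⟨0, 0⟩, 0⟩ 0 0) (.cut .d (-524288) (.void 3 ⟨0, 0, 0, 0, 0, 100000, 0, 0, 0, ⟨0, 0⟩, 0⟩ 0 0) (.cut .d (-262144) (.cut .v 12582912 (.pos 6 .mm ⟨0, 0, 39399308, 0, 0, 2943428059, 0, 0, 0, ⟨0, 0⟩, 0⟩ 0 0) (.cut .d (-393216) (.void 7 ⟨0, 0, 0, 0, 0, 100000, 0, 0, 0, ⟨0, 0⟩, 0⟩ 0 0) (.cut .v 14680064 (.pos 8 .mm ⟨0, 0, 0, 0, 0, 3353450095, 0, 0, 0, ⟨0, 0⟩, 0⟩ 0 0) (.cut .d (-327680) (.void 9 ⟨0, 0, 0, 0, 0, 100000, 0, 0, 0, ⟨0, 0⟩, 0⟩ 0 0) (.cut .v 15728640 (.cut .d (-294912) (.void 49 ⟨0, 0, 0, 0, 0, 100000, 0, 0, 0, ⟨0, 0⟩, 0⟩ 0 0) (.pos 49 .mm ⟨209312359, 0, 0, 0, 0, 3009843467, 0, 0, 0, ⟨0, 0⟩, 0⟩ 0 0)) (.pos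 50 .mm ⟨1924287113, 0, 0, 0, 0, 0, 0, 0, 0, ⟨0, 0⟩, 0⟩ 0 0)))))) (.cut .v 12582912 (.cut .v 10485760 (.cut .v 9437184 (.cut .d (-131072) (.pos 157 .mm ⟨0, 0, 181391609, 0, 0, 1715167964, 0, 0, 0, ⟨0, 0⟩, 0⟩ 0 0) (.cut .d (-65536) (.pos 157 .mm ⟨0, 0, 26079104, 0, 0, 1524593746, 0, 0, 0, ⟨0, 0⟩, 0⟩ 0 0) (.cut .d (-32768) (.pos 157 .mm ⟨0, 0, 53344589, 0, 0, 1403631946, 0, 0, 0, ⟨0, 0⟩, 0⟩ 0 0) (.pos 157 .mm ⟨0, 0, 53344589, 0, 0, 0, 0, 0, 0, ⟨0, 0⟩, 0⟩ 0 0)))) (.cut .d (-131072) (.pos 158 .mm ⟨0, 0, 2804436, 0, 0, 1785432697, 0, 0, 0, ⟨0, 0⟩, 0⟩ 0 0) (.pos 158 .mm ⟨0, 0, 0, 0, 0, 1544423714, 0, 0, 0, ⟨0, 0⟩, 0⟩ 0 0))) (.cut .d (-131072) (.pos 108 .mm ⟨0,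 0, 0, 0, 0, 2109649111, 0, 0, 0, ⟨0, 0⟩, 0⟩ 0 0) (.pos 108 .mm ⟨0, 0, 0, 0, 0, 1873762861, 0, 0, 0, ⟨0, 0⟩, 0⟩ 0 0))) (.cut .v 14680064 (.cut .d (-131072) (.pos 8 .mm ⟨0, 0, 0, 0, 0, 2561647854, 0, 0, 0, ⟨0, 0⟩, 0⟩ 0 0) (.pos 8 .mm ⟨0, 0, 0, 0, 0, 2325245171, 0, 0, 0, ⟨0, 0⟩, 0⟩ 0 0)) (.cut .d (-131072) (.cut .v 15728640 (.pos 49 .mm ⟨0, 0, 0, 0, 0, 2820930481, 0, 0, 0, ⟨0, 0⟩, 0⟩ 0 0) (.pos 50 .mm ⟨334467578, 0, 0, 0, 0, 2501948794, 0, 0, 0, ⟨0, 0⟩, 0⟩ 0 0)) (.cut .v 15728640 (.pos 49 .mm ⟨0, 0, 0, 0, 0, 2692677064, 0, 0, 0, ⟨0, 0⟩, 0⟩ 0 0) (.pos 50 .mm ⟨0, 0, 0, 0, 0, 2909669512, 0, 0, 0, ⟨0, 0⟩, 0⟩ 0 0)))))))))))) (.cut .v 268435456 (.cut .v 67108864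 (.cut .v 33554432 (.cut .d (-8388608) (.void 11 ⟨100000, 0, 0, 0, 0, 0, 0, 0, 0, ⟨0, 0⟩, 0⟩ 0 0) (.cut .d (-4194304) (.void 11 ⟨100000, 0, 0, 0, 0, 0, 0, 0, 0, ⟨0, 0⟩, 0⟩ 0 0) (.cut .d (-2097152) (.void 11 ⟨100000, 0, 0, 0, 0, 0, 0, 0, 0, ⟨0, 0⟩, 0⟩ 0 0) (.cut .d (-1048576) (.void 11 ⟨100000, 0, 0, 0, 0, 0, 0, 0, 0, ⟨0, 0⟩, 0⟩ 0 0) (.cut .d (-524288) (.void 11 ⟨100000, 0, 0, 0, 0, 0, 0, 0, 0, ⟨0, 0⟩, 0⟩ 0 0) (.cut .v 25165824 (.cut .d (-262144) (.void 13 ⟨100000, 0, 0, 0, 0, 0, 0, 0, 0, ⟨0, 0⟩, 0⟩ 0 0) (.cut .d (-131072) (.pos 13 .mp ⟨2188193505, 0, 0, 0, 0, 0, 0, 0, 0, ⟨0, 0⟩, 0⟩ 0 0) (.pos 13 .mp ⟨1650918223, 0, 0, 0, 0, 60488935, 0, 0, 0, ⟨0, 0⟩, 0⟩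 0 0))) (.pos 14 .mp ⟨4484590097, 0, 0, 0, 0, 0, 0, 0, 0, ⟨0, 0⟩, 0⟩ 0 0))))))) (.void 12 ⟨100000, 0, 0, 0, 0, 0, 0, 0, 0, ⟨0, 0⟩, 0⟩ 0 0)) (.void 57 ⟨100000, 0, 0, 0, 0, 0, 0, 0, 0, ⟨0, 0⟩, 0⟩ 0 0)) (.void 66 ⟨93457, 0, 0, 6543, 0, 0, 0, 0, 0, ⟨0, 0⟩, 0⟩ 0 0))) (.cut .v 16777216 (.cut .v 8388608 (.cut .v 4194304 (.cut .v 2097152 (.cut .d 948278 (.void 75 ⟨0, 0, 100000, 0, 0, 0, 0, 0, 0, ⟨0, 0⟩, 0⟩ 0 0) (.cut .v 1048576 (.cut .d 1422417 (.void 103 ⟨0, 0, 100000, 0, 0, 0, 0, 0, 0, ⟨0, 0⟩, 0⟩ 0 0) (.cut .v 524288 (.cut .v 262144 (.pos 155 .pm ⟨0, 15707682, 0, 0, 0, 0, 0, 0, 0, ⟨0, 0⟩, 0⟩ 0 0) (.pos 156 .pm ⟨0, 62508289, 0, 0, 0, 0, 0, 0, 0, ⟨0, 0⟩, 0⟩ 0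 0)) (.cut .d 1659487 (.pos 132 .pm ⟨0, 97725107, 0, 0, 0, 0, 0, 0, 0, ⟨0, 0⟩, 0⟩ 0 0) (.pos 132 .pm ⟨0, 141353813, 0, 0, 0, 0, 0, 0, 0, ⟨0, 0⟩, 0⟩ 0 0)))) (.cut .d 1422417 (.pos 104 .pm ⟨0, 0, 0, 0, 0, 0, 0, 0, 0, ⟨0, 0⟩, 0⟩ 0 0) (.cut .l 6501171 (.cut .d 1659487 (.cut .d 1540952 (.pos 104 .pm ⟨0, 0, 0, 0, 0, 0, 0, 0, 0, ⟨0, 0⟩, 0⟩ 0 0) (.cut .s 15171584 (.pos 104 .pm ⟨0, 0, 0, 0, 0, 0, 0, 0, 0, ⟨0, 0⟩, 0⟩ 0 0) (.cut .d 1600219 (.pos 104 .pm ⟨0, 0, 0, 0, 0, 0, 0, 0, 0, ⟨0, 0⟩, 0⟩ 0 0) (.cut .s 15220736 (.pos 104 .pm ⟨0, 0, 0, 0, 0, 0, 0, 0, 0, ⟨0, 0⟩, 0⟩ 0 0) (.cut .v 1572864 (.cut .d 1629853 (.pos 133 .pm ⟨0, 0, 0, 0, 0, 0, 0, 0, 0, ⟨0, 0⟩, 0⟩ 0 0) (.pos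 133 .pm ⟨0, 179724011, 0, 0, 0, 0, 0, 0, 0, ⟨0, 0⟩, 0⟩ 0 0)) (.pos 134 .pm ⟨0, 191038390, 0, 0, 0, 0, 0, 0, 0, ⟨0, 0⟩, 0⟩ 0 0)))))) (.cut .l 4159351 (.cut .s 15171584 (.cut .l 2988441 (.cut .d 1778022 (.cut .v 1572864 (.pos 133 .pm ⟨0, 146003300, 0, 0, 0, 0, 0, 0, 0, ⟨0, 0⟩, 0⟩ 0 0) (.pos 134 .pm ⟨0, 166815511, 0, 0, 0, 0, 0, 0, 0, ⟨0, 0⟩, 0⟩ 0 0)) (.cut .v 1572864 (.pos 133 .pm ⟨0, 187613367, 0, 0, 0, 0, 0, 0, 0, ⟨0, 0⟩, 0⟩ 0 0) (.cut .s 15122432 (.pos 134 .pm ⟨0, 195937482, 0, 0, 0, 0, 0, 0, 0, ⟨0, 0⟩, 0⟩ 0 0) (.pos 134 .pm ⟨0, 228845146, 0, 0, 0, 0, 0, 0, 0, ⟨0, 0⟩, 0⟩ 0 0)))) (.pos 104 .pm ⟨0, 168755175, 0, 0, 0, 0, 0, 0, 0, ⟨0, 0⟩, 0⟩ 0 0)) (.cut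 .d 1778022 (.cut .l 2988441 (.cut .v 1572864 (.cut .s 15220736 (.cut .d 1718754 (.pos 133 .pm ⟨0, 170478257, 0, 0, 0, 0, 0, 0, 0, ⟨0, 0⟩, 0⟩ 0 0) (.pos 133 .pm ⟨0, 196186636, 0, 0, 0, 0, 0, 0, 0, ⟨0, 0⟩, 0⟩ 0 0)) (.pos 133 .pm ⟨0, 205408348, 0, 0, 0, 0, 0, 0, 0, ⟨0, 0⟩, 0⟩ 0 0)) (.cut .d 1718754 (.cut .s 15220736 (.pos 134 .pm ⟨0, 189822533, 0, 0, 0, 0, 0, 0, 0, ⟨0, 0⟩, 0⟩ 0 0) (.pos 134 .pm ⟨0, 218348003, 0, 0, 0, 0, 0, 0, 0, ⟨0, 0⟩, 0⟩ 0 0)) (.pos 134 .pm ⟨0, 236469226, 0, 0, 0, 0, 0, 0, 0, ⟨0, 0⟩, 0⟩ 0 0))) (.pos 104 .pm ⟨0, 194201204, 0, 0, 0, 0, 0, 0, 0, ⟨0, 0⟩, 0⟩ 0 0)) (.void 104 ⟨0, 0, 0, 100000, 0, 0, 0, 0, 0, ⟨0, 0⟩, 0⟩ 0 0))) (.pos 104 .pm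 ⟨0, 205053047, 0, 0, 0, 0, 0, 0, 0, ⟨0, 0⟩, 0⟩ 0 0))) (.pos 104 .pm ⟨0, 151788116, 0, 0, 0, 0, 0, 0, 0, ⟨0, 0⟩, 0⟩ 0 0))))) (.cut .d 948278 (.pos 76 .pm ⟨0, 0, 509576432, 0, 0, 0, 0, 0, 0, ⟨0, 0⟩, 0⟩ 0 0) (.cut .d 1422417 (.pos 76 .pm ⟨0, 0, 0, 0, 0, 0, 0, 0, 0, ⟨0, 0⟩, 0⟩ 0 0) (.cut .d 1659487 (.pos 76 .pm ⟨0, 175829818, 0, 0, 0, 0, 0, 0, 0, ⟨0, 0⟩, 0⟩ 0 0) (.cut .v 3145728 (.cut .s 15171584 (.pos 95 .pm ⟨0, 230452341, 0, 0, 0, 0, 0, 0, 0, ⟨0, 0⟩, 0⟩ 0 0) (.pos 95 .pm ⟨0, 297667098, 0, 0, 0, 0, 0, 0, 0, ⟨0, 0⟩, 0⟩ 0 0)) (.pos 96 .pm ⟨0, 359200767, 0, 0, 0, 0, 0, 0, 0, ⟨0, 0⟩, 0⟩ 0 0)))))) (.cut .d 948278 (.pos 5 .pm ⟨0, 0, 705918323, 0, 0, 0, 0, 0, 0,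 ⟨0, 0⟩, 0⟩ 0 0) (.pos 5 .pm ⟨0, 268619586, 0, 0, 0, 0, 0, 0, 0, ⟨0, 0⟩, 0⟩ 0 0))) (.pos 3 .pm ⟨0, 0, 48422574, 0, 0, 0, 0, 0, 0, ⟨0, 0⟩, 0⟩ 0 0)) (.cut .v 268435456 (.cut .d 948278 (.cut .v 67108864 (.cut .d 474139 (.cut .v 33554432 (.pos 11 .pp ⟨1333509037, 0, 0, 0, 0, 0, 0, 0, 0, ⟨0, 0⟩, 0⟩ 0 0) (.cut .v 50331648 (.pos 31 .pp ⟨4638927326, 0, 0, 0, 0, 0, 0, 0, 0, ⟨0, 0⟩, 0⟩ 0 0) (.pos 32 .pp ⟨8883391993, 0, 0, 0, 0, 0, 0, 0, 0, ⟨0, 0⟩, 0⟩ 0 0))) (.pos 10 .pp ⟨0, 0, 0, 0, 0, 0, 0, 0, 0, ⟨0, 0⟩, 0⟩ 0 0)) (.cut .v 134217728 (.cut .v 100663296 (.cut .d 474139 (.cut .v 83886080 (.pos 91 .pp ⟨14348556229, 0, 0, 0, 0, 0, 0, 0, 0, ⟨0, 0⟩, 0⟩ 0 0) (.pos 92 .pp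 ⟨23969907843, 13800438647, 0, 0, 0, 0, 0, 0, 0, ⟨0, 0⟩, 0⟩ 0 0)) (.pos 71 .pp ⟨0, 4311694490, 0, 0, 0, 0, 0, 0, 0, ⟨0, 0⟩, 0⟩ 0 0)) (.void 72 ⟨87414, 0, 0, 12586, 0, 0, 0, 0, 0, ⟨0, 0⟩, 0⟩ 0 0)) (.void 68 ⟨0, 0, 0, 100000, 0, 0, 0, 0, 0, ⟨0, 0⟩, 0⟩ 0 0))) (.pos 56 .pp ⟨0, 354686018, 0, 0, 0, 0, 0, 0, 0, ⟨0, 0⟩, 0⟩ 0 0)) (.void 66 ⟨0, 0, 0, 100000, 0, 0, 0, 0, 0, ⟨0, 0⟩, 0⟩ 0 0)))),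
    by decide +kernel⟩

def covers26 : cell.Covers table row26.1 :=
  ⟨(.cut .d 0 (.cut .v 16777216 (.cut .d (-8388608) (.void 1 ⟨0, 0, 0, 0, 0, 100000, 0, 0, 0, ⟨0, 0⟩, 0⟩ 0 0) (.cut .v 8388608 (.void 2 ⟨0, 0, 100000, 0, 0, 0, 0, 0, 0, ⟨0, 0⟩, 0⟩ 0 0) (.cut .d (-4194304) (.void 3 ⟨100000, 0, 0, 0, 0, 0, 0, 0, 0, ⟨0, 0⟩, 0⟩ 0 0) (.cut .d (-2097152) (.void 3 ⟨100000, 0, 0, 0, 0, 0, 0, 0, 0, ⟨0, 0⟩, 0⟩ 0 0) (.cut .d (-1048576) (.void 3 ⟨76757, 0, 23243, 0, 0, 0, 0, 0, 0, ⟨0, 0⟩, 0⟩ 0 0) (.cut .d (-524288) (.void 3 ⟨0, 0, 0, 0, 0, 100000, 0, 0, 0, ⟨0, 0⟩, 0⟩ 0 0) (.cut .d (-262144) (.void 3 ⟨0, 0, 0, 0, 0, 100000, 0, 0, 0, ⟨0, 0⟩, 0⟩ 0 0) (.cut .v 12582912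 (.cut .d (-131072) (.cut .l 6501171 (.pos 6 .mm ⟨0, 0, 86375029, 0, 0, 2549561535, 0, 0, 0, ⟨0, 0⟩, 0⟩ 0 0) (.cut .d (-196608) (.cut .l 8842991 (.void 6 ⟨0, 0, 0, 0, 0, 100000, 0, 0, 0, ⟨0, 0⟩, 0⟩ 0 0) (.cut .l 10013901 (.pos 6 .mm ⟨0, 0, 80526507, 0, 0, 2761982593, 0, 0, 0, ⟨0, 0⟩, 0⟩ 0 0) (.cut .v 10485760 (.cut .s 15400960 (.pos 107 .mm ⟨0, 0, 113609129, 0, 0, 2264783458, 0, 0, 0, ⟨0, 0⟩, 0⟩ 0 0) (.pos 107 .mm ⟨0, 0, 113539322, 0, 0, 2366711042, 0, 0, 0, ⟨0, 0⟩, 0⟩ 0 0)) (.cut .d (-229376) (.pos 108 .mm ⟨0, 0, 0, 0, 0, 3120045752, 0, 0, 0, ⟨0, 0⟩, 0⟩ 0 0) (.pos 108 .mm ⟨0, 0, 0, 0, 0, 2343626078, 0, 0, 0, ⟨0, 0⟩, 0⟩ 0 0))))) (.pos 6 .mm ⟨0, 0, 71186822,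 0, 0, 1701795087, 0, 0, 0, ⟨0, 0⟩, 0⟩ 0 0))) (.pos 6 .mm ⟨0, 0, 0, 0, 0, 1405126886, 0, 0, 0, ⟨0, 0⟩, 0⟩ 0 0)) (.cut .d (-131072) (.cut .d (-196608) (.cut .d (-229376) (.pos 7 .mm ⟨44311261, 0, 0, 0, 0, 4028594440, 0, 0, 0, ⟨0, 0⟩, 0⟩ 0 0) (.pos 7 .mm ⟨117235429, 0, 0, 0, 0, 2694922291, 0, 0, 0, ⟨0, 0⟩, 0⟩ 0 0)) (.pos 7 .mm ⟨0, 0, 0, 0, 0, 2702284705, 0, 0, 0, ⟨0, 0⟩, 0⟩ 0 0)) (.pos 7 .mm ⟨0, 0, 0, 0, 0, 2401432488, 0, 0, 0, ⟨0, 0⟩, 0⟩ 0 0)))))))))) (.cut .v 268435456 (.cut .v 67108864 (.cut .v 33554432 (.cut .d (-8388608) (.void 11 ⟨100000, 0, 0, 0, 0, 0, 0, 0, 0, ⟨0, 0⟩, 0⟩ 0 0) (.cut .d (-4194304) (.void 11 ⟨100000, 0, 0, 0, 0, 0, 0, 0, 0, ⟨0, 0⟩,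 0⟩ 0 0) (.cut .d (-2097152) (.void 11 ⟨100000, 0, 0, 0, 0, 0, 0, 0, 0, ⟨0, 0⟩, 0⟩ 0 0) (.cut .d (-1048576) (.void 11 ⟨100000, 0, 0, 0, 0, 0, 0, 0, 0, ⟨0, 0⟩, 0⟩ 0 0) (.cut .d (-524288) (.void 11 ⟨100000, 0, 0, 0, 0, 0, 0, 0, 0, ⟨0, 0⟩, 0⟩ 0 0) (.cut .d (-262144) (.void 11 ⟨100000, 0, 0, 0, 0, 0, 0, 0, 0, ⟨0, 0⟩, 0⟩ 0 0) (.cut .v 25165824 (.pos 13 .mp ⟨2142962903, 0, 0, 0, 0, 0, 0, 0, 0, ⟨0, 0⟩, 0⟩ 0 0) (.pos 14 .mp ⟨3864786939, 0, 0, 0, 0, 0, 0, 0, 0, ⟨0, 0⟩, 0⟩ 0 0)))))))) (.void 12 ⟨100000, 0, 0, 0, 0, 0, 0, 0, 0, ⟨0, 0⟩, 0⟩ 0 0)) (.void 57 ⟨100000, 0, 0, 0, 0, 0, 0, 0, 0, ⟨0, 0⟩, 0⟩ 0 0)) (.void 66 ⟨93352, 0, 0, 6648, 0, 0, 0, 0, 0, ⟨0, 0⟩, 0⟩ 0 0)))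 (.cut .v 16777216 (.cut .v 8388608 (.cut .v 4194304 (.cut .v 2097152 (.cut .d 828061 (.void 75 ⟨0, 0, 100000, 0, 0, 0, 0, 0, 0, ⟨0, 0⟩, 0⟩ 0 0) (.cut .v 1048576 (.cut .v 524288 (.cut .v 262144 (.cut .v 131072 (.pos 173 .pm ⟨0, 4075589, 0, 0, 0, 0, 0, 0, 0, ⟨0, 0⟩, 0⟩ 0 0) (.pos 174 .pm ⟨0, 25955241, 0, 0, 0, 0, 0, 0, 0, ⟨0, 0⟩, 0⟩ 0 0)) (.pos 156 .pm ⟨0, 54149497, 0, 0, 0, 0, 0, 0, 0, ⟨0, 0⟩, 0⟩ 0 0)) (.cut .d 1242092 (.pos 132 .pm ⟨0, 0, 0, 0, 0, 0, 0, 0, 0, ⟨0, 0⟩, 0⟩ 0 0) (.cut .d 1449107 (.cut .s 15400960 (.pos 132 .pm ⟨0, 0, 0, 0, 0, 0, 0, 0, 0, ⟨0, 0⟩, 0⟩ 0 0) (.cut .d 1345599 (.pos 132 .pm ⟨0, 113793523, 0, 0, 0, 0, 0, 0, 0, ⟨0, 0⟩, 0⟩ 0 0) (.pos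 132 .pm ⟨0, 146628473, 0, 0, 0, 0, 0, 0, 0, ⟨0, 0⟩, 0⟩ 0 0))) (.cut .s 15400960 (.pos 132 .pm ⟨0, 135488898, 0, 0, 0, 0, 0, 0, 0, ⟨0, 0⟩, 0⟩ 0 0) (.pos 132 .pm ⟨0, 183397133, 0, 0, 0, 0, 0, 0, 0, ⟨0, 0⟩, 0⟩ 0 0))))) (.cut .d 1242092 (.pos 104 .pm ⟨0, 0, 0, 0, 0, 0, 0, 0, 0, ⟨0, 0⟩, 0⟩ 0 0) (.cut .d 1449107 (.cut .s 15400960 (.pos 104 .pm ⟨0, 0, 0, 0, 0, 0, 0, 0, 0, ⟨0, 0⟩, 0⟩ 0 0) (.cut .l 6501171 (.cut .v 1572864 (.cut .l 4159351 (.cut .d 1345599 (.cut .v 1310720 (.cut .v 1179648 (.pos 175 .pm ⟨0, 126727675, 0, 0, 0, 0, 0, 0, 0, ⟨0, 0⟩, 0⟩ 0 0) (.pos 176 .pm ⟨0, 134805235, 0, 0, 0, 0, 0, 0, 0, ⟨0, 0⟩, 0⟩ 0 0)) (.pos 170 .pm ⟨0, 144843766, 0, 0, 0, 0,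 0, 0, 0, ⟨0, 0⟩, 0⟩ 0 0)) (.cut .l 2988441 (.cut .s 15466496 (.cut .v 1310720 (.cut .d 1397353 (.pos 169 .pm ⟨0, 0, 0, 0, 0, 0, 0, 0, 0, ⟨0, 0⟩, 0⟩ 0 0) (.pos 169 .pm ⟨0, 161455568, 0, 0, 0, 0, 0, 0, 0, ⟨0, 0⟩, 0⟩ 0 0)) (.pos 170 .pm ⟨0, 163851104, 0, 0, 0, 0, 0, 0, 0, ⟨0, 0⟩, 0⟩ 0 0)) (.cut .d 1397353 (.cut .v 1310720 (.cut .s 15499264 (.pos 169 .pm ⟨0, 160923770, 0, 0, 0, 0, 0, 0, 0, ⟨0, 0⟩, 0⟩ 0 0) (.pos 169 .pm ⟨0, 179774939, 0, 0, 0, 0, 0, 0, 0, ⟨0, 0⟩, 0⟩ 0 0)) (.pos 170 .pm ⟨0, 184198908, 0, 0, 0, 0, 0, 0, 0, ⟨0, 0⟩, 0⟩ 0 0)) (.cut .v 1310720 (.pos 169 .pm ⟨0, 195461935, 0, 0, 0, 0, 0, 0, 0, ⟨0, 0⟩, 0⟩ 0 0) (.pos 170 .pm ⟨0, 211550198, 0, 0, 0,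 0, 0, 0, 0, ⟨0, 0⟩, 0⟩ 0 0)))) (.pos 133 .pm ⟨0, 174701169, 0, 0, 0, 0, 0, 0, 0, ⟨0, 0⟩, 0⟩ 0 0))) (.pos 133 .pm ⟨0, 153378579, 0, 0, 0, 0, 0, 0, 0, ⟨0, 0⟩, 0⟩ 0 0)) (.cut .d 1345599 (.pos 134 .pm ⟨0, 166039248, 0, 0, 0, 0, 0, 0, 0, ⟨0, 0⟩, 0⟩ 0 0) (.cut .s 15466496 (.pos 134 .pm ⟨0, 188115787, 0, 0, 0, 0, 0, 0, 0, ⟨0, 0⟩, 0⟩ 0 0) (.pos 134 .pm ⟨0, 222326279, 0, 0, 0, 0, 0, 0, 0, ⟨0, 0⟩, 0⟩ 0 0)))) (.pos 104 .pm ⟨0, 166227806, 0, 0, 0, 0, 0, 0, 0, ⟨0, 0⟩, 0⟩ 0 0))) (.cut .s 15400960 (.cut .l 6501171 (.cut .l 4159351 (.cut .d 1552615 (.cut .v 1572864 (.cut .s 15335424 (.pos 133 .pm ⟨0, 0, 0, 0, 0, 0, 0, 0, 0, ⟨0, 0⟩, 0⟩ 0 0) (.cut .d 1500861 (.pos 133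 .pm ⟨0, 150710202, 0, 0, 0, 0, 0, 0, 0, ⟨0, 0⟩, 0⟩ 0 0) (.cut .s 15368192 (.pos 133 .pm ⟨0, 163716227, 0, 0, 0, 0, 0, 0, 0, ⟨0, 0⟩, 0⟩ 0 0) (.pos 133 .pm ⟨0, 184645047, 0, 0, 0, 0, 0, 0, 0, ⟨0, 0⟩, 0⟩ 0 0)))) (.cut .s 15335424 (.pos 134 .pm ⟨0, 0, 0, 0, 0, 0, 0, 0, 0, ⟨0, 0⟩, 0⟩ 0 0) (.pos 134 .pm ⟨0, 191861189, 0, 0, 0, 0, 0, 0, 0, ⟨0, 0⟩, 0⟩ 0 0))) (.cut .v 1572864 (.cut .s 15335424 (.cut .v 1310720 (.pos 169 .pm ⟨0, 161326795, 0, 0, 0, 0, 0, 0, 0, ⟨0, 0⟩, 0⟩ 0 0) (.cut .l 2988441 (.cut .l 2402986 (.cut .l 2110258 (.cut .d 1604369 (.cut .s 15302656 (.pos 170 .pm ⟨0, 158553880, 0, 0, 0, 0, 0, 0, 0, ⟨0, 0⟩, 0⟩ 0 0) (.pos 170 .pm ⟨0, 176671152, 0, 0, 0,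 0, 0, 0, 0, ⟨0, 0⟩, 0⟩ 0 0)) (.cut .s 15302656 (.cut .d 1630246 (.pos 170 .pm ⟨0, 169858814, 0, 0, 0, 0, 0, 0, 0, ⟨0, 0⟩, 0⟩ 0 0) (.pos 170 .pm ⟨0, 187122991, 0, 0, 0, 0, 0, 0, 0, ⟨0, 0⟩, 0⟩ 0 0)) (.void 170 ⟨0, 0, 0, 100000, 0, 0, 0, 0, 0, ⟨0, 0⟩, 0⟩ 0 0))) (.pos 170 .pm ⟨0, 179941931, 0, 0, 0, 0, 0, 0, 0, ⟨0, 0⟩, 0⟩ 0 0)) (.pos 170 .pm ⟨0, 179625550, 0, 0, 0, 0, 0, 0, 0, ⟨0, 0⟩, 0⟩ 0 0)) (.pos 170 .pm ⟨0, 178992789, 0, 0, 0, 0, 0, 0, 0, ⟨0, 0⟩, 0⟩ 0 0))) (.pos 133 .pm ⟨0, 217494833, 0, 0, 0, 0, 0, 0, 0, ⟨0, 0⟩, 0⟩ 0 0)) (.cut .s 15335424 (.cut .d 1604369 (.pos 134 .pm ⟨0, 179415161, 0, 0, 0, 0, 0, 0, 0, ⟨0, 0⟩, 0⟩ 0 0) (.cut .d 1630246 (.pos 134 .pm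 ⟨0, 194343318, 0, 0, 0, 0, 0, 0, 0, ⟨0, 0⟩, 0⟩ 0 0) (.pos 134 .pm ⟨0, 208396067, 0, 0, 0, 0, 0, 0, 0, ⟨0, 0⟩, 0⟩ 0 0))) (.pos 134 .pm ⟨0, 243996444, 0, 0, 0, 0, 0, 0, 0, ⟨0, 0⟩, 0⟩ 0 0)))) (.pos 104 .pm ⟨0, 181479730, 0, 0, 0, 0, 0, 0, 0, ⟨0, 0⟩, 0⟩ 0 0)) (.pos 104 .pm ⟨0, 180146031, 0, 0, 0, 0, 0, 0, 0, ⟨0, 0⟩, 0⟩ 0 0)) (.cut .d 1552615 (.cut .v 1572864 (.cut .v 1310720 (.pos 169 .pm ⟨0, 207614959, 0, 0, 0, 0, 0, 0, 0, ⟨0, 0⟩, 0⟩ 0 0) (.cut .s 15466496 (.pos 170 .pm ⟨0, 212064025, 0, 0, 0, 0, 0, 0, 0, ⟨0, 0⟩, 0⟩ 0 0) (.void 170 ⟨0, 0, 0, 100000, 0, 0, 0, 0, 0, ⟨0, 0⟩, 0⟩ 0 0))) (.pos 134 .pm ⟨0, 261051368, 0, 0, 0, 0, 0, 0, 0, ⟨0, 0⟩, 0⟩ 0 0)) (.void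 104 ⟨0, 0, 0, 100000, 0, 0, 0, 0, 0, ⟨0, 0⟩, 0⟩ 0 0))))))) (.cut .d 828061 (.pos 76 .pm ⟨0, 0, 661159983, 0, 0, 0, 0, 0, 0, ⟨0, 0⟩, 0⟩ 0 0) (.cut .d 1242092 (.pos 76 .pm ⟨0, 0, 0, 0, 0, 0, 0, 0, 0, ⟨0, 0⟩, 0⟩ 0 0) (.cut .d 1449107 (.pos 76 .pm ⟨0, 195129435, 0, 0, 0, 0, 0, 0, 0, ⟨0, 0⟩, 0⟩ 0 0) (.cut .s 15400960 (.pos 76 .pm ⟨0, 248894528, 0, 0, 0, 0, 0, 0, 0, ⟨0, 0⟩, 0⟩ 0 0) (.pos 76 .pm ⟨0, 385057924, 0, 0, 0, 0, 0, 0, 0, ⟨0, 0⟩, 0⟩ 0 0)))))) (.cut .d 828061 (.pos 5 .pm ⟨0, 0, 803420553, 0, 0, 0, 0, 0, 0, ⟨0, 0⟩, 0⟩ 0 0) (.pos 5 .pm ⟨0, 312875952, 0, 0, 0, 0, 0, 0, 0, ⟨0, 0⟩, 0⟩ 0 0))) (.pos 3 .pm ⟨0, 0, 74341557, 0, 0, 0, 0, 0, 0, ⟨0, 0⟩, 0⟩ 0 0))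 (.cut .v 268435456 (.cut .d 828061 (.cut .v 67108864 (.cut .v 33554432 (.pos 11 .pp ⟨837468145, 0, 0, 0, 0, 0, 0, 0, 0, ⟨0, 0⟩, 0⟩ 0 0) (.cut .v 50331648 (.pos 31 .pp ⟨3837945437, 0, 0, 0, 0, 0, 0, 0, 0, ⟨0, 0⟩, 0⟩ 0 0) (.pos 32 .pp ⟨7676813943, 0, 0, 0, 0, 0, 0, 0, 0, ⟨0, 0⟩, 0⟩ 0 0))) (.cut .v 134217728 (.cut .v 100663296 (.cut .v 83886080 (.cut .d 414030 (.pos 91 .pp ⟨15284177891, 0, 0, 0, 0, 0, 0, 0, 0, ⟨0, 0⟩, 0⟩ 0 0) (.pos 91 .pp ⟨0, 1763007674, 0, 0, 0, 0, 0, 0, 0, ⟨0, 0⟩, 0⟩ 0 0)) (.pos 92 .pp ⟨23737234553, 14459192021, 0, 0, 0, 0, 0, 0, 0, ⟨0, 0⟩, 0⟩ 0 0)) (.void 72 ⟨87264, 0, 0, 12736, 0, 0, 0, 0, 0, ⟨0, 0⟩, 0⟩ 0 0)) (.void 68 ⟨0, 0, 0, 100000,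 0, 0, 0, 0, 0, ⟨0, 0⟩, 0⟩ 0 0))) (.pos 56 .pp ⟨0, 435019866, 0, 0, 0, 0, 0, 0, 0, ⟨0, 0⟩, 0⟩ 0 0)) (.void 66 ⟨0, 0, 0, 100000, 0, 0, 0, 0, 0, ⟨0, 0⟩, 0⟩ 0 0)))),
    by decide +kernel⟩

def covers27 : cell.Covers table row27.1 :=
  ⟨(.cut .d 0 (.cut .v 16777216 (.cut .d (-8388608) (.void 1 ⟨0, 0, 0, 0, 0, 100000, 0, 0, 0, ⟨0, 0⟩, 0⟩ 0 0) (.cut .v 8388608 (.void 2 ⟨0, 0, 100000, 0, 0, 0, 0, 0, 0, ⟨0, 0⟩, 0⟩ 0 0) (.cut .d (-4194304) (.void 3 ⟨100000, 0, 0, 0, 0, 0, 0, 0, 0, ⟨0, 0⟩, 0⟩ 0 0) (.cut .d (-2097152) (.void 3 ⟨100000, 0, 0, 0, 0, 0, 0, 0, 0, ⟨0, 0⟩, 0⟩ 0 0) (.cut .d (-1048576) (.void 3 ⟨100000, 0, 0, 0, 0, 0, 0, 0, 0, ⟨0, 0⟩, 0⟩ 0 0) (.cut .d (-524288)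 (.void 3 ⟨0, 0, 0, 0, 0, 100000, 0, 0, 0, ⟨0, 0⟩, 0⟩ 0 0) (.cut .d (-262144) (.void 3 ⟨0, 0, 0, 0, 0, 100000, 0, 0, 0, ⟨0, 0⟩, 0⟩ 0 0) (.cut .d (-131072) (.cut .l 6501171 (.void 3 ⟨0, 0, 0, 0, 0, 100000, 0, 0, 0, ⟨0, 0⟩, 0⟩ 0 0) (.cut .l 8842991 (.pos 3 .mm ⟨0, 0, 0, 0, 0, 2843079148, 0, 0, 0, ⟨0, 0⟩, 0⟩ 0 0) (.cut .d (-196608) (.cut .v 12582912 (.pos 6 .mm ⟨0, 0, 109228159, 0, 0, 3267053997, 0, 0, 0, ⟨0, 0⟩, 0⟩ 0 0) (.pos 7 .mm ⟨0, 0, 0, 0, 0, 4229741561, 0, 0, 0, ⟨0, 0⟩, 0⟩ 0 0)) (.cut .v 12582912 (.cut .s 15654912 (.pos 6 .mm ⟨0, 0, 111509782, 0, 0, 1929076085, 0, 0, 0, ⟨0, 0⟩, 0⟩ 0 0) (.pos 6 .mm ⟨0, 0, 120110401, 0, 0, 2029073366, 0, 0, 0, ⟨0, 0⟩,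 0⟩ 0 0)) (.pos 7 .mm ⟨0, 0, 0, 0, 0, 3029043977, 0, 0, 0, ⟨0, 0⟩, 0⟩ 0 0))))) (.pos 3 .mm ⟨0, 0, 77289488, 0, 0, 776749679, 0, 0, 0, ⟨0, 0⟩, 0⟩ 0 0))))))))) (.cut .d (-8388608) (.void 65 ⟨100000, 0, 0, 0, 0, 0, 0, 0, 0, ⟨0, 0⟩, 0⟩ 0 0) (.cut .v 268435456 (.cut .v 67108864 (.cut .v 33554432 (.cut .d (-4194304) (.void 11 ⟨100000, 0, 0, 0, 0, 0, 0, 0, 0, ⟨0, 0⟩, 0⟩ 0 0) (.cut .d (-2097152) (.void 11 ⟨100000, 0, 0, 0, 0, 0, 0, 0, 0, ⟨0, 0⟩, 0⟩ 0 0) (.cut .d (-1048576) (.void 11 ⟨100000, 0, 0, 0, 0, 0, 0, 0, 0, ⟨0, 0⟩, 0⟩ 0 0) (.cut .d (-524288) (.void 11 ⟨100000, 0, 0, 0, 0, 0, 0, 0, 0, ⟨0, 0⟩, 0⟩ 0 0) (.cut .d (-262144) (.void 11 ⟨100000, 0, 0, 0, 0, 0,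 0, 0, 0, ⟨0, 0⟩, 0⟩ 0 0) (.cut .v 25165824 (.pos 13 .mp ⟨2324158924, 0, 0, 0, 0, 0, 0, 0, 0, ⟨0, 0⟩, 0⟩ 0 0) (.pos 14 .mp ⟨4316988807, 0, 0, 0, 0, 0, 0, 0, 0, ⟨0, 0⟩, 0⟩ 0 0))))))) (.pos 12 .mp ⟨167772160000, 0, 0, 0, 0, 0, 0, 0, 0, ⟨0, 0⟩, 0⟩ 0 0)) (.void 57 ⟨100000, 0, 0, 0, 0, 0, 0, 0, 0, ⟨0, 0⟩, 0⟩ 0 0)) (.void 66 ⟨90211, 0, 0, 9789, 0, 0, 0, 0, 0, ⟨0, 0⟩, 0⟩ 0 0)))) (.cut .v 16777216 (.cut .v 8388608 (.cut .v 4194304 (.cut .v 2097152 (.cut .d 672505 (.void 75 ⟨0, 0, 100000, 0, 0, 0, 0, 0, 0, ⟨0, 0⟩, 0⟩ 0 0) (.cut .v 1048576 (.cut .v 524288 (.cut .v 262144 (.cut .v 131072 (.pos 173 .pm ⟨0, 6194188, 0, 0, 0, 0, 0, 0, 0, ⟨0, 0⟩, 0⟩ 0 0) (.pos 174 .pm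 ⟨0, 31122342, 0, 0, 0, 0, 0, 0, 0, ⟨0, 0⟩, 0⟩ 0 0)) (.cut .d 1008758 (.pos 156 .pm ⟨0, 0, 0, 0, 0, 0, 0, 0, 0, ⟨0, 0⟩, 0⟩ 0 0) (.pos 156 .pm ⟨0, 87463596, 0, 0, 0, 0, 0, 0, 0, ⟨0, 0⟩, 0⟩ 0 0))) (.cut .d 1008758 (.pos 132 .pm ⟨0, 0, 0, 0, 0, 0, 0, 0, 0, ⟨0, 0⟩, 0⟩ 0 0) (.cut .d 1176884 (.cut .s 15654912 (.pos 132 .pm ⟨0, 0, 0, 0, 0, 0, 0, 0, 0, ⟨0, 0⟩, 0⟩ 0 0) (.cut .d 1092821 (.cut .v 786432 (.pos 167 .pm ⟨0, 106384009, 0, 0, 0, 0, 0, 0, 0, ⟨0, 0⟩, 0⟩ 0 0) (.cut .s 15716352 (.pos 168 .pm ⟨0, 0, 0, 0, 0, 0, 0, 0, 0, ⟨0, 0⟩, 0⟩ 0 0) (.cut .d 1050789 (.pos 168 .pm ⟨0, 0, 0, 0, 0, 0, 0, 0, 0, ⟨0, 0⟩, 0⟩ 0 0) (.cut .d 1071805 (.pos 168 .pm ⟨0, 131554642, 0,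 0, 0, 0, 0, 0, 0, ⟨0, 0⟩, 0⟩ 0 0) (.pos 168 .pm ⟨0, 140801004, 0, 0, 0, 0, 0, 0, 0, ⟨0, 0⟩, 0⟩ 0 0))))) (.cut .v 786432 (.pos 167 .pm ⟨0, 128863316, 0, 0, 0, 0, 0, 0, 0, ⟨0, 0⟩, 0⟩ 0 0) (.cut .l 6501171 (.cut .s 15716352 (.cut .d 1134852 (.pos 168 .pm ⟨0, 126827659, 0, 0, 0, 0, 0, 0, 0, ⟨0, 0⟩, 0⟩ 0 0) (.pos 168 .pm ⟨0, 147082870, 0, 0, 0, 0, 0, 0, 0, ⟨0, 0⟩, 0⟩ 0 0)) (.cut .s 15747072 (.pos 168 .pm ⟨0, 157624821, 0, 0, 0, 0, 0, 0, 0, ⟨0, 0⟩, 0⟩ 0 0) (.void 168 ⟨0, 0, 0, 100000, 0, 0, 0, 0, 0, ⟨0, 0⟩, 0⟩ 0 0))) (.pos 168 .pm ⟨0, 168879523, 0, 0, 0, 0, 0, 0, 0, ⟨0, 0⟩, 0⟩ 0 0))))) (.cut .s 15654912 (.cut .v 786432 (.pos 167 .pm ⟨0, 116373345, 0, 0, 0,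 0, 0, 0, 0, ⟨0, 0⟩, 0⟩ 0 0) (.cut .l 6501171 (.cut .l 4159351 (.cut .d 1260947 (.cut .s 15593472 (.pos 168 .pm ⟨0, 0, 0, 0, 0, 0, 0, 0, 0, ⟨0, 0⟩, 0⟩ 0 0) (.pos 168 .pm ⟨0, 143273912, 0, 0, 0, 0, 0, 0, 0, ⟨0, 0⟩, 0⟩ 0 0)) (.cut .s 15593472 (.pos 168 .pm ⟨0, 144460182, 0, 0, 0, 0, 0, 0, 0, ⟨0, 0⟩, 0⟩ 0 0) (.pos 168 .pm ⟨0, 172125927, 0, 0, 0, 0, 0, 0, 0, ⟨0, 0⟩, 0⟩ 0 0))) (.pos 168 .pm ⟨0, 150013574, 0, 0, 0, 0, 0, 0, 0, ⟨0, 0⟩, 0⟩ 0 0)) (.pos 168 .pm ⟨0, 155765840, 0, 0, 0, 0, 0, 0, 0, ⟨0, 0⟩, 0⟩ 0 0))) (.pos 132 .pm ⟨0, 202203882, 0, 0, 0, 0, 0, 0, 0, ⟨0, 0⟩, 0⟩ 0 0))))) (.cut .d 1008758 (.pos 104 .pm ⟨0, 0, 0, 0, 0, 0, 0, 0, 0, ⟨0, 0⟩, 0⟩ 0 0) (.cut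 .d 1176884 (.cut .s 15654912 (.pos 104 .pm ⟨0, 0, 0, 0, 0, 0, 0, 0, 0, ⟨0, 0⟩, 0⟩ 0 0) (.cut .v 1572864 (.cut .d 1092821 (.cut .s 15716352 (.pos 133 .pm ⟨0, 0, 0, 0, 0, 0, 0, 0, 0, ⟨0, 0⟩, 0⟩ 0 0) (.pos 133 .pm ⟨0, 143447795, 0, 0, 0, 0, 0, 0, 0, ⟨0, 0⟩, 0⟩ 0 0)) (.cut .s 15716352 (.cut .d 1134852 (.pos 133 .pm ⟨0, 140816800, 0, 0, 0, 0, 0, 0, 0, ⟨0, 0⟩, 0⟩ 0 0) (.pos 133 .pm ⟨0, 164338847, 0, 0, 0, 0, 0, 0, 0, ⟨0, 0⟩, 0⟩ 0 0)) (.pos 133 .pm ⟨0, 188707380, 0, 0, 0, 0, 0, 0, 0, ⟨0, 0⟩, 0⟩ 0 0))) (.pos 134 .pm ⟨0, 203280598, 0, 0, 0, 0, 0, 0, 0, ⟨0, 0⟩, 0⟩ 0 0))) (.cut .s 15654912 (.cut .v 1572864 (.cut .l 6501171 (.cut .d 1260947 (.cut .s 15593472 (.pos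 133 .pm ⟨0, 130086432, 0, 0, 0, 0, 0, 0, 0, ⟨0, 0⟩, 0⟩ 0 0) (.cut .d 1218915 (.pos 133 .pm ⟨0, 151190677, 0, 0, 0, 0, 0, 0, 0, ⟨0, 0⟩, 0⟩ 0 0) (.pos 133 .pm ⟨0, 172903921, 0, 0, 0, 0, 0, 0, 0, ⟨0, 0⟩, 0⟩ 0 0))) (.cut .s 15593472 (.cut .v 1310720 (.cut .d 1302979 (.pos 169 .pm ⟨0, 148476341, 0, 0, 0, 0, 0, 0, 0, ⟨0, 0⟩, 0⟩ 0 0) (.cut .s 15562752 (.pos 169 .pm ⟨0, 160215103, 0, 0, 0, 0, 0, 0, 0, ⟨0, 0⟩, 0⟩ 0 0) (.void 169 ⟨0, 0, 0, 100000, 0, 0, 0, 0, 0, ⟨0, 0⟩, 0⟩ 0 0))) (.pos 170 .pm ⟨0, 176161234, 0, 0, 0, 0, 0, 0, 0, ⟨0, 0⟩, 0⟩ 0 0)) (.pos 133 .pm ⟨0, 701744914, 0, 0, 0, 0, 0, 0, 0, ⟨0, 0⟩, 0⟩ 0 0))) (.pos 133 .pm ⟨0, 181684998, 0, 0, 0, 0, 0, 0, 0,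 ⟨0, 0⟩, 0⟩ 0 0)) (.pos 134 .pm ⟨0, 206747795, 0, 0, 0, 0, 0, 0, 0, ⟨0, 0⟩, 0⟩ 0 0)) (.cut .v 1572864 (.cut .d 1260947 (.pos 133 .pm ⟨0, 225802722, 0, 0, 0, 0, 0, 0, 0, ⟨0, 0⟩, 0⟩ 0 0) (.void 133 ⟨0, 0, 0, 100000, 0, 0, 0, 0, 0, ⟨0, 0⟩, 0⟩ 0 0)) (.pos 134 .pm ⟨0, 307360047, 0, 0, 0, 0, 0, 0, 0, ⟨0, 0⟩, 0⟩ 0 0))))))) (.cut .d 672505 (.pos 76 .pm ⟨0, 0, 974841720, 0, 0, 0, 0, 0, 0, ⟨0, 0⟩, 0⟩ 0 0) (.cut .d 1008758 (.pos 76 .pm ⟨0, 0, 0, 0, 0, 0, 0, 0, 0, ⟨0, 0⟩, 0⟩ 0 0) (.cut .s 15654912 (.pos 76 .pm ⟨0, 229752799, 0, 0, 0, 0, 0, 0, 0, ⟨0, 0⟩, 0⟩ 0 0) (.pos 76 .pm ⟨0, 334795783, 0, 0, 0, 0, 0, 0, 0, ⟨0, 0⟩, 0⟩ 0 0))))) (.cut .d 672505 (.pos 5 .pm ⟨0, 0,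 822896062, 0, 0, 0, 0, 0, 0, ⟨0, 0⟩, 0⟩ 0 0) (.pos 5 .pm ⟨0, 331709657, 0, 0, 0, 0, 0, 0, 0, ⟨0, 0⟩, 0⟩ 0 0))) (.pos 3 .pm ⟨0, 0, 129391900, 0, 0, 0, 0, 0, 0, ⟨0, 0⟩, 0⟩ 0 0)) (.cut .v 268435456 (.cut .d 672505 (.cut .v 67108864 (.cut .v 33554432 (.pos 11 .pp ⟨0, 0, 0, 0, 0, 0, 0, 0, 0, ⟨0, 0⟩, 0⟩ 0 0) (.pos 12 .pp ⟨4723945622, 0, 0, 0, 0, 0, 0, 0, 0, ⟨0, 0⟩, 0⟩ 0 0)) (.cut .v 134217728 (.cut .v 100663296 (.cut .v 83886080 (.pos 91 .pp ⟨13654579073, 0, 0, 0, 0, 0, 0, 0, 0, ⟨0, 0⟩, 0⟩ 0 0) (.pos 92 .pp ⟨25397393284, 14263089020, 0, 0, 0, 0, 0, 0, 0, ⟨0, 0⟩, 0⟩ 0 0)) (.void 72 ⟨87140, 0, 0, 12860, 0, 0, 0, 0, 0, ⟨0, 0⟩, 0⟩ 0 0)) (.void 68 ⟨0, 0, 0, 100000,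 0, 0, 0, 0, 0, ⟨0, 0⟩, 0⟩ 0 0))) (.pos 56 .pp ⟨0, 395659976, 0, 0, 0, 0, 0, 0, 0, ⟨0, 0⟩, 0⟩ 0 0)) (.void 66 ⟨0, 0, 0, 100000, 0, 0, 0, 0, 0, ⟨0, 0⟩, 0⟩ 0 0)))),
    by decide +kernel⟩

def covers28 : cell.Covers table row28.1 :=
  ⟨(.cut .d 0 (.cut .v 16777216 (.cut .d (-8388608) (.void 1 ⟨0, 0, 0, 0, 0, 100000, 0, 0, 0, ⟨0, 0⟩, 0⟩ 0 0) (.cut .v 8388608 (.void 2 ⟨0, 0, 100000, 0, 0, 0, 0, 0, 0, ⟨0, 0⟩, 0⟩ 0 0) (.cut .d (-4194304) (.void 3 ⟨100000, 0, 0, 0, 0, 0, 0, 0, 0, ⟨0, 0⟩, 0⟩ 0 0) (.cut .d (-2097152) (.void 3 ⟨100000, 0, 0, 0, 0, 0, 0, 0, 0, ⟨0, 0⟩, 0⟩ 0 0) (.cut .d (-1048576) (.void 3 ⟨100000, 0, 0, 0, 0, 0, 0, 0, 0, ⟨0, 0⟩, 0⟩ 0 0) (.cut .d (-524288)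 (.void 3 ⟨76259, 0, 23741, 0, 0, 0, 0, 0, 0, ⟨0, 0⟩, 0⟩ 0 0) (.cut .d (-262144) (.void 3 ⟨0, 0, 0, 0, 0, 100000, 0, 0, 0, ⟨0, 0⟩, 0⟩ 0 0) (.cut .d (-131072) (.cut .v 12582912 (.pos 6 .mm ⟨0, 0, 292113017, 0, 0, 3434265173, 0, 0, 0, ⟨0, 0⟩, 0⟩ 0 0) (.pos 7 .mm ⟨0, 0, 0, 0, 0, 4303244852, 0, 0, 0, ⟨0, 0⟩, 0⟩ 0 0)) (.pos 3 .mm ⟨0, 0, 258367303, 0, 0, 0, 0, 0, 0, ⟨0, 0⟩, 0⟩ 0 0))))))))) (.cut .v 268435456 (.cut .v 67108864 (.cut .v 33554432 (.cut .d (-8388608) (.void 11 ⟨100000, 0, 0, 0, 0, 0, 0, 0, 0, ⟨0, 0⟩, 0⟩ 0 0) (.cut .d (-4194304) (.void 11 ⟨100000, 0, 0, 0, 0, 0, 0, 0, 0, ⟨0, 0⟩, 0⟩ 0 0) (.cut .d (-2097152) (.void 11 ⟨100000, 0, 0, 0, 0, 0, 0, 0,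 0, ⟨0, 0⟩, 0⟩ 0 0) (.cut .d (-1048576) (.void 11 ⟨100000, 0, 0, 0, 0, 0, 0, 0, 0, ⟨0, 0⟩, 0⟩ 0 0) (.cut .d (-524288) (.void 11 ⟨100000, 0, 0, 0, 0, 0, 0, 0, 0, ⟨0, 0⟩, 0⟩ 0 0) (.cut .d (-262144) (.void 11 ⟨100000, 0, 0, 0, 0, 0, 0, 0, 0, ⟨0, 0⟩, 0⟩ 0 0) (.pos 11 .mp ⟨2993488779, 0, 0, 0, 0, 0, 0, 0, 0, ⟨0, 0⟩, 0⟩ 0 0))))))) (.void 12 ⟨100000, 0, 0, 0, 0, 0, 0, 0, 0, ⟨0, 0⟩, 0⟩ 0 0)) (.void 57 ⟨100000, 0, 0, 0, 0, 0, 0, 0, 0, ⟨0, 0⟩, 0⟩ 0 0)) (.void 66 ⟨93176, 0, 0, 6824, 0, 0, 0, 0, 0, ⟨0, 0⟩, 0⟩ 0 0))) (.cut .v 16777216 (.cut .v 8388608 (.cut .v 4194304 (.cut .v 2097152 (.cut .d 531367 (.void 75 ⟨0, 0, 100000, 0, 0, 0, 0, 0, 0, ⟨0, 0⟩, 0⟩ 0 0) (.cut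 .v 1048576 (.cut .v 524288 (.cut .v 262144 (.cut .v 131072 (.pos 173 .pm ⟨0, 6684490, 0, 0, 0, 0, 0, 0, 0, ⟨0, 0⟩, 0⟩ 0 0) (.pos 174 .pm ⟨0, 31458960, 0, 0, 0, 0, 0, 0, 0, ⟨0, 0⟩, 0⟩ 0 0)) (.cut .d 797050 (.pos 156 .pm ⟨0, 0, 0, 0, 0, 0, 0, 0, 0, ⟨0, 0⟩, 0⟩ 0 0) (.cut .d 929892 (.pos 156 .pm ⟨0, 76432162, 0, 0, 0, 0, 0, 0, 0, ⟨0, 0⟩, 0⟩ 0 0) (.pos 156 .pm ⟨0, 103545754, 0, 0, 0, 0, 0, 0, 0, ⟨0, 0⟩, 0⟩ 0 0)))) (.cut .d 797050 (.pos 132 .pm ⟨0, 0, 0, 0, 0, 0, 0, 0, 0, ⟨0, 0⟩, 0⟩ 0 0) (.cut .d 929892 (.cut .s 15876096 (.pos 132 .pm ⟨0, 0, 0, 0, 0, 0, 0, 0, 0, ⟨0, 0⟩, 0⟩ 0 0) (.cut .v 786432 (.cut .d 863471 (.cut .v 655360 (.pos 183 .pm ⟨0, 87429341, 0, 0,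 0, 0, 0, 0, 0, ⟨0, 0⟩, 0⟩ 0 0) (.pos 184 .pm ⟨0, 91571476, 0, 0, 0, 0, 0, 0, 0, ⟨0, 0⟩, 0⟩ 0 0)) (.cut .s 15925248 (.pos 167 .pm ⟨0, 103624952, 0, 0, 0, 0, 0, 0, 0, ⟨0, 0⟩, 0⟩ 0 0) (.pos 167 .pm ⟨0, 124132303, 0, 0, 0, 0, 0, 0, 0, ⟨0, 0⟩, 0⟩ 0 0))) (.cut .d 863471 (.pos 168 .pm ⟨0, 99330995, 0, 0, 0, 0, 0, 0, 0, ⟨0, 0⟩, 0⟩ 0 0) (.cut .s 15925248 (.pos 168 .pm ⟨0, 115101088, 0, 0, 0, 0, 0, 0, 0, ⟨0, 0⟩, 0⟩ 0 0) (.pos 168 .pm ⟨0, 136244505, 0, 0, 0, 0, 0, 0, 0, ⟨0, 0⟩, 0⟩ 0 0))))) (.cut .s 15876096 (.cut .d 996313 (.cut .v 786432 (.cut .s 15826944 (.pos 167 .pm ⟨0, 0, 0, 0, 0, 0, 0, 0, 0, ⟨0, 0⟩, 0⟩ 0 0) (.pos 167 .pm ⟨0, 112148622, 0, 0, 0, 0, 0, 0, 0,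 ⟨0, 0⟩, 0⟩ 0 0)) (.cut .s 15826944 (.pos 168 .pm ⟨0, 0, 0, 0, 0, 0, 0, 0, 0, ⟨0, 0⟩, 0⟩ 0 0) (.cut .d 963102 (.pos 168 .pm ⟨0, 114994983, 0, 0, 0, 0, 0, 0, 0, ⟨0, 0⟩, 0⟩ 0 0) (.pos 168 .pm ⟨0, 128427698, 0, 0, 0, 0, 0, 0, 0, ⟨0, 0⟩, 0⟩ 0 0)))) (.cut .v 786432 (.pos 167 .pm ⟨0, 128330531, 0, 0, 0, 0, 0, 0, 0, ⟨0, 0⟩, 0⟩ 0 0) (.cut .s 15826944 (.cut .d 1029523 (.cut .v 917504 (.pos 181 .pm ⟨0, 124726390, 0, 0, 0, 0, 0, 0, 0, ⟨0, 0⟩, 0⟩ 0 0) (.pos 182 .pm ⟨0, 130843140, 0, 0, 0, 0, 0, 0, 0, ⟨0, 0⟩, 0⟩ 0 0)) (.cut .v 917504 (.pos 181 .pm ⟨0, 139416697, 0, 0, 0, 0, 0, 0, 0, ⟨0, 0⟩, 0⟩ 0 0) (.pos 182 .pm ⟨0, 145473863, 0, 0, 0, 0, 0, 0, 0, ⟨0, 0⟩, 0⟩ 0 0)))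 (.pos 168 .pm ⟨0, 157245867, 0, 0, 0, 0, 0, 0, 0, ⟨0, 0⟩, 0⟩ 0 0)))) (.cut .v 786432 (.pos 167 .pm ⟨0, 154863908, 0, 0, 0, 0, 0, 0, 0, ⟨0, 0⟩, 0⟩ 0 0) (.cut .d 996313 (.pos 168 .pm ⟨0, 161234625, 0, 0, 0, 0, 0, 0, 0, ⟨0, 0⟩, 0⟩ 0 0) (.void 168 ⟨0, 0, 0, 100000, 0, 0, 0, 0, 0, ⟨0, 0⟩, 0⟩ 0 0))))))) (.cut .d 797050 (.pos 104 .pm ⟨0, 0, 0, 0, 0, 0, 0, 0, 0, ⟨0, 0⟩, 0⟩ 0 0) (.cut .v 1572864 (.cut .d 929892 (.cut .s 15876096 (.pos 133 .pm ⟨0, 0, 0, 0, 0, 0, 0, 0, 0, ⟨0, 0⟩, 0⟩ 0 0) (.pos 133 .pm ⟨0, 137398077, 0, 0, 0, 0, 0, 0, 0, ⟨0, 0⟩, 0⟩ 0 0)) (.cut .s 15876096 (.cut .s 15826944 (.cut .d 996313 (.pos 133 .pm ⟨0, 0, 0, 0, 0, 0, 0, 0, 0, ⟨0, 0⟩, 0⟩ 0 0)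 (.pos 133 .pm ⟨0, 152412741, 0, 0, 0, 0, 0, 0, 0, ⟨0, 0⟩, 0⟩ 0 0)) (.pos 133 .pm ⟨0, 166466849, 0, 0, 0, 0, 0, 0, 0, ⟨0, 0⟩, 0⟩ 0 0)) (.pos 133 .pm ⟨0, 212248597, 0, 0, 0, 0, 0, 0, 0, ⟨0, 0⟩, 0⟩ 0 0))) (.pos 134 .pm ⟨0, 205236135, 0, 0, 0, 0, 0, 0, 0, ⟨0, 0⟩, 0⟩ 0 0))))) (.cut .d 531367 (.pos 76 .pm ⟨0, 0, 1428451210, 0, 0, 0, 0, 0, 0, ⟨0, 0⟩, 0⟩ 0 0) (.pos 76 .pm ⟨0, 180638203, 0, 0, 0, 0, 0, 0, 0, ⟨0, 0⟩, 0⟩ 0 0))) (.pos 5 .pm ⟨0, 0, 37490582, 0, 0, 0, 0, 0, 0, ⟨0, 0⟩, 0⟩ 0 0)) (.pos 3 .pm ⟨0, 0, 287893328, 0, 0, 0, 0, 0, 0, ⟨0, 0⟩, 0⟩ 0 0)) (.cut .v 268435456 (.cut .v 67108864 (.pos 10 .pp ⟨21597004, 0, 0, 0, 0, 0, 0, 0, 0, ⟨0, 0⟩, 0⟩ 0 0) (.cut .v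 134217728 (.cut .v 100663296 (.pos 71 .pp ⟨16179868429, 11608503795, 0, 0, 0, 0, 0, 0, 0, ⟨0, 0⟩, 0⟩ 0 0) (.void 72 ⟨86872, 0, 0, 13128, 0, 0, 0, 0, 0, ⟨0, 0⟩, 0⟩ 0 0)) (.void 68 ⟨0, 0, 0, 100000, 0, 0, 0, 0, 0, ⟨0, 0⟩, 0⟩ 0 0))) (.void 66 ⟨0, 0, 0, 100000, 0, 0, 0, 0, 0, ⟨0, 0⟩, 0⟩ 0 0)))),
    by decide +kernel⟩

def covers29 : cell.Covers table row29.1 :=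
  ⟨(.cut .d 0 (.cut .v 16777216 (.cut .d (-8388608) (.void 1 ⟨0, 0, 0, 5626, 0, 98667, 0, 0, 0, ⟨0, 0⟩, 0⟩ 0 0) (.cut .v 8388608 (.pos 2 .mm ⟨0, 0, 167772160000, 0, 0, 0, 0, 0, 0, ⟨0, 0⟩, 0⟩ 0 0) (.cut .d (-4194304) (.void 3 ⟨100000, 0, 0, 0, 0, 0, 0, 0, 0, ⟨0, 0⟩, 0⟩ 0 0) (.cut .d (-2097152) (.void 3 ⟨100000, 0, 0, 0, 0, 0, 0, 0, 0, ⟨0, 0⟩, 0⟩ 0 0) (.cut .d (-1048576) (.void 3 ⟨100000, 0, 0, 0, 0, 0, 0, 0, 0, ⟨0, 0⟩, 0⟩ 0 0) (.cut .d (-524288) (.void 3 ⟨76067, 0, 23933, 0, 0, 0, 0, 0, 0, ⟨0, 0⟩, 0⟩ 0 0) (.cut .d (-262144) (.void 3 ⟨0, 0, 0, 0, 0, 100000, 0, 0, 0, ⟨0, 0⟩, 0⟩ 0 0) (.pos 3 .mm ⟨0, 0, 132840293, 0, 0, 2644382472, 0, 0, 0, ⟨0, 0⟩, 0⟩ 0 0))))))))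 (.cut .d (-8388608) (.void 65 ⟨100000, 0, 0, 0, 0, 0, 0, 0, 0, ⟨0, 0⟩, 0⟩ 0 0) (.cut .v 268435456 (.cut .v 67108864 (.cut .v 33554432 (.cut .d (-4194304) (.void 11 ⟨100000, 0, 0, 0, 0, 0, 0, 0, 0, ⟨0, 0⟩, 0⟩ 0 0) (.cut .d (-2097152) (.void 11 ⟨100000, 0, 0, 0, 0, 0, 0, 0, 0, ⟨0, 0⟩, 0⟩ 0 0) (.cut .d (-1048576) (.void 11 ⟨100000, 0, 0, 0, 0, 0, 0, 0, 0, ⟨0, 0⟩, 0⟩ 0 0) (.cut .d (-524288) (.void 11 ⟨100000, 0, 0, 0, 0, 0, 0, 0, 0, ⟨0, 0⟩, 0⟩ 0 0) (.pos 11 .mp ⟨6296903490, 0, 0, 0, 0, 0, 0, 0, 0, ⟨0, 0⟩, 0⟩ 0 0))))) (.pos 12 .mp ⟨167772160000, 0, 0, 0, 0, 0, 0, 0, 0, ⟨0, 0⟩, 0⟩ 0 0)) (.void 57 ⟨100000, 0, 0, 0, 0, 0, 0, 0, 0, ⟨0, 0⟩, 0⟩ 0 0)) (.void 66 ⟨90010,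 0, 0, 9990, 0, 0, 0, 0, 0, ⟨0, 0⟩, 0⟩ 0 0)))) (.cut .v 16777216 (.cut .v 8388608 (.cut .v 4194304 (.cut .v 2097152 (.cut .d 421582 (.void 75 ⟨0, 0, 100000, 0, 0, 0, 0, 0, 0, ⟨0, 0⟩, 0⟩ 0 0) (.cut .v 1048576 (.cut .v 524288 (.cut .v 262144 (.cut .v 131072 (.cut .v 65536 (.pos 185 .pm ⟨0, 310761, 0, 0, 0, 0, 0, 0, 0, ⟨0, 0⟩, 0⟩ 0 0) (.pos 186 .pm ⟨0, 11625571, 0, 0, 0, 0, 0, 0, 0, ⟨0, 0⟩, 0⟩ 0 0)) (.pos 174 .pm ⟨0, 28463181, 0, 0, 0, 0, 0, 0, 0, ⟨0, 0⟩, 0⟩ 0 0)) (.cut .d 632373 (.pos 156 .pm ⟨0, 0, 0, 0, 0, 0, 0, 0, 0, ⟨0, 0⟩, 0⟩ 0 0) (.cut .v 393216 (.pos 179 .pm ⟨0, 65748796, 0, 0, 0, 0, 0, 0, 0, ⟨0, 0⟩, 0⟩ 0 0) (.cut .d 737769 (.cut .d 685071 (.pos 180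 .pm ⟨0, 60877879, 0, 0, 0, 0, 0, 0, 0, ⟨0, 0⟩, 0⟩ 0 0) (.pos 180 .pm ⟨0, 74090108, 0, 0, 0, 0, 0, 0, 0, ⟨0, 0⟩, 0⟩ 0 0)) (.cut .s 16056320 (.pos 180 .pm ⟨0, 82565617, 0, 0, 0, 0, 0, 0, 0, ⟨0, 0⟩, 0⟩ 0 0) (.pos 180 .pm ⟨0, 101312090, 0, 0, 0, 0, 0, 0, 0, ⟨0, 0⟩, 0⟩ 0 0)))))) (.cut .d 632373 (.pos 132 .pm ⟨0, 0, 0, 0, 0, 0, 0, 0, 0, ⟨0, 0⟩, 0⟩ 0 0) (.cut .d 737769 (.cut .v 786432 (.cut .d 685071 (.pos 167 .pm ⟨0, 64200964, 0, 0, 0, 0, 0, 0, 0, ⟨0, 0⟩, 0⟩ 0 0) (.cut .s 16056320 (.pos 167 .pm ⟨0, 0, 0, 0, 0, 0, 0, 0, 0, ⟨0, 0⟩, 0⟩ 0 0) (.cut .v 655360 (.pos 183 .pm ⟨0, 83324175, 0, 0, 0, 0, 0, 0, 0, ⟨0, 0⟩, 0⟩ 0 0) (.pos 184 .pm ⟨0, 88946870, 0, 0, 0, 0,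 0, 0, 0, ⟨0, 0⟩, 0⟩ 0 0)))) (.pos 168 .pm ⟨0, 80324267, 0, 0, 0, 0, 0, 0, 0, ⟨0, 0⟩, 0⟩ 0 0)) (.cut .v 786432 (.cut .s 16056320 (.cut .d 790467 (.cut .v 655360 (.pos 183 .pm ⟨0, 84300670, 0, 0, 0, 0, 0, 0, 0, ⟨0, 0⟩, 0⟩ 0 0) (.pos 184 .pm ⟨0, 88800076, 0, 0, 0, 0, 0, 0, 0, ⟨0, 0⟩, 0⟩ 0 0)) (.cut .v 655360 (.pos 183 .pm ⟨0, 103281651, 0, 0, 0, 0, 0, 0, 0, ⟨0, 0⟩, 0⟩ 0 0) (.cut .d 816816 (.pos 184 .pm ⟨0, 102096544, 0, 0, 0, 0, 0, 0, 0, ⟨0, 0⟩, 0⟩ 0 0) (.pos 184 .pm ⟨0, 113196343, 0, 0, 0, 0, 0, 0, 0, ⟨0, 0⟩, 0⟩ 0 0)))) (.cut .v 655360 (.pos 183 .pm ⟨0, 117821335, 0, 0, 0, 0, 0, 0, 0, ⟨0, 0⟩, 0⟩ 0 0) (.pos 184 .pm ⟨0, 128431567, 0, 0, 0, 0, 0, 0, 0, ⟨0,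 0⟩, 0⟩ 0 0))) (.cut .d 790467 (.pos 168 .pm ⟨0, 105614914, 0, 0, 0, 0, 0, 0, 0, ⟨0, 0⟩, 0⟩ 0 0) (.pos 168 .pm ⟨0, 129718674, 0, 0, 0, 0, 0, 0, 0, ⟨0, 0⟩, 0⟩ 0 0)))))) (.cut .d 632373 (.pos 104 .pm ⟨0, 0, 0, 0, 0, 0, 0, 0, 0, ⟨0, 0⟩, 0⟩ 0 0) (.pos 104 .pm ⟨0, 128864147, 0, 0, 0, 0, 0, 0, 0, ⟨0, 0⟩, 0⟩ 0 0)))) (.pos 76 .pm ⟨0, 0, 36369440, 0, 0, 0, 0, 0, 0, ⟨0, 0⟩, 0⟩ 0 0)) (.pos 5 .pm ⟨0, 0, 142769780, 0, 0, 0, 0, 0, 0, ⟨0, 0⟩, 0⟩ 0 0)) (.pos 3 .pm ⟨0, 0, 544860252, 0, 0, 0, 0, 0, 0, ⟨0, 0⟩, 0⟩ 0 0)) (.cut .v 268435456 (.cut .v 67108864 (.pos 10 .pp ⟨0, 0, 0, 0, 0, 0, 0, 0, 0, ⟨0, 0⟩, 0⟩ 0 0) (.cut .v 134217728 (.pos 67 .pp ⟨19150266263, 15095428441, 0,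 0, 0, 0, 0, 0, 0, ⟨0, 0⟩, 0⟩ 0 0) (.void 68 ⟨0, 0, 0, 100000, 0, 0, 0, 0, 0, ⟨0, 0⟩, 0⟩ 0 0))) (.void 66 ⟨0, 0, 0, 100000, 0, 0, 0, 0, 0, ⟨0, 0⟩, 0⟩ 0 0)))),
    by decide +kernel⟩

def covers30 : cell.Covers table row30.1 :=
  ⟨(.cut .d 0 (.cut .v 16777216 (.cut .d (-8388608) (.pos 1 .mm ⟨0, 0, 0, 0, 0, 167772160000, 0, 0, 0, ⟨0, 0⟩, 0⟩ 0 0) (.cut .v 8388608 (.void 2 ⟨0, 0, 100000, 0, 0, 0, 0, 0, 0, ⟨0, 0⟩, 0⟩ 0 0) (.cut .d (-4194304) (.void 3 ⟨100000, 0, 0, 0, 0, 0, 0, 0, 0, ⟨0, 0⟩, 0⟩ 0 0) (.cut .d (-2097152) (.void 3 ⟨100000, 0, 0, 0, 0, 0, 0, 0, 0, ⟨0, 0⟩, 0⟩ 0 0) (.cut .d (-1048576) (.void 3 ⟨100000, 0, 0, 0, 0, 0, 0, 0, 0, ⟨0, 0⟩, 0⟩ 0 0) (.cut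 .d (-524288) (.void 3 ⟨100000, 0, 0, 0, 0, 0, 0, 0, 0, ⟨0, 0⟩, 0⟩ 0 0) (.pos 3 .mm ⟨0, 0, 1655568873, 0, 0, 6626848160, 0, 0, 0, ⟨0, 0⟩, 0⟩ 0 0))))))) (.cut .v 268435456 (.cut .v 67108864 (.cut .d (-8388608) (.void 10 ⟨100000, 0, 0, 0, 0, 0, 0, 0, 0, ⟨0, 0⟩, 0⟩ 0 0) (.cut .v 33554432 (.cut .d (-4194304) (.void 11 ⟨100000, 0, 0, 0, 0, 0, 0, 0, 0, ⟨0, 0⟩, 0⟩ 0 0) (.cut .d (-2097152) (.void 11 ⟨100000, 0, 0, 0, 0, 0, 0, 0, 0, ⟨0, 0⟩, 0⟩ 0 0) (.cut .d (-1048576) (.void 11 ⟨100000, 0, 0, 0, 0, 0, 0, 0, 0, ⟨0, 0⟩, 0⟩ 0 0) (.cut .d (-524288) (.void 11 ⟨100000, 0, 0, 0, 0, 0, 0, 0, 0, ⟨0, 0⟩, 0⟩ 0 0) (.pos 11 .mp ⟨7162613796, 0, 0, 0, 0, 0, 0, 0, 0, ⟨0, 0⟩, 0⟩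 0 0))))) (.void 12 ⟨100000, 0, 0, 0, 0, 0, 0, 0, 0, ⟨0, 0⟩, 0⟩ 0 0))) (.void 57 ⟨100000, 0, 0, 0, 0, 0, 0, 0, 0, ⟨0, 0⟩, 0⟩ 0 0)) (.void 66 ⟨93058, 0, 0, 6942, 0, 0, 0, 0, 0, ⟨0, 0⟩, 0⟩ 0 0))) (.cut .v 16777216 (.cut .v 8388608 (.cut .v 4194304 (.cut .v 2097152 (.cut .v 1048576 (.cut .d 332139 (.void 103 ⟨0, 0, 100000, 0, 0, 0, 0, 0, 0, ⟨0, 0⟩, 0⟩ 0 0) (.cut .v 524288 (.cut .v 262144 (.cut .v 131072 (.cut .v 65536 (.pos 185 .pm ⟨0, 0, 1299078, 0, 0, 0, 0, 0, 0, ⟨0, 0⟩, 0⟩ 0 0) (.pos 186 .pm ⟨0, 6056505, 0, 0, 0, 0, 0, 0, 0, ⟨0, 0⟩, 0⟩ 0 0)) (.pos 174 .pm ⟨0, 8978441, 0, 0, 0, 0, 0, 0, 0, ⟨0, 0⟩, 0⟩ 0 0)) (.pos 156 .pm ⟨0, 13224952, 0, 0, 0, 0, 0, 0, 0,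 ⟨0, 0⟩, 0⟩ 0 0)) (.cut .v 786432 (.pos 167 .pm ⟨0, 18594369, 0, 0, 0, 0, 0, 0, 0, ⟨0, 0⟩, 0⟩ 0 0) (.pos 168 .pm ⟨0, 28462909, 0, 0, 0, 0, 0, 0, 0, ⟨0, 0⟩, 0⟩ 0 0)))) (.pos 104 .pm ⟨0, 0, 75332396, 0, 0, 0, 0, 0, 0, ⟨0, 0⟩, 0⟩ 0 0)) (.pos 76 .pm ⟨0, 0, 147530262, 0, 0, 0, 0, 0, 0, ⟨0, 0⟩, 0⟩ 0 0)) (.pos 5 .pm ⟨0, 0, 333008221, 0, 0, 0, 0, 0, 0, ⟨0, 0⟩, 0⟩ 0 0)) (.pos 3 .pm ⟨0, 0, 831197539, 0, 0, 0, 0, 0, 0, ⟨0, 0⟩, 0⟩ 0 0)) (.cut .v 268435456 (.cut .v 67108864 (.pos 10 .pp ⟨0, 0, 0, 0, 0, 0, 0, 0, 0, ⟨0, 0⟩, 0⟩ 0 0) (.pos 57 .pp ⟨40122788692, 53098995696, 0, 0, 0, 0, 0, 0, 0, ⟨0, 0⟩, 0⟩ 0 0)) (.void 66 ⟨0, 0, 0, 100000, 0, 0, 0, 0, 0, ⟨0, 0⟩, 0⟩ 0 0)))),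
    by decide +kernel⟩

def covers31 : cell.Covers table row31.1 :=
  ⟨(.cut .d 0 (.cut .v 16777216 (.cut .d (-8388608) (.void 1 ⟨0, 0, 0, 0, 0, 4522558, 0, 0, 0, ⟨0, 0⟩, 0⟩ 0 0) (.cut .v 8388608 (.pos 2 .mm ⟨0, 0, 167772160000, 0, 0, 0, 0, 0, 0, ⟨0, 0⟩, 0⟩ 0 0) (.cut .d (-4194304) (.void 3 ⟨100000, 0, 0, 0, 0, 0, 0, 0, 0, ⟨0, 0⟩, 0⟩ 0 0) (.cut .d (-2097152) (.void 3 ⟨100000, 0, 0, 0, 0, 0, 0, 0, 0, ⟨0, 0⟩, 0⟩ 0 0) (.cut .d (-1048576) (.void 3 ⟨100000, 0, 0, 0, 0, 0, 0, 0, 0, ⟨0, 0⟩, 0⟩ 0 0) (.pos 3 .mm ⟨0, 0, 3057536917, 0, 0, 14259496018, 0, 0, 0, ⟨0, 0⟩, 0⟩ 0 0)))))) (.cut .v 4294967296 (.cut .d (-8388608) (.void 65 ⟨100000, 0, 0, 0, 0, 0, 0, 0, 0,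 ⟨0, 0⟩, 0⟩ 0 0) (.cut .v 268435456 (.cut .v 67108864 (.cut .v 33554432 (.cut .d (-4194304) (.void 11 ⟨100000, 0, 0, 0, 0, 0, 0, 0, 0, ⟨0, 0⟩, 0⟩ 0 0) (.cut .d (-2097152) (.void 11 ⟨100000, 0, 0, 0, 0, 0, 0, 0, 0, ⟨0, 0⟩, 0⟩ 0 0) (.cut .d (-1048576) (.void 11 ⟨100000, 0, 0, 0, 0, 0, 0, 0, 0, ⟨0, 0⟩, 0⟩ 0 0) (.pos 11 .mp ⟨17588009043, 0, 0, 0, 0, 0, 0, 0, 0, ⟨0, 0⟩, 0⟩ 0 0)))) (.void 12 ⟨100000, 0, 0, 0, 0, 0, 0, 0, 0, ⟨0, 0⟩, 0⟩ 0 0)) (.void 57 ⟨100000, 0, 0, 0, 0, 0, 0, 0, 0, ⟨0, 0⟩, 0⟩ 0 0)) (.void 66 ⟨89882, 0, 0, 10118, 0, 0, 0, 0, 0, ⟨0, 0⟩, 0⟩ 0 0))) (.void 193 ⟨93019, 0, 0, 6981, 0, 0, 0, 0, 0, ⟨0, 0⟩, 0⟩ 0 0))) (.cut .v 16777216 (.cut .v 8388608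 (.cut .v 4194304 (.cut .v 2097152 (.cut .v 1048576 (.cut .d 261881 (.pos 103 .pm ⟨0, 0, 167772160000, 0, 0, 0, 0, 0, 0, ⟨0, 0⟩, 0⟩ 0 0) (.cut .v 524288 (.cut .v 262144 (.cut .v 131072 (.cut .v 65536 (.cut .v 32768 (.pos 194 .pm ⟨0, 0, 4888425, 0, 0, 0, 0, 0, 0, ⟨0, 0⟩, 0⟩ 0 0) (.pos 195 .pm ⟨0, 0, 5253620, 0, 0, 0, 0, 0, 0, ⟨0, 0⟩, 0⟩ 0 0)) (.pos 186 .pm ⟨0, 0, 5838101, 0, 0, 0, 0, 0, 0, ⟨0, 0⟩, 0⟩ 0 0)) (.pos 174 .pm ⟨0, 0, 7142527, 0, 0, 0, 0, 0, 0, ⟨0, 0⟩, 0⟩ 0 0)) (.pos 156 .pm ⟨0, 0, 8072351, 0, 0, 0, 0, 0, 0, ⟨0, 0⟩, 0⟩ 0 0)) (.pos 132 .pm ⟨0, 0, 10293236, 0, 0, 0, 0, 0, 0, ⟨0, 0⟩, 0⟩ 0 0))) (.pos 104 .pm ⟨0, 0, 170795466, 0, 0, 0, 0, 0, 0, ⟨0,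 0⟩, 0⟩ 0 0)) (.pos 76 .pm ⟨0, 0, 348840653, 0, 0, 0, 0, 0, 0, ⟨0, 0⟩, 0⟩ 0 0)) (.pos 5 .pm ⟨0, 0, 739609852, 0, 0, 0, 0, 0, 0, ⟨0, 0⟩, 0⟩ 0 0)) (.pos 3 .pm ⟨0, 0, 1449427776, 0, 0, 0, 0, 0, 0, ⟨0, 0⟩, 0⟩ 0 0)) (.cut .v 4294967296 (.cut .v 268435456 (.cut .v 67108864 (.pos 10 .pp ⟨0, 0, 0, 0, 0, 0, 0, 0, 0, ⟨0, 0⟩, 0⟩ 0 0) (.pos 57 .pp ⟨46106759954, 60248413624, 0, 0, 0, 0, 0, 0, 0, ⟨0, 0⟩, 0⟩ 0 0)) (.void 66 ⟨0, 0, 0, 100000, 0, 0, 0, 0, 0, ⟨0, 0⟩, 0⟩ 0 0)) (.void 193 ⟨0, 0, 0, 100000, 0, 0, 0, 0, 0, ⟨0, 0⟩, 0⟩ 0 0)))),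
    by decide +kernel⟩

def covers32 : cell.Covers table row32.1 :=
  ⟨(.cut .d 0 (.cut .v 16777216 (.cut .d (-8388608) (.void 1 ⟨0, 0, 0, 7269, 0, 110805, 0, 0, 0, ⟨0, 0⟩, 0⟩ 0 0) (.cut .v 8388608 (.pos 2 .mm ⟨0, 0, 167772160000, 0, 0, 0, 0, 0, 0, ⟨0, 0⟩, 0⟩ 0 0) (.cut .d (-4194304) (.void 3 ⟨100000, 0, 0, 0, 0, 0, 0, 0, 0, ⟨0, 0⟩, 0⟩ 0 0) (.cut .v 12582912 (.pos 6 .mm ⟨0, 0, 3965057370, 0, 0, 42859365225, 0, 0, 0, ⟨0, 0⟩, 0⟩ 0 0) (.pos 7 .mm ⟨0, 0, 0, 0, 0, 62652889706, 0, 0, 0, ⟨0, 0⟩, 0⟩ 0 0))))) (.cut .v 4294967296 (.cut .v 268435456 (.cut .v 67108864 (.cut .d (-8388608) (.void 10 ⟨100000, 0, 0, 0, 0, 0, 0, 0, 0, ⟨0, 0⟩, 0⟩ 0 0) (.cut .v 33554432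 (.cut .d (-4194304) (.void 11 ⟨100000, 0, 0, 0, 0, 0, 0, 0, 0, ⟨0, 0⟩, 0⟩ 0 0) (.cut .v 25165824 (.pos 13 .mp ⟨0, 0, 0, 0, 0, 94869411645, 0, 0, 0, ⟨0, 0⟩, 0⟩ 0 0) (.pos 14 .mp ⟨83534675898, 0, 0, 0, 0, 0, 0, 0, 0, ⟨0, 0⟩, 0⟩ 0 0))) (.void 12 ⟨100000, 0, 0, 0, 0, 0, 0, 0, 0, ⟨0, 0⟩, 0⟩ 0 0))) (.void 57 ⟨100000, 0, 0, 0, 0, 0, 0, 0, 0, ⟨0, 0⟩, 0⟩ 0 0)) (.void 66 ⟨92987, 0, 0, 7013, 0, 0, 0, 0, 0, ⟨0, 0⟩, 0⟩ 0 0)) (.void 193 ⟨92987, 0, 0, 7013, 0, 0, 0, 0, 0, ⟨0, 0⟩, 0⟩ 0 0))) (.cut .v 16777216 (.cut .v 8388608 (.cut .v 4194304 (.cut .v 2097152 (.cut .v 1048576 (.cut .v 524288 (.cut .d 209926 (.pos 131 .pm ⟨0, 0, 167772160000, 0, 0, 0, 0, 0, 0, ⟨0, 0⟩,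 0⟩ 0 0) (.cut .v 262144 (.cut .v 131072 (.cut .v 65536 (.cut .v 32768 (.pos 194 .pm ⟨0, 0, 8069736, 0, 0, 0, 0, 0, 0, ⟨0, 0⟩, 0⟩ 0 0) (.pos 195 .pm ⟨0, 0, 15234684, 0, 0, 0, 0, 0, 0, ⟨0, 0⟩, 0⟩ 0 0)) (.pos 186 .pm ⟨0, 0, 26019935, 0, 0, 0, 0, 0, 0, ⟨0, 0⟩, 0⟩ 0 0)) (.pos 174 .pm ⟨0, 0, 29464375, 0, 0, 0, 0, 0, 0, ⟨0, 0⟩, 0⟩ 0 0)) (.pos 156 .pm ⟨0, 0, 39687914, 0, 0, 0, 0, 0, 0, ⟨0, 0⟩, 0⟩ 0 0))) (.pos 132 .pm ⟨0, 0, 174542505, 0, 0, 0, 0, 0, 0, ⟨0, 0⟩, 0⟩ 0 0)) (.pos 104 .pm ⟨0, 0, 288059628, 0, 0, 0, 0, 0, 0, ⟨0, 0⟩, 0⟩ 0 0)) (.pos 76 .pm ⟨0, 0, 520463970, 0, 0, 0, 0, 0, 0, ⟨0, 0⟩, 0⟩ 0 0)) (.pos 5 .pm ⟨0, 0, 979173275, 0, 0, 0, 0, 0, 0, ⟨0, 0⟩, 0⟩ 0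 0)) (.pos 3 .pm ⟨0, 0, 2139150821, 0, 0, 0, 0, 0, 0, ⟨0, 0⟩, 0⟩ 0 0)) (.cut .v 4294967296 (.cut .v 268435456 (.cut .v 67108864 (.pos 10 .pp ⟨0, 0, 0, 0, 0, 0, 0, 0, 0, ⟨0, 0⟩, 0⟩ 0 0) (.pos 57 .pp ⟨62111605245, 84907864908, 0, 0, 0, 0, 0, 0, 0, ⟨0, 0⟩, 0⟩ 0 0)) (.void 66 ⟨0, 0, 0, 100000, 0, 0, 0, 0, 0, ⟨0, 0⟩, 0⟩ 0 0)) (.void 193 ⟨0, 0, 0, 100000, 0, 0, 0, 0, 0, ⟨0, 0⟩, 0⟩ 0 0)))),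
    by decide +kernel⟩

def covers33 : cell.Covers table row33.1 :=
  ⟨(.cut .d 0 (.cut .v 16777216 (.cut .v 8388608 (.void 2 ⟨0, 0, 134920, 0, 0, 0, 0, 0, 0, ⟨0, 0⟩, 0⟩ 0 0) (.cut .d (-8388608) (.cut .d (-12582912) (.void 3 ⟨8176, 0, 84004, 6364, 0, 0, 0, 1106, 0, ⟨(-1), 15059155⟩, 0⟩ 0 63) (.void 3 ⟨100000, 0, 0, 0, 0, 0, 0, 0, 0, ⟨0, 0⟩, 0⟩ 0 0)) (.cut .d (-4194304) (.void 3 ⟨100000, 0, 0, 0, 0, 0, 0, 0, 0, ⟨0, 0⟩, 0⟩ 0 0) (.pos 3 .mm ⟨0, 0, 7950785006, 0, 0, 73820677846, 0, 0, 0, ⟨0, 0⟩, 0⟩ 0 0)))) (.cut .v 4294967296 (.cut .v 268435456 (.cut .v 67108864 (.cut .d (-8388608) (.void 10 ⟨100000, 0, 0, 0, 0, 0, 0, 0, 0, ⟨0, 0⟩, 0⟩ 0 0) (.cut .d (-4194304)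 (.void 10 ⟨100000, 0, 0, 0, 0, 0, 0, 0, 0, ⟨0, 0⟩, 0⟩ 0 0) (.cut .v 33554432 (.pos 11 .mp ⟨95235748492, 0, 0, 0, 0, 0, 0, 0, 0, ⟨0, 0⟩, 0⟩ 0 0) (.void 12 ⟨100000, 0, 0, 0, 0, 0, 0, 0, 0, ⟨0, 0⟩, 0⟩ 0 0)))) (.void 57 ⟨100000, 0, 0, 0, 0, 0, 0, 0, 0, ⟨0, 0⟩, 0⟩ 0 0)) (.void 66 ⟨92961, 0, 0, 7039, 0, 0, 0, 0, 0, ⟨0, 0⟩, 0⟩ 0 0)) (.void 193 ⟨92961, 0, 0, 7039, 0, 0, 0, 0, 0, ⟨0, 0⟩, 0⟩ 0 0))) (.cut .v 16777216 (.cut .v 8388608 (.cut .v 4194304 (.cut .v 2097152 (.cut .v 1048576 (.cut .v 524288 (.cut .v 262144 (.cut .v 131072 (.cut .v 65536 (.cut .v 32768 (.pos 194 .pm ⟨0, 0, 15068292, 0, 0, 0, 0, 0, 0, ⟨0, 0⟩, 0⟩ 0 0) (.pos 195 .pm ⟨0, 0, 28781512, 0, 0, 0,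 0, 0, 0, ⟨0, 0⟩, 0⟩ 0 0)) (.pos 186 .pm ⟨0, 0, 53572304, 0, 0, 0, 0, 0, 0, ⟨0, 0⟩, 0⟩ 0 0)) (.pos 174 .pm ⟨0, 0, 95090146, 0, 0, 0, 0, 0, 0, ⟨0, 0⟩, 0⟩ 0 0)) (.pos 156 .pm ⟨0, 0, 149065255, 0, 0, 0, 0, 0, 0, ⟨0, 0⟩, 0⟩ 0 0)) (.pos 132 .pm ⟨0, 0, 225748275, 0, 0, 0, 0, 0, 0, ⟨0, 0⟩, 0⟩ 0 0)) (.pos 104 .pm ⟨0, 0, 405532139, 0, 0, 0, 0, 0, 0, ⟨0, 0⟩, 0⟩ 0 0)) (.pos 76 .pm ⟨0, 0, 818946233, 0, 0, 0, 0, 0, 0, ⟨0, 0⟩, 0⟩ 0 0)) (.pos 5 .pm ⟨0, 0, 1681532128, 0, 0, 0, 0, 0, 0, ⟨0, 0⟩, 0⟩ 0 0)) (.pos 3 .pm ⟨0, 0, 3549734746, 0, 0, 0, 0, 0, 0, ⟨0, 0⟩, 0⟩ 0 0)) (.cut .v 4294967296 (.cut .v 268435456 (.cut .v 67108864 (.pos 10 .pp ⟨0, 0, 0, 0, 0, 0, 0, 0, 0, ⟨0,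 0⟩, 0⟩ 0 0) (.pos 57 .pp ⟨69352741126, 87622069637, 0, 0, 0, 0, 0, 0, 0, ⟨0, 0⟩, 0⟩ 0 0)) (.void 66 ⟨0, 0, 0, 100000, 0, 0, 0, 0, 0, ⟨0, 0⟩, 0⟩ 0 0)) (.void 193 ⟨0, 0, 0, 100000, 0, 0, 0, 0, 0, ⟨0, 0⟩, 0⟩ 0 0)))),
    by decide +kernel⟩

def covers34 : cell.Covers table row34.1 :=
  ⟨(.cut .d 0 (.cut .v 16777216 (.cut .d (-8388608) (.void 1 ⟨0, 0, 0, 0, 0, 1000000000, 0, 0, 0, ⟨0, 0⟩, 0⟩ 0 0) (.cut .v 8388608 (.pos 2 .mm ⟨0, 0, 167772160000, 0, 0, 0, 0, 0, 0, ⟨0, 0⟩, 0⟩ 0 0) (.cut .v 12582912 (.pos 6 .mm ⟨0, 0, 23248041798, 0, 0, 119268817377, 0, 0, 0, ⟨0, 0⟩, 0⟩ 0 0) (.pos 7 .mm ⟨45851736779, 0, 0, 0, 0, 121920423221, 0, 0, 0, ⟨0, 0⟩, 0⟩ 0 0)))) (.cut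 .v 4294967296 (.cut .v 268435456 (.cut .v 67108864 (.cut .d (-8388608) (.void 10 ⟨100000, 0, 0, 0, 0, 0, 0, 0, 0, ⟨0, 0⟩, 0⟩ 0 0) (.cut .d (-4194304) (.void 10 ⟨100000, 0, 0, 0, 0, 0, 0, 0, 0, ⟨0, 0⟩, 0⟩ 0 0) (.cut .d (-2097152) (.void 10 ⟨100000, 0, 0, 0, 0, 0, 0, 0, 0, ⟨0, 0⟩, 0⟩ 0 0) (.pos 10 .mp ⟨141878980721, 0, 0, 0, 0, 0, 0, 0, 0, ⟨0, 0⟩, 0⟩ 0 0)))) (.void 57 ⟨100000, 0, 0, 0, 0, 0, 0, 0, 0, ⟨0, 0⟩, 0⟩ 0 0)) (.void 66 ⟨298573, 0, 0, 22601, 0, 0, 0, 0, 0, ⟨0, 0⟩, 0⟩ 0 0)) (.void 193 ⟨92941, 0, 0, 7059, 0, 0, 0, 0, 0, ⟨0, 0⟩, 0⟩ 0 0))) (.cut .v 16777216 (.cut .v 8388608 (.cut .v 4194304 (.cut .v 2097152 (.cut .v 1048576 (.cut .v 524288 (.cut .v 262144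 (.cut .v 131072 (.cut .v 65536 (.cut .v 32768 (.pos 194 .pm ⟨0, 0, 22977534, 0, 0, 0, 0, 0, 0, ⟨0, 0⟩, 0⟩ 0 0) (.pos 195 .pm ⟨0, 0, 47001281, 0, 0, 0, 0, 0, 0, ⟨0, 0⟩, 0⟩ 0 0)) (.pos 186 .pm ⟨0, 0, 75056997, 0, 0, 0, 0, 0, 0, ⟨0, 0⟩, 0⟩ 0 0)) (.pos 174 .pm ⟨0, 0, 134382562, 0, 0, 0, 0, 0, 0, ⟨0, 0⟩, 0⟩ 0 0)) (.pos 156 .pm ⟨0, 0, 254842599, 0, 0, 0, 0, 0, 0, ⟨0, 0⟩, 0⟩ 0 0)) (.pos 132 .pm ⟨0, 0, 491717791, 0, 0, 0, 0, 0, 0, ⟨0, 0⟩, 0⟩ 0 0)) (.pos 104 .pm ⟨0, 0, 954787568, 0, 0, 0, 0, 0, 0, ⟨0, 0⟩, 0⟩ 0 0)) (.pos 76 .pm ⟨0, 0, 1827808622, 0, 0, 0, 0, 0, 0, ⟨0, 0⟩, 0⟩ 0 0)) (.pos 5 .pm ⟨0, 0, 3394147790, 0, 0, 0, 0, 0, 0, ⟨0, 0⟩, 0⟩ 0 0)) (.pos 3 .pm ⟨0,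 0, 6164544247, 0, 0, 0, 0, 0, 0, ⟨0, 0⟩, 0⟩ 0 0)) (.cut .v 4294967296 (.cut .v 268435456 (.cut .v 67108864 (.pos 10 .pp ⟨0, 0, 0, 0, 0, 0, 0, 0, 0, ⟨0, 0⟩, 0⟩ 0 0) (.pos 57 .pp ⟨99302594801, 63530389632, 0, 4939175568, 0, 0, 0, 0, 0, ⟨0, 0⟩, 0⟩ 0 0)) (.void 66 ⟨0, 0, 0, 100000, 0, 0, 0, 0, 0, ⟨0, 0⟩, 0⟩ 0 0)) (.void 193 ⟨0, 0, 0, 100000, 0, 0, 0, 0, 0, ⟨0, 0⟩, 0⟩ 0 0)))),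
    by decide +kernel⟩

def covers35 : cell.Covers table row35.1 :=
  ⟨(.cut .d 0 (.cut .v 16777216 (.cut .d (-8388608) (.void 1 ⟨0, 0, 0, 0, 0, 72250, 0, 0, 0, ⟨0, 0⟩, 0⟩ 0 0) (.cut .d (-4194304) (.void 1 ⟨0, 0, 0, 0, 0, 100000, 0, 0, 0, ⟨0, 0⟩, 0⟩ 0 0) (.cut .v 8388608 (.pos 2 .mm ⟨0, 0, 167772160000, 0, 0, 0, 0, 0, 0, ⟨0, 0⟩, 0⟩ 0 0) (.pos 3 .mm ⟨0, 0, 13530048505, 0, 0, 135293818680, 0, 0, 0, ⟨0, 0⟩, 0⟩ 0 0)))) (.cut .v 4294967296 (.cut .d (-8388608) (.void 65 ⟨100000, 0, 0, 0, 0, 0, 0, 0, 0, ⟨0, 0⟩, 0⟩ 0 0) (.cut .v 268435456 (.cut .v 67108864 (.cut .d (-4194304) (.void 10 ⟨100000, 0, 0, 0, 0, 0, 0, 0, 0, ⟨0, 0⟩, 0⟩ 0 0) (.cut .v 33554432 (.cut .d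 (-2097152) (.void 11 ⟨100000, 0, 0, 0, 0, 0, 0, 0, 0, ⟨0, 0⟩, 0⟩ 0 0) (.pos 11 .mp ⟨22355688580, 0, 0, 0, 0, 145416471420, 0, 0, 0, ⟨0, 0⟩, 0⟩ 0 0)) (.void 12 ⟨100000, 0, 0, 0, 0, 0, 0, 0, 0, ⟨0, 0⟩, 0⟩ 0 0))) (.void 57 ⟨100000, 0, 0, 0, 0, 0, 0, 0, 0, ⟨0, 0⟩, 0⟩ 0 0)) (.void 66 ⟨89746, 0, 0, 10254, 0, 0, 0, 0, 0, ⟨0, 0⟩, 0⟩ 0 0))) (.void 193 ⟨92922, 0, 0, 7078, 0, 0, 0, 0, 0, ⟨0, 0⟩, 0⟩ 0 0))) (.cut .v 16777216 (.cut .v 8388608 (.cut .v 4194304 (.cut .v 2097152 (.cut .v 1048576 (.cut .v 524288 (.cut .v 262144 (.cut .d 107866 (.pos 155 .pm ⟨0, 0, 167772160000, 0, 0, 0, 0, 0, 0, ⟨0, 0⟩, 0⟩ 0 0) (.cut .v 131072 (.cut .v 65536 (.cut .v 32768 (.cut .v 16384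 (.pos 196 .pm ⟨0, 0, 21698423, 0, 0, 0, 0, 0, 0, ⟨0, 0⟩, 0⟩ 0 0) (.pos 197 .pm ⟨0, 0, 56521469, 0, 0, 0, 0, 0, 0, ⟨0, 0⟩, 0⟩ 0 0)) (.pos 195 .pm ⟨0, 0, 95394699, 0, 0, 0, 0, 0, 0, ⟨0, 0⟩, 0⟩ 0 0)) (.pos 186 .pm ⟨0, 0, 142946715, 0, 0, 0, 0, 0, 0, ⟨0, 0⟩, 0⟩ 0 0)) (.pos 174 .pm ⟨0, 0, 229089961, 0, 0, 0, 0, 0, 0, ⟨0, 0⟩, 0⟩ 0 0))) (.pos 156 .pm ⟨0, 0, 611871576, 0, 0, 0, 0, 0, 0, ⟨0, 0⟩, 0⟩ 0 0)) (.pos 132 .pm ⟨0, 0, 1033106878, 0, 0, 0, 0, 0, 0, ⟨0, 0⟩, 0⟩ 0 0)) (.pos 104 .pm ⟨0, 0, 1927405374, 0, 0, 0, 0, 0, 0, ⟨0, 0⟩, 0⟩ 0 0)) (.pos 76 .pm ⟨0, 0, 3773578184, 0, 0, 0, 0, 0, 0, ⟨0, 0⟩, 0⟩ 0 0)) (.pos 5 .pm ⟨0, 0, 7593937059, 0, 0, 0, 0, 0, 0, ⟨0, 0⟩,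 0⟩ 0 0)) (.pos 3 .pm ⟨0, 0, 13530048505, 0, 0, 0, 0, 0, 0, ⟨0, 0⟩, 0⟩ 0 0)) (.cut .v 4294967296 (.cut .v 268435456 (.cut .v 67108864 (.pos 10 .pp ⟨0, 0, 0, 0, 0, 0, 0, 0, 0, ⟨0, 0⟩, 0⟩ 0 0) (.cut .v 134217728 (.pos 67 .pp ⟨106494696777, 60840448294, 0, 437014929, 0, 0, 0, 0, 0, ⟨0, 0⟩, 0⟩ 0 0) (.void 68 ⟨0, 0, 0, 100000, 0, 0, 0, 0, 0, ⟨0, 0⟩, 0⟩ 0 0))) (.void 66 ⟨0, 0, 0, 100000, 0, 0, 0, 0, 0, ⟨0, 0⟩, 0⟩ 0 0)) (.void 193 ⟨0, 0, 0, 100000, 0, 0, 0, 0, 0, ⟨0, 0⟩, 0⟩ 0 0)))),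
    by decide +kernel⟩

def covers36 : cell.Covers table row36.1 :=
  ⟨(.cut .d 0 (.cut .v 16777216 (.cut .d (-8388608) (.void 1 ⟨0, 0, 0, 0, 0, 99982, 0, 0, 0, ⟨0, 0⟩, 0⟩ 0 0) (.cut .d (-4194304) (.void 1 ⟨0, 0, 0, 6644, 0, 92902, 0, 0, 0, ⟨0, 0⟩, 0⟩ 0 0) (.cut .v 8388608 (.void 2 ⟨0, 0, 139680, 0, 0, 0, 0, 0, 0, ⟨0, 0⟩, 0⟩ 0 0) (.cut .v 12582912 (.pos 6 .mm ⟨0, 0, 14042216287, 0, 0, 133703120169, 0, 0, 0, ⟨0, 0⟩, 0⟩ 0 0) (.pos 7 .mm ⟨39713146356, 0, 0, 0, 0, 128059013644, 0, 0, 0, ⟨0, 0⟩, 0⟩ 0 0))))) (.cut .v 4294967296 (.cut .d (-8388608) (.void 65 ⟨100000, 0, 0, 0, 0, 0, 0, 0, 0, ⟨0, 0⟩, 0⟩ 0 0) (.cut .v 268435456 (.cut .v 67108864 (.cut .d (-4194304)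 (.void 10 ⟨100000, 0, 0, 0, 0, 0, 0, 0, 0, ⟨0, 0⟩, 0⟩ 0 0) (.cut .d (-2097152) (.void 10 ⟨100000, 0, 0, 0, 0, 0, 0, 0, 0, ⟨0, 0⟩, 0⟩ 0 0) (.cut .v 33554432 (.pos 11 .mp ⟨98604638913, 0, 0, 0, 0, 69167521087, 0, 0, 0, ⟨0, 0⟩, 0⟩ 0 0) (.void 12 ⟨100000, 0, 0, 0, 0, 0, 0, 0, 0, ⟨0, 0⟩, 0⟩ 0 0)))) (.void 57 ⟨100000, 0, 0, 0, 0, 0, 0, 0, 0, ⟨0, 0⟩, 0⟩ 0 0)) (.void 66 ⟨89728, 0, 0, 10272, 0, 0, 0, 0, 0, ⟨0, 0⟩, 0⟩ 0 0))) (.void 193 ⟨92909, 0, 0, 7091, 0, 0, 0, 0, 0, ⟨0, 0⟩, 0⟩ 0 0))) (.cut .v 16777216 (.cut .v 8388608 (.cut .v 4194304 (.cut .v 2097152 (.cut .v 1048576 (.cut .v 524288 (.cut .v 262144 (.cut .v 131072 (.cut .d 82729 (.pos 173 .pm ⟨0, 0, 167772160000,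 0, 0, 0, 0, 0, 0, ⟨0, 0⟩, 0⟩ 0 0) (.cut .v 65536 (.cut .v 32768 (.cut .v 16384 (.cut .v 8192 (.pos 198 .pm ⟨0, 0, 18860458, 0, 0, 0, 0, 0, 0, ⟨0, 0⟩, 0⟩ 0 0) (.pos 199 .pm ⟨0, 0, 48681679, 0, 0, 0, 0, 0, 0, ⟨0, 0⟩, 0⟩ 0 0)) (.pos 197 .pm ⟨0, 0, 85337565, 0, 0, 0, 0, 0, 0, ⟨0, 0⟩, 0⟩ 0 0)) (.pos 195 .pm ⟨0, 0, 136564019, 0, 0, 0, 0, 0, 0, ⟨0, 0⟩, 0⟩ 0 0)) (.pos 186 .pm ⟨0, 0, 201914238, 0, 0, 0, 0, 0, 0, ⟨0, 0⟩, 0⟩ 0 0))) (.pos 174 .pm ⟨0, 0, 527682229, 0, 0, 0, 0, 0, 0, ⟨0, 0⟩, 0⟩ 0 0)) (.pos 156 .pm ⟨0, 0, 885244547, 0, 0, 0, 0, 0, 0, ⟨0, 0⟩, 0⟩ 0 0)) (.pos 132 .pm ⟨0, 0, 1409689614, 0, 0, 0, 0, 0, 0, ⟨0, 0⟩, 0⟩ 0 0)) (.pos 104 .pm ⟨0, 0, 2469202990,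 0, 0, 0, 0, 0, 0, ⟨0, 0⟩, 0⟩ 0 0)) (.pos 76 .pm ⟨0, 0, 4564762995, 0, 0, 0, 0, 0, 0, ⟨0, 0⟩, 0⟩ 0 0)) (.pos 5 .pm ⟨0, 0, 8433847658, 0, 0, 0, 0, 0, 0, ⟨0, 0⟩, 0⟩ 0 0)) (.pos 3 .pm ⟨0, 0, 13530826976, 0, 0, 0, 0, 0, 0, ⟨0, 0⟩, 0⟩ 0 0)) (.cut .v 4294967296 (.cut .v 268435456 (.cut .v 67108864 (.pos 10 .pp ⟨0, 0, 0, 0, 0, 0, 0, 0, 0, ⟨0, 0⟩, 0⟩ 0 0) (.cut .v 134217728 (.pos 67 .pp ⟨146393431870, 11477758841, 0, 9900969290, 0, 0, 0, 0, 0, ⟨0, 0⟩, 0⟩ 0 0) (.void 68 ⟨0, 0, 0, 100000, 0, 0, 0, 0, 0, ⟨0, 0⟩, 0⟩ 0 0))) (.void 66 ⟨0, 0, 0, 100000, 0, 0, 0, 0, 0, ⟨0, 0⟩, 0⟩ 0 0)) (.void 193 ⟨0, 0, 0, 100000, 0, 0, 0, 0, 0, ⟨0, 0⟩, 0⟩ 0 0)))),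
    by decide +kernel⟩

def covers37 : cell.Covers table row37.1 :=
  ⟨(.cut .d 0 (.cut .v 16777216 (.cut .d (-8388608) (.void 1 ⟨0, 0, 0, 0, 0, 100030, 0, 0, 0, ⟨0, 0⟩, 0⟩ 0 0) (.cut .v 8388608 (.cut .d (-4194304) (.void 2 ⟨0, 0, 100683, 0, 0, 0, 0, 0, 0, ⟨0, 0⟩, 0⟩ 0 0) (.void 2 ⟨0, 0, 100000, 0, 0, 0, 0, 0, 0, ⟨0, 0⟩, 0⟩ 0 0)) (.cut .d (-4194304) (.void 3 ⟨100000, 0, 0, 0, 0, 0, 0, 0, 0, ⟨0, 0⟩, 0⟩ 0 0) (.cut .v 12582912 (.pos 6 .mm ⟨10282064229, 0, 23554195161, 0, 0, 133935900610, 0, 0, 0, ⟨0, 0⟩, 0⟩ 0 0) (.pos 7 .mm ⟨89284171798, 0, 0, 0, 0, 78487988202, 0, 0, 0, ⟨0, 0⟩, 0⟩ 0 0))))) (.cut .v 4294967296 (.cut .v 268435456 (.cut .v 67108864 (.cut .d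 (-8388608) (.void 10 ⟨100000, 0, 0, 0, 0, 0, 0, 0, 0, ⟨0, 0⟩, 0⟩ 0 0) (.cut .d (-4194304) (.void 10 ⟨100000, 0, 0, 0, 0, 0, 0, 0, 0, ⟨0, 0⟩, 0⟩ 0 0) (.cut .d (-2097152) (.void 10 ⟨100000, 0, 0, 0, 0, 0, 0, 0, 0, ⟨0, 0⟩, 0⟩ 0 0) (.cut .v 33554432 (.pos 11 .mp ⟨158010596753, 0, 0, 0, 0, 9761563247, 0, 0, 0, ⟨0, 0⟩, 0⟩ 0 0) (.void 12 ⟨100000, 0, 0, 0, 0, 0, 0, 0, 0, ⟨0, 0⟩, 0⟩ 0 0))))) (.void 57 ⟨100000, 0, 0, 0, 0, 0, 0, 0, 0, ⟨0, 0⟩, 0⟩ 0 0)) (.void 66 ⟨92903, 0, 0, 7097, 0, 0, 0, 0, 0, ⟨0, 0⟩, 0⟩ 0 0)) (.void 193 ⟨92903, 0, 0, 7097, 0, 0, 0, 0, 0, ⟨0, 0⟩, 0⟩ 0 0))) (.cut .v 16777216 (.cut .v 8388608 (.cut .v 4194304 (.cut .v 2097152 (.cut .v 1048576 (.cut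 .v 524288 (.cut .v 262144 (.cut .v 131072 (.cut .v 65536 (.cut .v 32768 (.cut .v 16384 (.cut .v 8192 (.pos 198 .pm ⟨0, 0, 24736597, 0, 0, 0, 0, 0, 0, ⟨0, 0⟩, 0⟩ 0 0) (.pos 199 .pm ⟨0, 0, 66667295, 0, 0, 0, 0, 0, 0, ⟨0, 0⟩, 0⟩ 0 0)) (.pos 197 .pm ⟨0, 0, 124061206, 0, 0, 0, 0, 0, 0, ⟨0, 0⟩, 0⟩ 0 0)) (.pos 195 .pm ⟨0, 0, 225535865, 0, 0, 0, 0, 0, 0, ⟨0, 0⟩, 0⟩ 0 0)) (.pos 186 .pm ⟨0, 0, 405245280, 0, 0, 0, 0, 0, 0, ⟨0, 0⟩, 0⟩ 0 0)) (.pos 174 .pm ⟨0, 0, 708486949, 0, 0, 0, 0, 0, 0, ⟨0, 0⟩, 0⟩ 0 0)) (.pos 156 .pm ⟨0, 0, 1205120081, 0, 0, 0, 0, 0, 0, ⟨0, 0⟩, 0⟩ 0 0)) (.pos 132 .pm ⟨0, 0, 1973738513, 0, 0, 0, 0, 0, 0, ⟨0, 0⟩, 0⟩ 0 0)) (.pos 104 .pm ⟨0, 0, 3594387236,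 0, 0, 0, 0, 0, 0, ⟨0, 0⟩, 0⟩ 0 0)) (.pos 76 .pm ⟨0, 0, 6838781533, 0, 0, 0, 0, 0, 0, ⟨0, 0⟩, 0⟩ 0 0)) (.pos 5 .pm ⟨0, 0, 13093443466, 0, 0, 0, 0, 0, 0, ⟨0, 0⟩, 0⟩ 0 0)) (.pos 3 .pm ⟨0, 0, 19139788173, 0, 0, 0, 0, 0, 0, ⟨0, 0⟩, 0⟩ 0 0)) (.cut .v 4294967296 (.cut .v 268435456 (.cut .v 67108864 (.pos 10 .pp ⟨0, 0, 0, 0, 0, 0, 0, 0, 0, ⟨0, 0⟩, 0⟩ 0 0) (.cut .v 134217728 (.pos 67 .pp ⟨151025715170, 0, 0, 16746444830, 0, 0, 0, 0, 0, ⟨0, 0⟩, 0⟩ 0 0) (.void 68 ⟨0, 0, 0, 100000, 0, 0, 0, 0, 0, ⟨0, 0⟩, 0⟩ 0 0))) (.void 66 ⟨0, 0, 0, 100000, 0, 0, 0, 0, 0, ⟨0, 0⟩, 0⟩ 0 0)) (.void 193 ⟨0, 0, 0, 100000, 0, 0, 0, 0, 0, ⟨0, 0⟩, 0⟩ 0 0)))),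
    by decide +kernel⟩

def covers38 : cell.Covers table row38.1 :=
  ⟨(.cut .d 0 (.cut .v 16777216 (.cut .d (-8388608) (.void 1 ⟨0, 0, 100000, 0, 0, 0, 0, 0, 0, ⟨0, 0⟩, 0⟩ 0 0) (.cut .d (-4194304) (.void 1 ⟨0, 0, 144133, 0, 0, 0, 0, 0, 0, ⟨0, 0⟩, 0⟩ 0 0) (.cut .d (-2097152) (.void 1 ⟨0, 0, 0, 2762, 0, 98045, 0, 0, 0, ⟨0, 0⟩, 0⟩ 0 0) (.cut .v 8388608 (.void 2 ⟨0, 0, 100000, 0, 0, 0, 0, 0, 0, ⟨0, 0⟩, 0⟩ 0 0) (.cut .v 12582912 (.pos 6 .mm ⟨19636140093, 0, 31473748911, 0, 0, 116662270996, 0, 0, 0, ⟨0, 0⟩, 0⟩ 0 0) (.pos 7 .mm ⟨90194943956, 0, 0, 0, 0, 77577216044, 0, 0, 0, ⟨0, 0⟩, 0⟩ 0 0)))))) (.cut .v 4294967296 (.cut .d (-8388608) (.void 65 ⟨100000, 0,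 0, 0, 0, 0, 0, 0, 0, ⟨0, 0⟩, 0⟩ 0 0) (.cut .v 268435456 (.cut .v 67108864 (.cut .d (-4194304) (.void 10 ⟨100000, 0, 0, 0, 0, 0, 0, 0, 0, ⟨0, 0⟩, 0⟩ 0 0) (.cut .d (-2097152) (.void 10 ⟨100000, 0, 0, 0, 0, 0, 0, 0, 0, ⟨0, 0⟩, 0⟩ 0 0) (.cut .v 33554432 (.cut .d (-1048576) (.void 11 ⟨100000, 0, 0, 0, 0, 0, 0, 0, 0, ⟨0, 0⟩, 0⟩ 0 0) (.cut .d (-524288) (.void 11 ⟨100000, 0, 0, 0, 0, 0, 0, 0, 0, ⟨0, 0⟩, 0⟩ 0 0) (.pos 11 .mp ⟨142620068298, 0, 0, 0, 0, 25152091702, 0, 0, 0, ⟨0, 0⟩, 0⟩ 0 0))) (.void 12 ⟨100000, 0, 0, 0, 0, 0, 0, 0, 0, ⟨0, 0⟩, 0⟩ 0 0)))) (.void 57 ⟨100000, 0, 0, 0, 0, 0, 0, 0, 0, ⟨0, 0⟩, 0⟩ 0 0)) (.void 66 ⟨89708, 0, 0, 10292, 0, 0, 0, 0, 0, ⟨0,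 0⟩, 0⟩ 0 0))) (.void 193 ⟨92892, 0, 0, 7108, 0, 0, 0, 0, 0, ⟨0, 0⟩, 0⟩ 0 0))) (.cut .v 16777216 (.cut .v 8388608 (.cut .v 4194304 (.cut .v 2097152 (.cut .v 1048576 (.cut .v 524288 (.cut .v 262144 (.cut .v 131072 (.cut .d 57740 (.pos 173 .pm ⟨0, 0, 167772160000, 0, 0, 0, 0, 0, 0, ⟨0, 0⟩, 0⟩ 0 0) (.cut .v 65536 (.cut .v 32768 (.cut .v 16384 (.cut .v 8192 (.cut .v 4096 (.pos 200 .pm ⟨0, 0, 23125910, 0, 0, 0, 0, 0, 0, ⟨0, 0⟩, 0⟩ 0 0) (.pos 201 .pm ⟨0, 0, 52692813, 0, 0, 0, 0, 0, 0, ⟨0, 0⟩, 0⟩ 0 0)) (.pos 199 .pm ⟨0, 0, 89438311, 0, 0, 0, 0, 0, 0, ⟨0, 0⟩, 0⟩ 0 0)) (.pos 197 .pm ⟨0, 0, 137912732, 0, 0, 0, 0, 0, 0, ⟨0, 0⟩, 0⟩ 0 0)) (.pos 195 .pm ⟨0, 0, 222783683,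 0, 0, 0, 0, 0, 0, ⟨0, 0⟩, 0⟩ 0 0)) (.pos 186 .pm ⟨0, 0, 343009198, 0, 0, 0, 0, 0, 0, ⟨0, 0⟩, 0⟩ 0 0))) (.pos 174 .pm ⟨0, 0, 1094357675, 0, 0, 0, 0, 0, 0, ⟨0, 0⟩, 0⟩ 0 0)) (.pos 156 .pm ⟨0, 0, 1862602475, 0, 0, 0, 0, 0, 0, ⟨0, 0⟩, 0⟩ 0 0)) (.pos 132 .pm ⟨0, 0, 3112704127, 0, 0, 0, 0, 0, 0, ⟨0, 0⟩, 0⟩ 0 0)) (.pos 104 .pm ⟨0, 0, 5463125259, 0, 0, 0, 0, 0, 0, ⟨0, 0⟩, 0⟩ 0 0)) (.pos 76 .pm ⟨0, 0, 10003558502, 0, 0, 0, 0, 0, 0, ⟨0, 0⟩, 0⟩ 0 0)) (.pos 5 .pm ⟨0, 0, 17762986310, 0, 0, 0, 0, 0, 0, ⟨0, 0⟩, 0⟩ 0 0)) (.pos 3 .pm ⟨0, 0, 23528815898, 0, 0, 0, 0, 0, 0, ⟨0, 0⟩, 0⟩ 0 0)) (.cut .v 4294967296 (.cut .v 268435456 (.cut .v 67108864 (.pos 10 .pp ⟨0, 0, 0, 0,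 0, 0, 0, 0, 0, ⟨0, 0⟩, 0⟩ 0 0) (.cut .v 134217728 (.pos 67 .pp ⟨130524383937, 0, 0, 37247776063, 0, 0, 0, 0, 0, ⟨0, 0⟩, 0⟩ 0 0) (.void 68 ⟨0, 0, 0, 100000, 0, 0, 0, 0, 0, ⟨0, 0⟩, 0⟩ 0 0))) (.void 66 ⟨0, 0, 0, 100000, 0, 0, 0, 0, 0, ⟨0, 0⟩, 0⟩ 0 0)) (.void 193 ⟨0, 0, 0, 100000, 0, 0, 0, 0, 0, ⟨0, 0⟩, 0⟩ 0 0)))),
    by decide +kernel⟩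

def covers39 : cell.Covers table row39.1 :=
  ⟨(.cut .d 0 (.cut .v 16777216 (.cut .v 8388608 (.void 2 ⟨0, 0, 100000, 0, 0, 0, 0, 0, 0, ⟨0, 0⟩, 0⟩ 0 0) (.cut .d (-8388608) (.void 3 ⟨106638, 0, 0, 0, 0, 0, 0, 0, 0, ⟨0, 0⟩, 0⟩ 0 0) (.cut .d (-4194304) (.void 3 ⟨100000, 0, 0, 0, 0, 0, 0, 0, 0, ⟨0, 0⟩, 0⟩ 0 0) (.cut .d (-2097152) (.void 3 ⟨100000, 0, 0, 0, 0, 0, 0, 0, 0, ⟨0, 0⟩, 0⟩ 0 0) (.cut .d (-1048576) (.void 3 ⟨100000, 0, 0, 0, 0, 0, 0, 0, 0, ⟨0, 0⟩, 0⟩ 0 0) (.cut .v 12582912 (.pos 6 .mm ⟨34026119011, 0, 53260353820, 0, 0, 80485687169, 0, 0, 0, ⟨0, 0⟩, 0⟩ 0 0) (.pos 7 .mm ⟨103866469091, 0, 0, 0, 0, 63905690909, 0, 0, 0, ⟨0, 0⟩, 0⟩ 0 0))))))) (.cut .v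 4294967296 (.cut .v 268435456 (.cut .v 67108864 (.cut .d (-8388608) (.void 10 ⟨100000, 0, 0, 0, 0, 0, 0, 0, 0, ⟨0, 0⟩, 0⟩ 0 0) (.cut .d (-4194304) (.void 10 ⟨100000, 0, 0, 0, 0, 0, 0, 0, 0, ⟨0, 0⟩, 0⟩ 0 0) (.cut .d (-2097152) (.void 10 ⟨100000, 0, 0, 0, 0, 0, 0, 0, 0, ⟨0, 0⟩, 0⟩ 0 0) (.cut .v 33554432 (.cut .d (-1048576) (.void 11 ⟨100000, 0, 0, 0, 0, 0, 0, 0, 0, ⟨0, 0⟩, 0⟩ 0 0) (.cut .d (-524288) (.void 11 ⟨100000, 0, 0, 0, 0, 0, 0, 0, 0, ⟨0, 0⟩, 0⟩ 0 0) (.cut .d (-262144) (.void 11 ⟨100000, 0, 0, 0, 0, 0, 0, 0, 0, ⟨0, 0⟩, 0⟩ 0 0) (.cut .d (-131072) (.void 11 ⟨100000, 0, 0, 0, 0, 0, 0, 0, 0, ⟨0, 0⟩, 0⟩ 0 0) (.pos 11 .mp ⟨167459430736, 0, 0, 0, 0, 312729264,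 0, 0, 0, ⟨0, 0⟩, 0⟩ 0 0))))) (.void 12 ⟨100000, 0, 0, 0, 0, 0, 0, 0, 0, ⟨0, 0⟩, 0⟩ 0 0))))) (.void 57 ⟨100000, 0, 0, 0, 0, 0, 0, 0, 0, ⟨0, 0⟩, 0⟩ 0 0)) (.void 66 ⟨0, 0, 4248, 7142, 0, 88614, 0, 0, 0, ⟨0, 0⟩, 0⟩ 0 0)) (.void 193 ⟨92756, 0, 0, 7244, 0, 0, 0, 0, 0, ⟨0, 0⟩, 0⟩ 0 0))) (.cut .v 16777216 (.cut .v 8388608 (.cut .v 4194304 (.cut .v 2097152 (.cut .v 1048576 (.cut .v 524288 (.cut .v 262144 (.cut .v 131072 (.cut .v 65536 (.cut .v 32768 (.cut .v 16384 (.cut .v 8192 (.cut .v 4096 (.pos 200 .pm ⟨0, 0, 34017949, 0, 0, 0, 0, 0, 0, ⟨0, 0⟩, 0⟩ 0 0) (.pos 201 .pm ⟨0, 0, 88037675, 0, 0, 0, 0, 0, 0, ⟨0, 0⟩, 0⟩ 0 0)) (.pos 199 .pm ⟨0, 0, 162913913, 0, 0, 0,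 0, 0, 0, ⟨0, 0⟩, 0⟩ 0 0)) (.pos 197 .pm ⟨0, 0, 302087383, 0, 0, 0, 0, 0, 0, ⟨0, 0⟩, 0⟩ 0 0)) (.pos 195 .pm ⟨0, 0, 553431448, 0, 0, 0, 0, 0, 0, ⟨0, 0⟩, 0⟩ 0 0)) (.pos 186 .pm ⟨0, 0, 993139465, 0, 0, 0, 0, 0, 0, ⟨0, 0⟩, 0⟩ 0 0)) (.pos 174 .pm ⟨0, 0, 1759408456, 0, 0, 0, 0, 0, 0, ⟨0, 0⟩, 0⟩ 0 0)) (.pos 156 .pm ⟨0, 0, 3055554343, 0, 0, 0, 0, 0, 0, ⟨0, 0⟩, 0⟩ 0 0)) (.pos 132 .pm ⟨0, 0, 5189831550, 0, 0, 0, 0, 0, 0, ⟨0, 0⟩, 0⟩ 0 0)) (.pos 104 .pm ⟨0, 0, 9497316168, 0, 0, 0, 0, 0, 0, ⟨0, 0⟩, 0⟩ 0 0)) (.pos 76 .pm ⟨0, 0, 17983789057, 0, 0, 0, 0, 0, 0, ⟨0, 0⟩, 0⟩ 0 0)) (.pos 5 .pm ⟨0, 0, 33422325003, 0, 0, 0, 0, 0, 0, ⟨0, 0⟩, 0⟩ 0 0)) (.pos 3 .pm ⟨0, 0, 39543175007,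 0, 0, 0, 0, 0, 0, ⟨0, 0⟩, 0⟩ 0 0)) (.cut .v 4294967296 (.cut .v 268435456 (.cut .v 67108864 (.pos 10 .pp ⟨0, 0, 0, 0, 0, 0, 0, 0, 0, ⟨0, 0⟩, 0⟩ 0 0) (.cut .v 134217728 (.cut .v 100663296 (.pos 71 .pp ⟨167772160000, 0, 0, 0, 0, 0, 0, 0, 0, ⟨0, 0⟩, 0⟩ 0 0) (.void 72 ⟨86684, 0, 0, 13316, 0, 0, 0, 0, 0, ⟨0, 0⟩, 0⟩ 0 0)) (.void 68 ⟨0, 0, 0, 100000, 0, 0, 0, 0, 0, ⟨0, 0⟩, 0⟩ 0 0))) (.void 66 ⟨0, 0, 0, 100000, 0, 0, 0, 0, 0, ⟨0, 0⟩, 0⟩ 0 0)) (.void 193 ⟨0, 0, 0, 100000, 0, 0, 0, 0, 0, ⟨0, 0⟩, 0⟩ 0 0)))),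
    by decide +kernel⟩

def covers40 : cell.Covers table row40.1 :=
  ⟨(.cut .d 0 (.cut .v 16777216 (.cut .d (-8388608) (.void 1 ⟨0, 0, 0, 0, 0, 1000000000, 0, 0, 0, ⟨0, 0⟩, 0⟩ 0 0) (.cut .d (-4194304) (.void 1 ⟨0, 0, 0, 5381, 0, 94684, 0, 0, 0, ⟨0, 0⟩, 0⟩ 0 0) (.cut .d (-2097152) (.void 1 ⟨0, 0, 0, 0, 0, 100000, 0, 0, 0, ⟨0, 0⟩, 0⟩ 0 0) (.cut .d (-1048576) (.void 1 ⟨0, 0, 0, 0, 0, 1000000000, 0, 0, 0, ⟨0, 0⟩, 0⟩ 0 0) (.cut .v 8388608 (.void 2 ⟨0, 0, 100000, 0, 0, 0, 0, 0, 0, ⟨0, 0⟩, 0⟩ 0 0) (.cut .d (-524288) (.void 3 ⟨1000000000, 0, 0, 0, 0, 0, 0, 0, 0, ⟨0, 0⟩, 0⟩ 0 0) (.pos 3 .mm ⟨65810754654, 0, 75735875294, 0, 0, 26225530053, 0, 0, 0, ⟨0, 0⟩, 0⟩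 0 0))))))) (.cut .v 4294967296 (.cut .d (-8388608) (.void 65 ⟨1000000000, 0, 0, 0, 0, 0, 0, 0, 0, ⟨0, 0⟩, 0⟩ 0 0) (.cut .v 268435456 (.cut .v 67108864 (.cut .d (-4194304) (.void 10 ⟨1000000000, 0, 0, 0, 0, 0, 0, 0, 0, ⟨0, 0⟩, 0⟩ 0 0) (.cut .d (-2097152) (.void 10 ⟨1000000000, 0, 0, 0, 0, 0, 0, 0, 0, ⟨0, 0⟩, 0⟩ 0 0) (.cut .d (-1048576) (.void 10 ⟨1000000000, 0, 0, 0, 0, 0, 0, 0, 0, ⟨0, 0⟩, 0⟩ 0 0) (.cut .d (-524288) (.void 10 ⟨1000000000, 0, 0, 0, 0, 0, 0, 0, 0, ⟨0, 0⟩, 0⟩ 0 0) (.cut .v 33554432 (.cut .d (-262144) (.void 11 ⟨1000000000, 0, 0, 0, 0, 0, 0, 0, 0, ⟨0, 0⟩, 0⟩ 0 0) (.cut .d (-131072) (.void 11 ⟨1000000000, 0, 0, 0, 0, 0, 0, 0, 0, ⟨0, 0⟩, 0⟩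 0 0) (.pos 11 .mp ⟨167772160000, 0, 0, 0, 0, 0, 0, 0, 0, ⟨0, 0⟩, 0⟩ 0 0))) (.void 12 ⟨1000000000, 0, 0, 0, 0, 0, 0, 0, 0, ⟨0, 0⟩, 0⟩ 0 0)))))) (.void 57 ⟨1000000000, 0, 0, 0, 0, 0, 0, 0, 0, ⟨0, 0⟩, 0⟩ 0 0)) (.void 66 ⟨89669, 0, 0, 10331, 0, 0, 0, 0, 0, ⟨0, 0⟩, 0⟩ 0 0))) (.void 193 ⟨92749, 0, 0, 7251, 0, 0, 0, 0, 0, ⟨0, 0⟩, 0⟩ 0 0))) (.cut .v 16777216 (.cut .v 8388608 (.cut .v 4194304 (.cut .v 2097152 (.cut .v 1048576 (.cut .v 524288 (.cut .v 262144 (.cut .v 131072 (.cut .v 65536 (.cut .v 32768 (.cut .v 16384 (.cut .v 8192 (.cut .v 4096 (.pos 200 .pm ⟨0, 0, 34057078, 0, 0, 0, 0, 0, 0, ⟨0, 0⟩, 0⟩ 0 0) (.pos 201 .pm ⟨0, 0, 94814712, 0, 0, 0, 0, 0, 0, ⟨0,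 0⟩, 0⟩ 0 0)) (.pos 199 .pm ⟨0, 0, 179392081, 0, 0, 0, 0, 0, 0, ⟨0, 0⟩, 0⟩ 0 0)) (.pos 197 .pm ⟨0, 0, 331845020, 0, 0, 0, 0, 0, 0, ⟨0, 0⟩, 0⟩ 0 0)) (.pos 195 .pm ⟨0, 0, 607168105, 0, 0, 0, 0, 0, 0, ⟨0, 0⟩, 0⟩ 0 0)) (.pos 186 .pm ⟨0, 0, 1099984470, 0, 0, 0, 0, 0, 0, ⟨0, 0⟩, 0⟩ 0 0)) (.pos 174 .pm ⟨0, 0, 1967276844, 0, 0, 0, 0, 0, 0, ⟨0, 0⟩, 0⟩ 0 0)) (.pos 156 .pm ⟨0, 0, 3466820123, 0, 0, 0, 0, 0, 0, ⟨0, 0⟩, 0⟩ 0 0)) (.pos 132 .pm ⟨0, 0, 6149927628, 0, 0, 0, 0, 0, 0, ⟨0, 0⟩, 0⟩ 0 0)) (.pos 104 .pm ⟨0, 0, 11814745192, 0, 0, 0, 0, 0, 0, ⟨0, 0⟩, 0⟩ 0 0)) (.pos 76 .pm ⟨0, 0, 23360742742, 0, 0, 0, 0, 0, 0, ⟨0, 0⟩, 0⟩ 0 0)) (.pos 5 .pm ⟨0, 0, 47449770640, 0, 0,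 0, 0, 0, 0, ⟨0, 0⟩, 0⟩ 0 0)) (.pos 3 .pm ⟨0, 0, 55699212629, 0, 0, 0, 0, 0, 0, ⟨0, 0⟩, 0⟩ 0 0)) (.cut .v 4294967296 (.cut .v 268435456 (.cut .v 67108864 (.pos 10 .pp ⟨0, 0, 0, 0, 0, 0, 0, 0, 0, ⟨0, 0⟩, 0⟩ 0 0) (.cut .v 134217728 (.cut .v 100663296 (.pos 71 .pp ⟨167772160000, 0, 0, 0, 0, 0, 0, 0, 0, ⟨0, 0⟩, 0⟩ 0 0) (.void 72 ⟨86678, 0, 0, 13322, 0, 0, 0, 0, 0, ⟨0, 0⟩, 0⟩ 0 0)) (.void 68 ⟨0, 0, 0, 100000, 0, 0, 0, 0, 0, ⟨0, 0⟩, 0⟩ 0 0))) (.void 66 ⟨0, 0, 0, 100000, 0, 0, 0, 0, 0, ⟨0, 0⟩, 0⟩ 0 0)) (.void 193 ⟨0, 0, 0, 100000, 0, 0, 0, 0, 0, ⟨0, 0⟩, 0⟩ 0 0)))),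
    by decide +kernel⟩

def covers41 : cell.Covers table row41.1 :=
  ⟨(.cut .d 0 (.cut .v 16777216 (.cut .d (-8388608) (.void 1 ⟨0, 0, 0, 0, 0, 100000, 0, 0, 0, ⟨0, 0⟩, 0⟩ 0 0) (.cut .v 8388608 (.void 2 ⟨0, 0, 110005, 0, 0, 0, 0, 0, 0, ⟨0, 0⟩, 0⟩ 0 0) (.cut .d (-4194304) (.void 3 ⟨100000, 0, 0, 0, 0, 0, 0, 0, 0, ⟨0, 0⟩, 0⟩ 0 0) (.cut .d (-2097152) (.void 3 ⟨100000, 0, 0, 0, 0, 0, 0, 0, 0, ⟨0, 0⟩, 0⟩ 0 0) (.cut .d (-1048576) (.void 3 ⟨100000, 0, 0, 0, 0, 0, 0, 0, 0, ⟨0, 0⟩, 0⟩ 0 0) (.cut .d (-524288) (.void 3 ⟨1000000000, 0, 0, 0, 0, 0, 0, 0, 0, ⟨0, 0⟩, 0⟩ 0 0) (.cut .d (-262144) (.void 3 ⟨1000000000, 0, 0, 0, 0, 0, 0, 0, 0, ⟨0, 0⟩, 0⟩ 0 0) (.pos 3 .mm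 ⟨167772160000, 0, 0, 0, 0, 0, 0, 0, 0, ⟨0, 0⟩, 0⟩ 0 0)))))))) (.cut .v 4294967296 (.cut .d (-8388608) (.void 65 ⟨100000, 0, 0, 0, 0, 0, 0, 0, 0, ⟨0, 0⟩, 0⟩ 0 0) (.cut .v 268435456 (.cut .d (-4194304) (.void 56 ⟨100000, 0, 0, 0, 0, 0, 0, 0, 0, ⟨0, 0⟩, 0⟩ 0 0) (.cut .v 67108864 (.cut .d (-2097152) (.void 10 ⟨100000, 0, 0, 0, 0, 0, 0, 0, 0, ⟨0, 0⟩, 0⟩ 0 0) (.cut .d (-1048576) (.void 10 ⟨1000000000, 0, 0, 0, 0, 0, 0, 0, 0, ⟨0, 0⟩, 0⟩ 0 0) (.cut .d (-524288) (.void 10 ⟨1000000000, 0, 0, 0, 0, 0, 0, 0, 0, ⟨0, 0⟩, 0⟩ 0 0) (.cut .d (-262144) (.void 10 ⟨1000000000, 0, 0, 0, 0, 0, 0, 0, 0, ⟨0, 0⟩, 0⟩ 0 0) (.cut .d (-131072) (.void 10 ⟨100000, 0, 0, 0, 0, 0, 0,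 0, 0, ⟨0, 0⟩, 0⟩ 0 0) (.pos 10 .mp ⟨167772160000, 0, 0, 0, 0, 0, 0, 0, 0, ⟨0, 0⟩, 0⟩ 0 0)))))) (.void 57 ⟨100000, 0, 0, 0, 0, 0, 0, 0, 0, ⟨0, 0⟩, 0⟩ 0 0))) (.void 66 ⟨100000, 0, 0, 0, 0, 0, 0, 0, 0, ⟨0, 0⟩, 0⟩ 0 0))) (.void 193 ⟨100000, 0, 0, 0, 0, 0, 0, 0, 0, ⟨0, 0⟩, 0⟩ 0 0))) (.cut .v 16777216 (.pos 1 .pm ⟨0, 0, 3737445, 0, 0, 0, 0, 0, 0, ⟨0, 0⟩, 0⟩ 0 0) (.cut .v 4294967296 (.cut .v 268435456 (.pos 56 .pp ⟨0, 0, 0, 0, 0, 0, 0, 0, 0, ⟨0, 0⟩, 0⟩ 0 0) (.cut .s 16736256 (.void 66 ⟨0, 0, 0, 1000000000, 0, 0, 0, 0, 0, ⟨0, 0⟩, 0⟩ 0 0) (.void 66 ⟨0, 0, 0, 100000, 0, 0, 0, 0, 0, ⟨0, 0⟩, 0⟩ 0 0))) (.void 193 ⟨0, 0, 0, 100000, 0, 0, 0, 0, 0, ⟨0, 0⟩, 0⟩ 0 0)))),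
    by decide +kernel⟩

def covers42 : cell.Covers table row42.1 :=
  ⟨(.cut .d 0 (.cut .v 16777216 (.cut .d (-8388608) (.void 1 ⟨0, 0, 0, 0, 0, 96837, 0, 0, 0, ⟨0, 0⟩, 0⟩ 0 0) (.cut .d (-4194304) (.void 1 ⟨0, 0, 100000, 0, 0, 0, 0, 0, 0, ⟨0, 0⟩, 0⟩ 0 0) (.cut .d (-2097152) (.void 1 ⟨0, 0, 0, 0, 0, 1000000000, 0, 0, 0, ⟨0, 0⟩, 0⟩ 0 0) (.cut .d (-1048576) (.void 1 ⟨0, 0, 0, 0, 0, 1000000000, 0, 0, 0, ⟨0, 0⟩, 0⟩ 0 0) (.cut .d (-524288) (.void 1 ⟨0, 0, 0, 0, 0, 1000000000, 0, 0, 0, ⟨0, 0⟩, 0⟩ 0 0) (.cut .d (-262144) (.void 1 ⟨0, 0, 0, 0, 0, 1000000000, 0, 0, 0, ⟨0, 0⟩, 0⟩ 0 0) (.cut .d (-131072) (.void 1 ⟨0, 0, 0, 0, 0, 1000000000, 0, 0, 0, ⟨0, 0⟩, 0⟩ 0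 0) (.cut .d (-65536) (.void 1 ⟨0, 0, 0, 0, 0, 1000000000, 0, 0, 0, ⟨0, 0⟩, 0⟩ 0 0) (.cut .d (-32768) (.void 1 ⟨0, 0, 0, 0, 0, 1000000000, 0, 0, 0, ⟨0, 0⟩, 0⟩ 0 0) (.cut .d (-16384) (.void 1 ⟨0, 0, 2281, 0, 0, 97719, 0, 0, 0, ⟨0, 0⟩, 0⟩ 0 0) (.cut .v 8388608 (.void 2 ⟨0, 0, 1000000000, 0, 0, 0, 0, 0, 0, ⟨0, 0⟩, 0⟩ 0 0) (.pos 3 .mm ⟨167772160000, 0, 0, 0, 0, 0, 0, 0, 0, ⟨0, 0⟩, 0⟩ 0 0)))))))))))) (.cut .v 4294967296 (.cut .d (-8388608) (.void 65 ⟨100000, 0, 0, 0, 0, 0, 0, 0, 0, ⟨0, 0⟩, 0⟩ 0 0) (.cut .v 268435456 (.cut .v 67108864 (.cut .d (-4194304) (.void 10 ⟨1000000000, 0, 0, 0, 0, 0, 0, 0, 0, ⟨0, 0⟩, 0⟩ 0 0) (.cut .d (-2097152) (.void 10 ⟨1000000000,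 0, 0, 0, 0, 0, 0, 0, 0, ⟨0, 0⟩, 0⟩ 0 0) (.cut .d (-1048576) (.void 10 ⟨1000000000, 0, 0, 0, 0, 0, 0, 0, 0, ⟨0, 0⟩, 0⟩ 0 0) (.cut .d (-524288) (.void 10 ⟨1000000000, 0, 0, 0, 0, 0, 0, 0, 0, ⟨0, 0⟩, 0⟩ 0 0) (.cut .v 33554432 (.cut .d (-262144) (.void 11 ⟨1000000000, 0, 0, 0, 0, 0, 0, 0, 0, ⟨0, 0⟩, 0⟩ 0 0) (.cut .d (-131072) (.void 11 ⟨1000000000, 0, 0, 0, 0, 0, 0, 0, 0, ⟨0, 0⟩, 0⟩ 0 0) (.cut .d (-65536) (.void 11 ⟨1000000000, 0, 0, 0, 0, 0, 0, 0, 0, ⟨0, 0⟩, 0⟩ 0 0) (.cut .d (-32768) (.void 11 ⟨1000000000, 0, 0, 0, 0, 0, 0, 0, 0, ⟨0, 0⟩, 0⟩ 0 0) (.cut .d (-16384) (.void 11 ⟨1000000000, 0, 0, 0, 0, 0, 0, 0, 0, ⟨0, 0⟩, 0⟩ 0 0) (.pos 11 .mp ⟨167772160000, 0,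 0, 0, 0, 0, 0, 0, 0, ⟨0, 0⟩, 0⟩ 0 0)))))) (.void 12 ⟨1000000000, 0, 0, 0, 0, 0, 0, 0, 0, ⟨0, 0⟩, 0⟩ 0 0)))))) (.void 57 ⟨101654, 0, 0, 0, 0, 0, 0, 0, 0, ⟨0, 0⟩, 0⟩ 0 0)) (.void 66 ⟨89670, 0, 0, 10330, 0, 0, 0, 0, 0, ⟨0, 0⟩, 0⟩ 0 0))) (.cut .l 6501171 (.void 193 ⟨1000000000, 0, 0, 0, 0, 0, 0, 0, 0, ⟨0, 0⟩, 0⟩ 0 0) (.void 193 ⟨1000000000, 0, 0, 0, 0, 0, 0, 0, 0, ⟨0, 0⟩, 0⟩ 0 0)))) (.cut .v 16777216 (.cut .v 8388608 (.cut .v 4194304 (.cut .v 2097152 (.cut .v 1048576 (.cut .v 524288 (.cut .v 262144 (.cut .v 131072 (.cut .v 65536 (.cut .v 32768 (.cut .v 16384 (.cut .v 8192 (.cut .v 4096 (.cut .v 2048 (.cut .v 1024 (.pos 208 .pm ⟨0, 0, 42945136, 0, 0, 0, 0,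 0, 0, ⟨0, 0⟩, 0⟩ 0 0) (.pos 209 .pm ⟨0, 0, 113255554, 0, 0, 0, 0, 0, 0, ⟨0, 0⟩, 0⟩ 0 0)) (.pos 207 .pm ⟨0, 0, 213497935, 0, 0, 0, 0, 0, 0, ⟨0, 0⟩, 0⟩ 0 0)) (.pos 201 .pm ⟨0, 0, 403417040, 0, 0, 0, 0, 0, 0, ⟨0, 0⟩, 0⟩ 0 0)) (.pos 199 .pm ⟨0, 0, 760836407, 0, 0, 0, 0, 0, 0, ⟨0, 0⟩, 0⟩ 0 0)) (.pos 197 .pm ⟨0, 0, 1428248390, 0, 0, 0, 0, 0, 0, ⟨0, 0⟩, 0⟩ 0 0)) (.pos 195 .pm ⟨0, 0, 2727307528, 0, 0, 0, 0, 0, 0, ⟨0, 0⟩, 0⟩ 0 0)) (.pos 186 .pm ⟨0, 0, 5379894020, 0, 0, 0, 0, 0, 0, ⟨0, 0⟩, 0⟩ 0 0)) (.pos 174 .pm ⟨0, 0, 10756203997, 0, 0, 0, 0, 0, 0, ⟨0, 0⟩, 0⟩ 0 0)) (.pos 156 .pm ⟨0, 0, 21508980479, 0, 0, 0, 0, 0, 0, ⟨0, 0⟩, 0⟩ 0 0)) (.pos 132 .pm ⟨0, 0, 43015159554,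 0, 0, 0, 0, 0, 0, ⟨0, 0⟩, 0⟩ 0 0)) (.pos 104 .pm ⟨0, 0, 86030022153, 0, 0, 0, 0, 0, 0, ⟨0, 0⟩, 0⟩ 0 0)) (.pos 76 .pm ⟨0, 0, 167772160000, 0, 0, 0, 0, 0, 0, ⟨0, 0⟩, 0⟩ 0 0)) (.pos 5 .pm ⟨0, 0, 167772160000, 0, 0, 0, 0, 0, 0, ⟨0, 0⟩, 0⟩ 0 0)) (.pos 3 .pm ⟨0, 0, 167772160000, 0, 0, 0, 0, 0, 0, ⟨0, 0⟩, 0⟩ 0 0)) (.cut .v 4294967296 (.cut .v 268435456 (.cut .v 67108864 (.pos 10 .pp ⟨0, 0, 0, 0, 0, 0, 0, 0, 0, ⟨0, 0⟩, 0⟩ 0 0) (.cut .v 134217728 (.pos 67 .pp ⟨0, 0, 0, 167772160000, 0, 0, 0, 0, 0, ⟨0, 0⟩, 0⟩ 0 0) (.void 68 ⟨0, 0, 0, 1000000000, 0, 0, 0, 0, 0, ⟨0, 0⟩, 0⟩ 0 0))) (.void 66 ⟨0, 0, 0, 1000000000, 0, 0, 0, 0, 0, ⟨0, 0⟩, 0⟩ 0 0)) (.void 193 ⟨0, 0, 0,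 100000, 0, 0, 0, 0, 0, ⟨0, 0⟩, 0⟩ 0 0)))),
    by decide +kernel⟩

def covers43 : cell.Covers table row43.1 :=
  ⟨(.cut .d 0 (.cut .v 16777216 (.cut .d (-8388608) (.void 1 ⟨0, 0, 0, 0, 0, 100000, 0, 0, 0, ⟨0, 0⟩, 0⟩ 0 0) (.cut .d (-4194304) (.void 1 ⟨0, 0, 0, 0, 0, 100000, 0, 0, 0, ⟨0, 0⟩, 0⟩ 0 0) (.cut .d (-2097152) (.void 1 ⟨0, 0, 2434, 0, 0, 97566, 0, 0, 0, ⟨0, 0⟩, 0⟩ 0 0) (.cut .d (-1048576) (.void 1 ⟨0, 0, 0, 0, 0, 100000, 0, 0, 0, ⟨0, 0⟩, 0⟩ 0 0) (.cut .d (-524288) (.void 1 ⟨0, 0, 0, 0, 0, 100000, 0, 0, 0, ⟨0, 0⟩, 0⟩ 0 0) (.cut .d (-262144) (.void 1 ⟨0, 0, 0, 0, 0, 100000, 0, 0, 0, ⟨0, 0⟩, 0⟩ 0 0) (.cut .d (-131072) (.void 1 ⟨0, 0, 1382, 0, 0, 98618,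 0, 0, 0, ⟨0, 0⟩, 0⟩ 0 0) (.cut .d (-65536) (.void 1 ⟨0, 0, 1347, 0, 0, 98653, 0, 0, 0, ⟨0, 0⟩, 0⟩ 0 0) (.cut .d (-32768) (.void 1 ⟨0, 0, 0, 0, 0, 100000, 0, 0, 0, ⟨0, 0⟩, 0⟩ 0 0) (.cut .v 8388608 (.void 2 ⟨0, 0, 100000, 0, 0, 0, 0, 0, 0, ⟨0, 0⟩, 0⟩ 0 0) (.cut .d (-16384) (.void 3 ⟨100000, 0, 0, 0, 0, 0, 0, 0, 0, ⟨0, 0⟩, 0⟩ 0 0) (.pos 3 .mm ⟨167772160000, 0, 0, 0, 0, 0, 0, 0, 0, ⟨0, 0⟩, 0⟩ 0 0)))))))))))) (.cut .v 4294967296 (.cut .v 268435456 (.cut .d (-8388608) (.void 56 ⟨100000, 0, 0, 0, 0, 0, 0, 0, 0, ⟨0, 0⟩, 0⟩ 0 0) (.cut .v 67108864 (.cut .d (-4194304) (.void 10 ⟨100000, 0, 0, 0, 0, 0, 0, 0, 0, ⟨0, 0⟩, 0⟩ 0 0) (.cut .d (-2097152) (.void 10 ⟨100000,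 0, 0, 0, 0, 0, 0, 0, 0, ⟨0, 0⟩, 0⟩ 0 0) (.cut .d (-1048576) (.void 10 ⟨100000, 0, 0, 0, 0, 0, 0, 0, 0, ⟨0, 0⟩, 0⟩ 0 0) (.cut .d (-524288) (.void 10 ⟨100000, 0, 0, 0, 0, 0, 0, 0, 0, ⟨0, 0⟩, 0⟩ 0 0) (.cut .d (-262144) (.void 10 ⟨100000, 0, 0, 0, 0, 0, 0, 0, 0, ⟨0, 0⟩, 0⟩ 0 0) (.cut .d (-131072) (.void 10 ⟨100000, 0, 0, 0, 0, 0, 0, 0, 0, ⟨0, 0⟩, 0⟩ 0 0) (.cut .d (-65536) (.void 10 ⟨100000, 0, 0, 0, 0, 0, 0, 0, 0, ⟨0, 0⟩, 0⟩ 0 0) (.cut .d (-32768) (.void 10 ⟨100000, 0, 0, 0, 0, 0, 0, 0, 0, ⟨0, 0⟩, 0⟩ 0 0) (.cut .d (-16384) (.void 10 ⟨100000, 0, 0, 0, 0, 0, 0, 0, 0, ⟨0, 0⟩, 0⟩ 0 0) (.cut .d (-8192) (.void 10 ⟨100000, 0, 0, 0, 0, 0, 0, 0, 0, ⟨0, 0⟩, 0⟩ 0 0)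 (.pos 10 .mp ⟨167772160000, 0, 0, 0, 0, 0, 0, 0, 0, ⟨0, 0⟩, 0⟩ 0 0))))))))))) (.void 57 ⟨100000, 0, 0, 0, 0, 0, 0, 0, 0, ⟨0, 0⟩, 0⟩ 0 0))) (.void 66 ⟨92926, 0, 0, 7074, 0, 0, 0, 0, 0, ⟨0, 0⟩, 0⟩ 0 0)) (.void 193 ⟨93052, 0, 0, 7139, 0, 0, 0, 0, 0, ⟨0, 0⟩, 0⟩ 0 0))) (.cut .v 16777216 (.cut .v 8388608 (.cut .v 4194304 (.cut .v 2097152 (.cut .v 1048576 (.cut .v 524288 (.cut .v 262144 (.cut .v 131072 (.cut .v 65536 (.cut .v 32768 (.cut .v 16384 (.cut .v 8192 (.cut .v 4096 (.cut .v 2048 (.cut .v 1024 (.pos 208 .pm ⟨0, 0, 39785309, 0, 0, 0, 0, 0, 0, ⟨0, 0⟩, 0⟩ 0 0) (.pos 209 .pm ⟨0, 0, 127173082, 0, 0, 0, 0, 0, 0, ⟨0, 0⟩, 0⟩ 0 0)) (.pos 207 .pm ⟨0, 0, 235702777,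 0, 0, 0, 0, 0, 0, ⟨0, 0⟩, 0⟩ 0 0)) (.pos 201 .pm ⟨0, 0, 435831179, 0, 0, 0, 0, 0, 0, ⟨0, 0⟩, 0⟩ 0 0)) (.pos 199 .pm ⟨0, 0, 800158484, 0, 0, 0, 0, 0, 0, ⟨0, 0⟩, 0⟩ 0 0)) (.pos 197 .pm ⟨0, 0, 1452767728, 0, 0, 0, 0, 0, 0, ⟨0, 0⟩, 0⟩ 0 0)) (.pos 195 .pm ⟨0, 0, 2698619316, 0, 0, 0, 0, 0, 0, ⟨0, 0⟩, 0⟩ 0 0)) (.pos 186 .pm ⟨0, 0, 5277810291, 0, 0, 0, 0, 0, 0, ⟨0, 0⟩, 0⟩ 0 0)) (.pos 174 .pm ⟨0, 0, 10552056027, 0, 0, 0, 0, 0, 0, ⟨0, 0⟩, 0⟩ 0 0)) (.pos 156 .pm ⟨0, 0, 21100704027, 0, 0, 0, 0, 0, 0, ⟨0, 0⟩, 0⟩ 0 0)) (.pos 132 .pm ⟨0, 0, 42198626139, 0, 0, 0, 0, 0, 0, ⟨0, 0⟩, 0⟩ 0 0)) (.pos 104 .pm ⟨0, 0, 84396974812, 0, 0, 0, 0, 0, 0, ⟨0, 0⟩, 0⟩ 0 0)) (.pos 76 .pm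 ⟨0, 0, 167772160000, 0, 0, 0, 0, 0, 0, ⟨0, 0⟩, 0⟩ 0 0)) (.pos 5 .pm ⟨0, 0, 167772160000, 0, 0, 0, 0, 0, 0, ⟨0, 0⟩, 0⟩ 0 0)) (.pos 3 .pm ⟨0, 0, 167772160000, 0, 0, 0, 0, 0, 0, ⟨0, 0⟩, 0⟩ 0 0)) (.cut .v 4294967296 (.cut .v 268435456 (.cut .v 67108864 (.pos 10 .pp ⟨0, 0, 0, 0, 0, 0, 0, 0, 0, ⟨0, 0⟩, 0⟩ 0 0) (.cut .v 134217728 (.pos 67 .pp ⟨0, 0, 0, 167772160000, 0, 0, 0, 0, 0, ⟨0, 0⟩, 0⟩ 0 0) (.void 68 ⟨0, 0, 0, 100000, 0, 0, 0, 0, 0, ⟨0, 0⟩, 0⟩ 0 0))) (.void 66 ⟨0, 0, 0, 100000, 0, 0, 0, 0, 0, ⟨0, 0⟩, 0⟩ 0 0)) (.void 193 ⟨0, 0, 0, 100000, 0, 0, 0, 0, 0, ⟨0, 0⟩, 0⟩ 0 0)))),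
    by decide +kernel⟩

def covers44 : cell.Covers table row44.1 :=
  ⟨(.cut .d 0 (.cut .v 16777216 (.cut .d (-8388608) (.void 1 ⟨0, 0, 100000, 0, 0, 0, 0, 0, 0, ⟨0, 0⟩, 0⟩ 0 0) (.cut .d (-4194304) (.cut .s 16766976 (.void 1 ⟨0, 0, 0, 0, 0, 1000000000, 0, 0, 0, ⟨0, 0⟩, 0⟩ 0 0) (.void 1 ⟨0, 0, 100000, 0, 0, 0, 0, 0, 0, ⟨0, 0⟩, 0⟩ 0 0)) (.cut .d (-2097152) (.void 1 ⟨0, 0, 100000, 0, 0, 0, 0, 0, 0, ⟨0, 0⟩, 0⟩ 0 0) (.cut .d (-1048576) (.void 1 ⟨0, 0, 100000, 0, 0, 0, 0, 0, 0, ⟨0, 0⟩, 0⟩ 0 0) (.cut .d (-524288) (.void 1 ⟨0, 0, 100000, 0, 0, 0, 0, 0, 0, ⟨0, 0⟩, 0⟩ 0 0) (.cut .d (-262144) (.void 1 ⟨0, 0, 100000, 0, 0, 0, 0, 0, 0, ⟨0, 0⟩, 0⟩ 0 0) (.cut .d (-131072)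 (.void 1 ⟨0, 0, 100000, 0, 0, 0, 0, 0, 0, ⟨0, 0⟩, 0⟩ 0 0) (.cut .d (-65536) (.void 1 ⟨0, 0, 100000, 0, 0, 0, 0, 0, 0, ⟨0, 0⟩, 0⟩ 0 0) (.cut .d (-32768) (.void 1 ⟨0, 0, 0, 0, 0, 100000, 0, 0, 0, ⟨0, 0⟩, 0⟩ 0 0) (.cut .d (-16384) (.void 1 ⟨0, 0, 100000, 0, 0, 0, 0, 0, 0, ⟨0, 0⟩, 0⟩ 0 0) (.cut .v 8388608 (.void 2 ⟨0, 0, 100000, 0, 0, 0, 0, 0, 0, ⟨0, 0⟩, 0⟩ 0 0) (.pos 3 .mm ⟨167772160000, 0, 0, 0, 0, 0, 0, 0, 0, ⟨0, 0⟩, 0⟩ 0 0)))))))))))) (.cut .v 4294967296 (.cut .d (-8388608) (.void 65 ⟨1000000000, 0, 0, 0, 0, 0, 0, 0, 0, ⟨0, 0⟩, 0⟩ 0 0) (.cut .d (-4194304) (.void 65 ⟨1000000000, 0, 0, 0, 0, 0, 0, 0, 0, ⟨0, 0⟩, 0⟩ 0 0) (.cut .v 268435456 (.cut .v 67108864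 (.cut .d (-2097152) (.void 10 ⟨1000000000, 0, 0, 0, 0, 0, 0, 0, 0, ⟨0, 0⟩, 0⟩ 0 0) (.cut .d (-1048576) (.void 10 ⟨1000000000, 0, 0, 0, 0, 0, 0, 0, 0, ⟨0, 0⟩, 0⟩ 0 0) (.cut .d (-524288) (.void 10 ⟨1000000000, 0, 0, 0, 0, 0, 0, 0, 0, ⟨0, 0⟩, 0⟩ 0 0) (.cut .d (-262144) (.void 10 ⟨1000000000, 0, 0, 0, 0, 0, 0, 0, 0, ⟨0, 0⟩, 0⟩ 0 0) (.cut .d (-131072) (.void 10 ⟨1000000000, 0, 0, 0, 0, 0, 0, 0, 0, ⟨0, 0⟩, 0⟩ 0 0) (.cut .d (-65536) (.void 10 ⟨1000000000, 0, 0, 0, 0, 0, 0, 0, 0, ⟨0, 0⟩, 0⟩ 0 0) (.cut .d (-32768) (.void 10 ⟨1000000000, 0, 0, 0, 0, 0, 0, 0, 0, ⟨0, 0⟩, 0⟩ 0 0) (.cut .d (-16384) (.void 10 ⟨1000000000, 0, 0, 0, 0, 0, 0, 0, 0, ⟨0, 0⟩, 0⟩ 0 0) (.cut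 .d (-8192) (.void 10 ⟨1000000000, 0, 0, 0, 0, 0, 0, 0, 0, ⟨0, 0⟩, 0⟩ 0 0) (.pos 10 .mp ⟨167772160000, 0, 0, 0, 0, 0, 0, 0, 0, ⟨0, 0⟩, 0⟩ 0 0)))))))))) (.void 57 ⟨1000000000, 0, 0, 0, 0, 0, 0, 0, 0, ⟨0, 0⟩, 0⟩ 0 0)) (.void 66 ⟨1000000000, 0, 0, 0, 0, 0, 0, 0, 0, ⟨0, 0⟩, 0⟩ 0 0)))) (.void 193 ⟨1000000000, 0, 0, 0, 0, 0, 0, 0, 0, ⟨0, 0⟩, 0⟩ 0 0))) (.cut .v 16777216 (.cut .v 8388608 (.cut .v 4194304 (.cut .d 6150 (.cut .d 3075 (.void 4 ⟨0, 0, 100000, 0, 0, 0, 0, 0, 0, ⟨0, 0⟩, 0⟩ 0 0) (.pos 4 .pm ⟨0, 0, 167772160000, 0, 0, 0, 0, 0, 0, ⟨0, 0⟩, 0⟩ 0 0)) (.pos 4 .pm ⟨0, 0, 3606398, 0, 0, 0, 0, 0, 0, ⟨0, 0⟩, 0⟩ 0 0)) (.pos 5 .pm ⟨0, 0, 167772160000, 0, 0, 0, 0,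 0, 0, ⟨0, 0⟩, 0⟩ 0 0)) (.pos 3 .pm ⟨0, 0, 167772160000, 0, 0, 0, 0, 0, 0, ⟨0, 0⟩, 0⟩ 0 0)) (.cut .v 4294967296 (.cut .v 268435456 (.cut .v 67108864 (.pos 10 .pp ⟨0, 0, 0, 0, 0, 0, 0, 0, 0, ⟨0, 0⟩, 0⟩ 0 0) (.cut .v 134217728 (.pos 67 .pp ⟨167772160000, 0, 0, 0, 0, 0, 0, 0, 0, ⟨0, 0⟩, 0⟩ 0 0) (.void 68 ⟨0, 0, 0, 100000, 0, 0, 0, 0, 0, ⟨0, 0⟩, 0⟩ 0 0))) (.void 66 ⟨0, 0, 0, 100000, 0, 0, 0, 0, 0, ⟨0, 0⟩, 0⟩ 0 0)) (.void 193 ⟨0, 0, 0, 100000, 0, 0, 0, 0, 0, ⟨0, 0⟩, 0⟩ 0 0)))),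
    by decide +kernel⟩

def covers45 : cell.Covers table row45.1 :=
  ⟨(.cut .d 0 (.cut .v 16777216 (.cut .d (-8388608) (.void 1 ⟨0, 0, 0, 0, 0, 100000, 0, 0, 0, ⟨0, 0⟩, 0⟩ 0 0) (.cut .v 8388608 (.void 2 ⟨0, 0, 100000, 0, 0, 0, 0, 0, 0, ⟨0, 0⟩, 0⟩ 0 0) (.cut .d (-4194304) (.void 3 ⟨100000, 0, 0, 0, 0, 0, 0, 0, 0, ⟨0, 0⟩, 0⟩ 0 0) (.cut .d (-2097152) (.void 3 ⟨100000, 0, 0, 0, 0, 0, 0, 0, 0, ⟨0, 0⟩, 0⟩ 0 0) (.cut .d (-1048576) (.void 3 ⟨100000, 0, 0, 0, 0, 0, 0, 0, 0, ⟨0, 0⟩, 0⟩ 0 0) (.cut .d (-524288) (.void 3 ⟨100000, 0, 0, 0, 0, 0, 0, 0, 0, ⟨0, 0⟩, 0⟩ 0 0) (.cut .d (-262144) (.void 3 ⟨100000, 0, 0, 0, 0, 0, 0, 0, 0, ⟨0, 0⟩, 0⟩ 0 0) (.cut .d (-131072)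 (.void 3 ⟨100000, 0, 0, 0, 0, 0, 0, 0, 0, ⟨0, 0⟩, 0⟩ 0 0) (.cut .d (-65536) (.void 3 ⟨100000, 0, 0, 0, 0, 0, 0, 0, 0, ⟨0, 0⟩, 0⟩ 0 0) (.cut .d (-32768) (.void 3 ⟨100000, 0, 0, 0, 0, 0, 0, 0, 0, ⟨0, 0⟩, 0⟩ 0 0) (.cut .d (-16384) (.void 3 ⟨100000, 0, 0, 0, 0, 0, 0, 0, 0, ⟨0, 0⟩, 0⟩ 0 0) (.cut .d (-8192) (.void 3 ⟨100000, 0, 0, 0, 0, 0, 0, 0, 0, ⟨0, 0⟩, 0⟩ 0 0) (.cut .d (-4096) (.void 3 ⟨82000, 0, 18000, 0, 0, 0, 0, 0, 0, ⟨0, 0⟩, 0⟩ 0 0) (.pos 3 .mm ⟨167772160000, 0, 0, 0, 0, 0, 0, 0, 0, ⟨0, 0⟩, 0⟩ 0 0)))))))))))))) (.cut .v 4294967296 (.cut .d (-8388608) (.void 65 ⟨58013, 0, 388, 161, 0, 0, 0, 41446, 0, ⟨(-1), 11203838⟩, 0⟩ 0 128) (.cut .v 268435456 (.cut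 .v 67108864 (.cut .d (-4194304) (.void 10 ⟨100000, 0, 0, 0, 0, 0, 0, 0, 0, ⟨0, 0⟩, 0⟩ 0 0) (.cut .d (-2097152) (.void 10 ⟨100000, 0, 0, 0, 0, 0, 0, 0, 0, ⟨0, 0⟩, 0⟩ 0 0) (.cut .d (-1048576) (.void 10 ⟨100000, 0, 0, 0, 0, 0, 0, 0, 0, ⟨0, 0⟩, 0⟩ 0 0) (.cut .d (-524288) (.void 10 ⟨100000, 0, 0, 0, 0, 0, 0, 0, 0, ⟨0, 0⟩, 0⟩ 0 0) (.cut .d (-262144) (.void 10 ⟨100000, 0, 0, 0, 0, 0, 0, 0, 0, ⟨0, 0⟩, 0⟩ 0 0) (.cut .d (-131072) (.void 10 ⟨100000, 0, 0, 0, 0, 0, 0, 0, 0, ⟨0, 0⟩, 0⟩ 0 0) (.cut .d (-65536) (.void 10 ⟨100000, 0, 0, 0, 0, 0, 0, 0, 0, ⟨0, 0⟩, 0⟩ 0 0) (.cut .d (-32768) (.void 10 ⟨100000, 0, 0, 0, 0, 0, 0, 0, 0, ⟨0, 0⟩, 0⟩ 0 0) (.cut .d (-16384) (.void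 10 ⟨100000, 0, 0, 0, 0, 0, 0, 0, 0, ⟨0, 0⟩, 0⟩ 0 0) (.cut .d (-8192) (.void 10 ⟨100000, 0, 0, 0, 0, 0, 0, 0, 0, ⟨0, 0⟩, 0⟩ 0 0) (.cut .d (-4096) (.void 10 ⟨100000, 0, 0, 0, 0, 0, 0, 0, 0, ⟨0, 0⟩, 0⟩ 0 0) (.pos 10 .mp ⟨167772160000, 0, 0, 0, 0, 0, 0, 0, 0, ⟨0, 0⟩, 0⟩ 0 0)))))))))))) (.void 57 ⟨100000, 0, 0, 0, 0, 0, 0, 0, 0, ⟨0, 0⟩, 0⟩ 0 0)) (.void 66 ⟨89659, 0, 0, 10341, 0, 0, 0, 0, 0, ⟨0, 0⟩, 0⟩ 0 0))) (.void 193 ⟨94011, 0, 0, 7051, 0, 0, 0, 0, 0, ⟨0, 0⟩, 0⟩ 0 0))) (.cut .v 16777216 (.cut .v 8388608 (.cut .v 4194304 (.cut .v 2097152 (.cut .v 1048576 (.cut .v 524288 (.cut .d 4099 (.cut .v 262144 (.pos 155 .pm ⟨0, 0, 73459007634, 0, 0, 0, 0, 0, 0, ⟨0,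 0⟩, 0⟩ 0 0) (.pos 156 .pm ⟨0, 0, 167772160000, 0, 0, 0, 0, 0, 0, ⟨0, 0⟩, 0⟩ 0 0)) (.pos 131 .pm ⟨0, 0, 0, 3531188, 0, 0, 0, 0, 0, ⟨0, 0⟩, 0⟩ 0 0)) (.pos 132 .pm ⟨0, 0, 167772160000, 0, 0, 0, 0, 0, 0, ⟨0, 0⟩, 0⟩ 0 0)) (.pos 104 .pm ⟨0, 0, 167772160000, 0, 0, 0, 0, 0, 0, ⟨0, 0⟩, 0⟩ 0 0)) (.pos 76 .pm ⟨0, 0, 167772160000, 0, 0, 0, 0, 0, 0, ⟨0, 0⟩, 0⟩ 0 0)) (.pos 5 .pm ⟨0, 0, 167772160000, 0, 0, 0, 0, 0, 0, ⟨0, 0⟩, 0⟩ 0 0)) (.pos 3 .pm ⟨0, 0, 167772160000, 0, 0, 0, 0, 0, 0, ⟨0, 0⟩, 0⟩ 0 0)) (.cut .v 4294967296 (.cut .v 268435456 (.cut .v 67108864 (.pos 10 .pp ⟨0, 0, 0, 0, 0, 0, 0, 0, 0, ⟨0, 0⟩, 0⟩ 0 0) (.cut .v 134217728 (.pos 67 .pp ⟨37334841464, 0, 0, 130437318536,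 0, 0, 0, 0, 0, ⟨0, 0⟩, 0⟩ 0 0) (.void 68 ⟨0, 0, 0, 100000, 0, 0, 0, 0, 0, ⟨0, 0⟩, 0⟩ 0 0))) (.cut .s 16771072 (.void 66 ⟨0, 0, 0, 1000000000, 0, 0, 0, 0, 0, ⟨0, 0⟩, 0⟩ 0 0) (.void 66 ⟨0, 0, 0, 100000, 0, 0, 0, 0, 0, ⟨0, 0⟩, 0⟩ 0 0))) (.void 193 ⟨0, 0, 16494, 15737, 0, 67768, 0, 0, 0, ⟨0, 0⟩, 0⟩ 0 0)))),
    by decide +kernel⟩

end Vale.Agent.P237.Petty.Cor.Grid.N12.Mid
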